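import Vale.Agent.P159.MathlibUsed

set_option linter.all false

section

/-!
Abstract inequalities for trigonometric Gibbs measures on compact abelian groups.
-/

open MeasureTheory Filter Topology
open scoped BigOperators

namespace Vale.Agent.P159

section Compact

variable {X : Type*} [TopologicalSpace X] [CompactSpace X] [MeasurableSpace X]
  [OpensMeasurableSpace X] {μ : Measure X} [IsFiniteMeasure μ]

/-- continuous functions on a compact space are integrable -/
theorem cint {E : Type*} [NormedAddCommGroup E] [SecondCountableTopology E] {f : X → E}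
    (hf : Continuous f) : Integrable f μ :=
  hf.integrable_of_hasCompactSupport (HasCompactSupport.of_compactSpace f)

omit [MeasurableSpace X] [OpensMeasurableSpace X] in
theorem exists_bound {E : Type*} [NormedAddCommGroup E] {f : X → E} (hf : Continuous f) :
    ∃ C : ℝ, 0 ≤ C ∧ ∀ x, ‖f x‖ ≤ C := by
  obtain ⟨C, hC⟩ := (isCompact_univ (X := X)).exists_bound_of_continuousOn hf.continuousOn
  exact ⟨max C 0, le_max_right _ _, fun x => (hC x (Set.mem_univ x)).trans (le_max_left _ _)⟩

/-- integral of `H * exp F` as a series, complex version -/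
theorem hasSum_integral_exp {H F : X → ℂ} (hH : Continuous H) (hF : Continuous F) :
    HasSum (fun n : ℕ => (∫ x, H x * F x ^ n ∂μ) / (n.factorial : ℂ))
      (∫ x, H x * Complex.exp (F x) ∂μ) := by
  obtain ⟨A, hA0, hA⟩ := exists_bound hH
  obtain ⟨B, hB0, hB⟩ := exists_bound hF
  have h1 : ∀ n : ℕ, Integrable (fun x => H x * (F x ^ n / (n.factorial : ℂ))) μ := by
    intro n
    exact cint (hH.mul ((hF.pow n).div_const _))
  have h2 : Summable (fun n : ℕ => ∫ x, ‖H x * (F x ^ n / (n.factorial : ℂ))‖ ∂μ) := by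
    refine Summable.of_nonneg_of_le (fun n => integral_nonneg fun x => norm_nonneg _)
      (fun n => ?_) ((Real.summable_pow_div_factorial B).mul_left (A * μ.real Set.univ))
    calc ∫ x, ‖H x * (F x ^ n / (n.factorial : ℂ))‖ ∂μ
        ≤ ∫ _x, A * (B ^ n / (n.factorial : ℝ)) ∂μ := by
          apply integral_mono (h1 n).norm (integrable_const _)
          intro x
          simp only [norm_mul, norm_div, norm_pow, Complex.norm_natCast]
          gcongr
          · exact hA x
          · exact hB x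
      _ = A * μ.real Set.univ * (B ^ n / (n.factorial : ℝ)) := by
          rw [integral_const]; simp only [smul_eq_mul]; ring
  have h3 := hasSum_integral_of_summable_integral_norm h1 h2
  have h4 : ∀ n : ℕ, (∫ x, H x * (F x ^ n / (n.factorial : ℂ)) ∂μ)
      = (∫ x, H x * F x ^ n ∂μ) / (n.factorial : ℂ) := by
    intro n
    rw [← integral_div]
    congr 1
    ext x
    ring
  simp_rw [h4] at h3
  have h5 : ∀ x, ∑' i : ℕ, H x * (F x ^ i / (i.factorial : ℂ)) = H x * Complex.exp (F x) := by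
    intro x
    rw [tsum_mul_left]
    congr 1
    have := NormedSpace.expSeries_div_hasSum_exp (F x)
    rw [← Complex.exp_eq_exp_ℂ] at this
    exact this.tsum_eq
  simp_rw [h5] at h3
  exact h3

/-- real version -/
theorem hasSum_integral_exp_real {H F : X → ℝ} (hH : Continuous H) (hF : Continuous F) :
    HasSum (fun n : ℕ => (∫ x, H x * F x ^ n ∂μ) / (n.factorial : ℝ))
      (∫ x, H x * Real.exp (F x) ∂μ) := by
  have h := hasSum_integral_exp (μ := μ) (H := fun x => (H x : ℂ)) (F := fun x => (F x : ℂ))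
    (Complex.continuous_ofReal.comp hH) (Complex.continuous_ofReal.comp hF)
  rw [← Complex.hasSum_ofReal]
  convert h using 1
  · ext n
    push_cast
    rw [← integral_complex_ofReal]
    push_cast
    rfl
  · rw [← integral_complex_ofReal]
    push_cast
    rfl

end Compact

section Kernel

variable {X : Type*} [TopologicalSpace X] [CompactSpace X] [SecondCountableTopology X]
  [MeasurableSpace X] [BorelSpace X] {μ : Measure X} [IsFiniteMeasure μ]

/-- expansion of powers of a separable kernel -/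
theorem integral_kernel_pow {κ : Type*} [Fintype κ] (l : κ → ℝ) (f : κ → X → ℝ)
    (hf : ∀ k, Continuous (f k)) {g : X → ℝ} (hg : Continuous g) (n : ℕ) :
    ∫ p : X × X, (g p.1 * g p.2) * (∑ k, l k * (f k p.1 * f k p.2)) ^ n ∂(μ.prod μ)
      = ∑ w : Fin n → κ, (∏ i, l (w i)) * (∫ x, g x * ∏ i, f (w i) x ∂μ) ^ 2 := by
  simp_rw [Fintype.sum_pow, Finset.mul_sum]
  have hc : ∀ w : Fin n → κ, Continuous (fun x => g x * ∏ i, f (w i) x) := fun w =>
    hg.mul (continuous_finsetProd _ fun i _ => hf _)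
  rw [integral_finsetSum]
  · refine Finset.sum_congr rfl fun w _ => ?_
    rw [pow_two, ← integral_prod_mul, ← integral_const_mul]
    congr 1
    ext p
    simp only [Finset.prod_mul_distrib]
    ring
  · intro w _
    apply cint
    have h1 : Continuous (fun p : X × X => g p.1 * g p.2) :=
      (hg.comp continuous_fst).mul (hg.comp continuous_snd)
    refine h1.mul (continuous_finsetProd _ fun i _ => ?_)
    exact continuous_const.mul (((hf _).comp continuous_fst).mul ((hf _).comp continuous_snd))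

/-- Ginibre type positivity -/
theorem kernel_nonneg {κ : Type*} [Fintype κ] (l : κ → ℝ) (hl : ∀ k, 0 ≤ l k) (f : κ → X → ℝ)
    (hf : ∀ k, Continuous (f k)) {g : X → ℝ} (hg : Continuous g) :
    0 ≤ ∫ p : X × X, (g p.1 * g p.2) * Real.exp (∑ k, l k * (f k p.1 * f k p.2))
      ∂(μ.prod μ) := by
  have h1 : Continuous (fun p : X × X => g p.1 * g p.2) :=
    (hg.comp continuous_fst).mul (hg.comp continuous_snd)
  have h2 : Continuous (fun p : X × X => ∑ k, l k * (f k p.1 * f k p.2)) :=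
    continuous_finsetSum _ fun k _ =>
      continuous_const.mul (((hf _).comp continuous_fst).mul ((hf _).comp continuous_snd))
  have h := hasSum_integral_exp_real (μ := μ.prod μ) h1 h2
  refine h.nonneg fun n => ?_
  rw [integral_kernel_pow l f hf hg n]
  refine div_nonneg (Finset.sum_nonneg fun w _ => ?_) (Nat.cast_nonneg _)
  exact mul_nonneg (Finset.prod_nonneg fun i _ => hl _) (sq_nonneg _)

end Kernel

/-- cosine and sine of a continuous homomorphism to the circle -/
structure Chr (G : Type*) [AddCommGroup G] [TopologicalSpace G] where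
  c : G → ℝ
  s : G → ℝ
  cont_c : Continuous c
  cont_s : Continuous s
  c_add : ∀ x y, c (x + y) = c x * c y - s x * s y
  s_add : ∀ x y, s (x + y) = s x * c y + c x * s y
  norm_sq : ∀ x, c x ^ 2 + s x ^ 2 = 1

namespace Chr

variable {G : Type*} [AddCommGroup G] [TopologicalSpace G] (χ : Chr G)

theorem zero_vals : χ.c 0 = 1 ∧ χ.s 0 = 0 := by
  have h1 := χ.c_add 0 0
  have h2 := χ.s_add 0 0
  have h3 := χ.norm_sq 0
  rw [add_zero] at h1 h2
  have h4 : χ.s 0 * (1 - 2 * χ.c 0) = 0 := by linarith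
  rcases mul_eq_zero.1 h4 with h | h
  · refine ⟨?_, h⟩
    rw [h] at h1 h3
    nlinarith only [h1, h3]
  · exfalso
    have h5 : χ.c 0 = 1 / 2 := by linarith
    rw [h5] at h1 h3
    nlinarith only [h1, h3]

theorem c_neg (x : G) : χ.c (-x) = χ.c x := by
  have h1 := χ.c_add x (-x)
  have h2 := χ.s_add x (-x)
  rw [add_neg_cancel, χ.zero_vals.1] at h1
  rw [add_neg_cancel, χ.zero_vals.2] at h2
  have h3 := χ.norm_sq x
  linear_combination (-(χ.c x)) * h1 - χ.s x * h2 - χ.c (-x) * h3

theorem s_neg (x : G) : χ.s (-x) = - χ.s x := by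
  have h1 := χ.c_add x (-x)
  have h2 := χ.s_add x (-x)
  rw [add_neg_cancel, χ.zero_vals.1] at h1
  rw [add_neg_cancel, χ.zero_vals.2] at h2
  have h3 := χ.norm_sq x
  linear_combination χ.s x * h1 - χ.c x * h2 - χ.s (-x) * h3

theorem abs_c_le (x : G) : |χ.c x| ≤ 1 := by
  have := χ.norm_sq x
  exact abs_le_one_iff_mul_self_le_one.2 (by nlinarith [sq_nonneg (χ.s x)])

theorem abs_s_le (x : G) : |χ.s x| ≤ 1 := by
  have := χ.norm_sq x
  exact abs_le_one_iff_mul_self_le_one.2 (by nlinarith only [this])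

/-- `cos (χ x + z)` -/
noncomputable def C (z : ℂ) (x : G) : ℂ := χ.c x * Complex.cos z - χ.s x * Complex.sin z

/-- `sin (χ x + z)` -/
noncomputable def S (z : ℂ) (x : G) : ℂ := χ.s x * Complex.cos z + χ.c x * Complex.sin z

theorem C_zero (x : G) : χ.C 0 x = χ.c x := by simp [C]

theorem cont_C (z : ℂ) : Continuous (χ.C z) := by
  unfold C
  exact ((Complex.continuous_ofReal.comp χ.cont_c).mul continuous_const).sub
    ((Complex.continuous_ofReal.comp χ.cont_s).mul continuous_const)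

theorem cont_S (z : ℂ) : Continuous (χ.S z) := by
  unfold S
  exact ((Complex.continuous_ofReal.comp χ.cont_s).mul continuous_const).add
    ((Complex.continuous_ofReal.comp χ.cont_c).mul continuous_const)

theorem C_add (z w : ℂ) (x y : G) :
    χ.C (z + w) (x + y) = χ.C z x * χ.C w y - χ.S z x * χ.S w y := by
  simp only [C, S, χ.c_add, χ.s_add, Complex.cos_add, Complex.sin_add]
  push_cast
  ring

theorem C_sub (z w : ℂ) (x y : G) :
    χ.C (z - w) (x - y) = χ.C z x * χ.C w y + χ.S z x * χ.S w y := by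
  rw [sub_eq_add_neg x y, sub_eq_add_neg z w]
  simp only [C, S, χ.c_add, χ.s_add, Complex.cos_add, Complex.sin_add, Complex.cos_neg,
    Complex.sin_neg, χ.c_neg, χ.s_neg]
  push_cast
  ring

theorem conj_C (z : ℂ) (x : G) :
    (starRingEnd ℂ) (χ.C z x) = χ.C ((starRingEnd ℂ) z) x := by
  simp [C, Complex.cos_conj, Complex.sin_conj]

theorem conj_S (z : ℂ) (x : G) :
    (starRingEnd ℂ) (χ.S z x) = χ.S ((starRingEnd ℂ) z) x := by
  simp [S, Complex.cos_conj, Complex.sin_conj]

end Chr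

section Rot

variable {G : Type*} [AddCommGroup G] [TopologicalSpace G] [IsTopologicalAddGroup G]
  [CompactSpace G] [SecondCountableTopology G] [MeasurableSpace G] [BorelSpace G]
  (μ : Measure G) [μ.IsAddHaarMeasure] [IsProbabilityMeasure μ]

/-- the rotation `(x,y) ↦ (x+y, x-y)` -/
def rotHom (G : Type*) [AddCommGroup G] : G × G →+ G × G where
  toFun p := (p.1 + p.2, p.1 - p.2)
  map_zero' := by simp
  map_add' p q := by
    ext
    · simp only [Prod.fst_add, Prod.snd_add]; abel
    · simp only [Prod.fst_add, Prod.snd_add]; abel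

theorem rot_measurePreserving (h2 : ∀ g : G, ∃ h : G, h + h = g) :
    MeasurePreserving (rotHom G) (μ.prod μ) (μ.prod μ) := by
  apply AddMonoidHom.measurePreserving
  · show Continuous (fun p : G × G => (p.1 + p.2, p.1 - p.2))
    fun_prop
  · rintro ⟨g, g'⟩
    obtain ⟨h, hh⟩ := h2 (g + g')
    refine ⟨(h, g - h), ?_⟩
    show (h + (g - h), h - (g - h)) = (g, g')
    ext
    · simp
    · simp only
      have : h - (g - h) = (h + h) - g := by abel
      rw [this, hh]; abel
  · rfl

theorem integral_rot (h2 : ∀ g : G, ∃ h : G, h + h = g) {E : Type*} [NormedAddCommGroup E]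
    [NormedSpace ℝ E] [SecondCountableTopology E] {F : G × G → E} (hF : Continuous F) :
    ∫ p : G × G, F (p.1 + p.2, p.1 - p.2) ∂(μ.prod μ) = ∫ p, F p ∂(μ.prod μ) := by
  have h := rot_measurePreserving μ h2
  have h1 := integral_map (μ := μ.prod μ) h.measurable.aemeasurable (f := F)
    hF.aestronglyMeasurable
  rw [h.map_eq] at h1
  exact h1.symm

end Rot

end Vale.Agent.P159
end

section

/-!
The four replica inequality `‖Z (t + i y)‖ ‖Z 0‖ ≤ ‖Z t‖ ‖Z (i y)‖`.
-/

open MeasureTheory Filter Topology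
open scoped BigOperators

namespace Vale.Agent.P159

section CKernel

variable {X Y : Type*} [TopologicalSpace X] [CompactSpace X] [SecondCountableTopology X]
  [MeasurableSpace X] [BorelSpace X] {μ : Measure X} [IsFiniteMeasure μ]
  [TopologicalSpace Y] [CompactSpace Y] [SecondCountableTopology Y]
  [MeasurableSpace Y] [BorelSpace Y] {ν : Measure Y} [IsFiniteMeasure ν]

theorem cintegral_kernel_pow {κ : Type*} [Fintype κ] (l : κ → ℂ) (f : κ → X → ℂ) (g : κ → Y → ℂ)
    (hf : ∀ k, Continuous (f k)) (hg : ∀ k, Continuous (g k)) (n : ℕ) :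
    ∫ p : X × Y, (∑ k, l k * (f k p.1 * g k p.2)) ^ n ∂(μ.prod ν)
      = ∑ w : Fin n → κ, (∏ i, l (w i)) *
        ((∫ x, ∏ i, f (w i) x ∂μ) * (∫ y, ∏ i, g (w i) y ∂ν)) := by
  simp_rw [Fintype.sum_pow]
  have hc : ∀ w : Fin n → κ, Continuous (fun x => ∏ i, f (w i) x) := fun w =>
    continuous_finsetProd _ fun i _ => hf _
  have hd : ∀ w : Fin n → κ, Continuous (fun x => ∏ i, g (w i) x) := fun w =>
    continuous_finsetProd _ fun i _ => hg _
  rw [integral_finsetSum]
  · refine Finset.sum_congr rfl fun w _ => ?_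
    rw [← integral_prod_mul, ← integral_const_mul]
    congr 1
    ext p
    simp only [Finset.prod_mul_distrib]
  · intro w _
    apply cint
    refine continuous_finsetProd _ fun i _ => ?_
    exact continuous_const.mul (((hf _).comp continuous_fst).mul ((hg _).comp continuous_snd))

end CKernel

section PIneq

variable {G : Type*} [AddCommGroup G] [TopologicalSpace G] [IsTopologicalAddGroup G]
  [CompactSpace G] [SecondCountableTopology G] [MeasurableSpace G] [BorelSpace G]
  (μ : Measure G) [μ.IsAddHaarMeasure] [IsProbabilityMeasure μ]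
  {κ : Type*} [Fintype κ] (J : κ → ℝ) (χ : κ → Chr G)

/-- partition function with complex shifts -/
noncomputable def ZZ (z : κ → ℂ) : ℂ := ∫ x, Complex.exp (∑ e, J e * (χ e).C (z e) x) ∂μ

/-- two replica function -/
noncomputable def KK (p q : κ → ℂ) : ℂ :=
  ∫ a : G × G, Complex.exp (∑ e, 2 * J e * ((χ e).C (p e) a.1 * (χ e).C (q e) a.2)) ∂(μ.prod μ)

/-- cosine and sine with shifts -/
noncomputable def tr (p : κ → ℂ) : κ ⊕ κ → G → ℂ :=
  Sum.elim (fun e => (χ e).C (p e)) (fun e => (χ e).S (p e))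

theorem cont_tr (p : κ → ℂ) (k : κ ⊕ κ) : Continuous (tr χ p k) := by
  rcases k with e | e
  · exact (χ e).cont_C _
  · exact (χ e).cont_S _

/-- four replica function -/
noncomputable def LL (p q r s : κ → ℂ) : ℂ :=
  ∫ a : (G × G) × (G × G), Complex.exp (∑ k : κ ⊕ κ, (Sum.elim (fun e => 4 * (J e : ℂ))
    (fun e => 4 * (J e : ℂ)) k) * ((tr χ p k a.1.1 * tr χ r k a.1.2)
      * (tr χ q k a.2.1 * tr χ s k a.2.2))) ∂((μ.prod μ).prod (μ.prod μ))

variable (h2 : ∀ g : G, ∃ h : G, h + h = g)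

include h2 in
theorem ZZ_mul_ZZ (p q : κ → ℂ) : ZZ μ J χ (p + q) * ZZ μ J χ (p - q) = KK μ J χ p q := by
  unfold ZZ KK
  rw [← integral_prod_mul]
  have hF : Continuous (fun a : G × G =>
      Complex.exp (∑ e, J e * (χ e).C ((p + q) e) a.1) *
      Complex.exp (∑ e, J e * (χ e).C ((p - q) e) a.2)) := by
    refine Continuous.mul ?_ ?_
    · refine Complex.continuous_exp.comp (continuous_finsetSum _ fun e _ => ?_)
      exact continuous_const.mul (((χ e).cont_C _).comp continuous_fst)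
    · refine Complex.continuous_exp.comp (continuous_finsetSum _ fun e _ => ?_)
      exact continuous_const.mul (((χ e).cont_C _).comp continuous_snd)
  rw [← integral_rot μ h2 hF]
  congr 1
  ext a
  rw [← Complex.exp_add, ← Finset.sum_add_distrib]
  congr 1
  refine Finset.sum_congr rfl fun e _ => ?_
  simp only [Pi.add_apply, Pi.sub_apply, Chr.C_add, Chr.C_sub]
  ring

include h2 in
theorem KK_mul_KK (p q r s : κ → ℂ) :
    KK μ J χ (p + q) (r + s) * KK μ J χ (p - q) (r - s) = LL μ J χ p q r s := by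
  unfold KK LL
  rw [← integral_prod_mul]
  have h2' : ∀ g : G × G, ∃ h : G × G, h + h = g := by
    rintro ⟨g, g'⟩
    obtain ⟨h, hh⟩ := h2 g
    obtain ⟨h', hh'⟩ := h2 g'
    exact ⟨(h, h'), by simp [hh, hh']⟩
  have hC : ∀ (e : κ) (z w : ℂ), Continuous (fun a : G × G => (χ e).C z a.1 * (χ e).C w a.2) :=
    fun e z w => (((χ e).cont_C _).comp continuous_fst).mul (((χ e).cont_C _).comp continuous_snd)
  have hF : Continuous (fun a : (G × G) × (G × G) =>
      Complex.exp (∑ e, 2 * J e * ((χ e).C ((p + q) e) a.1.1 * (χ e).C ((r + s) e) a.1.2)) *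
      Complex.exp (∑ e, 2 * J e * ((χ e).C ((p - q) e) a.2.1 * (χ e).C ((r - s) e) a.2.2))) := by
    refine Continuous.mul ?_ ?_
    · refine Complex.continuous_exp.comp (continuous_finsetSum _ fun e _ => ?_)
      exact continuous_const.mul ((hC e _ _).comp continuous_fst)
    · refine Complex.continuous_exp.comp (continuous_finsetSum _ fun e _ => ?_)
      exact continuous_const.mul ((hC e _ _).comp continuous_snd)
  rw [← integral_rot (μ.prod μ) h2' hF]
  congr 1
  ext a
  rw [← Complex.exp_add, ← Finset.sum_add_distrib, Fintype.sum_sum_type,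
    ← Finset.sum_add_distrib]
  congr 1
  refine Finset.sum_congr rfl fun e _ => ?_
  simp only [Pi.add_apply, Pi.sub_apply, Chr.C_add, Chr.C_sub, Prod.fst_add, Prod.snd_add,
    Prod.fst_sub, Prod.snd_sub, tr, Sum.elim_inl, Sum.elim_inr]
  ring

/-- word integral -/
noncomputable def MM {n : ℕ} (w : Fin n → κ ⊕ κ) (p : κ → ℂ) : ℂ :=
  ∫ x, ∏ i, tr χ p (w i) x ∂μ

theorem MM_conj {n : ℕ} (w : Fin n → κ ⊕ κ) (p : κ → ℂ) :
    (starRingEnd ℂ) (MM μ χ w p) = MM μ χ w (fun e => (starRingEnd ℂ) (p e)) := by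
  unfold MM
  rw [← integral_conj]
  congr 1
  ext x
  rw [map_prod]
  refine Finset.prod_congr rfl fun i _ => ?_
  unfold tr
  rcases w i with e | e
  · exact (χ e).conj_C _ _
  · exact (χ e).conj_S _ _

/-- coefficient in the expansion of the four replica function -/
noncomputable def cof (p q r s : κ → ℂ) (n : ℕ) : ℂ :=
  (∑ w : Fin n → κ ⊕ κ, (∏ i, (Sum.elim (fun e => 4 * (J e : ℂ))
    (fun e => 4 * (J e : ℂ)) (w i))) * ((MM μ χ w p * MM μ χ w r) *
      (MM μ χ w q * MM μ χ w s))) / (n.factorial : ℂ)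

theorem LL_hasSum (p q r s : κ → ℂ) : HasSum (cof μ J χ p q r s) (LL μ J χ p q r s) := by
  have hf : ∀ k : κ ⊕ κ, Continuous (fun a : G × G => tr χ p k a.1 * tr χ r k a.2) :=
    fun k => ((cont_tr χ p k).comp continuous_fst).mul ((cont_tr χ r k).comp continuous_snd)
  have hg : ∀ k : κ ⊕ κ, Continuous (fun a : G × G => tr χ q k a.1 * tr χ s k a.2) :=
    fun k => ((cont_tr χ q k).comp continuous_fst).mul ((cont_tr χ s k).comp continuous_snd)
  have hF : Continuous (fun a : (G × G) × (G × G) => ∑ k : κ ⊕ κ, (Sum.elim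
      (fun e => 4 * (J e : ℂ)) (fun e => 4 * (J e : ℂ)) k) * ((tr χ p k a.1.1 * tr χ r k a.1.2)
      * (tr χ q k a.2.1 * tr χ s k a.2.2))) :=
    continuous_finsetSum _ fun k _ => continuous_const.mul
      (((hf k).comp continuous_fst).mul ((hg k).comp continuous_snd))
  have h := hasSum_integral_exp (μ := (μ.prod μ).prod (μ.prod μ)) (H := fun _ => 1)
    continuous_const hF
  simp only [one_mul] at h
  unfold LL
  convert h using 1
  ext n
  unfold cof
  rw [cintegral_kernel_pow _ _ _ hf hg]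
  congr 1
  refine Finset.sum_congr rfl fun w _ => ?_
  congr 1
  unfold MM
  congr 1
  · rw [← integral_prod_mul]
    congr 1
    ext a
    rw [Finset.prod_mul_distrib]
  · rw [← integral_prod_mul]
    congr 1
    ext a
    rw [Finset.prod_mul_distrib]

theorem LL_le (hJ : ∀ e, 0 ≤ J e) (p r : κ → ℂ) (hp : ∀ e, (starRingEnd ℂ) (p e) = p e)
    (r' : κ → ℂ) (hr : ∀ e, r' e = (starRingEnd ℂ) (r e)) :
    ‖LL μ J χ p p r r‖ ≤ ‖LL μ J χ p p r r'‖ := by
  have h1 := LL_hasSum μ J χ p p r r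
  have h2 := Complex.hasSum_re (LL_hasSum μ J χ p p r r')
  refine (HasSum.norm_le_of_bounded h1 h2 fun n => ?_).trans (Complex.re_le_norm _)
  have hMp : ∀ w : Fin n → κ ⊕ κ, (starRingEnd ℂ) (MM μ χ w p) = MM μ χ w p := by
    intro w
    rw [MM_conj]
    congr 1
    ext e
    exact hp e
  have hMr : ∀ w : Fin n → κ ⊕ κ, MM μ χ w r' = (starRingEnd ℂ) (MM μ χ w r) := by
    intro w
    rw [MM_conj]
    congr 1
    ext e
    exact hr e
  have hl : ∀ w : Fin n → κ ⊕ κ, (∏ i, (Sum.elim (fun e => 4 * (J e : ℂ))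
      (fun e => 4 * (J e : ℂ)) (w i))) = ((∏ i, (Sum.elim (fun e => 4 * J e)
      (fun e => 4 * J e) (w i)) : ℝ) : ℂ) := by
    intro w
    push_cast
    refine Finset.prod_congr rfl fun i _ => ?_
    rcases w i with e | e <;> simp
  have hl0 : ∀ w : Fin n → κ ⊕ κ, 0 ≤ (∏ i, (Sum.elim (fun e => 4 * J e)
      (fun e => 4 * J e) (w i)) : ℝ) := by
    intro w
    refine Finset.prod_nonneg fun i _ => ?_
    rcases w i with e | e
    · simpa using hJ e
    · simpa using hJ e
  have hterm : ∀ w : Fin n → κ ⊕ κ, (∏ i, (Sum.elim (fun e => 4 * (J e : ℂ))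
      (fun e => 4 * (J e : ℂ)) (w i))) * ((MM μ χ w p * MM μ χ w r) *
      (MM μ χ w p * MM μ χ w r')) = (((∏ i, (Sum.elim (fun e => 4 * J e)
      (fun e => 4 * J e) (w i))) * (‖MM μ χ w p‖ ^ 2 * ‖MM μ χ w r‖ ^ 2) : ℝ) : ℂ) := by
    intro w
    rw [hl, hMr]
    push_cast
    congr 1
    rw [← Complex.mul_conj', ← Complex.mul_conj', hMp]
    ring
  unfold cof
  simp_rw [hterm]
  rw [norm_div, Complex.norm_natCast]
  rw [← Complex.ofReal_sum, ← Complex.ofReal_natCast, ← Complex.ofReal_div, Complex.ofReal_re]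
  gcongr
  refine (norm_sum_le _ _).trans (Finset.sum_le_sum fun w _ => ?_)
  rw [hl, norm_mul, norm_mul, norm_mul, Complex.norm_real, Real.norm_of_nonneg (hl0 w)]
  apply le_of_eq
  ring

theorem ZZ_conj (z : κ → ℂ) :
    (starRingEnd ℂ) (ZZ μ J χ z) = ZZ μ J χ (fun e => (starRingEnd ℂ) (z e)) := by
  unfold ZZ
  rw [← integral_conj]
  congr 1
  ext x
  rw [← Complex.exp_conj, map_sum]
  congr 1
  refine Finset.sum_congr rfl fun e _ => ?_
  rw [map_mul, Complex.conj_ofReal, (χ e).conj_C]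

include h2 in
/-- the main inequality -/
theorem main_P (hJ : ∀ e, 0 ≤ J e) (t y : κ → ℝ) :
    ‖ZZ μ J χ (fun e => (t e : ℂ) + y e * Complex.I)‖ * ‖ZZ μ J χ 0‖ ≤
      ‖ZZ μ J χ (fun e => (t e : ℂ))‖ * ‖ZZ μ J χ (fun e => y e * Complex.I)‖ := by
  set p : κ → ℂ := fun e => ((t e / 2 : ℝ) : ℂ) with hp
  set r : κ → ℂ := fun e => ((y e / 2 : ℝ) : ℂ) * Complex.I with hr
  set r' : κ → ℂ := fun e => -(((y e / 2 : ℝ) : ℂ) * Complex.I) with hr'
  have key := LL_le μ J χ hJ p r (fun e => Complex.conj_ofReal _) r' (fun e => by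
    simp only [hr, hr', map_mul, Complex.conj_ofReal, Complex.conj_I]; ring)
  rw [← KK_mul_KK μ J χ h2, ← KK_mul_KK μ J χ h2] at key
  have e1 : p + p = fun e => (t e : ℂ) := by
    ext e; simp only [hp, Pi.add_apply]; push_cast; ring
  have e2 : p - p = 0 := sub_self _
  have e3 : r + r = fun e => y e * Complex.I := by
    ext e; simp only [hr, Pi.add_apply]; push_cast; ring
  have e4 : r - r = 0 := sub_self _
  have e5 : r + r' = 0 := by
    ext e; simp only [hr, hr', Pi.add_apply, Pi.zero_apply]; ring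
  have e6 : r - r' = fun e => y e * Complex.I := by
    ext e; simp only [hr, hr', Pi.sub_apply]; push_cast; ring
  rw [e1, e2, e3, e4, e5, e6] at key
  rw [← ZZ_mul_ZZ μ J χ h2, ← ZZ_mul_ZZ μ J χ h2, ← ZZ_mul_ZZ μ J χ h2,
    ← ZZ_mul_ZZ μ J χ h2] at key
  have c1 : ‖ZZ μ J χ ((fun e => (t e : ℂ)) - fun e => y e * Complex.I)‖
      = ‖ZZ μ J χ ((fun e => (t e : ℂ)) + fun e => y e * Complex.I)‖ := by
    rw [← Complex.norm_conj, ZZ_conj]
    congr 2
    ext e
    simp
  have c2 : ‖ZZ μ J χ (0 - fun e => (y e : ℂ) * Complex.I)‖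
      = ‖ZZ μ J χ (fun e => (y e : ℂ) * Complex.I)‖ := by
    rw [← Complex.norm_conj, ZZ_conj]
    congr 2
    ext e
    simp only [Pi.sub_apply, Pi.zero_apply, zero_sub, map_neg, map_mul, Complex.conj_ofReal, Complex.conj_I, mul_neg, neg_neg]
  simp only [norm_mul, c1, c2, add_zero, sub_zero, zero_add] at key
  have c3 : ((fun e => (t e : ℂ)) + fun e => (y e : ℂ) * Complex.I)
      = (fun e => (t e : ℂ) + y e * Complex.I) := rfl
  rw [c3] at key
  have k2 : (‖ZZ μ J χ (fun e => (t e : ℂ) + y e * Complex.I)‖ * ‖ZZ μ J χ 0‖) ^ 2 ≤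
      (‖ZZ μ J χ (fun e => (t e : ℂ))‖ * ‖ZZ μ J χ (fun e => y e * Complex.I)‖) ^ 2 := by
    nlinarith only [key]
  exact (pow_le_pow_iff_left₀ (by positivity) (by positivity) two_ne_zero).1 k2

end PIneq

end Vale.Agent.P159
end

section

/-!
Ginibre monotonicity, complex translations, and the block averaging bound.
-/

open MeasureTheory Filter Topology
open scoped BigOperators

namespace Vale.Agent.P159

section Ginibre

variable {G : Type*} [AddCommGroup G] [TopologicalSpace G]

/-- nonnegative combinations of cosines of characters -/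
def InCone (H : G → ℝ) : Prop :=
  ∃ (κ : Type) (_ : Fintype κ) (J : κ → ℝ) (χ : κ → Chr G),
    (∀ e, 0 ≤ J e) ∧ ∀ x, H x = ∑ e, J e * (χ e).c x

theorem InCone.cont {H : G → ℝ} (h : InCone H) : Continuous H := by
  obtain ⟨κ, _, J, χ, _, h2⟩ := h
  have : H = fun x => ∑ e, J e * (χ e).c x := funext h2
  rw [this]
  exact continuous_finsetSum _ fun e _ => continuous_const.mul (χ e).cont_c

theorem InCone.zero : InCone (fun _ : G => (0 : ℝ)) :=
  ⟨Empty, inferInstance, fun e => e.elim, fun e => e.elim, fun e => e.elim, fun x => by simp⟩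

theorem InCone.add {H H' : G → ℝ} (h : InCone H) (h' : InCone H') :
    InCone (fun x => H x + H' x) := by
  obtain ⟨κ, _, J, χ, h1, h2⟩ := h
  obtain ⟨κ', _, J', χ', h1', h2'⟩ := h'
  refine ⟨κ ⊕ κ', inferInstance, Sum.elim J J', Sum.elim χ χ', ?_, fun x => ?_⟩
  · rintro (e | e)
    · exact h1 e
    · exact h1' e
  · show H x + H' x = _
    rw [Fintype.sum_sum_type, h2, h2']
    rfl

theorem InCone.const_mul {H : G → ℝ} (h : InCone H) {a : ℝ} (ha : 0 ≤ a) :
    InCone (fun x => a * H x) := by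
  obtain ⟨κ, _, J, χ, h1, h2⟩ := h
  refine ⟨κ, inferInstance, fun e => a * J e, χ, fun e => mul_nonneg ha (h1 e), fun x => ?_⟩
  show a * H x = _
  rw [h2, Finset.mul_sum]
  exact Finset.sum_congr rfl fun e _ => by ring

theorem InCone.chr (χ : Chr G) : InCone (fun x => χ.c x) :=
  ⟨Unit, inferInstance, fun _ => 1, fun _ => χ, fun _ => zero_le_one, fun x => by simp⟩

theorem InCone.sum {ι : Type*} (s : Finset ι) (H : ι → G → ℝ) (h : ∀ i ∈ s, InCone (H i)) :
    InCone (fun x => ∑ i ∈ s, H i x) := by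
  classical
  induction s using Finset.induction_on with
  | empty => simpa using InCone.zero
  | insert i s hi ih =>
    have h1 := (h i (Finset.mem_insert_self _ _)).add
      (ih fun j hj => h j (Finset.mem_insert_of_mem hj))
    simpa [Finset.sum_insert hi] using h1

variable [IsTopologicalAddGroup G]
  [CompactSpace G] [SecondCountableTopology G] [MeasurableSpace G] [BorelSpace G]
  (μ : Measure G) [μ.IsAddHaarMeasure] [IsProbabilityMeasure μ]

theorem ginibre_mono (h2 : ∀ g : G, ∃ h : G, h + h = g) {H D : G → ℝ} (hH : InCone H)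
    (hD : InCone D) (A : Chr G) :
    (∫ x, A.c x * Real.exp (H x) ∂μ) * (∫ x, Real.exp (H x + D x) ∂μ) ≤
      (∫ x, A.c x * Real.exp (H x + D x) ∂μ) * (∫ x, Real.exp (H x) ∂μ) := by
  have cH := hH.cont
  have cD := hD.cont
  obtain ⟨κ, _, J, χ, hJ, hHe⟩ := hH
  obtain ⟨κ', _, J', χ', hJ', hDe⟩ := hD
  have key := kernel_nonneg (μ := μ) (κ := κ ⊕ (κ' ⊕ κ'))
    (Sum.elim (fun e => 2 * J e) (Sum.elim J' J'))
    (by
      rintro (e | e | e)
      · simpa using hJ e
      · exact hJ' e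
      · exact hJ' e)
    (Sum.elim (fun e => (χ e).c) (Sum.elim (fun e => (χ' e).c) (fun e => (χ' e).s)))
    (by
      rintro (e | e | e)
      · exact (χ e).cont_c
      · exact (χ' e).cont_c
      · exact (χ' e).cont_s) (g := A.s) A.cont_s
  have hF : Continuous (fun p : G × G => (A.c p.2 - A.c p.1) *
      Real.exp (H p.1 + H p.2 + D p.2)) := by
    refine Continuous.mul ((A.cont_c.comp continuous_snd).sub (A.cont_c.comp continuous_fst)) ?_
    exact Real.continuous_exp.comp (((cH.comp continuous_fst).add (cH.comp continuous_snd)).add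
      (cD.comp continuous_snd))
  have hrot := integral_rot μ h2 hF
  have e1 : ∀ p : G × G, (A.c (p.1 - p.2) - A.c (p.1 + p.2)) *
      Real.exp (H (p.1 + p.2) + H (p.1 - p.2) + D (p.1 - p.2)) =
      2 * ((A.s p.1 * A.s p.2) * Real.exp (∑ k : κ ⊕ (κ' ⊕ κ'),
        (Sum.elim (fun e => 2 * J e) (Sum.elim J' J')) k *
        ((Sum.elim (fun e => (χ e).c) (Sum.elim (fun e => (χ' e).c) (fun e => (χ' e).s))) k p.1 *
        (Sum.elim (fun e => (χ e).c) (Sum.elim (fun e => (χ' e).c) (fun e => (χ' e).s))) k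
          p.2))) := by
    intro p
    have hs : ∀ (B : Chr G), B.c (p.1 - p.2) = B.c p.1 * B.c p.2 + B.s p.1 * B.s p.2 := by
      intro B
      rw [sub_eq_add_neg, B.c_add, B.c_neg, B.s_neg]; ring
    rw [Fintype.sum_sum_type, Fintype.sum_sum_type]
    simp only [Sum.elim_inl, Sum.elim_inr]
    rw [hs, A.c_add, hHe, hHe, hDe, ← mul_assoc]
    congr 1
    · ring
    · congr 1
      rw [← Finset.sum_add_distrib, ← Finset.sum_add_distrib]
      congr 1
      · exact Finset.sum_congr rfl fun e _ => by rw [hs, Chr.c_add]; ring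
      · exact Finset.sum_congr rfl fun e _ => by rw [hs]; ring
  have e2 : 0 ≤ ∫ p : G × G, (A.c p.2 - A.c p.1) *
      Real.exp (H p.1 + H p.2 + D p.2) ∂(μ.prod μ) := by
    rw [← hrot]
    simp_rw [e1]
    rw [integral_const_mul]
    exact mul_nonneg zero_le_two key
  have e3 : ∫ p : G × G, (A.c p.2 - A.c p.1) *
      Real.exp (H p.1 + H p.2 + D p.2) ∂(μ.prod μ) =
      (∫ x, Real.exp (H x) ∂μ) * (∫ x, A.c x * Real.exp (H x + D x) ∂μ) -
      (∫ x, A.c x * Real.exp (H x) ∂μ) * (∫ x, Real.exp (H x + D x) ∂μ) := by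
    rw [← integral_prod_mul, ← integral_prod_mul, ← integral_sub]
    · congr 1
      ext p
      rw [add_assoc, Real.exp_add]
      ring
    · apply cint
      exact (Real.continuous_exp.comp (cH.comp continuous_fst)).mul
        ((A.cont_c.comp continuous_snd).mul (Real.continuous_exp.comp
          ((cH.comp continuous_snd).add (cD.comp continuous_snd))))
    · apply cint
      exact ((A.cont_c.comp continuous_fst).mul (Real.continuous_exp.comp
        (cH.comp continuous_fst))).mul (Real.continuous_exp.comp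
          ((cH.comp continuous_snd).add (cD.comp continuous_snd)))
  rw [e3] at e2
  linarith

end Ginibre

end Vale.Agent.P159
end

section

/-!
Complex translations and averaging over blocks.
-/

open MeasureTheory Filter Topology
open scoped BigOperators

namespace Vale.Agent.P159

section Shift

variable {G : Type*} [AddCommGroup G] [TopologicalSpace G] [IsTopologicalAddGroup G]
  [CompactSpace G] [SecondCountableTopology G] [MeasurableSpace G] [BorelSpace G]
  (μ : Measure G) [μ.IsAddHaarMeasure] [IsProbabilityMeasure μ]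

/-- the character itself -/
noncomputable def Chr.e (A : Chr G) (x : G) : ℂ := A.c x + A.s x * Complex.I

omit [IsTopologicalAddGroup G] [CompactSpace G] [SecondCountableTopology G] [MeasurableSpace G]
  [BorelSpace G] in
theorem Chr.cont_e (A : Chr G) : Continuous A.e := by
  unfold Chr.e
  exact (Complex.continuous_ofReal.comp A.cont_c).add
    ((Complex.continuous_ofReal.comp A.cont_s).mul continuous_const)

omit [IsTopologicalAddGroup G] [CompactSpace G] [SecondCountableTopology G] [MeasurableSpace G]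
  [BorelSpace G] in
theorem Chr.norm_e (A : Chr G) (x : G) : ‖A.e x‖ = 1 := by
  unfold Chr.e
  rw [Complex.norm_add_mul_I, A.norm_sq, Real.sqrt_one]

omit [IsTopologicalAddGroup G] [CompactSpace G] [SecondCountableTopology G] [MeasurableSpace G]
  [BorelSpace G] in
theorem Chr.hasDerivAt_C (χ : Chr G) (y : ℝ) (x : G) (w : ℂ) :
    HasDerivAt (fun w : ℂ => χ.C (w * y) x) (-(y * χ.S (w * y) x)) w := by
  unfold Chr.C Chr.S
  have h0 : HasDerivAt (fun w : ℂ => w * (y : ℂ)) (y : ℂ) w := by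
    simpa using (hasDerivAt_id w).mul_const (y : ℂ)
  have h1 : HasDerivAt (fun w : ℂ => Complex.cos (w * y)) (-Complex.sin (w * y) * y) w :=
    h0.ccos
  have h2 : HasDerivAt (fun w : ℂ => Complex.sin (w * y)) (Complex.cos (w * y) * y) w :=
    h0.csin
  have h3 := (h1.const_mul (χ.c x : ℂ)).fun_sub (h2.const_mul (χ.s x : ℂ))
  refine h3.congr_deriv ?_
  ring

/-- the shifted integral -/
noncomputable def Phi {κ : Type*} [Fintype κ] (J : κ → ℝ) (χ : κ → Chr G) (A : Chr G)
    (y : κ → ℝ) (w : ℂ) : ℂ :=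
  ∫ x, A.e x * Complex.exp (∑ k, J k * (χ k).C (w * y k) x) ∂μ

theorem Phi_differentiable {κ : Type*} [Fintype κ] (J : κ → ℝ) (χ : κ → Chr G) (A : Chr G)
    (y : κ → ℝ) : Differentiable ℂ (Phi μ J χ A y) := by
  intro w0
  have hcC : ∀ k, Continuous (fun p : ℂ × G => (χ k).C (p.1 * y k) p.2) := by
    intro k
    unfold Chr.C
    have := (χ k).cont_c
    have := (χ k).cont_s
    fun_prop
  have hcS : ∀ k, Continuous (fun p : ℂ × G => (χ k).S (p.1 * y k) p.2) := by
    intro k
    unfold Chr.S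
    have := (χ k).cont_c
    have := (χ k).cont_s
    fun_prop
  set F : ℂ → G → ℂ := fun w x => A.e x * Complex.exp (∑ k, J k * (χ k).C (w * y k) x) with hF
  set F' : ℂ → G → ℂ := fun w x => A.e x * (Complex.exp (∑ k, J k * (χ k).C (w * y k) x) *
    ∑ k, J k * (-(y k * (χ k).S (w * y k) x))) with hF'
  have hFc : Continuous (fun p : ℂ × G => F p.1 p.2) := by
    simp only [hF]
    refine (A.cont_e.comp continuous_snd).mul (Complex.continuous_exp.comp
      (continuous_finsetSum _ fun k _ => continuous_const.mul (hcC k)))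
  have hF'c : Continuous (fun p : ℂ × G => F' p.1 p.2) := by
    simp only [hF']
    refine (A.cont_e.comp continuous_snd).mul (Continuous.mul (Complex.continuous_exp.comp
      (continuous_finsetSum _ fun k _ => continuous_const.mul (hcC k))) ?_)
    exact continuous_finsetSum _ fun k _ => continuous_const.mul
      ((continuous_const.mul (hcS k)).neg)
  have hFx : ∀ w, Continuous (F w) := fun w =>
    hFc.comp (Continuous.prodMk continuous_const continuous_id)
  have hF'x : ∀ w, Continuous (F' w) := fun w =>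
    hF'c.comp (Continuous.prodMk continuous_const continuous_id)
  have hK : IsCompact (Metric.closedBall w0 1 ×ˢ (Set.univ : Set G)) :=
    (isCompact_closedBall w0 1).prod isCompact_univ
  obtain ⟨B, hB⟩ := hK.exists_bound_of_continuousOn hF'c.continuousOn
  have h := hasDerivAt_integral_of_dominated_loc_of_deriv_le (μ := μ) (F := F) (F' := F')
    (x₀ := w0) (s := Metric.closedBall w0 1) (bound := fun _ => B)
    (Metric.closedBall_mem_nhds w0 one_pos)
    (Eventually.of_forall fun w => (hFx w).aestronglyMeasurable)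
    (cint (hFx w0)) (hF'x w0).aestronglyMeasurable
    (Eventually.of_forall fun x w hw => hB (w, x) ⟨hw, Set.mem_univ _⟩)
    (integrable_const _)
    (Eventually.of_forall fun x w _ => by
      simp only [hF, hF']
      refine HasDerivAt.const_mul _ ?_
      refine HasDerivAt.cexp ?_
      refine HasDerivAt.fun_sum fun k _ => ?_
      exact ((χ k).hasDerivAt_C (y k) x w).const_mul _)
  exact h.2.differentiableAt

/-- complex translation -/
theorem cshift {κ : Type*} [Fintype κ] (J : κ → ℝ) (χ : κ → Chr G) (A : Chr G)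
    (y : κ → ℝ) (yA : ℝ) (g : ℝ → G)
    (hg : ∀ k s, (χ k).c (g s) = Real.cos (s * y k) ∧ (χ k).s (g s) = Real.sin (s * y k))
    (hA : ∀ s, A.c (g s) = Real.cos (s * yA) ∧ A.s (g s) = Real.sin (s * yA)) :
    ∫ x, A.e x * Complex.exp (∑ k, J k * (χ k).C 0 x) ∂μ =
      Real.exp (-yA) *
        ∫ x, A.e x * Complex.exp (∑ k, J k * (χ k).C (y k * Complex.I) x) ∂μ := by
  set f : ℂ → ℂ := fun w => Complex.exp (w * yA * Complex.I) * Phi μ J χ A y w with hf
  have hfd : Differentiable ℂ f := by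
    refine Differentiable.mul ?_ (Phi_differentiable μ J χ A y)
    exact ((differentiable_id.mul_const _).mul_const _).cexp
  have hreal : ∀ s : ℝ, f s = f 0 := by
    intro s
    simp only [hf, Phi, zero_mul, Complex.exp_zero, one_mul]
    rw [← integral_const_mul]
    have h1 : ∀ x, Complex.exp (s * yA * Complex.I) *
        (A.e x * Complex.exp (∑ k, J k * (χ k).C (s * y k) x)) =
        (fun x => A.e x * Complex.exp (∑ k, J k * (χ k).C 0 x)) (x + g s) := by
      intro x
      have h2 : A.e (x + g s) = A.e x * Complex.exp (s * yA * Complex.I) := by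
        unfold Chr.e
        rw [A.c_add, A.s_add, (hA s).1, (hA s).2, Complex.exp_mul_I]
        push_cast
        linear_combination (-(A.s x : ℂ) * Complex.sin (s * yA)) * Complex.I_sq
      have h3 : ∀ k, (χ k).C 0 (x + g s) = (χ k).C (s * y k) x := by
        intro k
        unfold Chr.C
        rw [(χ k).c_add, (χ k).s_add, (hg k s).1, (hg k s).2]
        push_cast
        simp
      simp only [h2, h3]
      ring
    simp_rw [h1]
    exact integral_add_right_eq_self (μ := μ)
      (fun x => A.e x * Complex.exp (∑ k, J k * (χ k).C 0 x)) (g s)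
  have hconst : f = fun _ => f 0 := by
    have hA1 : AnalyticOnNhd ℂ f Set.univ := hfd.differentiableOn.analyticOnNhd isOpen_univ
    have hA2 : AnalyticOnNhd ℂ (fun _ : ℂ => f 0) Set.univ := analyticOnNhd_const
    refine hA1.eq_of_frequently_eq hA2 (z₀ := 0) ?_
    have hlim : Tendsto (fun n : ℕ => ((1 / ((n : ℝ) + 1) : ℝ) : ℂ)) atTop (𝓝[≠] 0) := by
      rw [tendsto_nhdsWithin_iff]
      refine ⟨?_, Eventually.of_forall fun n => ?_⟩
      · have := (tendsto_one_div_add_atTop_nhds_zero_nat (𝕜 := ℝ))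
        have h := (Complex.continuous_ofReal.tendsto 0).comp this
        rw [Complex.ofReal_zero] at h
        exact h
      · simp only [Set.mem_compl_iff, Set.mem_singleton_iff, Complex.ofReal_eq_zero]
        positivity
    exact hlim.frequently (Frequently.of_forall fun n => hreal _)
  have hI := congrFun hconst Complex.I
  simp only [hf, Phi, zero_mul, Complex.exp_zero, one_mul] at hI
  rw [← hI]
  congr 1
  · rw [Complex.ofReal_exp]
    congr 1
    push_cast
    linear_combination (yA : ℂ) * Complex.I_sq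
  · congr 1
    ext x
    congr 2
    refine Finset.sum_congr rfl fun k _ => ?_
    rw [mul_comm Complex.I]

/-- average over the image of `P` -/
noncomputable def avg (P : G → G) (f : G → ℂ) (x : G) : ℂ := ∫ y, f (x + P y) ∂μ

theorem avg_cont {P : G → G} (hP : Continuous P) {f : G → ℂ} (hf : Continuous f) :
    Continuous (avg μ P f) := by
  have h : Continuous (Function.uncurry fun (x y : G) => f (x + P y)) :=
    hf.comp (continuous_fst.add (hP.comp continuous_snd))
  have h1 := continuous_parametric_integral_of_continuous (μ := μ) h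
    (isCompact_univ (X := G))
  have h2 : avg μ P f = fun x => ∫ y, f (x + P y) ∂μ := rfl
  rw [h2]
  simpa using h1

theorem integral_mul_avg {P : G → G} (hP : Continuous P) {h f : G → ℂ} (hh : Continuous h)
    (hf : Continuous f) (hinv : ∀ x y, h (x + P y) = h x) :
    ∫ x, h x * avg μ P f x ∂μ = ∫ x, h x * f x ∂μ := by
  have e1 : ∀ x, h x * avg μ P f x = ∫ y, h x * f (x + P y) ∂μ := by
    intro x
    unfold avg
    rw [integral_const_mul]
  simp_rw [e1]
  have hc : Continuous (Function.uncurry fun (x y : G) => h x * f (x + P y)) :=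
    (hh.comp continuous_fst).mul (hf.comp (continuous_fst.add (hP.comp continuous_snd)))
  rw [integral_integral_swap (cint hc)]
  have e2 : ∀ y, ∫ x, h x * f (x + P y) ∂μ = ∫ x, h x * f x ∂μ := by
    intro y
    have : ∀ x, h x * f (x + P y) = (fun x => h x * f x) (x + P y) := by
      intro x
      simp only [hinv]
    simp_rw [this]
    exact integral_add_right_eq_self (μ := μ) (fun x => h x * f x) (P y)
  simp_rw [e2]
  simp

/-- iterated averaging -/
theorem block_iter {K : Type*} [DecidableEq K] (P : K → G → G) (hP : ∀ k, Continuous (P k))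
    (W : K → G → ℂ) (w : K → G → ℝ) (hW : ∀ k, Continuous (W k)) (hw : ∀ k, Continuous (w k))
    (hw0 : ∀ k x, 0 ≤ w k x) (ρ : K → ℝ) (hρ : ∀ k, 0 ≤ ρ k)
    (hWinv : ∀ j k, j ≠ k → ∀ x y, W k (x + P j y) = W k x)
    (hwinv : ∀ j k, j ≠ k → ∀ x y, w k (x + P j y) = w k x)
    (hcomm : ∀ j k x y z, x + P j y + P k z = x + P k z + P j y)
    (hbound : ∀ k x, ‖avg μ (P k) (W k) x‖ ≤ ρ k * ∫ y, w k (x + P k y) ∂μ)
    (S : Finset K) : ∀ (g : G → ℂ), Continuous g → (∀ k ∈ S, ∀ x y, g (x + P k y) = g x) →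
    ‖∫ x, g x * ∏ k ∈ S, W k x ∂μ‖ ≤ (∏ k ∈ S, ρ k) * ∫ x, ‖g x‖ * ∏ k ∈ S, w k x ∂μ := by
  induction S using Finset.induction_on with
  | empty =>
    intro g hg _
    simp only [Finset.prod_empty, mul_one, one_mul]
    exact norm_integral_le_integral_norm _
  | insert k S hk ih =>
    intro g hg hginv
    have hSc : Continuous fun x => ∏ j ∈ S, W j x := continuous_finsetProd _ fun j _ => hW j
    have hsc : Continuous fun x => ∏ j ∈ S, w j x := continuous_finsetProd _ fun j _ => hw j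
    have e1 : ∫ x, g x * ∏ j ∈ insert k S, W j x ∂μ
        = ∫ x, (g x * avg μ (P k) (W k) x) * ∏ j ∈ S, W j x ∂μ := by
      have h1 := integral_mul_avg μ (hP k) (h := fun x => g x * ∏ j ∈ S, W j x)
        (hg.mul hSc) (hW k) (by
          intro x y
          rw [hginv k (Finset.mem_insert_self _ _)]
          congr 1
          refine Finset.prod_congr rfl fun j hj => ?_
          exact hWinv k j (fun h => hk (h ▸ hj)) x y)
      rw [show (fun x => g x * ∏ j ∈ insert k S, W j x)
        = fun x => (g x * ∏ j ∈ S, W j x) * W k x by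
          ext x; rw [Finset.prod_insert hk]; ring, ← h1]
      congr 1
      ext x
      ring
    rw [e1]
    have hinv' : ∀ j ∈ S, ∀ x y, g (x + P j y) * avg μ (P k) (W k) (x + P j y)
        = g x * avg μ (P k) (W k) x := by
      intro j hj x y
      rw [hginv j (Finset.mem_insert_of_mem hj)]
      congr 1
      unfold avg
      congr 1
      ext z
      rw [hcomm, hWinv j k (fun h => hk (h ▸ hj))]
    refine (ih (fun x => g x * avg μ (P k) (W k) x) (hg.mul (avg_cont μ (hP k) (hW k)))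
      hinv').trans ?_
    rw [Finset.prod_insert hk, mul_comm (ρ k), mul_assoc]
    refine mul_le_mul_of_nonneg_left ?_ (Finset.prod_nonneg fun j _ => hρ j)
    -- second step
    have hwC : Continuous fun x => (w k x : ℂ) := Complex.continuous_ofReal.comp (hw k)
    have e2 : (∫ x, ‖g x‖ * ∏ j ∈ insert k S, w j x ∂μ : ℝ)
        = ∫ x, (‖g x‖ * ∏ j ∈ S, w j x) * ∫ y, w k (x + P k y) ∂μ ∂μ := by
      have h1 := integral_mul_avg μ (hP k)
        (h := fun x => ((‖g x‖ * ∏ j ∈ S, w j x : ℝ) : ℂ))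
        (Complex.continuous_ofReal.comp (hg.norm.mul hsc)) hwC (by
          intro x y
          rw [hginv k (Finset.mem_insert_self _ _)]
          congr 2
          refine Finset.prod_congr rfl fun j hj => ?_
          exact hwinv k j (fun h => hk (h ▸ hj)) x y)
      have h2 : ∀ x, avg μ (P k) (fun x => (w k x : ℂ)) x
          = ((∫ y, w k (x + P k y) ∂μ : ℝ) : ℂ) := by
        intro x
        unfold avg
        rw [← integral_complex_ofReal]
      simp_rw [h2] at h1
      have h3 : ∀ x, ((‖g x‖ * ∏ j ∈ S, w j x : ℝ) : ℂ) * ((∫ y, w k (x + P k y) ∂μ : ℝ) : ℂ)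
          = (((‖g x‖ * ∏ j ∈ S, w j x) * ∫ y, w k (x + P k y) ∂μ : ℝ) : ℂ) := by
        intro x; push_cast; ring
      have h4 : ∀ x, ((‖g x‖ * ∏ j ∈ S, w j x : ℝ) : ℂ) * (w k x : ℂ)
          = ((‖g x‖ * ∏ j ∈ insert k S, w j x : ℝ) : ℂ) := by
        intro x; rw [Finset.prod_insert hk]; push_cast; ring
      simp_rw [h3, h4] at h1
      rw [integral_complex_ofReal, integral_complex_ofReal] at h1
      exact_mod_cast h1.symm
    rw [e2, ← integral_const_mul]
    have hwp : Continuous (fun x => ∫ y, w k (x + P k y) ∂μ) := by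
      have h : Continuous (Function.uncurry fun (x y : G) => w k (x + P k y)) :=
        (hw k).comp (continuous_fst.add ((hP k).comp continuous_snd))
      have h1 := continuous_parametric_integral_of_continuous (μ := μ) h
        (isCompact_univ (X := G))
      simpa using h1
    refine integral_mono (cint ?_) (cint ?_) fun x => ?_
    · exact ((hg.mul (avg_cont μ (hP k) (hW k))).norm).mul hsc
    · exact continuous_const.mul ((hg.norm.mul hsc).mul hwp)
    · simp only
      rw [norm_mul]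
      have := hbound k x
      have h0 : 0 ≤ ∏ j ∈ S, w j x := Finset.prod_nonneg fun j _ => hw0 j x
      calc ‖g x‖ * ‖avg μ (P k) (W k) x‖ * ∏ j ∈ S, w j x
          ≤ ‖g x‖ * (ρ k * ∫ y, w k (x + P k y) ∂μ) * ∏ j ∈ S, w j x := by gcongr
        _ = ρ k * (‖g x‖ * (∏ j ∈ S, w j x) * ∫ y, w k (x + P k y) ∂μ) := by ring

end Shift

end Vale.Agent.P159
end

section

/-!
The block bound.
-/

open MeasureTheory Filter Topology
open scoped BigOperators

namespace Vale.Agent.P159

section BlockBound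

variable {G : Type*} [AddCommGroup G] [TopologicalSpace G]

/-- composition of a character with a continuous homomorphism -/
def Chr.comp {G' : Type*} [AddCommGroup G'] [TopologicalSpace G'] (χ : Chr G) (P : G' →+ G)
    (hP : Continuous P) : Chr G' where
  c x := χ.c (P x)
  s x := χ.s (P x)
  cont_c := χ.cont_c.comp hP
  cont_s := χ.cont_s.comp hP
  c_add x y := by rw [map_add, χ.c_add]
  s_add x y := by rw [map_add, χ.s_add]
  norm_sq x := χ.norm_sq _

theorem Chr.exists_angle (χ : Chr G) (x : G) :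
    ∃ t : ℝ, Real.cos t = χ.c x ∧ Real.sin t = χ.s x := by
  have hn : ‖χ.e x‖ = 1 := χ.norm_e x
  have h0 : χ.e x ≠ 0 := by
    intro h
    rw [h, norm_zero] at hn
    exact zero_ne_one hn
  refine ⟨Complex.arg (χ.e x), ?_, ?_⟩
  · rw [Complex.cos_arg h0, hn]
    simp [Chr.e]
  · rw [Complex.sin_arg, hn]
    simp [Chr.e]

variable [IsTopologicalAddGroup G]
  [CompactSpace G] [SecondCountableTopology G] [MeasurableSpace G] [BorelSpace G]
  (μ : Measure G) [μ.IsAddHaarMeasure] [IsProbabilityMeasure μ]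

/-- weight of a block with imaginary shift -/
noncomputable def WW {κ : Type*} [Fintype κ] (J : κ → ℝ) (χ : κ → Chr G) (y : κ → ℝ) (x : G) : ℂ :=
  Complex.exp (∑ e, J e * (χ e).C (y e * Complex.I) x)

/-- ratio of partition functions of a block -/
noncomputable def rho {κ : Type*} [Fintype κ] (J : κ → ℝ) (χ : κ → Chr G) (y : κ → ℝ) : ℝ :=
  ‖ZZ μ J χ (fun e => y e * Complex.I)‖ / ‖ZZ μ J χ 0‖

theorem ZZ_real {κ : Type*} [Fintype κ] (J : κ → ℝ) (χ : κ → Chr G) (t : κ → ℝ) :
    ‖ZZ μ J χ (fun e => (t e : ℂ))‖ = ∫ x, Real.exp (∑ e, J e *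
      ((χ e).c x * Real.cos (t e) - (χ e).s x * Real.sin (t e))) ∂μ := by
  have h : ZZ μ J χ (fun e => (t e : ℂ)) = ((∫ x, Real.exp (∑ e, J e *
      ((χ e).c x * Real.cos (t e) - (χ e).s x * Real.sin (t e))) ∂μ : ℝ) : ℂ) := by
    unfold ZZ Chr.C
    rw [← integral_complex_ofReal]
    congr 1
    ext x
    push_cast
    rfl
  rw [h, Complex.norm_real, Real.norm_of_nonneg]
  exact integral_nonneg fun x => (Real.exp_pos _).le

theorem ZZ_zero_pos {κ : Type*} [Fintype κ] (J : κ → ℝ) (χ : κ → Chr G) :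
    0 < ‖ZZ μ J χ 0‖ := by
  have h := ZZ_real μ J χ (fun _ => 0)
  have h1 : (fun e : κ => (((fun _ => 0 : κ → ℝ) e : ℝ) : ℂ)) = 0 := by ext e; simp
  rw [h1] at h
  rw [h]
  refine integral_exp_pos (cint ?_)
  refine Real.continuous_exp.comp (continuous_finsetSum _ fun e _ => ?_)
  exact continuous_const.mul (((χ e).cont_c.mul continuous_const).sub
    ((χ e).cont_s.mul continuous_const))

theorem avg_bound {κ : Type*} [Fintype κ] (h2 : ∀ g : G, ∃ h : G, h + h = g)
    (J : κ → ℝ) (hJ : ∀ e, 0 ≤ J e) (χ : κ → Chr G) (P : G →+ G)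
    (hP : Continuous P) (y : κ → ℝ) (x : G) :
    ‖avg μ P (WW J χ y) x‖ ≤ rho μ J (fun e => (χ e).comp P hP) y *
      ∫ z, Real.exp (∑ e, J e * (χ e).c (x + P z)) ∂μ := by
  choose t ht using fun e => (χ e).exists_angle x
  have e1 : avg μ P (WW J χ y) x
      = ZZ μ J (fun e => (χ e).comp P hP) (fun e => (t e : ℂ) + y e * Complex.I) := by
    unfold avg WW ZZ
    congr 1
    ext z
    congr 1
    refine Finset.sum_congr rfl fun e _ => ?_
    congr 1
    unfold Chr.C Chr.comp
    simp only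
    rw [(χ e).c_add, (χ e).s_add, ← (ht e).1, ← (ht e).2, Complex.cos_add, Complex.sin_add]
    push_cast
    ring
  have e2 : ∫ z, Real.exp (∑ e, J e * (χ e).c (x + P z)) ∂μ
      = ‖ZZ μ J (fun e => (χ e).comp P hP) (fun e => (t e : ℂ))‖ := by
    rw [ZZ_real]
    congr 1
    ext z
    congr 1
    refine Finset.sum_congr rfl fun e _ => ?_
    congr 1
    unfold Chr.comp
    simp only
    rw [(χ e).c_add, ← (ht e).1, ← (ht e).2]
    ring
  rw [e1, e2, rho, div_mul_eq_mul_div, le_div_iff₀ (ZZ_zero_pos μ J _)]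
  have := main_P μ J (fun e => (χ e).comp P hP) h2 hJ t y
  linarith

theorem block_bound {K κ : Type*} [Fintype K] [Fintype κ]
    (h2 : ∀ g : G, ∃ h : G, h + h = g)
    (J : κ → ℝ) (hJ : ∀ e, 0 ≤ J e) (χ : K → κ → Chr G) (A : Chr G) (P : K → (G →+ G))
    (hP : ∀ k, Continuous (P k))
    (hχ : ∀ j k, j ≠ k → ∀ e x, (χ k e).c (P j x) = 1 ∧ (χ k e).s (P j x) = 0)
    (hA : ∀ k x, A.c (P k x) = 1 ∧ A.s (P k x) = 0)
    (y : K → κ → ℝ) (yA : ℝ) (g : ℝ → G)
    (hg : ∀ k e s, (χ k e).c (g s) = Real.cos (s * y k e) ∧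
      (χ k e).s (g s) = Real.sin (s * y k e))
    (hgA : ∀ s, A.c (g s) = Real.cos (s * yA) ∧ A.s (g s) = Real.sin (s * yA)) :
    |∫ x, A.c x * Real.exp (∑ k, ∑ e, J e * (χ k e).c x) ∂μ| ≤
      Real.exp (-yA) * (∏ k, rho μ J (fun e => (χ k e).comp (P k) (hP k)) (y k)) *
        ∫ x, Real.exp (∑ k, ∑ e, J e * (χ k e).c x) ∂μ := by
  classical
  have hcont : Continuous fun x : G => ∑ k, ∑ e, J e * (χ k e).c x :=
    continuous_finsetSum _ fun k _ => continuous_finsetSum _ fun e _ =>
      continuous_const.mul (χ k e).cont_c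
  have hshift := cshift μ (κ := K × κ) (fun p => J p.2) (fun p => χ p.1 p.2) A
    (fun p => y p.1 p.2) yA g (fun p s => hg p.1 p.2 s) hgA
  simp only [Fintype.sum_prod_type] at hshift
  have hWc : ∀ k, Continuous (WW J (χ k) (y k)) := by
    intro k
    exact Complex.continuous_exp.comp (continuous_finsetSum _ fun e _ =>
      continuous_const.mul ((χ k e).cont_C _))
  have hwc : ∀ k, Continuous (fun x => Real.exp (∑ e, J e * (χ k e).c x)) := by
    intro k
    exact Real.continuous_exp.comp (continuous_finsetSum _ fun e _ =>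
      continuous_const.mul (χ k e).cont_c)
  have hit := block_iter μ (fun k => (P k : G → G)) hP (fun k => WW J (χ k) (y k))
    (fun k x => Real.exp (∑ e, J e * (χ k e).c x)) hWc hwc (fun k x => (Real.exp_pos _).le)
    (fun k => rho μ J (fun e => (χ k e).comp (P k) (hP k)) (y k))
    (fun k => div_nonneg (norm_nonneg _) (norm_nonneg _))
    (by
      intro j k hjk x z
      unfold WW Chr.C
      congr 1
      refine Finset.sum_congr rfl fun e _ => ?_
      obtain ⟨h3, h4⟩ := hχ j k hjk e z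
      rw [(χ k e).c_add, (χ k e).s_add, h3, h4]
      simp)
    (by
      intro j k hjk x z
      congr 1
      refine Finset.sum_congr rfl fun e _ => ?_
      obtain ⟨h3, h4⟩ := hχ j k hjk e z
      rw [(χ k e).c_add, h3, h4]
      simp)
    (fun j k x y z => by abel)
    (fun k x => avg_bound μ h2 J hJ (χ k) (P k) (hP k) (y k) x)
    Finset.univ A.e A.cont_e
    (by
      intro k _ x z
      obtain ⟨h3, h4⟩ := hA k z
      unfold Chr.e
      rw [A.c_add, A.s_add, h3, h4]
      simp)
  have e1 : ∀ x, A.e x * ∏ k, WW J (χ k) (y k) x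
      = A.e x * Complex.exp (∑ k, ∑ e, J e * (χ k e).C (y k e * Complex.I) x) := by
    intro x
    unfold WW
    rw [Complex.exp_sum]
  have e2 : ∀ x, ‖A.e x‖ * ∏ k, Real.exp (∑ e, J e * (χ k e).c x)
      = Real.exp (∑ k, ∑ e, J e * (χ k e).c x) := by
    intro x
    rw [A.norm_e, one_mul, Real.exp_sum]
  simp_rw [e1, e2] at hit
  have e3 : ∫ x, A.c x * Real.exp (∑ k, ∑ e, J e * (χ k e).c x) ∂μ
      = (∫ x, A.e x * Complex.exp (∑ k, ∑ e, J e * (χ k e).C 0 x) ∂μ).re := by
    have h3 : Integrable (fun x => A.e x * Complex.exp (∑ k, ∑ e, J e * (χ k e).C 0 x)) μ := by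
      apply cint
      exact A.cont_e.mul (Complex.continuous_exp.comp (continuous_finsetSum _ fun k _ =>
        continuous_finsetSum _ fun e _ => continuous_const.mul ((χ k e).cont_C _)))
    have h4 := integral_re h3
    have h5 : ∀ x, RCLike.re (A.e x * Complex.exp (∑ k, ∑ e, J e * (χ k e).C 0 x))
        = A.c x * Real.exp (∑ k, ∑ e, J e * (χ k e).c x) := by
      intro x
      have h6 : Complex.exp (∑ k, ∑ e, J e * (χ k e).C 0 x)
          = ((Real.exp (∑ k, ∑ e, J e * (χ k e).c x) : ℝ) : ℂ) := by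
        rw [Complex.ofReal_exp]
        congr 1
        push_cast
        refine Finset.sum_congr rfl fun k _ => Finset.sum_congr rfl fun e _ => ?_
        rw [(χ k e).C_zero]
      rw [h6]
      show (A.e x * ((Real.exp (∑ k, ∑ e, J e * (χ k e).c x) : ℝ) : ℂ)).re = _
      rw [Complex.re_mul_ofReal]
      congr 1
      simp [Chr.e]
    simp_rw [h5] at h4
    exact h4
  rw [e3, hshift]
  refine (Complex.abs_re_le_norm _).trans ?_
  rw [norm_mul, Complex.norm_real, Real.norm_of_nonneg (Real.exp_pos _).le, mul_assoc]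
  exact mul_le_mul_of_nonneg_left hit (Real.exp_pos _).le

end BlockBound

end Vale.Agent.P159
end

section

/-!
Second order expansion of the ratio of partition functions of a block.
-/

open MeasureTheory Filter Topology
open scoped BigOperators

namespace Vale.Agent.P159

theorem cosh_sub_bound {y : ℝ} (hy : |y| ≤ 1) : |Real.cosh y - 1 - y ^ 2 / 2| ≤ |y| ^ 4 := by
  have h1 := Real.exp_bound hy (n := 4) (by norm_num)
  have h2 := Real.exp_bound (x := -y) (by rwa [abs_neg]) (n := 4) (by norm_num)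
  simp only [Finset.sum_range_succ, Finset.sum_range_zero, Nat.factorial, abs_neg] at h1 h2
  norm_num at h1 h2
  rw [Real.cosh_eq]
  rw [abs_le] at h1 h2 ⊢
  have h3 : 0 ≤ |y| ^ 4 := by positivity
  constructor <;> nlinarith only [h1.1, h1.2, h2.1, h2.2]

theorem sinh_sub_bound {y : ℝ} (hy : |y| ≤ 1) : |Real.sinh y - y| ≤ |y| ^ 3 := by
  have h1 := Real.exp_bound hy (n := 3) (by norm_num)
  have h2 := Real.exp_bound (x := -y) (by rwa [abs_neg]) (n := 3) (by norm_num)
  simp only [Finset.sum_range_succ, Finset.sum_range_zero, Nat.factorial, abs_neg] at h1 h2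
  norm_num at h1 h2
  rw [Real.sinh_eq]
  rw [abs_le] at h1 h2 ⊢
  have h3 : 0 ≤ |y| ^ 3 := by positivity
  constructor <;> nlinarith only [h1.1, h1.2, h2.2, h2.1]

/-- pointwise expansion -/
theorem pointwise_expand {a β a2 β1 S Y : ℝ} (hS : 0 ≤ S) (hY0 : 0 ≤ Y) (hY1 : Y ≤ 1)
    (hSY : 2 * S * Y ≤ 1) (ha : |a| ≤ 2 * S * Y ^ 2) (ha2 : |a - a2| ≤ S * Y ^ 4)
    (hb1 : |β1| ≤ S * Y) (hb : |β - β1| ≤ S * Y ^ 3) :
    0 ≤ Real.exp a * Real.cos β ∧
    Real.exp a * Real.cos β ≤ 1 + a2 - β1 ^ 2 / 2 +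
      (S + 6 * S ^ 2 + 4 * S ^ 3 + 16 * S ^ 4) * Y ^ 4 := by
  have hY2 : Y ^ 2 ≤ Y := by nlinarith only [hY0, hY1]
  have hY3 : Y ^ 3 ≤ Y := by nlinarith only [hY2]
  have hbb : |β| ≤ 2 * S * Y := by
    calc |β| = |β1 + (β - β1)| := by ring_nf
      _ ≤ |β1| + |β - β1| := abs_add_le _ _
      _ ≤ S * Y + S * Y ^ 3 := add_le_add hb1 hb
      _ ≤ 2 * S * Y := by nlinarith only [hS, hY3]
  have hb_one : |β| ≤ 1 := hbb.trans hSY
  have ha_one : |a| ≤ 1 := by
    refine ha.trans (le_trans ?_ hSY)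
    nlinarith only [hS, hY2]
  have hcos0 : 0 ≤ Real.cos β := (Real.cos_pos_of_le_one hb_one).le
  have h1 := Real.abs_exp_sub_one_sub_id_le ha_one
  have h2 := Real.cos_bound hb_one
  have h3 := Real.one_sub_sq_div_two_le_cos (x := β)
  have h4 := Real.cos_le_one β
  refine ⟨mul_nonneg (Real.exp_pos _).le hcos0, ?_⟩
  have hβ2 : β ^ 2 ≤ 4 * S ^ 2 * Y ^ 2 := by
    have := pow_le_pow_left₀ (abs_nonneg _) hbb 2
    rw [sq_abs] at this
    nlinarith only [this]
  have ha2' : a ^ 2 ≤ 4 * S ^ 2 * Y ^ 4 := by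
    have := pow_le_pow_left₀ (abs_nonneg _) ha 2
    rw [sq_abs] at this
    nlinarith only [this]
  have t1 : (Real.exp a - 1 - a) * Real.cos β ≤ 4 * S ^ 2 * Y ^ 4 := by
    calc (Real.exp a - 1 - a) * Real.cos β ≤ a ^ 2 * Real.cos β :=
          mul_le_mul_of_nonneg_right (le_trans (le_abs_self _) h1) hcos0
      _ ≤ a ^ 2 * 1 := mul_le_mul_of_nonneg_left h4 (sq_nonneg _)
      _ ≤ 4 * S ^ 2 * Y ^ 4 := by linarith only [ha2']
  have t2 : a * (Real.cos β - 1) ≤ 4 * S ^ 3 * Y ^ 4 := by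
    have h5 : |Real.cos β - 1| ≤ 2 * S ^ 2 * Y ^ 2 := by
      rw [abs_le]; constructor <;> nlinarith only [h3, hβ2, h4]
    calc a * (Real.cos β - 1) ≤ |a * (Real.cos β - 1)| := le_abs_self _
      _ = |a| * |Real.cos β - 1| := abs_mul _ _
      _ ≤ (2 * S * Y ^ 2) * (2 * S ^ 2 * Y ^ 2) := by gcongr
      _ = 4 * S ^ 3 * Y ^ 4 := by ring
  have t4 : Real.cos β ≤ 1 - β ^ 2 / 2 + 16 * S ^ 4 * Y ^ 4 := by
    have h5 : |β| ^ 4 ≤ 16 * S ^ 4 * Y ^ 4 := by
      calc |β| ^ 4 ≤ (2 * S * Y) ^ 4 := pow_le_pow_left₀ (abs_nonneg _) hbb 4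
        _ = 16 * S ^ 4 * Y ^ 4 := by ring
    have h6 : 0 ≤ |β| ^ 4 := by positivity
    have h7 := (abs_le.1 h2).2
    nlinarith only [h5, h6, h7]
  have t5 : -(β ^ 2 / 2) ≤ -(β1 ^ 2 / 2) + 2 * S ^ 2 * Y ^ 4 := by
    have h5 : |β ^ 2 - β1 ^ 2| ≤ 3 * S ^ 2 * Y ^ 4 := by
      rw [show β ^ 2 - β1 ^ 2 = (β - β1) * (β + β1) by ring, abs_mul]
      calc |β - β1| * |β + β1| ≤ (S * Y ^ 3) * (2 * S * Y + S * Y) := by
            gcongr
            exact (abs_add_le _ _).trans (add_le_add hbb hb1)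
        _ = 3 * S ^ 2 * Y ^ 4 := by ring
    have h6 := (abs_le.1 h5).1
    have h7 : 0 ≤ S ^ 2 * Y ^ 4 := by positivity
    linarith only [h6, h7]
  have t3 : a ≤ a2 + S * Y ^ 4 := by linarith only [(abs_le.1 ha2).2]
  have hid : Real.exp a * Real.cos β = (Real.exp a - 1 - a) * Real.cos β + Real.cos β + a
      + a * (Real.cos β - 1) := by ring
  rw [hid]
  linarith

section Expand

variable {G : Type*} [AddCommGroup G] [TopologicalSpace G] [IsTopologicalAddGroup G]
  [CompactSpace G] [SecondCountableTopology G] [MeasurableSpace G] [BorelSpace G]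
  (μ : Measure G) [μ.IsAddHaarMeasure] [IsProbabilityMeasure μ]
  {κ : Type*} [Fintype κ] (J : κ → ℝ) (χ : κ → Chr G)

/-- Gibbs expectation -/
noncomputable def gibbs (f : G → ℝ) : ℝ :=
  (∫ x, f x * Real.exp (∑ e, J e * (χ e).c x) ∂μ) / ∫ x, Real.exp (∑ e, J e * (χ e).c x) ∂μ

theorem cont_energy : Continuous (fun x => ∑ e, J e * (χ e).c x) :=
  continuous_finsetSum _ fun e _ => continuous_const.mul (χ e).cont_c

theorem cont_weight : Continuous (fun x => Real.exp (∑ e, J e * (χ e).c x)) :=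
  Real.continuous_exp.comp (cont_energy J χ)

theorem weight_pos : 0 < ∫ x, Real.exp (∑ e, J e * (χ e).c x) ∂μ :=
  integral_exp_pos (cint (cont_weight J χ))

theorem gibbs_mono {f g : G → ℝ} (hf : Continuous f) (hg : Continuous g) (h : ∀ x, f x ≤ g x) :
    gibbs μ J χ f ≤ gibbs μ J χ g := by
  unfold gibbs
  refine div_le_div_of_nonneg_right ?_ (weight_pos μ J χ).le
  exact integral_mono (cint (hf.mul (cont_weight J χ))) (cint (hg.mul (cont_weight J χ)))
    fun x => mul_le_mul_of_nonneg_right (h x) (Real.exp_pos _).le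

theorem gibbs_const (a : ℝ) : gibbs μ J χ (fun _ => a) = a := by
  unfold gibbs
  rw [integral_const_mul, mul_div_assoc, div_self (weight_pos μ J χ).ne', mul_one]

theorem gibbs_add {f g : G → ℝ} (hf : Continuous f) (hg : Continuous g) :
    gibbs μ J χ (fun x => f x + g x) = gibbs μ J χ f + gibbs μ J χ g := by
  have h := integral_add (μ := μ) (f := fun x => f x * Real.exp (∑ e, J e * (χ e).c x))
    (g := fun x => g x * Real.exp (∑ e, J e * (χ e).c x))
    (cint (hf.mul (cont_weight J χ))) (cint (hg.mul (cont_weight J χ)))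
  unfold gibbs
  rw [← add_div, ← h]
  congr 2
  ext x
  ring

theorem gibbs_const_mul (a : ℝ) (f : G → ℝ) :
    gibbs μ J χ (fun x => a * f x) = a * gibbs μ J χ f := by
  unfold gibbs
  rw [← mul_div_assoc, ← integral_const_mul]
  congr 2
  ext x
  ring

theorem gibbs_lin (c0 c1 c2 : ℝ) {A B : G → ℝ} (hA : Continuous A) (hB : Continuous B) :
    gibbs μ J χ (fun x => c0 + c1 * A x + c2 * B x)
      = c0 + c1 * gibbs μ J χ A + c2 * gibbs μ J χ B := by
  have h1 : Continuous (fun x => c1 * A x) := continuous_const.mul hA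
  have h2 : Continuous (fun x => c2 * B x) := continuous_const.mul hB
  have h3 : Continuous (fun x => c0 + c1 * A x) := continuous_const.add h1
  rw [gibbs_add μ J χ h3 h2, gibbs_add μ J χ continuous_const h1, gibbs_const,
    gibbs_const_mul, gibbs_const_mul]

theorem gibbs_lin3 (c0 c1 c2 c3 : ℝ) {A B D : G → ℝ} (hA : Continuous A) (hB : Continuous B)
    (hD : Continuous D) :
    gibbs μ J χ (fun x => c0 + c1 * A x + c2 * B x + c3 * D x)
      = c0 + c1 * gibbs μ J χ A + c2 * gibbs μ J χ B + c3 * gibbs μ J χ D := by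
  have h1 : Continuous (fun x => c1 * A x) := continuous_const.mul hA
  have h2 : Continuous (fun x => c2 * B x) := continuous_const.mul hB
  have h3 : Continuous (fun x => c0 + c1 * A x + c2 * B x) := (continuous_const.add h1).add h2
  have h4 : Continuous (fun x => c3 * D x) := continuous_const.mul hD
  rw [gibbs_add μ J χ h3 h4, gibbs_lin μ J χ c0 c1 c2 hA hB, gibbs_const_mul]

theorem ZZ_imag (y : κ → ℝ) : ZZ μ J χ (fun e => y e * Complex.I) =
    ((∫ x, (Real.exp (∑ e, J e * (Real.cosh (y e) - 1) * (χ e).c x) *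
      Real.cos (∑ e, J e * Real.sinh (y e) * (χ e).s x)) *
      Real.exp (∑ e, J e * (χ e).c x) ∂μ : ℝ) : ℂ) := by
  set F : G → ℂ := fun x => Complex.exp (∑ e, J e * (χ e).C (y e * Complex.I) x) with hF
  have hFc : Continuous F := Complex.continuous_exp.comp (continuous_finsetSum _ fun e _ =>
    continuous_const.mul ((χ e).cont_C _))
  have h1 : ∀ x, F x = ((Real.exp (∑ e, J e * (χ e).c x) *
      Real.exp (∑ e, J e * (Real.cosh (y e) - 1) * (χ e).c x) : ℝ) : ℂ) *
      Complex.exp (((-∑ e, J e * Real.sinh (y e) * (χ e).s x : ℝ) : ℂ) * Complex.I) := by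
    intro x
    simp only [hF]
    rw [Complex.ofReal_mul, Complex.ofReal_exp, Complex.ofReal_exp, ← Complex.exp_add,
      ← Complex.exp_add]
    congr 1
    push_cast
    rw [← Finset.sum_add_distrib, ← Finset.sum_neg_distrib, Finset.sum_mul,
      ← Finset.sum_add_distrib]
    refine Finset.sum_congr rfl fun e _ => ?_
    unfold Chr.C
    rw [Complex.cos_mul_I, Complex.sin_mul_I]
    ring
  have h2 : ∀ x, F (-x) = (starRingEnd ℂ) (F x) := by
    intro x
    rw [h1, h1]
    simp only [Chr.c_neg, Chr.s_neg]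
    rw [map_mul, Complex.conj_ofReal, ← Complex.exp_conj, map_mul, Complex.conj_ofReal,
      Complex.conj_I]
    congr 2
    push_cast
    simp
  have h3 : ∫ x, F x ∂μ = (starRingEnd ℂ) (∫ x, F x ∂μ) := by
    rw [← integral_conj]
    simp_rw [← h2]
    exact (integral_neg_eq_self F μ).symm
  have h4 : ∫ x, F x ∂μ = ((∫ x, F x ∂μ).re : ℂ) :=
    (Complex.conj_eq_iff_re.1 h3.symm).symm
  have h5 := integral_re (cint (μ := μ) hFc)
  have h6 : ∀ x, RCLike.re (F x) = (Real.exp (∑ e, J e * (Real.cosh (y e) - 1) * (χ e).c x) *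
      Real.cos (∑ e, J e * Real.sinh (y e) * (χ e).s x)) *
      Real.exp (∑ e, J e * (χ e).c x) := by
    intro x
    rw [h1]
    show (((Real.exp (∑ e, J e * (χ e).c x) *
      Real.exp (∑ e, J e * (Real.cosh (y e) - 1) * (χ e).c x) : ℝ) : ℂ) *
      Complex.exp (((-∑ e, J e * Real.sinh (y e) * (χ e).s x : ℝ) : ℂ) * Complex.I)).re = _
    rw [Complex.re_ofReal_mul, Complex.exp_ofReal_mul_I_re, Real.cos_neg]
    ring
  simp_rw [h6] at h5
  unfold ZZ
  rw [h4]
  congr 1
  exact h5.symm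

theorem rho_eq (y : κ → ℝ)
    (h0 : ∀ x, 0 ≤ Real.exp (∑ e, J e * (Real.cosh (y e) - 1) * (χ e).c x) *
      Real.cos (∑ e, J e * Real.sinh (y e) * (χ e).s x)) :
    rho μ J χ y = gibbs μ J χ (fun x => Real.exp (∑ e, J e * (Real.cosh (y e) - 1) * (χ e).c x) *
      Real.cos (∑ e, J e * Real.sinh (y e) * (χ e).s x)) := by
  unfold rho gibbs
  congr 1
  · rw [ZZ_imag, Complex.norm_real, Real.norm_of_nonneg]
    exact integral_nonneg fun x => mul_nonneg (h0 x) (Real.exp_pos _).le
  · have h := ZZ_real μ J χ (fun _ => 0)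
    have h1 : (fun e : κ => (((fun _ => 0 : κ → ℝ) e : ℝ) : ℂ)) = 0 := by ext e; simp
    rw [h1] at h
    rw [h]
    simp only [Real.cos_zero, mul_one, Real.sin_zero, mul_zero, sub_zero]

/-- quadratic form of the second order term -/
noncomputable def Qform (y : κ → ℝ) : ℝ :=
  gibbs μ J χ (fun x => ∑ e, J e * y e ^ 2 * (χ e).c x)
    - gibbs μ J χ (fun x => (∑ e, J e * y e * (χ e).s x) ^ 2)

theorem cont_sumc (f : κ → ℝ) : Continuous (fun x => ∑ e, f e * (χ e).c x) :=
  continuous_finsetSum _ fun e _ => continuous_const.mul (χ e).cont_c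

theorem cont_sums (f : κ → ℝ) : Continuous (fun x => ∑ e, f e * (χ e).s x) :=
  continuous_finsetSum _ fun e _ => continuous_const.mul (χ e).cont_s

theorem abs_sumc_le (f : κ → ℝ) (x : G) : |∑ e, f e * (χ e).c x| ≤ ∑ e, |f e| := by
  refine (Finset.abs_sum_le_sum_abs _ _).trans (Finset.sum_le_sum fun e _ => ?_)
  rw [abs_mul]
  exact mul_le_of_le_one_right (abs_nonneg _) ((χ e).abs_c_le x)

theorem abs_sums_le (f : κ → ℝ) (x : G) : |∑ e, f e * (χ e).s x| ≤ ∑ e, |f e| := by
  refine (Finset.abs_sum_le_sum_abs _ _).trans (Finset.sum_le_sum fun e _ => ?_)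
  rw [abs_mul]
  exact mul_le_of_le_one_right (abs_nonneg _) ((χ e).abs_s_le x)

/-- second order expansion -/
theorem rho_second (hJ : ∀ e, 0 ≤ J e) {S : ℝ} (hS : ∑ e, J e = S) (y : κ → ℝ) {Y : ℝ}
    (hY1 : Y ≤ 1) (hSY : 2 * S * Y ≤ 1) (hy : ∀ e, |y e| ≤ Y) (hY0 : 0 ≤ Y) :
    rho μ J χ y ≤ 1 + Qform μ J χ y / 2 + (S + 6 * S ^ 2 + 4 * S ^ 3 + 16 * S ^ 4) * Y ^ 4 := by
  have hS0 : 0 ≤ S := hS ▸ Finset.sum_nonneg fun e _ => hJ e
  have hpt : ∀ x, 0 ≤ Real.exp (∑ e, J e * (Real.cosh (y e) - 1) * (χ e).c x) *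
      Real.cos (∑ e, J e * Real.sinh (y e) * (χ e).s x) ∧
      Real.exp (∑ e, J e * (Real.cosh (y e) - 1) * (χ e).c x) *
      Real.cos (∑ e, J e * Real.sinh (y e) * (χ e).s x) ≤
      1 + (∑ e, J e * y e ^ 2 * (χ e).c x) / 2 - (∑ e, J e * y e * (χ e).s x) ^ 2 / 2 +
      (S + 6 * S ^ 2 + 4 * S ^ 3 + 16 * S ^ 4) * Y ^ 4 := by
    intro x
    have hc1 : ∀ e, |y e| ≤ 1 := fun e => (hy e).trans hY1
    apply pointwise_expand hS0 hY0 hY1 hSY
    · refine (abs_sumc_le χ _ x).trans ?_
      rw [← hS, Finset.mul_sum, Finset.sum_mul]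
      refine Finset.sum_le_sum fun e _ => ?_
      have h1 := cosh_sub_bound (hc1 e)
      have h2 : y e ^ 2 ≤ Y ^ 2 := by
        rw [← sq_abs]; exact pow_le_pow_left₀ (abs_nonneg _) (hy e) 2
      have h3 : |y e| ^ 4 ≤ Y ^ 2 := by
        have : |y e| ^ 4 = |y e| ^ 2 * |y e| ^ 2 := by ring
        rw [this, sq_abs]
        have h4 : y e ^ 2 ≤ 1 := by
          rw [← sq_abs]; exact pow_le_one₀ (abs_nonneg _) (hc1 e)
        nlinarith only [h2, h4]
      have h4 : |Real.cosh (y e) - 1| ≤ 2 * Y ^ 2 := by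
        rw [abs_of_nonneg (by linarith [Real.one_le_cosh (y e)])]
        have := (abs_le.1 h1).2
        nlinarith only [h2, h3, this]
      rw [abs_mul, abs_of_nonneg (hJ e)]
      nlinarith only [h4, hJ e]
    · rw [Finset.sum_div, ← Finset.sum_sub_distrib]
      have h0 : ∀ e, J e * (Real.cosh (y e) - 1) * (χ e).c x - J e * y e ^ 2 * (χ e).c x / 2
          = (J e * (Real.cosh (y e) - 1 - y e ^ 2 / 2)) * (χ e).c x := fun e => by ring
      simp_rw [h0]
      refine (abs_sumc_le χ _ x).trans ?_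
      rw [← hS, Finset.sum_mul]
      refine Finset.sum_le_sum fun e _ => ?_
      rw [abs_mul, abs_of_nonneg (hJ e)]
      refine mul_le_mul_of_nonneg_left ?_ (hJ e)
      exact (cosh_sub_bound (hc1 e)).trans (pow_le_pow_left₀ (abs_nonneg _) (hy e) 4)
    · refine (abs_sums_le χ _ x).trans ?_
      rw [← hS, Finset.sum_mul]
      refine Finset.sum_le_sum fun e _ => ?_
      rw [abs_mul, abs_of_nonneg (hJ e)]
      exact mul_le_mul_of_nonneg_left (hy e) (hJ e)
    · rw [← Finset.sum_sub_distrib]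
      have h0 : ∀ e, J e * Real.sinh (y e) * (χ e).s x - J e * y e * (χ e).s x
          = (J e * (Real.sinh (y e) - y e)) * (χ e).s x := fun e => by ring
      simp_rw [h0]
      refine (abs_sums_le χ _ x).trans ?_
      rw [← hS, Finset.sum_mul]
      refine Finset.sum_le_sum fun e _ => ?_
      rw [abs_mul, abs_of_nonneg (hJ e)]
      refine mul_le_mul_of_nonneg_left ?_ (hJ e)
      exact (sinh_sub_bound (hc1 e)).trans (pow_le_pow_left₀ (abs_nonneg _) (hy e) 3)
  rw [rho_eq μ J χ y fun x => (hpt x).1]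
  have hcc : Continuous (fun x => ∑ e, J e * y e ^ 2 * (χ e).c x) := cont_sumc χ _
  have hss : Continuous (fun x => ∑ e, J e * y e * (χ e).s x) := cont_sums χ _
  have h1 : gibbs μ J χ (fun x => Real.exp (∑ e, J e * (Real.cosh (y e) - 1) * (χ e).c x) *
      Real.cos (∑ e, J e * Real.sinh (y e) * (χ e).s x)) ≤
      gibbs μ J χ (fun x => (1 + (S + 6 * S ^ 2 + 4 * S ^ 3 + 16 * S ^ 4) * Y ^ 4) +
        (1 / 2) * (∑ e, J e * y e ^ 2 * (χ e).c x) +
          (-1 / 2) * (∑ e, J e * y e * (χ e).s x) ^ 2) := by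
    apply gibbs_mono
    · exact (Real.continuous_exp.comp (cont_sumc χ _)).mul
        (Real.continuous_cos.comp (cont_sums χ _))
    · exact (continuous_const.add (continuous_const.mul hcc)).add
        (continuous_const.mul (hss.pow 2))
    · intro x
      have := (hpt x).2
      linarith
  refine h1.trans (le_of_eq ?_)
  have hss2 : Continuous (fun x => (∑ e, J e * y e * (χ e).s x) ^ 2) := hss.pow 2
  rw [gibbs_lin μ J χ _ _ _ hcc hss2, Qform]
  ring

theorem Qform_expand (hJ : ∀ e, 0 ≤ J e) (h v w : κ → ℝ) (habs_h : ∀ e, |h e| ≤ 1)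
    (habs_v : ∀ e, |v e| ≤ 1) (hhv : ∀ e, h e * v e = 0) (hw : ∀ e, |w e| ≤ 1)
    (hcross : gibbs μ J χ (fun x => (∑ e, J e * h e * (χ e).s x) *
      (∑ e, J e * v e * (χ e).s x)) = 0) (S : ℝ) (hS : S = ∑ e, J e) (p q k Y : ℝ)
    (hY : Y = |p| + |q| + |k|) :
    Qform μ J χ (fun e => p * h e + q * v e + k * w e) ≤
      p ^ 2 * Qform μ J χ h + q ^ 2 * Qform μ J χ v + 2 * (S + S ^ 2) * (|k| * Y) := by
  have hS0 : 0 ≤ S := by rw [hS]; exact Finset.sum_nonneg fun e _ => hJ e
  have ch := cont_sumc χ (fun e => J e * h e ^ 2)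
  have cv := cont_sumc χ (fun e => J e * v e ^ 2)
  have sh := cont_sums χ (fun e => J e * h e)
  have sv := cont_sums χ (fun e => J e * v e)
  have e1 : gibbs μ J χ (fun x => ∑ e, J e * (p * h e + q * v e + k * w e) ^ 2 * (χ e).c x) ≤
      2 * S * (|k| * Y) + p ^ 2 * gibbs μ J χ (fun x => ∑ e, J e * h e ^ 2 * (χ e).c x) +
      q ^ 2 * gibbs μ J χ (fun x => ∑ e, J e * v e ^ 2 * (χ e).c x) := by
    rw [← gibbs_lin μ J χ (2 * S * (|k| * Y)) (p ^ 2) (q ^ 2) ch cv]
    apply gibbs_mono
    · exact cont_sumc χ _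
    · exact (continuous_const.add (continuous_const.mul ch)).add (continuous_const.mul cv)
    intro x
    rw [hS, Finset.mul_sum, Finset.mul_sum, Finset.mul_sum, Finset.sum_mul,
      ← Finset.sum_add_distrib, ← Finset.sum_add_distrib]
    refine Finset.sum_le_sum fun e _ => ?_
    have h0 : (p * h e + q * v e + k * w e) ^ 2 = p ^ 2 * h e ^ 2 + q ^ 2 * v e ^ 2 +
        (2 * (p * h e + q * v e) * (k * w e) + (k * w e) ^ 2) := by
      linear_combination (2 * p * q) * hhv e
    have h1 : |(2 * (p * h e + q * v e) * (k * w e) + (k * w e) ^ 2)| ≤ 2 * (|k| * Y) := by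
      have h2 : |k * w e| ≤ |k| := by
        rw [abs_mul]; exact mul_le_of_le_one_right (abs_nonneg _) (hw e)
      have h3 : |p * h e + q * v e| ≤ |p| + |q| := by
        refine (abs_add_le _ _).trans ?_
        rw [abs_mul, abs_mul]
        gcongr
        · exact mul_le_of_le_one_right (abs_nonneg _) (habs_h e)
        · exact mul_le_of_le_one_right (abs_nonneg _) (habs_v e)
      calc |(2 * (p * h e + q * v e) * (k * w e) + (k * w e) ^ 2)|
          ≤ |2 * (p * h e + q * v e) * (k * w e)| + |(k * w e) ^ 2| := abs_add_le _ _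
        _ = 2 * (|p * h e + q * v e| * |k * w e|) + |k * w e| * |k * w e| := by
            rw [abs_mul, abs_mul, abs_pow, abs_two]; ring
        _ ≤ 2 * ((|p| + |q|) * |k|) + |k| * |k| := by gcongr
        _ ≤ 2 * (|k| * Y) := by
            have h5 : 2 * (|k| * Y) - (2 * ((|p| + |q|) * |k|) + |k| * |k|) = |k| * |k| := by
              rw [hY]; ring
            linarith [mul_self_nonneg |k|]
    rw [h0]
    have h2 : (2 * (p * h e + q * v e) * (k * w e) + (k * w e) ^ 2) * (χ e).c x ≤
        2 * (|k| * Y) := by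
      refine (le_abs_self _).trans ?_
      rw [abs_mul]
      refine (mul_le_of_le_one_right (abs_nonneg _) ((χ e).abs_c_le x)).trans h1
    linarith [mul_le_mul_of_nonneg_left h2 (hJ e)]
  have e2 : -(2 * S ^ 2 * (|k| * Y)) +
      p ^ 2 * gibbs μ J χ (fun x => (∑ e, J e * h e * (χ e).s x) ^ 2) +
      q ^ 2 * gibbs μ J χ (fun x => (∑ e, J e * v e * (χ e).s x) ^ 2) +
        (2 * p * q) * gibbs μ J χ (fun x => (∑ e, J e * h e * (χ e).s x) *
          (∑ e, J e * v e * (χ e).s x)) ≤
      gibbs μ J χ (fun x => (∑ e, J e * (p * h e + q * v e + k * w e) * (χ e).s x) ^ 2) := by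
    have sh2 : Continuous (fun x => (∑ e, J e * h e * (χ e).s x) ^ 2) := sh.pow 2
    have sv2 : Continuous (fun x => (∑ e, J e * v e * (χ e).s x) ^ 2) := sv.pow 2
    have shv : Continuous (fun x => (∑ e, J e * h e * (χ e).s x) *
      (∑ e, J e * v e * (χ e).s x)) := sh.mul sv
    rw [← gibbs_lin3 μ J χ (-(2 * S ^ 2 * (|k| * Y))) (p ^ 2) (q ^ 2) (2 * p * q)
      sh2 sv2 shv]
    apply gibbs_mono
    · exact ((continuous_const.add (continuous_const.mul (sh.pow 2))).add
        (continuous_const.mul (sv.pow 2))).add (continuous_const.mul (sh.mul sv))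
    · exact (cont_sums χ _).pow 2
    intro x
    have h0 : ∑ e, J e * (p * h e + q * v e + k * w e) * (χ e).s x =
        p * (∑ e, J e * h e * (χ e).s x) + q * (∑ e, J e * v e * (χ e).s x) +
        k * (∑ e, J e * w e * (χ e).s x) := by
      rw [Finset.mul_sum, Finset.mul_sum, Finset.mul_sum, ← Finset.sum_add_distrib,
        ← Finset.sum_add_distrib]
      exact Finset.sum_congr rfl fun e _ => by ring
    have hbd : ∀ f : κ → ℝ, (∀ e, |f e| ≤ 1) → |∑ e, J e * f e * (χ e).s x| ≤ S := by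
      intro f hf
      rw [hS]
      refine (abs_sums_le χ _ x).trans (Finset.sum_le_sum fun e _ => ?_)
      rw [abs_mul, abs_of_nonneg (hJ e)]
      exact mul_le_of_le_one_right (hJ e) (hf e)
    have b1 := hbd h habs_h
    have b2 := hbd v habs_v
    have b3 := hbd w hw
    rw [h0]
    generalize (∑ e, J e * h e * (χ e).s x) = A at *
    generalize (∑ e, J e * v e * (χ e).s x) = B at *
    generalize (∑ e, J e * w e * (χ e).s x) = W at *
    have h1 : |2 * (p * A + q * B) * (k * W)| ≤ 2 * ((|p| + |q|) * S * (|k| * S)) := by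
      rw [abs_mul, abs_mul, abs_two, mul_assoc, abs_mul k W]
      gcongr
      calc |p * A + q * B| ≤ |p * A| + |q * B| := abs_add_le _ _
        _ = |p| * |A| + |q| * |B| := by rw [abs_mul, abs_mul]
        _ ≤ |p| * S + |q| * S := by gcongr
        _ = (|p| + |q|) * S := by ring
    have h2 := (abs_le.1 h1).1
    have h3 : 2 * ((|p| + |q|) * S * (|k| * S)) ≤ 2 * S ^ 2 * (|k| * Y) := by
      have h5 : 2 * S ^ 2 * (|k| * Y) - 2 * ((|p| + |q|) * S * (|k| * S)) =
        2 * S ^ 2 * (|k| * |k|) := by rw [hY]; ring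
      linarith [mul_nonneg (mul_nonneg zero_le_two (sq_nonneg S))
        (mul_self_nonneg |k|)]
    have h6 : (p * A + q * B + k * W) ^ 2 = p ^ 2 * A ^ 2 + q ^ 2 * B ^ 2 +
      2 * p * q * (A * B) + 2 * (p * A + q * B) * (k * W) + (k * W) ^ 2 := by ring
    rw [h6]
    linarith [sq_nonneg (k * W)]
  rw [hcross] at e2
  unfold Qform
  linarith [e1, e2]

/-- expansion for shifts in the span of two orthogonal directions plus a remainder -/
theorem rho_expand (hJ : ∀ e, 0 ≤ J e) (h v w : κ → ℝ) (habs_h : ∀ e, |h e| ≤ 1)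
    (habs_v : ∀ e, |v e| ≤ 1) (hhv : ∀ e, h e * v e = 0) (hw : ∀ e, |w e| ≤ 1)
    (hcross : gibbs μ J χ (fun x => (∑ e, J e * h e * (χ e).s x) *
      (∑ e, J e * v e * (χ e).s x)) = 0) :
    ∃ C δ : ℝ, 0 < C ∧ 0 < δ ∧ ∀ p q k : ℝ, |p| + |q| + |k| ≤ δ →
      rho μ J χ (fun e => p * h e + q * v e + k * w e) ≤
        Real.exp ((p ^ 2 * Qform μ J χ h + q ^ 2 * Qform μ J χ v) / 2 +
          C * (|k| * (|p| + |q| + |k|) + (|p| + |q| + |k|) ^ 4)) := by
  obtain ⟨S, hS⟩ : ∃ S, S = ∑ e, J e := ⟨_, rfl⟩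
  have hS0 : 0 ≤ S := by rw [hS]; exact Finset.sum_nonneg fun e _ => hJ e
  obtain ⟨D, hD⟩ : ∃ D, D = S + 6 * S ^ 2 + 4 * S ^ 3 + 16 * S ^ 4 := ⟨_, rfl⟩
  have hD0 : 0 ≤ D := by rw [hD]; positivity
  refine ⟨S + S ^ 2 + D + 1, 1 / (2 * S + 1), by positivity, by positivity, ?_⟩
  intro p q k hpqk
  obtain ⟨Y, hY⟩ : ∃ Y, Y = |p| + |q| + |k| := ⟨_, rfl⟩
  have hY0 : 0 ≤ Y := by rw [hY]; positivity
  rw [← hY] at hpqk ⊢
  have hY1 : Y ≤ 1 := hpqk.trans (by
    rw [div_le_one (by positivity)]; linarith)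
  have hSY : 2 * S * Y ≤ 1 := by
    have h1 : 2 * S * Y ≤ 2 * S * (1 / (2 * S + 1)) := mul_le_mul_of_nonneg_left hpqk (by positivity)
    refine h1.trans ?_
    rw [mul_one_div, div_le_one (by positivity)]
    linarith
  have hy : ∀ e, |p * h e + q * v e + k * w e| ≤ Y := by
    intro e
    calc |p * h e + q * v e + k * w e| ≤ |p * h e| + |q * v e| + |k * w e| := by
          refine (abs_add_le _ _).trans ?_
          gcongr
          exact abs_add_le _ _
      _ ≤ |p| + |q| + |k| := by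
          rw [abs_mul, abs_mul, abs_mul]
          gcongr
          · exact mul_le_of_le_one_right (abs_nonneg _) (habs_h e)
          · exact mul_le_of_le_one_right (abs_nonneg _) (habs_v e)
          · exact mul_le_of_le_one_right (abs_nonneg _) (hw e)
      _ = Y := hY.symm
  have hrho := rho_second μ J χ hJ hS.symm _ hY1 hSY hy hY0
  have hQ := Qform_expand μ J χ hJ h v w habs_h habs_v hhv hw hcross S hS p q k Y hY
  rw [← hD] at hrho
  refine hrho.trans ?_
  have hY4 : 0 ≤ Y ^ 4 := by positivity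
  have hkY : 0 ≤ |k| * Y := by positivity
  have h1 : 0 ≤ (D + 1) * (|k| * Y) := by positivity
  have h2 : 0 ≤ (S + S ^ 2 + 1) * Y ^ 4 := by positivity
  generalize Qform μ J χ (fun e => p * h e + q * v e + k * w e) = Q0 at *
  generalize Qform μ J χ h = Q1 at *
  generalize Qform μ J χ v = Q2 at *
  have hfin : 1 + Q0 / 2 + D * Y ^ 4 ≤ ((p ^ 2 * Q1 + q ^ 2 * Q2) / 2 +
          (S + S ^ 2 + D + 1) * (|k| * Y + Y ^ 4)) + 1 := by
    linarith only [h1, h2, hQ]
  exact hfin.trans (Real.add_one_le_exp _)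

end Expand

end Vale.Agent.P159
end

section

/-!
Real version of the four replica inequality:
`Z t ^ 2 * Z s ^ 2 ≤ Z (t + s) * Z (t - s) * Z 0 ^ 2`.
-/

open MeasureTheory Filter Topology
open scoped BigOperators

namespace Vale.Agent.P159

namespace UJ

section Four

variable {G : Type*} [AddCommGroup G] [TopologicalSpace G] [IsTopologicalAddGroup G]
  [CompactSpace G] [SecondCountableTopology G] [MeasurableSpace G] [BorelSpace G]
  (μ : Measure G) [μ.IsAddHaarMeasure] [IsProbabilityMeasure μ]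
  {κ : Type*} [Fintype κ] (J : κ → ℝ) (χ : κ → Chr G)

/-- partition function with real shifts of the bonds -/
noncomputable def Zr (t : κ → ℝ) : ℝ := ∫ x, Real.exp (∑ e, J e *
      ((χ e).c x * Real.cos (t e) - (χ e).s x * Real.sin (t e))) ∂μ

theorem Zr_cont_integrand (t : κ → ℝ) : Continuous (fun x : G => Real.exp (∑ e, J e *
      ((χ e).c x * Real.cos (t e) - (χ e).s x * Real.sin (t e)))) := by
  refine Real.continuous_exp.comp (continuous_finsetSum _ fun e _ => ?_)
  exact continuous_const.mul (((χ e).cont_c.mul continuous_const).sub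
    ((χ e).cont_s.mul continuous_const))

theorem Zr_pos (t : κ → ℝ) : 0 < Zr μ J χ t :=
  integral_exp_pos (cint (Zr_cont_integrand J χ t))

theorem ZZ_eq_Zr (t : κ → ℝ) : ZZ μ J χ (fun e => (t e : ℂ)) = (Zr μ J χ t : ℂ) := by
  unfold ZZ Chr.C Zr
  rw [← integral_complex_ofReal]
  congr 1
  ext x
  push_cast
  rfl

theorem Zr_neg (t : κ → ℝ) : Zr μ J χ (-t) = Zr μ J χ t := by
  unfold Zr
  have h := integral_neg_eq_self (fun x => Real.exp (∑ e, J e *
      ((χ e).c x * Real.cos (t e) - (χ e).s x * Real.sin (t e)))) μ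
  rw [← h]
  congr 1
  ext x
  congr 1
  refine Finset.sum_congr rfl fun e _ => ?_
  rw [Chr.c_neg, Chr.s_neg, Pi.neg_apply, Real.cos_neg, Real.sin_neg]
  ring

theorem tr_neg (p : κ → ℂ) (k : κ ⊕ κ) (x : G) :
    tr χ (-p) k (-x) = (Sum.elim (fun _ => (1 : ℂ)) (fun _ => -1) k) * tr χ p k x := by
  unfold tr
  rcases k with e | e
  · simp only [Sum.elim_inl, Chr.C, Chr.c_neg, Chr.s_neg, Pi.neg_apply, Complex.cos_neg,
      Complex.sin_neg]
    push_cast
    ring
  · simp only [Sum.elim_inr, Chr.S, Chr.c_neg, Chr.s_neg, Pi.neg_apply, Complex.cos_neg,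
      Complex.sin_neg]
    push_cast
    ring

theorem MM_neg {n : ℕ} (w : Fin n → κ ⊕ κ) (p : κ → ℂ) :
    MM μ χ w (-p) = MM μ χ w p ∨ MM μ χ w (-p) = - MM μ χ w p := by
  have h1 : MM μ χ w (-p) = (∏ i, (Sum.elim (fun _ => (1 : ℂ)) (fun _ => -1) (w i))) *
      MM μ χ w p := by
    unfold MM
    rw [← integral_neg_eq_self, ← integral_const_mul]
    congr 1
    ext x
    simp_rw [tr_neg]
    rw [Finset.prod_mul_distrib]
  have h2 : (∏ i, (Sum.elim (fun _ => (1 : ℂ)) (fun _ => -1) (w i) : ℂ)) = 1 ∨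
      (∏ i, (Sum.elim (fun _ => (1 : ℂ)) (fun _ => -1) (w i) : ℂ)) = -1 := by
    have : ∀ S : Finset (Fin n), (∏ i ∈ S, (Sum.elim (fun _ => (1 : ℂ)) (fun _ => -1) (w i) : ℂ)) = 1
        ∨ (∏ i ∈ S, (Sum.elim (fun _ => (1 : ℂ)) (fun _ => -1) (w i) : ℂ)) = -1 := by
      intro S
      induction S using Finset.induction_on with
      | empty => left; simp
      | insert a S ha ih =>
        rw [Finset.prod_insert ha]
        rcases ih with h | h <;> rw [h] <;> rcases w a with e | e <;> simp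
    exact this _
  rcases h2 with h | h
  · left; rw [h1, h, one_mul]
  · right; rw [h1, h]; ring

theorem MM_real {n : ℕ} (w : Fin n → κ ⊕ κ) (p : κ → ℂ)
    (hp : ∀ e, (starRingEnd ℂ) (p e) = p e) : MM μ χ w p = ((MM μ χ w p).re : ℂ) := by
  have : (starRingEnd ℂ) (MM μ χ w p) = MM μ χ w p := by
    rw [MM_conj]
    congr 1
    ext e
    exact hp e
  exact (Complex.conj_eq_iff_re.1 this).symm

theorem LL_le_real (hJ : ∀ e, 0 ≤ J e) (p r : κ → ℂ) (hp : ∀ e, (starRingEnd ℂ) (p e) = p e)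
    (hr : ∀ e, (starRingEnd ℂ) (r e) = r e) :
    ‖LL μ J χ p p r (-r)‖ ≤ ‖LL μ J χ p p r r‖ := by
  have h1 := LL_hasSum μ J χ p p r (-r)
  have h2 := Complex.hasSum_re (LL_hasSum μ J χ p p r r)
  refine (HasSum.norm_le_of_bounded h1 h2 fun n => ?_).trans (Complex.re_le_norm _)
  have hl : ∀ w : Fin n → κ ⊕ κ, (∏ i, (Sum.elim (fun e => 4 * (J e : ℂ))
      (fun e => 4 * (J e : ℂ)) (w i))) = ((∏ i, (Sum.elim (fun e => 4 * J e)
      (fun e => 4 * J e) (w i)) : ℝ) : ℂ) := by
    intro w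
    push_cast
    refine Finset.prod_congr rfl fun i _ => ?_
    rcases w i with e | e <;> simp
  have hl0 : ∀ w : Fin n → κ ⊕ κ, 0 ≤ (∏ i, (Sum.elim (fun e => 4 * J e)
      (fun e => 4 * J e) (w i)) : ℝ) := by
    intro w
    refine Finset.prod_nonneg fun i _ => ?_
    rcases w i with e | e
    · simpa using hJ e
    · simpa using hJ e
  have hterm : ∀ w : Fin n → κ ⊕ κ, (∏ i, (Sum.elim (fun e => 4 * (J e : ℂ))
      (fun e => 4 * (J e : ℂ)) (w i))) * ((MM μ χ w p * MM μ χ w r) *
      (MM μ χ w p * MM μ χ w r)) = (((∏ i, (Sum.elim (fun e => 4 * J e)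
      (fun e => 4 * J e) (w i))) * ((MM μ χ w p).re ^ 2 * (MM μ χ w r).re ^ 2) : ℝ) : ℂ) := by
    intro w
    rw [hl, MM_real μ χ w p hp, MM_real μ χ w r hr]
    push_cast
    simp only [Complex.ofReal_re]
    ring
  unfold cof
  simp_rw [hterm]
  rw [norm_div, Complex.norm_natCast]
  rw [← Complex.ofReal_sum, ← Complex.ofReal_natCast, ← Complex.ofReal_div, Complex.ofReal_re]
  gcongr
  refine (norm_sum_le _ _).trans (Finset.sum_le_sum fun w _ => ?_)
  rw [hl, norm_mul, Complex.norm_real, Real.norm_of_nonneg (hl0 w)]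
  refine mul_le_mul_of_nonneg_left ?_ (hl0 w)
  have h3 : ‖MM μ χ w (-r)‖ = ‖MM μ χ w r‖ := by
    rcases MM_neg μ χ w r with h | h
    · rw [h]
    · rw [h, norm_neg]
  have h4 : ∀ q : κ → ℂ, (∀ e, (starRingEnd ℂ) (q e) = q e) →
      ‖MM μ χ w q‖ ^ 2 = (MM μ χ w q).re ^ 2 := by
    intro q hq
    rw [MM_real μ χ w q hq, Complex.norm_real, Complex.ofReal_re, Real.norm_eq_abs, sq_abs]
  rw [norm_mul, norm_mul, norm_mul, h3, ← h4 p hp, ← h4 r hr]
  apply le_of_eq
  ring

variable (h2 : ∀ g : G, ∃ h : G, h + h = g)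

include h2 in
/-- the real four replica inequality -/
theorem four (hJ : ∀ e, 0 ≤ J e) (t s : κ → ℝ) :
    Zr μ J χ t ^ 2 * Zr μ J χ s ^ 2 ≤ Zr μ J χ (t + s) * Zr μ J χ (t - s) * Zr μ J χ 0 ^ 2 := by
  set p : κ → ℂ := fun e => ((t e / 2 : ℝ) : ℂ) with hp
  set r : κ → ℂ := fun e => ((s e / 2 : ℝ) : ℂ) with hr
  have key := LL_le_real μ J χ hJ p r (fun e => Complex.conj_ofReal _)
    (fun e => Complex.conj_ofReal _)
  rw [← KK_mul_KK μ J χ h2, ← KK_mul_KK μ J χ h2] at key
  have e1 : p + p = fun e => (t e : ℂ) := by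
    ext e; simp only [hp, Pi.add_apply]; push_cast; ring
  have e2 : p - p = 0 := sub_self _
  have e3 : r + r = fun e => (s e : ℂ) := by
    ext e; simp only [hr, Pi.add_apply]; push_cast; ring
  have e4 : r - r = 0 := sub_self _
  have e5 : r + -r = 0 := add_neg_cancel _
  have e6 : r - -r = fun e => (s e : ℂ) := by
    rw [sub_neg_eq_add, e3]
  rw [e1, e2, e3, e4, e5, e6] at key
  rw [← ZZ_mul_ZZ μ J χ h2, ← ZZ_mul_ZZ μ J χ h2, ← ZZ_mul_ZZ μ J χ h2,
    ← ZZ_mul_ZZ μ J χ h2] at key
  have c0 : (0 : κ → ℂ) = fun e => (((0 : κ → ℝ) e : ℝ) : ℂ) := by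
    ext e; simp
  have c1 : ((fun e => (t e : ℂ)) + fun e => (s e : ℂ)) = fun e => (((t + s) e : ℝ) : ℂ) := by
    ext e; simp
  have c2 : ((fun e => (t e : ℂ)) - fun e => (s e : ℂ)) = fun e => (((t - s) e : ℝ) : ℂ) := by
    ext e; simp
  have c3 : (0 : κ → ℂ) - (fun e => (s e : ℂ)) = fun e => (((-s) e : ℝ) : ℂ) := by
    ext e; simp
  rw [add_zero, sub_zero, zero_add, add_zero, sub_zero, c1, c2, c3, c0] at key
  simp only [ZZ_eq_Zr, norm_mul, Complex.norm_real, Zr_neg] at key
  simp only [Real.norm_of_nonneg (Zr_pos μ J χ _).le] at key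
  have e7 : (fun e : κ => t e) = t := rfl
  have e8 : (fun e : κ => s e) = s := rfl
  have e9 : (fun e : κ => (0 : κ → ℝ) e) = 0 := rfl
  nlinarith only [key]

include h2 in
/-- real shifts decrease the partition function -/
theorem Zr_le (hJ : ∀ e, 0 ≤ J e) (t : κ → ℝ) : Zr μ J χ t ≤ Zr μ J χ 0 := by
  by_contra hlt
  push Not at hlt
  set z0 := Zr μ J χ 0 with hz0
  have hz0p : 0 < z0 := Zr_pos μ J χ 0
  have hstep : ∀ s : κ → ℝ, (Zr μ J χ s / z0) ^ 4 ≤ Zr μ J χ (s + s) / z0 := by
    intro s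
    have h := four μ J χ h2 hJ s s
    rw [sub_self, ← hz0] at h
    rw [div_pow, div_le_div_iff₀ (by positivity) hz0p]
    nlinarith only [hz0p, h]
  set q := Zr μ J χ t / z0 with hq
  have hq1 : 1 < q := (one_lt_div hz0p).2 hlt
  have hiter : ∀ n : ℕ, q ^ (4 ^ n) ≤ Zr μ J χ ((2 : ℝ) ^ n • t) / z0 := by
    intro n
    induction n with
    | zero => simp [hq]
    | succ n ih =>
      have h1 := hstep ((2 : ℝ) ^ n • t)
      have h3 : (2 : ℝ) ^ n • t + (2 : ℝ) ^ n • t = (2 : ℝ) ^ (n + 1) • t := by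
        rw [← add_smul]; congr 1; ring
      rw [h3] at h1
      refine le_trans ?_ h1
      rw [pow_succ, pow_mul]
      exact pow_le_pow_left₀ (by positivity) ih 4
  have hbd : ∀ s : κ → ℝ, Zr μ J χ s ≤ Real.exp (∑ e, J e * 2) := by
    intro s
    have h1 : Zr μ J χ s ≤ ∫ _x : G, Real.exp (∑ e, J e * 2) ∂μ := by
      unfold Zr
      refine integral_mono (cint (Zr_cont_integrand J χ s)) (integrable_const _) fun x => ?_
      refine Real.exp_le_exp.2 (Finset.sum_le_sum fun e _ => mul_le_mul_of_nonneg_left ?_ (hJ e))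
      have a1 : |(χ e).c x * Real.cos (s e)| ≤ 1 := by
        rw [abs_mul]
        exact mul_le_one₀ ((χ e).abs_c_le x) (abs_nonneg _) (Real.abs_cos_le_one _)
      have a2 : |(χ e).s x * Real.sin (s e)| ≤ 1 := by
        rw [abs_mul]
        exact mul_le_one₀ ((χ e).abs_s_le x) (abs_nonneg _) (Real.abs_sin_le_one _)
      linarith [(abs_le.1 a1).2, (abs_le.1 a2).1]
    simpa only [ge_iff_le, integral_const, probReal_univ, smul_eq_mul, one_mul] using h1
  have htend : Tendsto (fun n : ℕ => q ^ (4 ^ n)) atTop atTop :=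
    (tendsto_pow_atTop_atTop_of_one_lt hq1).comp (tendsto_pow_atTop_atTop_of_one_lt (by norm_num))
  obtain ⟨n, hn⟩ := (htend.eventually (eventually_gt_atTop
    (Real.exp (∑ e, J e * 2) / z0))).exists
  have h5 := (hiter n).trans (div_le_div_of_nonneg_right (hbd _) hz0p.le)
  linarith

end Four

end UJ

end Vale.Agent.P159
end
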