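import Vale.Agent.P159.MathlibUsed
import Vale.Agent.P159.Bdl.B1

set_option linter.all false

section

/-!
Expectations in a cell with shifted bonds, and their expansions.
-/

open MeasureTheory Filter Topology
open scoped BigOperators

namespace Vale.Agent.P159

namespace UJ

section Cell

variable {G : Type*} [AddCommGroup G] [TopologicalSpace G]
  {κ : Type*} [Fintype κ] (J : κ → ℝ) (χ : κ → Chr G)

/-- cosine of the shifted bond variable -/
noncomputable def Ct (t : κ → ℝ) (e : κ) (x : G) : ℝ :=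
  (χ e).c x * Real.cos (t e) - (χ e).s x * Real.sin (t e)

/-- sine of the shifted bond variable -/
noncomputable def St (t : κ → ℝ) (e : κ) (x : G) : ℝ :=
  (χ e).s x * Real.cos (t e) + (χ e).c x * Real.sin (t e)

/-- energy with shifts -/
noncomputable def Ht (t : κ → ℝ) (x : G) : ℝ := ∑ e, J e * Ct χ t e x

/-- current in the direction `a` -/
noncomputable def Jt (t a : κ → ℝ) (x : G) : ℝ := ∑ e, J e * a e * St χ t e x

/-- diamagnetic term -/
noncomputable def Bt (t a a' : κ → ℝ) (x : G) : ℝ := ∑ e, J e * (a e * a' e) * Ct χ t e x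

theorem cont_Ct (t : κ → ℝ) (e : κ) : Continuous (Ct χ t e) :=
  ((χ e).cont_c.mul continuous_const).sub ((χ e).cont_s.mul continuous_const)

theorem cont_St (t : κ → ℝ) (e : κ) : Continuous (St χ t e) :=
  ((χ e).cont_s.mul continuous_const).add ((χ e).cont_c.mul continuous_const)

theorem cont_Ht (t : κ → ℝ) : Continuous (Ht J χ t) :=
  continuous_finsetSum _ fun e _ => continuous_const.mul (cont_Ct χ t e)

theorem cont_Jt (t a : κ → ℝ) : Continuous (Jt J χ t a) :=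
  continuous_finsetSum _ fun e _ => continuous_const.mul (cont_St χ t e)

theorem cont_Bt (t a a' : κ → ℝ) : Continuous (Bt J χ t a a') :=
  continuous_finsetSum _ fun e _ => continuous_const.mul (cont_Ct χ t e)

theorem Ct_sq (t : κ → ℝ) (e : κ) (x : G) : Ct χ t e x ^ 2 + St χ t e x ^ 2 = 1 := by
  unfold Ct St
  have h1 := (χ e).norm_sq x
  have h2 := Real.sin_sq_add_cos_sq (t e)
  linear_combination (Real.sin (t e) ^ 2 + Real.cos (t e) ^ 2) * h1 + h2

theorem abs_Ct (t : κ → ℝ) (e : κ) (x : G) : |Ct χ t e x| ≤ 1 := by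
  have := Ct_sq χ t e x
  exact abs_le_one_iff_mul_self_le_one.2 (by nlinarith only [this])

theorem abs_St (t : κ → ℝ) (e : κ) (x : G) : |St χ t e x| ≤ 1 := by
  have := Ct_sq χ t e x
  exact abs_le_one_iff_mul_self_le_one.2 (by nlinarith only [this])

theorem Ct_add (t a : κ → ℝ) (e : κ) (x : G) : Ct χ (t + a) e x =
    Ct χ t e x * Real.cos (a e) - St χ t e x * Real.sin (a e) := by
  unfold Ct St
  rw [Pi.add_apply, Real.cos_add, Real.sin_add]
  ring

theorem St_add (t a : κ → ℝ) (e : κ) (x : G) : St χ (t + a) e x =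
    St χ t e x * Real.cos (a e) + Ct χ t e x * Real.sin (a e) := by
  unfold Ct St
  rw [Pi.add_apply, Real.cos_add, Real.sin_add]
  ring

theorem abs_Jt_le (hJ : ∀ e, 0 ≤ J e) {t a : κ → ℝ} {Y : ℝ} (ha : ∀ e, |a e| ≤ Y) (x : G) :
    |Jt J χ t a x| ≤ (∑ e, J e) * Y := by
  unfold Jt
  refine (Finset.abs_sum_le_sum_abs _ _).trans ?_
  rw [Finset.sum_mul]
  refine Finset.sum_le_sum fun e _ => ?_
  rw [abs_mul, abs_mul, abs_of_nonneg (hJ e)]
  have h1 : |a e| * |St χ t e x| ≤ Y * 1 := mul_le_mul (ha e) (abs_St χ t e x) (abs_nonneg _)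
    ((abs_nonneg _).trans (ha e))
  nlinarith only [h1, hJ e]

theorem abs_Bt_le (hJ : ∀ e, 0 ≤ J e) {t a a' : κ → ℝ} {Y Y' : ℝ} (ha : ∀ e, |a e| ≤ Y)
    (ha' : ∀ e, |a' e| ≤ Y') (x : G) :
    |Bt J χ t a a' x| ≤ (∑ e, J e) * (Y * Y') := by
  unfold Bt
  refine (Finset.abs_sum_le_sum_abs _ _).trans ?_
  rw [Finset.sum_mul]
  refine Finset.sum_le_sum fun e _ => ?_
  rw [abs_mul, abs_mul, abs_mul, abs_of_nonneg (hJ e)]
  have h0 : |a e| * |a' e| ≤ Y * Y' := mul_le_mul (ha e) (ha' e) (abs_nonneg _)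
    ((abs_nonneg _).trans (ha e))
  have h1 : |a e| * |a' e| * |Ct χ t e x| ≤ Y * Y' * 1 :=
    mul_le_mul h0 (abs_Ct χ t e x) (abs_nonneg _) ((mul_nonneg (abs_nonneg _)
      (abs_nonneg _)).trans h0)
  nlinarith only [h1, hJ e]

theorem cos_bd1 {a : ℝ} (ha : |a| ≤ 1) : |Real.cos a - 1 + a ^ 2 / 2| ≤ |a| ^ 3 := by
  have h := Real.cos_bound ha
  have h1 : |a| ^ 4 ≤ |a| ^ 3 := pow_le_pow_of_le_one (abs_nonneg _) ha (by norm_num)
  have h2 : Real.cos a - 1 + a ^ 2 / 2 = Real.cos a - (1 - a ^ 2 / 2) := by ring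
  rw [h2]
  nlinarith only [h, h1, pow_nonneg (abs_nonneg a) 3]

theorem sin_bd1 {a : ℝ} (ha : |a| ≤ 1) : |Real.sin a - a| ≤ |a| ^ 3 := by
  have h := Real.sin_bound ha
  have h1 : |a| ^ 5 ≤ |a| ^ 3 := pow_le_pow_of_le_one (abs_nonneg _) ha (by norm_num)
  have h3 : |a ^ 3 / 6| = |a| ^ 3 / 6 := by rw [abs_div, abs_pow]; norm_num
  calc |Real.sin a - a| = |(Real.sin a - (a - a ^ 3 / 6)) - a ^ 3 / 6| := by ring_nf
    _ ≤ |Real.sin a - (a - a ^ 3 / 6)| + |a ^ 3 / 6| := abs_sub _ _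
    _ ≤ |a| ^ 5 / 100 + |a| ^ 3 / 6 := by rw [h3]; (clear * - h; gcongr)
    _ ≤ |a| ^ 3 := by nlinarith only [h1, pow_nonneg (abs_nonneg a) 3]

theorem Ct_taylor2 (t a : κ → ℝ) (e : κ) (x : G) (ha : |a e| ≤ 1) :
    |Ct χ (t + a) e x - Ct χ t e x + a e * St χ t e x + a e ^ 2 / 2 * Ct χ t e x| ≤
      2 * |a e| ^ 3 := by
  rw [Ct_add]
  have h1 := cos_bd1 ha
  have h2 := sin_bd1 ha
  have e1 : Ct χ t e x * Real.cos (a e) - St χ t e x * Real.sin (a e) - Ct χ t e x +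
      a e * St χ t e x + a e ^ 2 / 2 * Ct χ t e x =
      Ct χ t e x * (Real.cos (a e) - 1 + a e ^ 2 / 2) - St χ t e x * (Real.sin (a e) - a e) := by
    ring
  rw [e1]
  refine (abs_sub _ _).trans ?_
  rw [abs_mul, abs_mul]
  have h3 : |Ct χ t e x| * |Real.cos (a e) - 1 + a e ^ 2 / 2| ≤ 1 * |a e| ^ 3 :=
    mul_le_mul (abs_Ct χ t e x) h1 (abs_nonneg _) zero_le_one
  have h4 : |St χ t e x| * |Real.sin (a e) - a e| ≤ 1 * |a e| ^ 3 :=
    mul_le_mul (abs_St χ t e x) h2 (abs_nonneg _) zero_le_one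
  linarith only [h3, h4]

theorem Ct_taylor1 (t a : κ → ℝ) (e : κ) (x : G) (ha : |a e| ≤ 1) :
    |Ct χ (t + a) e x - Ct χ t e x + a e * St χ t e x| ≤ 3 * |a e| ^ 2 := by
  have h := Ct_taylor2 χ t a e x ha
  have h1 : |a e| ^ 3 ≤ |a e| ^ 2 := pow_le_pow_of_le_one (abs_nonneg _) ha (by norm_num)
  have h2 : |a e ^ 2 / 2 * Ct χ t e x| ≤ |a e| ^ 2 / 2 := by
    rw [abs_mul, abs_div, abs_pow, abs_two]
    exact mul_le_of_le_one_right (by (clear * -; positivity)) (abs_Ct χ t e x)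
  have e1 : Ct χ (t + a) e x - Ct χ t e x + a e * St χ t e x =
    (Ct χ (t + a) e x - Ct χ t e x + a e * St χ t e x + a e ^ 2 / 2 * Ct χ t e x) -
      a e ^ 2 / 2 * Ct χ t e x := by ring
  rw [e1]
  refine (abs_sub _ _).trans ?_
  nlinarith only [h, h1, h2]

theorem St_taylor1 (t a : κ → ℝ) (e : κ) (x : G) (ha : |a e| ≤ 1) :
    |St χ (t + a) e x - St χ t e x - a e * Ct χ t e x| ≤ 3 * |a e| ^ 2 := by
  rw [St_add]
  have h1 := cos_bd1 ha
  have h2 := sin_bd1 ha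
  have h5 : |a e| ^ 3 ≤ |a e| ^ 2 := pow_le_pow_of_le_one (abs_nonneg _) ha (by norm_num)
  have e1 : St χ t e x * Real.cos (a e) + Ct χ t e x * Real.sin (a e) - St χ t e x -
      a e * Ct χ t e x =
      St χ t e x * (Real.cos (a e) - 1 + a e ^ 2 / 2) + Ct χ t e x * (Real.sin (a e) - a e)
      - St χ t e x * (a e ^ 2 / 2) := by
    ring
  rw [e1]
  refine (abs_sub _ _).trans ?_
  have h6 := abs_add_le (St χ t e x * (Real.cos (a e) - 1 + a e ^ 2 / 2))
    (Ct χ t e x * (Real.sin (a e) - a e))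
  rw [abs_mul, abs_mul] at h6
  have h3 : |St χ t e x| * |Real.cos (a e) - 1 + a e ^ 2 / 2| ≤ 1 * |a e| ^ 3 :=
    mul_le_mul (abs_St χ t e x) h1 (abs_nonneg _) zero_le_one
  have h4 : |Ct χ t e x| * |Real.sin (a e) - a e| ≤ 1 * |a e| ^ 3 :=
    mul_le_mul (abs_Ct χ t e x) h2 (abs_nonneg _) zero_le_one
  have h7 : |St χ t e x * (a e ^ 2 / 2)| ≤ |a e| ^ 2 / 2 := by
    rw [abs_mul, abs_div, abs_pow, abs_two]
    exact mul_le_of_le_one_left (by positivity) (abs_St χ t e x)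
  nlinarith only [h5, h6, h3, h4, h7]

/-- energy difference to second order -/
theorem Ht_taylor2 (hJ : ∀ e, 0 ≤ J e) {t a : κ → ℝ} {Y : ℝ} (hY1 : Y ≤ 1)
    (ha : ∀ e, |a e| ≤ Y) (x : G) :
    |Ht J χ (t + a) x - Ht J χ t x + Jt J χ t a x + Bt J χ t a a x / 2| ≤
      2 * (∑ e, J e) * Y ^ 3 := by
  unfold Ht Jt Bt
  rw [Finset.sum_div, ← Finset.sum_sub_distrib, ← Finset.sum_add_distrib,
    ← Finset.sum_add_distrib]
  refine (Finset.abs_sum_le_sum_abs _ _).trans ?_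
  rw [mul_comm 2, mul_assoc, Finset.sum_mul]
  refine Finset.sum_le_sum fun e _ => ?_
  have h := Ct_taylor2 χ t a e x ((ha e).trans hY1)
  have e1 : J e * Ct χ (t + a) e x - J e * Ct χ t e x + J e * a e * St χ t e x +
      J e * (a e * a e) * Ct χ t e x / 2 = J e * (Ct χ (t + a) e x - Ct χ t e x +
      a e * St χ t e x + a e ^ 2 / 2 * Ct χ t e x) := by ring
  rw [e1, abs_mul, abs_of_nonneg (hJ e)]
  refine mul_le_mul_of_nonneg_left (h.trans ?_) (hJ e)
  have : |a e| ^ 3 ≤ Y ^ 3 := pow_le_pow_left₀ (abs_nonneg _) (ha e) 3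
  linarith only [this]

theorem Ht_taylor1 (hJ : ∀ e, 0 ≤ J e) {t a : κ → ℝ} {Y : ℝ} (hY1 : Y ≤ 1)
    (ha : ∀ e, |a e| ≤ Y) (x : G) :
    |Ht J χ (t + a) x - Ht J χ t x + Jt J χ t a x| ≤ 3 * (∑ e, J e) * Y ^ 2 := by
  unfold Ht Jt
  rw [← Finset.sum_sub_distrib, ← Finset.sum_add_distrib]
  refine (Finset.abs_sum_le_sum_abs _ _).trans ?_
  rw [mul_comm 3, mul_assoc, Finset.sum_mul]
  refine Finset.sum_le_sum fun e _ => ?_
  have h := Ct_taylor1 χ t a e x ((ha e).trans hY1)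
  have e1 : J e * Ct χ (t + a) e x - J e * Ct χ t e x + J e * a e * St χ t e x =
      J e * (Ct χ (t + a) e x - Ct χ t e x + a e * St χ t e x) := by ring
  rw [e1, abs_mul, abs_of_nonneg (hJ e)]
  refine mul_le_mul_of_nonneg_left (h.trans ?_) (hJ e)
  have : |a e| ^ 2 ≤ Y ^ 2 := pow_le_pow_left₀ (abs_nonneg _) (ha e) 2
  (clear * - this; linarith)

/-- current in the shifted state -/
theorem Jt_taylor1 (hJ : ∀ e, 0 ≤ J e) {t a h : κ → ℝ} {Y : ℝ} (hY1 : Y ≤ 1)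
    (ha : ∀ e, |a e| ≤ Y) (hh : ∀ e, |h e| ≤ 1) (x : G) :
    |Jt J χ (t + a) h x - Jt J χ t h x - Bt J χ t h a x| ≤ 3 * (∑ e, J e) * Y ^ 2 := by
  unfold Jt Bt
  rw [← Finset.sum_sub_distrib, ← Finset.sum_sub_distrib]
  refine (Finset.abs_sum_le_sum_abs _ _).trans ?_
  rw [mul_comm 3, mul_assoc, Finset.sum_mul]
  refine Finset.sum_le_sum fun e _ => ?_
  have h0 := St_taylor1 χ t a e x ((ha e).trans hY1)
  have e1 : J e * h e * St χ (t + a) e x - J e * h e * St χ t e x -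
      J e * (h e * a e) * Ct χ t e x =
      J e * (h e * (St χ (t + a) e x - St χ t e x - a e * Ct χ t e x)) := by ring
  rw [e1, abs_mul, abs_of_nonneg (hJ e), abs_mul]
  refine mul_le_mul_of_nonneg_left ?_ (hJ e)
  have : |a e| ^ 2 ≤ Y ^ 2 := pow_le_pow_left₀ (abs_nonneg _) (ha e) 2
  calc |h e| * |St χ (t + a) e x - St χ t e x - a e * Ct χ t e x|
      ≤ 1 * (3 * |a e| ^ 2) := mul_le_mul (hh e) h0 (abs_nonneg _) zero_le_one
    _ ≤ 3 * Y ^ 2 := by linarith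

end Cell

section Ex

variable {G : Type*} [AddCommGroup G] [TopologicalSpace G] [IsTopologicalAddGroup G]
  [CompactSpace G] [SecondCountableTopology G] [MeasurableSpace G] [BorelSpace G]
  (μ : Measure G) [μ.IsAddHaarMeasure] [IsProbabilityMeasure μ]
  {κ : Type*} [Fintype κ] (J : κ → ℝ) (χ : κ → Chr G)

/-- expectation with shifts `t` -/
noncomputable def ex (t : κ → ℝ) (f : G → ℝ) : ℝ :=
  (∫ x, f x * Real.exp (Ht J χ t x) ∂μ) / Zr μ J χ t

theorem Zr_eq (t : κ → ℝ) : Zr μ J χ t = ∫ x, Real.exp (Ht J χ t x) ∂μ := rfl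

theorem cont_expH (t : κ → ℝ) : Continuous (fun x => Real.exp (Ht J χ t x)) :=
  Real.continuous_exp.comp (cont_Ht J χ t)

theorem ex_mono {t : κ → ℝ} {f g : G → ℝ} (hf : Continuous f) (hg : Continuous g)
    (h : ∀ x, f x ≤ g x) : ex μ J χ t f ≤ ex μ J χ t g := by
  unfold ex
  refine div_le_div_of_nonneg_right ?_ (Zr_pos μ J χ t).le
  exact integral_mono (cint (hf.mul (cont_expH J χ t))) (cint (hg.mul (cont_expH J χ t)))
    fun x => mul_le_mul_of_nonneg_right (h x) (Real.exp_pos _).le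

theorem ex_const (t : κ → ℝ) (a : ℝ) : ex μ J χ t (fun _ => a) = a := by
  unfold ex
  rw [integral_const_mul, ← Zr_eq, mul_div_assoc, div_self (Zr_pos μ J χ t).ne', mul_one]

theorem ex_add {t : κ → ℝ} {f g : G → ℝ} (hf : Continuous f) (hg : Continuous g) :
    ex μ J χ t (fun x => f x + g x) = ex μ J χ t f + ex μ J χ t g := by
  have h := integral_add (μ := μ) (f := fun x => f x * Real.exp (Ht J χ t x))
    (g := fun x => g x * Real.exp (Ht J χ t x))
    (cint (hf.mul (cont_expH J χ t))) (cint (hg.mul (cont_expH J χ t)))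
  unfold ex
  rw [← add_div, ← h]
  congr 2
  ext x
  ring

theorem ex_const_mul (t : κ → ℝ) (a : ℝ) (f : G → ℝ) :
    ex μ J χ t (fun x => a * f x) = a * ex μ J χ t f := by
  unfold ex
  rw [← mul_div_assoc, ← integral_const_mul]
  congr 2
  ext x
  ring

theorem ex_sub {t : κ → ℝ} {f g : G → ℝ} (hf : Continuous f) (hg : Continuous g) :
    ex μ J χ t (fun x => f x - g x) = ex μ J χ t f - ex μ J χ t g := by
  have hg' : Continuous (fun x => (-1 : ℝ) * g x) := continuous_const.mul hg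
  have h := ex_add μ J χ (t := t) hf hg'
  rw [ex_const_mul] at h
  have h2 : (fun x => f x - g x) = fun x => f x + -1 * g x := by ext x; ring
  rw [h2, h]
  ring

theorem ex_neg (t : κ → ℝ) (f : G → ℝ) : ex μ J χ t (fun x => - f x) = - ex μ J χ t f := by
  have h := ex_const_mul μ J χ t (-1) f
  simpa only [neg_mul, one_mul] using h

theorem ex_abs_le {t : κ → ℝ} {f : G → ℝ} (hf : Continuous f) {M : ℝ} (h : ∀ x, |f x| ≤ M) :
    |ex μ J χ t f| ≤ M := by
  rw [abs_le]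
  constructor
  · have := ex_mono μ J χ (t := t) (continuous_const (y := -M)) hf fun x => (abs_le.1 (h x)).1
    rwa [ex_const] at this
  · have := ex_mono μ J χ (t := t) hf (continuous_const (y := M)) fun x => (abs_le.1 (h x)).2
    rwa [ex_const] at this

theorem ex_close {t : κ → ℝ} {f g : G → ℝ} (hf : Continuous f) (hg : Continuous g) {M : ℝ}
    (h : ∀ x, |f x - g x| ≤ M) : |ex μ J χ t f - ex μ J χ t g| ≤ M := by
  rw [← ex_sub μ J χ hf hg]
  exact ex_abs_le μ J χ (hf.sub hg) h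

/-- ratio of partition functions as an expectation -/
theorem Zr_ratio (t a : κ → ℝ) : Zr μ J χ (t + a) / Zr μ J χ t =
    ex μ J χ t (fun x => Real.exp (Ht J χ (t + a) x - Ht J χ t x)) := by
  unfold ex
  rw [Zr_eq μ J χ (t + a)]
  congr 2
  ext x
  rw [← Real.exp_add]
  congr 1
  ring

/-- Jensen inequality -/
theorem ex_jensen {t : κ → ℝ} {f : G → ℝ} (hf : Continuous f) :
    Real.exp (ex μ J χ t f) ≤ ex μ J χ t (fun x => Real.exp (f x)) := by
  set m := ex μ J χ t f with hm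
  have h1 : ∀ x, Real.exp m * (1 + (f x - m)) ≤ Real.exp (f x) := by
    intro x
    have h2 : f x = m + (f x - m) := by ring
    rw [h2, Real.exp_add]
    have h3 := Real.add_one_le_exp (f x - m)
    have h4 : 1 + (m + (f x - m) - m) = f x - m + 1 := by ring
    rw [h4]
    exact mul_le_mul_of_nonneg_left h3 (Real.exp_pos _).le
  have h2 := ex_mono μ J χ (t := t) (f := fun x => Real.exp m * (1 + (f x - m)))
    (g := fun x => Real.exp (f x)) (by fun_prop) (Real.continuous_exp.comp hf) h1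
  have h3 : ex μ J χ t (fun x => Real.exp m * (1 + (f x - m))) = Real.exp m := by
    rw [ex_const_mul]
    have h4 : (fun x => 1 + (f x - m)) = fun x => (1 - m) + f x := by ext x; ring
    rw [h4, ex_add μ J χ continuous_const hf, ex_const, ← hm]
    ring
  rw [h3] at h2
  exact h2

/-- mean current -/
noncomputable def jm (t a : κ → ℝ) : ℝ := ex μ J χ t (Jt J χ t a)

/-- stiffness form -/
noncomputable def QQ (t a a' : κ → ℝ) : ℝ :=
  ex μ J χ t (Bt J χ t a a') - ex μ J χ t (fun x => Jt J χ t a x * Jt J χ t a' x)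
    + jm μ J χ t a * jm μ J χ t a'

theorem exp_taylor2 {D L : ℝ} {A B S Y : ℝ} (hS : 0 ≤ S) (hY : 0 ≤ Y) (hY1 : Y ≤ 1)
    (hSY : 6 * S * Y ≤ 1) (hL : |L| ≤ S * Y) (hA : |A| ≤ S * Y ^ 2)
    (hD : |D + L + A / 2| ≤ 2 * S * Y ^ 3) (hB : B = L ^ 2) :
    |Real.exp D - (1 - L - A / 2 + B / 2)| ≤ (100 * S ^ 3 + 20 * S ^ 2 + 2 * S) * Y ^ 3 := by
  have hY2 : Y ^ 2 ≤ Y := by nlinarith only [hY, hY1]
  have hY3 : Y ^ 3 ≤ Y ^ 2 := by nlinarith only [hY1]
  have hDL : |D + L| ≤ 3 * S * Y ^ 2 := by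
    calc |D + L| = |(D + L + A / 2) - A / 2| := by ring_nf
      _ ≤ |D + L + A / 2| + |A / 2| := abs_sub _ _
      _ ≤ 2 * S * Y ^ 3 + S * Y ^ 2 / 2 := by
          rw [abs_div, abs_two]; (clear * - hD hA; gcongr)
      _ ≤ 3 * S * Y ^ 2 := by nlinarith only [hS, hY3]
  have hDb : |D| ≤ 4 * S * Y := by
    calc |D| = |(D + L) - L| := by ring_nf
      _ ≤ |D + L| + |L| := abs_sub _ _
      _ ≤ 3 * S * Y ^ 2 + S * Y := by (clear * - hDL hL; gcongr)
      _ ≤ 4 * S * Y := by nlinarith only [hS, hY2]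
  have hD1 : |D| ≤ 1 := hDb.trans (by nlinarith only [hSY])
  have h1 := Real.exp_bound hD1 (n := 3) (by norm_num)
  simp only [Finset.sum_range_succ, Finset.sum_range_zero, Nat.factorial] at h1
  norm_num at h1
  have h2 : |Real.exp D - (1 + D + D ^ 2 / 2)| ≤ |D| ^ 3 := by
    have h3 : |D| ^ 3 * (2 / 9) ≤ |D| ^ 3 := by nlinarith only [pow_nonneg (abs_nonneg D) 3]
    exact h1.trans h3
  have h4 : |D| ^ 3 ≤ 64 * S ^ 3 * Y ^ 3 := by
    calc |D| ^ 3 ≤ (4 * S * Y) ^ 3 := pow_le_pow_left₀ (abs_nonneg _) hDb 3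
      _ = 64 * S ^ 3 * Y ^ 3 := by ring
  have h5 : |D ^ 2 - L ^ 2| ≤ 15 * S ^ 2 * Y ^ 3 := by
    rw [show D ^ 2 - L ^ 2 = (D + L) * (D - L) by ring, abs_mul]
    have h6 : |D - L| ≤ 5 * S * Y := by
      calc |D - L| ≤ |D| + |L| := abs_sub _ _
        _ ≤ 4 * S * Y + S * Y := by (clear * - hDb hL; gcongr)
        _ = 5 * S * Y := by ring
    calc |D + L| * |D - L| ≤ (3 * S * Y ^ 2) * (5 * S * Y) := by (clear * - hDL h6 hS; gcongr)
      _ = 15 * S ^ 2 * Y ^ 3 := by ring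
  have hid : Real.exp D - (1 - L - A / 2 + B / 2) = (Real.exp D - (1 + D + D ^ 2 / 2)) +
      (D + L + A / 2) + (D ^ 2 - L ^ 2) / 2 := by rw [hB]; ring
  rw [hid]
  have h7 := abs_add_le (Real.exp D - (1 + D + D ^ 2 / 2) + (D + L + A / 2)) ((D ^ 2 - L ^ 2) / 2)
  have h8 := abs_add_le (Real.exp D - (1 + D + D ^ 2 / 2)) (D + L + A / 2)
  have h9 : |(D ^ 2 - L ^ 2) / 2| = |D ^ 2 - L ^ 2| / 2 := by rw [abs_div, abs_two]
  have h10 : 0 ≤ S ^ 3 * Y ^ 3 := by (clear * - hS hY; positivity)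
  have h11 : 0 ≤ S ^ 2 * Y ^ 3 := by (clear * - hY; positivity)
  nlinarith only [hD, h2, h4, h5, h7, h8, h9, h10, h11]

/-- constant of the second order expansion -/
noncomputable def K3 (S : ℝ) : ℝ := 100 * S ^ 3 + 20 * S ^ 2 + 2 * S

theorem ratio_expand (hJ : ∀ e, 0 ≤ J e) {t a : κ → ℝ} {Y : ℝ} (hY0 : 0 ≤ Y) (hY1 : Y ≤ 1)
    (hSY : 6 * (∑ e, J e) * Y ≤ 1) (ha : ∀ e, |a e| ≤ Y) :
    |Zr μ J χ (t + a) / Zr μ J χ t - (1 - jm μ J χ t a - ex μ J χ t (Bt J χ t a a) / 2 +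
      ex μ J χ t (fun x => Jt J χ t a x * Jt J χ t a x) / 2)| ≤ K3 (∑ e, J e) * Y ^ 3 := by
  have hS0 : 0 ≤ ∑ e, J e := Finset.sum_nonneg fun e _ => hJ e
  have hcJ := cont_Jt J χ t a
  have hcB := cont_Bt J χ t a a
  have e1 : 1 - jm μ J χ t a - ex μ J χ t (Bt J χ t a a) / 2 +
      ex μ J χ t (fun x => Jt J χ t a x * Jt J χ t a x) / 2 =
      ex μ J χ t (fun x => 1 - Jt J χ t a x - Bt J χ t a a x / 2 +
        (Jt J χ t a x * Jt J χ t a x) / 2) := by
    have h1 : (fun x => 1 - Jt J χ t a x - Bt J χ t a a x / 2 +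
        (Jt J χ t a x * Jt J χ t a x) / 2) = fun x => ((1 + (-1) * Jt J χ t a x) +
        (-1 / 2) * Bt J χ t a a x) + (1 / 2) * (Jt J χ t a x * Jt J χ t a x) := by
      ext x; ring
    rw [h1, ex_add μ J χ (by fun_prop) (by fun_prop), ex_add μ J χ (by fun_prop) (by fun_prop),
      ex_add μ J χ (by fun_prop) (by fun_prop), ex_const, ex_const_mul, ex_const_mul,
      ex_const_mul]
    unfold jm
    ring
  rw [e1, Zr_ratio]
  apply ex_close μ J χ
  · exact Real.continuous_exp.comp ((cont_Ht J χ _).sub (cont_Ht J χ _))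
  · fun_prop
  intro x
  have hB2 : |Bt J χ t a a x| ≤ (∑ e, J e) * Y ^ 2 := by
    have := abs_Bt_le J χ hJ ha ha (t := t) x
    rwa [← pow_two] at this
  exact exp_taylor2 hS0 hY0 hY1 hSY (abs_Jt_le J χ hJ ha x) hB2 (Ht_taylor2 J χ hJ hY1 ha x)
    (pow_two _).symm

end Ex

end UJ

end Vale.Agent.P159
end

section

/-!
Monotonicity of the stiffness form, expansion of the mean current.
-/

open MeasureTheory Filter Topology
open scoped BigOperators

namespace Vale.Agent.P159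

namespace UJ

theorem aux_le {D C u0 : ℝ} (hu0 : 0 < u0) (h : ∀ u, 0 < u → u ≤ u0 → D ≤ C * u) : D ≤ 0 := by
  by_contra hD
  push Not at hD
  have hC : 0 < C := by
    by_contra hC
    push Not at hC
    have := h u0 hu0 le_rfl
    nlinarith only [hu0, hD, hC, this]
  have h1 := h (min u0 (D / (2 * C))) (lt_min hu0 (by positivity)) (min_le_left _ _)
  have h2 : C * min u0 (D / (2 * C)) ≤ C * (D / (2 * C)) :=
    mul_le_mul_of_nonneg_left (min_le_right _ _) hC.le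
  have h3 : C * (D / (2 * C)) = D / 2 := by (clear * - hC hD; field_simp)
  linarith only [hD, h1, h2, h3]

section Ex2

variable {G : Type*} [AddCommGroup G] [TopologicalSpace G] [IsTopologicalAddGroup G]
  [CompactSpace G] [SecondCountableTopology G] [MeasurableSpace G] [BorelSpace G]
  (μ : Measure G) [μ.IsAddHaarMeasure] [IsProbabilityMeasure μ]
  {κ : Type*} [Fintype κ] (J : κ → ℝ) (χ : κ → Chr G)

theorem Ct_zero (e : κ) (x : G) : Ct χ (0 : κ → ℝ) e x = (χ e).c x := by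
  simp only [Ct, Pi.zero_apply, Real.cos_zero, mul_one, Real.sin_zero, mul_zero, sub_zero]

theorem St_zero (e : κ) (x : G) : St χ (0 : κ → ℝ) e x = (χ e).s x := by
  simp [St]

theorem ex_zero (f : G → ℝ) : ex μ J χ 0 f = gibbs μ J χ f := by
  unfold ex gibbs Zr Ht
  simp only [Ct_zero, Pi.zero_apply, Real.cos_zero, Real.sin_zero, mul_one, mul_zero, sub_zero]

theorem jm_zero (a : κ → ℝ) : jm μ J χ 0 a = 0 := by
  have h : jm μ J χ 0 a = - jm μ J χ 0 a := by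
    unfold jm
    rw [← ex_neg]
    unfold ex
    congr 1
    rw [← integral_neg_eq_self]
    congr 1
    ext x
    congr 1
    · show Jt J χ 0 a (-x) = -Jt J χ 0 a x
      unfold Jt
      rw [← Finset.sum_neg_distrib]
      refine Finset.sum_congr rfl fun e _ => ?_
      rw [St_zero, St_zero, Chr.s_neg]
      ring
    · congr 1
      unfold Ht
      refine Finset.sum_congr rfl fun e _ => ?_
      rw [Ct_zero, Ct_zero, Chr.c_neg]
  linarith only [h]

theorem QQ_zero (a : κ → ℝ) : QQ μ J χ 0 a a = Qform μ J χ a := by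
  unfold QQ Qform
  rw [jm_zero, ex_zero, ex_zero]
  unfold Bt Jt
  rw [mul_zero, add_zero]
  simp only [Ct_zero, St_zero, ← pow_two]

theorem Jt_add (t a a' : κ → ℝ) (x : G) : Jt J χ t (a + a') x = Jt J χ t a x + Jt J χ t a' x := by
  unfold Jt
  rw [← Finset.sum_add_distrib]
  exact Finset.sum_congr rfl fun e _ => by rw [Pi.add_apply]; ring

theorem Jt_smul (t a : κ → ℝ) (c : ℝ) (x : G) : Jt J χ t (c • a) x = c * Jt J χ t a x := by
  unfold Jt
  rw [Finset.mul_sum]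
  exact Finset.sum_congr rfl fun e _ => by rw [Pi.smul_apply, smul_eq_mul]; ring

theorem Bt_add (t a a' a'' : κ → ℝ) (x : G) :
    Bt J χ t a (a' + a'') x = Bt J χ t a a' x + Bt J χ t a a'' x := by
  unfold Bt
  rw [← Finset.sum_add_distrib]
  exact Finset.sum_congr rfl fun e _ => by rw [Pi.add_apply]; ring

theorem Bt_smul (t a a' : κ → ℝ) (c : ℝ) (x : G) :
    Bt J χ t a (c • a') x = c * Bt J χ t a a' x := by
  unfold Bt
  rw [Finset.mul_sum]
  exact Finset.sum_congr rfl fun e _ => by rw [Pi.smul_apply, smul_eq_mul]; ring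

theorem Bt_symm (t a a' : κ → ℝ) (x : G) : Bt J χ t a a' x = Bt J χ t a' a x := by
  unfold Bt
  exact Finset.sum_congr rfl fun e _ => by ring

theorem jm_add (t a a' : κ → ℝ) : jm μ J χ t (a + a') = jm μ J χ t a + jm μ J χ t a' := by
  unfold jm
  rw [← ex_add μ J χ (cont_Jt J χ t a) (cont_Jt J χ t a')]
  congr 1
  ext x
  exact Jt_add J χ t a a' x

theorem jm_smul (t a : κ → ℝ) (c : ℝ) : jm μ J χ t (c • a) = c * jm μ J χ t a := by
  unfold jm
  rw [← ex_const_mul]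
  congr 1
  ext x
  exact Jt_smul J χ t a c x

theorem QQ_symm (t a a' : κ → ℝ) : QQ μ J χ t a a' = QQ μ J χ t a' a := by
  unfold QQ
  have h1 : Bt J χ t a a' = Bt J χ t a' a := funext fun x => Bt_symm J χ t a a' x
  have h2 : (fun x => Jt J χ t a x * Jt J χ t a' x) = fun x => Jt J χ t a' x * Jt J χ t a x := by
    ext x; ring
  rw [h1, h2, mul_comm (jm μ J χ t a)]

theorem QQ_add (t a a' a'' : κ → ℝ) :
    QQ μ J χ t a (a' + a'') = QQ μ J χ t a a' + QQ μ J χ t a a'' := by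
  unfold QQ
  have h1 : Bt J χ t a (a' + a'') = fun x => Bt J χ t a a' x + Bt J χ t a a'' x :=
    funext fun x => Bt_add J χ t a a' a'' x
  have h2 : (fun x => Jt J χ t a x * Jt J χ t (a' + a'') x) =
      fun x => Jt J χ t a x * Jt J χ t a' x + Jt J χ t a x * Jt J χ t a'' x := by
    ext x; rw [Jt_add]; ring
  have c1 : Continuous (fun x => Jt J χ t a x * Jt J χ t a' x) :=
    (cont_Jt J χ t a).mul (cont_Jt J χ t a')
  have c2 : Continuous (fun x => Jt J χ t a x * Jt J χ t a'' x) :=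
    (cont_Jt J χ t a).mul (cont_Jt J χ t a'')
  rw [h1, h2, ex_add μ J χ (cont_Bt J χ t a a') (cont_Bt J χ t a a''),
    ex_add μ J χ c1 c2, jm_add]
  ring

theorem QQ_smul (t a a' : κ → ℝ) (c : ℝ) :
    QQ μ J χ t a (c • a') = c * QQ μ J χ t a a' := by
  unfold QQ
  have h1 : Bt J χ t a (c • a') = fun x => c * Bt J χ t a a' x :=
    funext fun x => Bt_smul J χ t a a' c x
  have h2 : (fun x => Jt J χ t a x * Jt J χ t (c • a') x) =
      fun x => c * (Jt J χ t a x * Jt J χ t a' x) := by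
    ext x; rw [Jt_smul]; ring
  rw [h1, h2, ex_const_mul, ex_const_mul, jm_smul]
  ring

theorem QQ_smul2 (t a : κ → ℝ) (c : ℝ) :
    QQ μ J χ t (c • a) (c • a) = c ^ 2 * QQ μ J χ t a a := by
  rw [QQ_smul, QQ_symm, QQ_smul]
  ring

theorem abs_QQ_le (hJ : ∀ e, 0 ≤ J e) {t a a' : κ → ℝ} {Y Y' : ℝ} (ha : ∀ e, |a e| ≤ Y)
    (ha' : ∀ e, |a' e| ≤ Y') (hY : 0 ≤ Y) :
    |QQ μ J χ t a a'| ≤ ((∑ e, J e) + 2 * (∑ e, J e) ^ 2) * (Y * Y') := by
  have hS0 : 0 ≤ ∑ e, J e := Finset.sum_nonneg fun e _ => hJ e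
  have b1 := ex_abs_le μ J χ (t := t) (cont_Bt J χ t a a')
    (abs_Bt_le J χ hJ ha ha' (t := t))
  have b2 : |ex μ J χ t (fun x => Jt J χ t a x * Jt J χ t a' x)| ≤
      ((∑ e, J e) * Y) * ((∑ e, J e) * Y') := by
    have c1 : Continuous (fun x => Jt J χ t a x * Jt J χ t a' x) :=
      (cont_Jt J χ t a).mul (cont_Jt J χ t a')
    apply ex_abs_le μ J χ c1
    intro x
    rw [abs_mul]
    exact mul_le_mul (abs_Jt_le J χ hJ ha x) (abs_Jt_le J χ hJ ha' x) (abs_nonneg _)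
      (by (clear * - hS0 hY; positivity))
  have b3 : |jm μ J χ t a * jm μ J χ t a'| ≤ ((∑ e, J e) * Y) * ((∑ e, J e) * Y') := by
    rw [abs_mul]
    exact mul_le_mul (ex_abs_le μ J χ (cont_Jt J χ t a) (abs_Jt_le J χ hJ ha))
      (ex_abs_le μ J χ (cont_Jt J χ t a') (abs_Jt_le J χ hJ ha')) (abs_nonneg _)
      (by positivity)
  unfold QQ
  have h1 := abs_add_le (ex μ J χ t (Bt J χ t a a') -
    ex μ J χ t (fun x => Jt J χ t a x * Jt J χ t a' x)) (jm μ J χ t a * jm μ J χ t a')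
  have h2 := abs_sub (ex μ J χ t (Bt J χ t a a'))
    (ex μ J χ t (fun x => Jt J χ t a x * Jt J χ t a' x))
  nlinarith only [b1, b2, b3, h1, h2]

/-- real arithmetic behind the comparison of the second order terms -/
theorem second_order {x y y0 e1 e2 e0 ε : ℝ} (he1 : |e1| ≤ ε) (he2 : |e2| ≤ ε) (he0 : |e0| ≤ ε)
    (hx : |x| ≤ 1) (hy : |y| ≤ 1) (hy0 : |y0| ≤ 1) (hε : ε ≤ 1)
    (h : (1 + y0 + e0) ^ 2 ≤ (1 - x + y + e1) * (1 + x + y + e2)) :
    2 * y0 - 2 * y + x ^ 2 ≤ y ^ 2 + 12 * ε := by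
  have hε0 : 0 ≤ ε := (abs_nonneg _).trans he1
  obtain ⟨a1, a2⟩ := abs_le.1 he1
  obtain ⟨b1, b2⟩ := abs_le.1 he2
  obtain ⟨c1, c2⟩ := abs_le.1 he0
  obtain ⟨x1, x2⟩ := abs_le.1 hx
  obtain ⟨y1, y2⟩ := abs_le.1 hy
  obtain ⟨z1, z2⟩ := abs_le.1 hy0
  have h1 : e1 * (1 + x + y) ≤ 3 * ε := by
    have : |e1 * (1 + x + y)| ≤ ε * 3 := by
      rw [abs_mul]
      exact mul_le_mul he1 (abs_le.2 ⟨by linarith, by linarith only [x2, y2]⟩) (abs_nonneg _) hε0
    linarith only [(abs_le.1 this).2]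
  have h2 : e2 * (1 - x + y) ≤ 3 * ε := by
    have : |e2 * (1 - x + y)| ≤ ε * 3 := by
      rw [abs_mul]
      exact mul_le_mul he2 (abs_le.2 ⟨by linarith only [x2, y1], by linarith only [x1, y2]⟩) (abs_nonneg _) hε0
    linarith only [(abs_le.1 this).2]
  have h3 : e1 * e2 ≤ ε := by
    have : |e1 * e2| ≤ ε * 1 := by
      rw [abs_mul]
      exact mul_le_mul he1 (he2.trans hε) (abs_nonneg _) hε0
    linarith only [(abs_le.1 this).2]
  have h4 : -(4 * ε) ≤ 2 * e0 * (1 + y0) := by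
    have : |2 * e0 * (1 + y0)| ≤ (2 * ε) * 2 := by
      rw [abs_mul]
      refine mul_le_mul ?_ (abs_le.2 ⟨by linarith only [z1], by linarith only [z2]⟩) (abs_nonneg _) (by linarith only [hε0])
      rw [abs_mul, abs_two]; linarith only [he0]
    linarith only [(abs_le.1 this).1]
  nlinarith only [h, h1, h2, h3, h4, sq_nonneg e0, sq_nonneg y0]

theorem scal {u E A k3 S j Et E0 e1 e2 e0 : ℝ} (hu : 0 < u) (hA1 : 1 ≤ A) (hS0 : 0 ≤ S)
    (hE0 : 0 ≤ E) (hk30 : 0 ≤ k3) (huA : u * A * (1 + 6 * S + E + k3 * A ^ 3) ≤ 1)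
    (hEt : |Et| ≤ E) (hE0' : |E0| ≤ E) (hj : |j| ≤ S * A)
    (he1 : |e1| ≤ k3 * (u * A) ^ 3) (he2 : |e2| ≤ k3 * (u * A) ^ 3)
    (he0 : |e0| ≤ k3 * (u * A) ^ 3)
    (h : (1 + -(u ^ 2 * E0 / 2) + e0) ^ 2 ≤
      (1 - u * j + -(u ^ 2 * Et / 2) + e1) * (1 + u * j + -(u ^ 2 * Et / 2) + e2)) :
    Et + j ^ 2 - E0 ≤ (E ^ 2 + 12 * k3 * A ^ 3) * u := by
  have hk3A : 0 ≤ k3 * A ^ 3 := by (clear * - hk30 hA1; positivity)
  have huA0 : 0 ≤ u * A := by positivity
  have n1 := mul_nonneg huA0 hS0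
  have n2 := mul_nonneg huA0 hE0
  have n3 := mul_nonneg huA0 hk3A
  have hp1 : u * A ≤ 1 := by nlinarith only [huA, n1, n2, n3]
  have hp2 : 6 * S * (u * A) ≤ 1 := by nlinarith only [huA, huA0, n2, n3]
  have hp3 : u * A * E ≤ 1 := by nlinarith only [huA, huA0, n1, n3]
  have hp4 : u * A * (k3 * A ^ 3) ≤ 1 := by nlinarith only [huA, huA0, n1, n2]
  have hu1 : u ≤ 1 := by nlinarith only [hA1, huA, n1, n2, n3]
  have hε : k3 * (u * A) ^ 3 ≤ 1 := by
    have h3 : k3 * (u * A) ^ 3 = (u * A * (k3 * A ^ 3)) * (u ^ 2 / A) := by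
      (clear * - hA1 hu; field_simp)
    rw [h3]
    have h4 : u ^ 2 / A ≤ 1 := by
      rw [div_le_one (by linarith only [hA1])]; nlinarith only [hu, hA1, huA, n1, n2, n3]
    have h5 : 0 ≤ u ^ 2 / A := by positivity
    exact mul_le_one₀ hp4 h5 h4
  have hx1 : |u * j| ≤ 1 := by
    rw [abs_mul, abs_of_pos hu]
    have := mul_le_mul_of_nonneg_left hj hu.le
    nlinarith only [huA, huA0, n2, n3, this]
  have hyb : ∀ F : ℝ, |F| ≤ E → |-(u ^ 2 * F / 2)| ≤ u ^ 2 * E / 2 := by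
    intro F hF
    rw [abs_neg, abs_div, abs_two, abs_mul, abs_of_nonneg (sq_nonneg u)]
    have h5 := mul_le_mul_of_nonneg_left hF (sq_nonneg u)
    linarith only [h5]
  have hyE : u ^ 2 * E / 2 ≤ 1 := by
    have h5 : u * E ≤ u * A * E := by nlinarith only [hA1, n2]
    have h6 : u * (u * E) ≤ 1 * (u * E) :=
      mul_le_mul_of_nonneg_right hu1 (mul_nonneg hu.le hE0)
    have h7 : u ^ 2 * E = u * (u * E) := by ring
    rw [h7]
    linarith only [huA, huA0, n1, n3, h5, h6]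
  have hfin := second_order (x := u * j) (y := -(u ^ 2 * Et / 2))
      (y0 := -(u ^ 2 * E0 / 2)) (e1 := e1) (e2 := e2) (e0 := e0) (ε := k3 * (u * A) ^ 3)
      he1 he2 he0 hx1 ((hyb Et hEt).trans hyE) ((hyb E0 hE0').trans hyE) hε h
  have hy2 : (-(u ^ 2 * Et / 2)) ^ 2 ≤ u ^ 3 * E ^ 2 := by
    have h6 := pow_le_pow_left₀ (abs_nonneg _) (hyb Et hEt) 2
    rw [sq_abs] at h6
    refine h6.trans ?_
    have h7 : (u ^ 2 * E / 2) ^ 2 = u ^ 3 * E ^ 2 * (u / 4) := by ring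
    rw [h7]
    exact mul_le_of_le_one_right (by (clear * - hu; positivity)) (by linarith only [hu1])
  have h8 : u ^ 2 * (Et + j ^ 2 - E0) ≤ u ^ 2 * ((E ^ 2 + 12 * k3 * A ^ 3) * u) := by
    have e1 : u ^ 2 * (Et + j ^ 2 - E0) = 2 * (-(u ^ 2 * E0 / 2)) - 2 * (-(u ^ 2 * Et / 2)) +
        (u * j) ^ 2 := by ring
    have e2 : u ^ 2 * ((E ^ 2 + 12 * k3 * A ^ 3) * u) =
        u ^ 3 * E ^ 2 + 12 * (k3 * (u * A) ^ 3) := by ring
    rw [e1, e2]
    linarith only [hfin, hy2]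
  exact le_of_mul_le_mul_left h8 (by positivity)

theorem ratio_expand_smul (hJ : ∀ e, 0 ≤ J e) {t a : κ → ℝ} {u A : ℝ} (hA0 : 0 ≤ A)
    (hu1 : |u| * A ≤ 1) (hSu : 6 * (∑ e, J e) * (|u| * A) ≤ 1) (ha : ∀ e, |a e| ≤ A) :
    |Zr μ J χ (t + u • a) / Zr μ J χ t - (1 - u * jm μ J χ t a +
      -(u ^ 2 * (ex μ J χ t (Bt J χ t a a) -
        ex μ J χ t (fun x => Jt J χ t a x * Jt J χ t a x)) / 2))| ≤
      K3 (∑ e, J e) * (|u| * A) ^ 3 := by
  have hua : ∀ e, |(u • a) e| ≤ |u| * A := by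
    intro e
    rw [Pi.smul_apply, smul_eq_mul, abs_mul]
    exact mul_le_mul_of_nonneg_left (ha e) (abs_nonneg _)
  have h := ratio_expand μ J χ hJ (t := t) (mul_nonneg (abs_nonneg u) hA0) hu1 hSu hua
  refine le_trans (le_of_eq ?_) h
  congr 1
  rw [jm_smul]
  have f1 : Bt J χ t (u • a) (u • a) = fun x => u ^ 2 * Bt J χ t a a x := by
    ext x; rw [Bt_smul, Bt_symm, Bt_smul]; ring
  have f2 : (fun x => Jt J χ t (u • a) x * Jt J χ t (u • a) x) =
      fun x => u ^ 2 * (Jt J χ t a x * Jt J χ t a x) := by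
    ext x; rw [Jt_smul]; ring
  rw [f1, f2, ex_const_mul, ex_const_mul]
  ring

theorem abs_E_le (hJ : ∀ e, 0 ≤ J e) {t a : κ → ℝ} {A : ℝ} (hA0 : 0 ≤ A)
    (ha : ∀ e, |a e| ≤ A) :
    |ex μ J χ t (Bt J χ t a a) - ex μ J χ t (fun x => Jt J χ t a x * Jt J χ t a x)| ≤
      (∑ e, J e) * (A * A) + ((∑ e, J e) * A) * ((∑ e, J e) * A) := by
  have hS0 : 0 ≤ ∑ e, J e := Finset.sum_nonneg fun e _ => hJ e
  refine (abs_sub _ _).trans (add_le_add ?_ ?_)
  · exact ex_abs_le μ J χ (cont_Bt J χ t a a) (abs_Bt_le J χ hJ ha ha)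
  · have c1 : Continuous (fun x => Jt J χ t a x * Jt J χ t a x) :=
      (cont_Jt J χ t a).mul (cont_Jt J χ t a)
    apply ex_abs_le μ J χ c1
    intro x
    rw [abs_mul]
    exact mul_le_mul (abs_Jt_le J χ hJ ha x) (abs_Jt_le J χ hJ ha x) (abs_nonneg _)
      (by positivity)

variable (h2 : ∀ g : G, ∃ h : G, h + h = g)

include h2 in
theorem QQ_le (hJ : ∀ e, 0 ≤ J e) (t a : κ → ℝ) : QQ μ J χ t a a ≤ QQ μ J χ 0 a a := by
  obtain ⟨S, hS⟩ : ∃ S, S = ∑ e, J e := ⟨_, rfl⟩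
  have hS0 : 0 ≤ S := by rw [hS]; exact Finset.sum_nonneg fun e _ => hJ e
  obtain ⟨A, hA⟩ : ∃ A, A = 1 + ∑ e, |a e| := ⟨_, rfl⟩
  have hA1 : 1 ≤ A := by
    rw [hA]; linarith only [Finset.sum_nonneg fun e (_ : e ∈ Finset.univ) => abs_nonneg (a e)]
  have haA : ∀ e, |a e| ≤ A := by
    intro e
    have : |a e| ≤ ∑ e, |a e| := Finset.single_le_sum (f := fun e => |a e|)
      (fun e _ => abs_nonneg (a e)) (Finset.mem_univ e)
    linarith only [hA, this]
  obtain ⟨Et, hEt⟩ : ∃ Et : (κ → ℝ) → ℝ, ∀ t, Et t = ex μ J χ t (Bt J χ t a a) -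
    ex μ J χ t (fun x => Jt J χ t a x * Jt J χ t a x) := ⟨_, fun _ => rfl⟩
  obtain ⟨E, hE⟩ : ∃ E, E = S * (A * A) + (S * A) * (S * A) := ⟨_, rfl⟩
  have hEb : ∀ t, |Et t| ≤ E := by
    intro t
    rw [hEt, hE, hS]
    exact abs_E_le μ J χ hJ (by linarith only [hA1]) haA
  have hjb : ∀ t, |jm μ J χ t a| ≤ S * A := by
    intro t
    rw [hS]
    exact ex_abs_le μ J χ (cont_Jt J χ t a) (abs_Jt_le J χ hJ haA)
  have hE0 : 0 ≤ E := by rw [hE]; (clear * - hS0 hA1; positivity)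
  obtain ⟨k3, hk3⟩ : ∃ k3, k3 = K3 S := ⟨_, rfl⟩
  have hk30 : 0 ≤ k3 := by rw [hk3]; unfold K3; (clear * - hS0; positivity)
  have key : QQ μ J χ t a a - QQ μ J χ 0 a a ≤ 0 := by
    apply aux_le (C := E ^ 2 + 12 * k3 * A ^ 3)
      (u0 := 1 / (A * (1 + 6 * S + E + k3 * A ^ 3))) (by (clear * - hA1 hS0 hE0 hk30; positivity))
    intro u hu hu0
    have hden : 0 < A * (1 + 6 * S + E + k3 * A ^ 3) := by (clear * - hA1 hS0 hE0 hk30; positivity)
    rw [le_div_iff₀ hden] at hu0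
    have huA : u * A * (1 + 6 * S + E + k3 * A ^ 3) ≤ 1 := by linarith only [hu0]
    have huA0 : 0 ≤ u * A := by (clear * - hu hA1; positivity)
    have hk3A : 0 ≤ k3 * A ^ 3 := by positivity
    have n1 := mul_nonneg huA0 hS0
    have n2 := mul_nonneg huA0 hE0
    have n3 := mul_nonneg huA0 hk3A
    have hp1 : u * A ≤ 1 := by nlinarith only [hu0, n1, n2, n3]
    have hp2 : 6 * S * (u * A) ≤ 1 := by nlinarith only [hu0, huA0, n2, n3]
    have key1 : ∀ t : κ → ℝ, |Zr μ J χ (t + u • a) / Zr μ J χ t -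
        (1 - u * jm μ J χ t a + -(u ^ 2 * Et t / 2))| ≤ k3 * (u * A) ^ 3 := by
      intro t
      have h := ratio_expand_smul μ J χ hJ (t := t) (a := a) (u := u) (A := A) (by linarith only [hA1])
        (by rw [abs_of_pos hu]; exact hp1) (by rw [abs_of_pos hu, ← hS]; exact hp2) haA
      rw [← hEt, abs_of_pos hu, ← hS, ← hk3] at h
      exact h
    have key2 : |Zr μ J χ (t - u • a) / Zr μ J χ t -
        (1 + u * jm μ J χ t a + -(u ^ 2 * Et t / 2))| ≤ k3 * (u * A) ^ 3 := by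
      have h := ratio_expand_smul μ J χ hJ (t := t) (a := a) (u := -u) (A := A) (by linarith only [hA1])
        (by rw [abs_neg, abs_of_pos hu]; exact hp1)
        (by rw [abs_neg, abs_of_pos hu, ← hS]; exact hp2) haA
      rw [← hEt, abs_neg, abs_of_pos hu, ← hS, ← hk3] at h
      have e1 : t + -u • a = t - u • a := by rw [neg_smul, sub_eq_add_neg]
      have e2 : 1 - -u * jm μ J χ t a + -((-u) ^ 2 * Et t / 2) =
        1 + u * jm μ J χ t a + -(u ^ 2 * Et t / 2) := by ring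
      rw [e1, e2] at h
      exact h
    have key0 := key1 0
    rw [zero_add, jm_zero, mul_zero, sub_zero] at key0
    have hfour := four μ J χ h2 hJ t (u • a)
    have hz := Zr_pos μ J χ t
    have hz0 := Zr_pos μ J χ 0
    have hineq : (Zr μ J χ (u • a) / Zr μ J χ 0) ^ 2 ≤
        (Zr μ J χ (t + u • a) / Zr μ J χ t) * (Zr μ J χ (t - u • a) / Zr μ J χ t) := by
      rw [div_pow, div_mul_div_comm, div_le_div_iff₀ (by (clear * - hz0; positivity)) (by (clear * - hz; positivity))]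
      nlinarith only [hfour]
    have hQt : QQ μ J χ t a a = Et t + jm μ J χ t a ^ 2 := by
      rw [hEt, QQ]; ring
    have hQ0 : QQ μ J χ 0 a a = Et 0 := by
      rw [hEt, QQ, jm_zero]; ring
    rw [hQt, hQ0]
    refine scal (e1 := Zr μ J χ (t + u • a) / Zr μ J χ t -
        (1 - u * jm μ J χ t a + -(u ^ 2 * Et t / 2)))
      (e2 := Zr μ J χ (t - u • a) / Zr μ J χ t - (1 + u * jm μ J χ t a + -(u ^ 2 * Et t / 2)))
      (e0 := Zr μ J χ (u • a) / Zr μ J χ 0 - (1 + -(u ^ 2 * Et 0 / 2)))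
      hu hA1 hS0 hE0 hk30 huA (hEb t) (hEb 0) (hjb t) (key1 t) key2 key0 ?_
    have g0 : 1 + -(u ^ 2 * Et 0 / 2) + (Zr μ J χ (u • a) / Zr μ J χ 0 -
      (1 + -(u ^ 2 * Et 0 / 2))) = Zr μ J χ (u • a) / Zr μ J χ 0 := by ring
    have g1 : 1 - u * jm μ J χ t a + -(u ^ 2 * Et t / 2) + (Zr μ J χ (t + u • a) /
      Zr μ J χ t - (1 - u * jm μ J χ t a + -(u ^ 2 * Et t / 2))) =
      Zr μ J χ (t + u • a) / Zr μ J χ t := by ring
    have g2 : 1 + u * jm μ J χ t a + -(u ^ 2 * Et t / 2) + (Zr μ J χ (t - u • a) /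
      Zr μ J χ t - (1 + u * jm μ J χ t a + -(u ^ 2 * Et t / 2))) =
      Zr μ J χ (t - u • a) / Zr μ J χ t := by ring
    rw [g0, g1, g2]
    exact hineq
  linarith only [key]

end Ex2

end UJ

end Vale.Agent.P159
end

section

/-!
Lower bound of twisted partition functions, expansion of the mean current.
-/

open MeasureTheory Filter Topology
open scoped BigOperators

namespace Vale.Agent.P159

namespace UJ

theorem exp_le_one_sub {x : ℝ} (hx : |x| ≤ 1 / 2) : Real.exp (-x - 2 * x ^ 2) ≤ 1 - x := by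
  obtain ⟨h1, h2⟩ := abs_le.1 hx
  have h3 : 0 < 1 - x := by linarith only [h2]
  rw [← Real.le_log_iff_exp_le h3]
  have h4 := Real.abs_log_sub_add_sum_range_le (x := x) (by linarith only [hx] : |x| < 1) 1
  simp only [Finset.range_one, Finset.sum_singleton, zero_add, pow_one, Nat.cast_zero, div_one] at h4
  have h5 : |x| ^ (1 + 1) / (1 - |x|) ≤ 2 * x ^ 2 := by
    rw [div_le_iff₀ (by linarith only [hx])]
    have : |x| ^ (1 + 1) = x ^ 2 := by
      rw [show (1 + 1 : ℕ) = 2 from rfl, sq_abs]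
    rw [this]
    nlinarith only [hx]
  have h6 := abs_le.1 (h4.trans h5)
  linarith only [h6]

section Lower

variable {G : Type*} [AddCommGroup G] [TopologicalSpace G] [IsTopologicalAddGroup G]
  [CompactSpace G] [SecondCountableTopology G] [MeasurableSpace G] [BorelSpace G]
  (μ : Measure G) [μ.IsAddHaarMeasure] [IsProbabilityMeasure μ]
  {κ : Type*} [Fintype κ] (J : κ → ℝ) (χ : κ → Chr G)

variable (h2 : ∀ g : G, ∃ h : G, h + h = g)

include h2 in
/-- Gaussian lower bound for the twisted partition function -/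
theorem lowerZ (hJ : ∀ e, 0 ≤ J e) (a : κ → ℝ) :
    Real.exp (-(QQ μ J χ 0 a a) / 2) ≤ Zr μ J χ a / Zr μ J χ 0 := by
  obtain ⟨S, hS⟩ : ∃ S, S = ∑ e, J e := ⟨_, rfl⟩
  have hS0 : 0 ≤ S := by rw [hS]; exact Finset.sum_nonneg fun e _ => hJ e
  obtain ⟨A, hA⟩ : ∃ A, A = 1 + ∑ e, |a e| := ⟨_, rfl⟩
  have hA1 : 1 ≤ A := by
    rw [hA]; linarith [Finset.sum_nonneg fun e (_ : e ∈ Finset.univ) => abs_nonneg (a e)]
  have haA : ∀ e, |a e| ≤ A := by
    intro e
    have : |a e| ≤ ∑ e, |a e| := Finset.single_le_sum (f := fun e => |a e|)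
      (fun e _ => abs_nonneg (a e)) (Finset.mem_univ e)
    linarith only [hA, this]
  obtain ⟨q, hq⟩ : ∃ q, q = QQ μ J χ 0 a a := ⟨_, rfl⟩
  obtain ⟨k3, hk3⟩ : ∃ k3, k3 = K3 S := ⟨_, rfl⟩
  have hk30 : 0 ≤ k3 := by rw [hk3]; unfold K3; (clear * - hS0; positivity)
  have hz0 := Zr_pos μ J χ 0
  set r : (κ → ℝ) → ℝ := fun s => Zr μ J χ s / Zr μ J χ 0 with hr
  have hr0 : ∀ s, 0 < r s := fun s => div_pos (Zr_pos μ J χ s) hz0
  have hstep : ∀ s : κ → ℝ, r s ^ 4 ≤ r (s + s) := by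
    intro s
    have h := four μ J χ h2 hJ s s
    rw [sub_self] at h
    simp only [hr]
    rw [div_pow, div_le_div_iff₀ (by (clear * - hz0; positivity)) hz0]
    nlinarith only [hz0, h]
  have hiter : ∀ n : ℕ, ∀ s : κ → ℝ, r s ^ (4 ^ n) ≤ r ((2 : ℝ) ^ n • s) := by
    intro n
    induction n with
    | zero => intro s; simp
    | succ n ih =>
      intro s
      have h1 := hstep ((2 : ℝ) ^ n • s)
      have h3 : (2 : ℝ) ^ n • s + (2 : ℝ) ^ n • s = (2 : ℝ) ^ (n + 1) • s := by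
        rw [← add_smul]; congr 1; ring
      rw [h3] at h1
      refine le_trans ?_ h1
      rw [pow_succ, pow_mul]
      exact pow_le_pow_left₀ (pow_nonneg (hr0 s).le _) (ih s) 4
  -- expansion at small shifts
  obtain ⟨D, hD⟩ : ∃ D, D = |q| / 2 + k3 * A ^ 3 := ⟨_, rfl⟩
  have hD0 : 0 ≤ D := by rw [hD]; (clear * - hk30 hA1; positivity)
  have hexp : ∀ u : ℝ, 0 < u → u * A ≤ 1 → 6 * S * (u * A) ≤ 1 → u * D ≤ 1 / 2 →
      Real.exp (-(u ^ 2 * q / 2) - (k3 * A ^ 3 + 2 * D ^ 2) * u ^ 3) ≤ r (u • a) := by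
    intro u hu h3 h4 h5
    have hA0 : 0 < A := by linarith only [hA1]
    have hu1 : u ≤ 1 := by nlinarith only [hA1, h3]
    have h := ratio_expand_smul μ J χ hJ (t := 0) (a := a) (u := u) (A := A) (by linarith only [hA1])
      (by rw [abs_of_pos hu]; exact h3) (by rw [abs_of_pos hu, ← hS]; exact h4) haA
    rw [abs_of_pos hu, ← hS, ← hk3, zero_add, jm_zero, mul_zero, sub_zero] at h
    have hqq : ex μ J χ 0 (Bt J χ 0 a a) -
        ex μ J χ 0 (fun x => Jt J χ 0 a x * Jt J χ 0 a x) = q := by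
      rw [hq, QQ, jm_zero]; ring
    rw [hqq] at h
    have h6 := (abs_le.1 h).1
    have h7 : 1 - (u ^ 2 * q / 2 + k3 * (u * A) ^ 3) ≤ r (u • a) := by
      simp only [hr]; linarith only [h6]
    refine le_trans ?_ h7
    have hx : |u ^ 2 * q / 2 + k3 * (u * A) ^ 3| ≤ u ^ 2 * D := by
      have a1 := abs_add_le (u ^ 2 * q / 2) (k3 * (u * A) ^ 3)
      have a2 : |u ^ 2 * q / 2| = u ^ 2 * (|q| / 2) := by
        rw [abs_div, abs_mul, abs_two, abs_of_nonneg (sq_nonneg u)]; ring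
      have a3 : |k3 * (u * A) ^ 3| ≤ u ^ 2 * (k3 * A ^ 3) := by
        rw [abs_of_nonneg (by (clear * - hk30 hu hA1; positivity))]
        have : k3 * (u * A) ^ 3 = u ^ 2 * (k3 * A ^ 3) * u := by ring
        rw [this]
        exact mul_le_of_le_one_right (by (clear * - hu hk30 hA1; positivity)) hu1
      rw [hD]
      linarith only [a1, a2, a3]
    have hx2 : u ^ 2 * D ≤ 1 / 2 := by nlinarith only [hu, h5, hu1]
    refine le_trans ?_ (exp_le_one_sub (hx.trans hx2))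
    rw [Real.exp_le_exp]
    have hx3 : (u ^ 2 * q / 2 + k3 * (u * A) ^ 3) ^ 2 ≤ (u ^ 2 * D) ^ 2 := by
      rw [← sq_abs]; exact pow_le_pow_left₀ (abs_nonneg _) hx 2
    have hx4 : (u ^ 2 * D) ^ 2 ≤ D ^ 2 * u ^ 3 := by
      have : (u ^ 2 * D) ^ 2 = D ^ 2 * u ^ 3 * u := by ring
      rw [this]
      exact mul_le_of_le_one_right (by (clear * - hu; positivity)) hu1
    nlinarith only [hx3, hx4]
  -- pass to the limit
  have hlog : ∀ n : ℕ, (2 : ℝ)⁻¹ ^ n * A ≤ 1 → 6 * S * ((2 : ℝ)⁻¹ ^ n * A) ≤ 1 →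
      (2 : ℝ)⁻¹ ^ n * D ≤ 1 / 2 →
      -(q / 2) - (k3 * A ^ 3 + 2 * D ^ 2) * (2 : ℝ)⁻¹ ^ n ≤ Real.log (r a) := by
    intro n h3 h4 h5
    set u : ℝ := (2 : ℝ)⁻¹ ^ n with hu
    have hu0 : 0 < u := by positivity
    have h6 := hexp u hu0 h3 h4 h5
    have h7 := hiter n (u • a)
    have h8 : (2 : ℝ) ^ n • u • a = a := by
      rw [smul_smul, hu, ← mul_pow]
      norm_num
    rw [h8] at h7
    have h9 : Real.exp (((4 ^ n : ℕ) : ℝ) *
        (-(u ^ 2 * q / 2) - (k3 * A ^ 3 + 2 * D ^ 2) * u ^ 3)) ≤ r a := by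
      rw [Real.exp_nat_mul]
      exact (pow_le_pow_left₀ (Real.exp_pos _).le h6 _).trans h7
    rw [Real.le_log_iff_exp_le (hr0 a)]
    refine le_trans (le_of_eq ?_) h9
    congr 1
    have h10 : ((4 ^ n : ℕ) : ℝ) * u ^ 2 = 1 := by
      push_cast
      rw [hu, ← pow_mul, mul_comm n 2, pow_mul, ← mul_pow]
      norm_num
    linear_combination (q / 2 + (k3 * A ^ 3 + 2 * D ^ 2) * u) * h10
  have htend : Tendsto (fun n : ℕ => (2 : ℝ)⁻¹ ^ n) atTop (𝓝 0) :=
    tendsto_pow_atTop_nhds_zero_of_lt_one (by norm_num) (by norm_num)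
  have hev : ∀ c : ℝ, 0 < c → ∀ᶠ n : ℕ in atTop, (2 : ℝ)⁻¹ ^ n ≤ c := fun c hc =>
    (htend.eventually (eventually_lt_nhds hc)).mono fun n hn => hn.le
  have hlim : Tendsto (fun n : ℕ => -(q / 2) - (k3 * A ^ 3 + 2 * D ^ 2) * (2 : ℝ)⁻¹ ^ n) atTop
      (𝓝 (-(q / 2) - (k3 * A ^ 3 + 2 * D ^ 2) * 0)) :=
    tendsto_const_nhds.sub (tendsto_const_nhds.mul htend)
  have hfin : -(q / 2) - (k3 * A ^ 3 + 2 * D ^ 2) * 0 ≤ Real.log (r a) := by
    refine le_of_tendsto hlim ?_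
    have hA0 : 0 < A := by linarith only [hA1]
    filter_upwards [hev (1 / A) (by positivity), hev (1 / (6 * S * A + 1)) (by (clear * - hS0 hA1; positivity)),
      hev (1 / (2 * D + 1)) (by (clear * - hD0; positivity))] with n h3 h4 h5
    have hpos : (0 : ℝ) < (2 : ℝ)⁻¹ ^ n := by positivity
    refine hlog n ?_ ?_ ?_
    · rwa [le_div_iff₀ hA0] at h3
    · rw [le_div_iff₀ (by (clear * - hS0 hA1; positivity))] at h4
      nlinarith only [h4, hpos]
    · rw [le_div_iff₀ (by (clear * - hD0; positivity))] at h5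
      nlinarith only [h5, hpos]
  rw [mul_zero, sub_zero] at hfin
  have : Real.exp (-(q / 2)) ≤ r a := (Real.le_log_iff_exp_le (hr0 a)).1 hfin
  rw [← hq, neg_div]
  exact this

/-- first order numerics -/
theorem first_order {x0 β xa e1 e2 S Y c : ℝ} (hS : 0 ≤ S) (hY : 0 ≤ Y)
    (hx0 : |x0| ≤ S) (hβ : |β| ≤ (S + S ^ 2) * Y) (hxa : |xa| ≤ S * Y) (he1 : |e1| ≤ c * Y ^ 2)
    (he2 : |e2| ≤ c * Y ^ 2) (hY1 : Y ≤ 1) (hsm : S * Y + c * Y ^ 2 ≤ 1 / 2) :
    |(x0 + β + e1) / (1 - xa + e2) - (x0 + β + x0 * xa)| ≤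
      2 * (c + S * (S + S ^ 2) + S ^ 3 + c * (2 * S + 2 * S ^ 2)) * Y ^ 2 := by
  have hc : 0 ≤ c * Y ^ 2 := (abs_nonneg _).trans he1
  have hden : 1 / 2 ≤ 1 - xa + e2 := by
    have := (abs_le.1 hxa).2
    have := (abs_le.1 he2).1
    linarith
  have hden0 : 0 < 1 - xa + e2 := by linarith only [hden]
  have e3 : (x0 + β + e1) / (1 - xa + e2) - (x0 + β + x0 * xa) =
      (e1 + xa * β + xa ^ 2 * x0 - e2 * (x0 + β + x0 * xa)) / (1 - xa + e2) := by
    field_simp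
    ring
  rw [e3, abs_div, abs_of_pos hden0, div_le_iff₀ hden0]
  have b1 : |xa * β| ≤ (S * Y) * ((S + S ^ 2) * Y) := by
    rw [abs_mul]; exact mul_le_mul hxa hβ (abs_nonneg _) (by (clear * - hS hY; positivity))
  have b2 : |xa ^ 2 * x0| ≤ (S * Y) ^ 2 * S := by
    rw [abs_mul, abs_pow]
    exact mul_le_mul (pow_le_pow_left₀ (abs_nonneg _) hxa 2) hx0 (abs_nonneg _) (by (clear * -; positivity))
  have b3 : |x0 + β + x0 * xa| ≤ 2 * S + 2 * S ^ 2 := by
    have c1 := abs_add_le (x0 + β) (x0 * xa)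
    have c2 := abs_add_le x0 β
    have c3 : |x0 * xa| ≤ S * (S * Y) := by
      rw [abs_mul]; exact mul_le_mul hx0 hxa (abs_nonneg _) hS
    have c4 : (S + S ^ 2) * Y ≤ S + S ^ 2 := mul_le_of_le_one_right (by (clear * - hS; positivity)) hY1
    have c5 : S * (S * Y) ≤ S ^ 2 := by
      have : S * (S * Y) = S ^ 2 * Y := by ring
      rw [this]; exact mul_le_of_le_one_right (by (clear * -; positivity)) hY1
    linarith only [hx0, hβ, c1, c2, c3, c4, c5]
  have b4 : |e2 * (x0 + β + x0 * xa)| ≤ c * Y ^ 2 * (2 * S + 2 * S ^ 2) := by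
    rw [abs_mul]; exact mul_le_mul he2 b3 (abs_nonneg _) hc
  have d1 := abs_sub (e1 + xa * β + xa ^ 2 * x0) (e2 * (x0 + β + x0 * xa))
  have d2 := abs_add_le (e1 + xa * β) (xa ^ 2 * x0)
  have d3 := abs_add_le e1 (xa * β)
  have tot : |e1 + xa * β + xa ^ 2 * x0 - e2 * (x0 + β + x0 * xa)| ≤
      (c + S * (S + S ^ 2) + S ^ 3 + c * (2 * S + 2 * S ^ 2)) * Y ^ 2 := by
    nlinarith only [he1, b1, b2, b4, d1, d2, d3]
  have hR : 0 ≤ (c + S * (S + S ^ 2) + S ^ 3 + c * (2 * S + 2 * S ^ 2)) * Y ^ 2 :=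
    (abs_nonneg _).trans tot
  nlinarith only [he1, hden, b1, b2, b4, d1, d2, d3, hR]

theorem exp_taylor1 {D L S Y : ℝ} (hS : 0 ≤ S) (hY : 0 ≤ Y) (hY1 : Y ≤ 1)
    (hSY : 6 * S * Y ≤ 1) (hL : |L| ≤ S * Y) (hD : |D + L| ≤ 3 * S * Y ^ 2) :
    |Real.exp D - (1 - L)| ≤ (16 * S ^ 2 + 3 * S) * Y ^ 2 := by
  have hY2 : Y ^ 2 ≤ Y := by nlinarith only [hY, hY1]
  have hDb : |D| ≤ 4 * S * Y := by
    calc |D| = |(D + L) - L| := by ring_nf
      _ ≤ |D + L| + |L| := abs_sub _ _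
      _ ≤ 3 * S * Y ^ 2 + S * Y := by gcongr
      _ ≤ 4 * S * Y := by nlinarith only [hS, hY2]
  have hD1 : |D| ≤ 1 := hDb.trans (by nlinarith only [hSY])
  have h1 := Real.abs_exp_sub_one_sub_id_le hD1
  have h2 : D ^ 2 ≤ (4 * S * Y) ^ 2 := by
    rw [← sq_abs]; exact pow_le_pow_left₀ (abs_nonneg _) hDb 2
  have h3 : Real.exp D - (1 - L) = (Real.exp D - 1 - D) + (D + L) := by ring
  rw [h3]
  have h4 := abs_add_le (Real.exp D - 1 - D) (D + L)
  nlinarith only [hD, h1, h2, h4]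

/-- constant of the first order expansion -/
noncomputable def c4 (S : ℝ) : ℝ := 3 * S + 2 * (16 * S ^ 2 + 3 * S) * (1 + S) + 4 * S ^ 2

/-- constant of the first order expansion -/
noncomputable def K4 (S : ℝ) : ℝ :=
  2 * (c4 S + S * (S + S ^ 2) + S ^ 3 + c4 S * (2 * S + 2 * S ^ 2))

theorem jm_expand (hJ : ∀ e, 0 ≤ J e) {t a h : κ → ℝ} {Y : ℝ} (hY0 : 0 ≤ Y) (hY1 : Y ≤ 1)
    (hSY : 6 * (∑ e, J e) * Y ≤ 1)
    (hsm : (∑ e, J e) * Y + c4 (∑ e, J e) * Y ^ 2 ≤ 1 / 2)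
    (ha : ∀ e, |a e| ≤ Y) (hh : ∀ e, |h e| ≤ 1) :
    |jm μ J χ (t + a) h - jm μ J χ t h - QQ μ J χ t h a| ≤ K4 (∑ e, J e) * Y ^ 2 := by
  obtain ⟨S, hS⟩ : ∃ S, S = ∑ e, J e := ⟨_, rfl⟩
  rw [← hS] at hSY hsm ⊢
  have hS0 : 0 ≤ S := by rw [hS]; exact Finset.sum_nonneg fun e _ => hJ e
  have hc4 : 0 ≤ c4 S := by unfold c4; (clear * - hS0; positivity)
  have cD : Continuous (fun x => Real.exp (Ht J χ (t + a) x - Ht J χ t x)) :=
    Real.continuous_exp.comp ((cont_Ht J χ _).sub (cont_Ht J χ _))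
  have cJh := cont_Jt J χ t h
  have cJa := cont_Jt J χ t a
  have cJh' := cont_Jt J χ (t + a) h
  have cB := cont_Bt J χ t h a
  -- the pointwise bounds
  have pJh : ∀ x, |Jt J χ t h x| ≤ S := fun x => by
    have := abs_Jt_le J χ hJ hh (t := t) x
    rw [mul_one, ← hS] at this; exact this
  have pJh' : ∀ x, |Jt J χ (t + a) h x| ≤ S := fun x => by
    have := abs_Jt_le J χ hJ hh (t := t + a) x
    rw [mul_one, ← hS] at this; exact this
  have pJa : ∀ x, |Jt J χ t a x| ≤ S * Y := fun x => by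
    rw [hS]; exact abs_Jt_le J χ hJ ha x
  have pB : ∀ x, |Bt J χ t h a x| ≤ S * Y := fun x => by
    have := abs_Bt_le J χ hJ hh ha (t := t) x
    rw [one_mul, ← hS] at this; exact this
  have pD : ∀ x, |Real.exp (Ht J χ (t + a) x - Ht J χ t x) - (1 - Jt J χ t a x)| ≤
      (16 * S ^ 2 + 3 * S) * Y ^ 2 := fun x => by
    have := Ht_taylor1 J χ hJ hY1 ha (t := t) x
    rw [← hS] at this
    exact exp_taylor1 hS0 hY0 hY1 hSY (pJa x) this
  have pJ : ∀ x, |Jt J χ (t + a) h x - Jt J χ t h x - Bt J χ t h a x| ≤ 3 * S * Y ^ 2 :=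
    fun x => by
    have := Jt_taylor1 J χ hJ hY1 ha hh (t := t) x
    rw [← hS] at this; exact this
  -- ratio formula
  have hrat : jm μ J χ (t + a) h = ex μ J χ t (fun x => Jt J χ (t + a) h x *
      Real.exp (Ht J χ (t + a) x - Ht J χ t x)) /
      ex μ J χ t (fun x => Real.exp (Ht J χ (t + a) x - Ht J χ t x)) := by
    rw [← Zr_ratio]
    unfold jm ex
    have hz := (Zr_pos μ J χ t).ne'
    have hz' := (Zr_pos μ J χ (t + a)).ne'
    rw [div_div_div_cancel_right₀ hz]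
    congr 2
    ext x
    rw [mul_assoc, ← Real.exp_add]
    congr 2
    ring
  obtain ⟨xa, hxa⟩ : ∃ xa, xa = jm μ J χ t a := ⟨_, rfl⟩
  obtain ⟨x0, hx0⟩ : ∃ x0, x0 = jm μ J χ t h := ⟨_, rfl⟩
  have cJJ : Continuous (fun x => Jt J χ t h x * Jt J χ t a x) := cJh.mul cJa
  have cJB : Continuous (fun x => Jt J χ t h x + Bt J χ t h a x) := cJh.add cB
  have cN : Continuous (fun x => Jt J χ (t + a) h x *
      Real.exp (Ht J χ (t + a) x - Ht J χ t x)) := cJh'.mul cD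
  have cM : Continuous (fun x => (Jt J χ t h x + Bt J χ t h a x) -
        Jt J χ t h x * Jt J χ t a x) := cJB.sub cJJ
  obtain ⟨β, hβ⟩ : ∃ β, β = ex μ J χ t (Bt J χ t h a) -
      ex μ J χ t (fun x => Jt J χ t h x * Jt J χ t a x) := ⟨_, rfl⟩
  have hxa' : |xa| ≤ S * Y := by rw [hxa]; exact ex_abs_le μ J χ cJa pJa
  have hx0' : |x0| ≤ S := by rw [hx0]; exact ex_abs_le μ J χ cJh pJh
  have hβ' : |β| ≤ (S + S ^ 2) * Y := by
    rw [hβ]
    have a1 : |ex μ J χ t (Bt J χ t h a)| ≤ S * Y := ex_abs_le μ J χ cB pB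
    have a2 : |ex μ J χ t (fun x => Jt J χ t h x * Jt J χ t a x)| ≤ S * (S * Y) := by
      apply ex_abs_le μ J χ cJJ
      intro x
      rw [abs_mul]
      exact mul_le_mul (pJh x) (pJa x) (abs_nonneg _) hS0
    have a3 := abs_sub (ex μ J χ t (Bt J χ t h a))
      (ex μ J χ t (fun x => Jt J χ t h x * Jt J χ t a x))
    nlinarith only [a1, a2, a3]
  have hden : |ex μ J χ t (fun x => Real.exp (Ht J χ (t + a) x - Ht J χ t x)) - (1 - xa)| ≤
      c4 S * Y ^ 2 := by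
    have h1 : 1 - xa = ex μ J χ t (fun x => 1 - Jt J χ t a x) := by
      rw [ex_sub μ J χ continuous_const cJa, ex_const, hxa]; rfl
    rw [h1]
    apply ex_close μ J χ cD (continuous_const.sub cJa)
    intro x
    refine (pD x).trans ?_
    have : 16 * S ^ 2 + 3 * S ≤ c4 S := by
      unfold c4
      nlinarith only [hS0]
    exact mul_le_mul_of_nonneg_right this (sq_nonneg Y)
  have hnum : |ex μ J χ t (fun x => Jt J χ (t + a) h x *
      Real.exp (Ht J χ (t + a) x - Ht J χ t x)) - (x0 + β)| ≤ c4 S * Y ^ 2 := by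
    have h1 : x0 + β = ex μ J χ t (fun x => (Jt J χ t h x + Bt J χ t h a x) -
        Jt J χ t h x * Jt J χ t a x) := by
      rw [ex_sub μ J χ cJB cJJ, ex_add μ J χ cJh cB, hx0, hβ]
      unfold jm
      ring
    rw [h1]
    apply ex_close μ J χ cN cM
    intro x
    set D := Real.exp (Ht J χ (t + a) x - Ht J χ t x) with hDdef
    have q1 := pJ x
    have q2 := pD x
    have q3 := pJh' x
    have q4 := pJa x
    have q5 := pB x
    have q6 := pJh x
    have hid : Jt J χ (t + a) h x * D - ((Jt J χ t h x + Bt J χ t h a x) -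
        Jt J χ t h x * Jt J χ t a x) =
        (Jt J χ (t + a) h x - Jt J χ t h x - Bt J χ t h a x) * (1 - Jt J χ t a x) -
        Jt J χ t a x * Bt J χ t h a x + Jt J χ (t + a) h x * (D - (1 - Jt J χ t a x)) := by
      ring
    rw [hid]
    have r1 : |(Jt J χ (t + a) h x - Jt J χ t h x - Bt J χ t h a x) * (1 - Jt J χ t a x)| ≤
        (3 * S * Y ^ 2) * (1 + S) := by
      rw [abs_mul]
      refine mul_le_mul q1 ?_ (abs_nonneg _) (by (clear * - hS0; positivity))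
      have := abs_sub (1 : ℝ) (Jt J χ t a x)
      rw [abs_one] at this
      have : S * Y ≤ S := mul_le_of_le_one_right hS0 hY1
      (clear h hY0 hh hsm hSY hc4 cD cJh cJa cJh' cB pJh pJh' pB pD pJ hrat xa hxa x0 hx0 cJJ cJB cN cM β hβ hxa' hx0' hβ' hden h1 D hDdef q1 q2 q3 q5 q6 hid; linarith)
    have r2 : |Jt J χ t a x * Bt J χ t h a x| ≤ (S * Y) * (S * Y) := by
      rw [abs_mul]; exact mul_le_mul q4 q5 (abs_nonneg _) (by (clear * - hS0 hY0; positivity))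
    have r3 : |Jt J χ (t + a) h x * (D - (1 - Jt J χ t a x))| ≤
        S * ((16 * S ^ 2 + 3 * S) * Y ^ 2) := by
      rw [abs_mul]; exact mul_le_mul q3 q2 (abs_nonneg _) hS0
    have r4 := abs_add_le ((Jt J χ (t + a) h x - Jt J χ t h x - Bt J χ t h a x) *
      (1 - Jt J χ t a x) - Jt J χ t a x * Bt J χ t h a x)
      (Jt J χ (t + a) h x * (D - (1 - Jt J χ t a x)))
    have r5 := abs_sub ((Jt J χ (t + a) h x - Jt J χ t h x - Bt J χ t h a x) *
      (1 - Jt J χ t a x)) (Jt J χ t a x * Bt J χ t h a x)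
    have hY2 : 0 ≤ Y ^ 2 := sq_nonneg Y
    have fin : (3 * S * Y ^ 2) * (1 + S) + (S * Y) * (S * Y) +
        S * ((16 * S ^ 2 + 3 * S) * Y ^ 2) ≤ c4 S * Y ^ 2 := by
      have e1 : (3 * S * Y ^ 2) * (1 + S) + (S * Y) * (S * Y) +
        S * ((16 * S ^ 2 + 3 * S) * Y ^ 2) = (3 * S * (1 + S) + S ^ 2 +
          S * (16 * S ^ 2 + 3 * S)) * Y ^ 2 := by ring
      rw [e1]
      refine mul_le_mul_of_nonneg_right ?_ hY2
      unfold c4
      nlinarith only [hS0]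
    linarith only [r1, r2, r3, r4, r5, fin]
  have hfin := first_order (x0 := x0) (β := β) (xa := xa)
    (e1 := ex μ J χ t (fun x => Jt J χ (t + a) h x *
      Real.exp (Ht J χ (t + a) x - Ht J χ t x)) - (x0 + β))
    (e2 := ex μ J χ t (fun x => Real.exp (Ht J χ (t + a) x - Ht J χ t x)) - (1 - xa))
    hS0 hY0 hx0' hβ' hxa' hnum hden hY1 hsm
  have g1 : x0 + β + (ex μ J χ t (fun x => Jt J χ (t + a) h x *
      Real.exp (Ht J χ (t + a) x - Ht J χ t x)) - (x0 + β)) =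
      ex μ J χ t (fun x => Jt J χ (t + a) h x *
      Real.exp (Ht J χ (t + a) x - Ht J χ t x)) := by ring
  have g2 : 1 - xa + (ex μ J χ t (fun x => Real.exp (Ht J χ (t + a) x - Ht J χ t x)) -
      (1 - xa)) = ex μ J χ t (fun x => Real.exp (Ht J χ (t + a) x - Ht J χ t x)) := by ring
  rw [g1, g2, ← hrat] at hfin
  have hQ : QQ μ J χ t h a = β + x0 * xa := by
    rw [QQ, hβ, hx0, hxa]
  rw [hQ, ← hx0]
  unfold K4
  have e5 : jm μ J χ (t + a) h - x0 - (β + x0 * xa) =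
    jm μ J χ (t + a) h - (x0 + β + x0 * xa) := by ring
  rw [e5]
  exact hfin

end Lower

end UJ

end Vale.Agent.P159
end

section

/-!
Lattice sums and the logarithmic profile.
-/

open Filter Topology
open scoped BigOperators

namespace Vale.Agent.P159

theorem arctan_step {A : ℝ} (hA : 0 < A) {k : ℝ} (hk : 1 ≤ k) :
    1 / (A ^ 2 + k ^ 2) ≤ (Real.arctan (k / A) - Real.arctan ((k - 1) / A)) / A := by
  have hlt : (k - 1) / A < k / A := by
    apply div_lt_div_of_pos_right _ hA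
    linarith only []
  obtain ⟨c, hc, hc'⟩ := exists_hasDerivAt_eq_slope Real.arctan (fun x => 1 / (1 + x ^ 2)) hlt
    Real.continuous_arctan.continuousOn (fun x _ => Real.hasDerivAt_arctan x)
  have hw : k / A - (k - 1) / A = 1 / A := by field_simp; ring
  have hc0 : 0 ≤ c := (div_nonneg (by linarith only [hk]) hA.le).trans hc.1.le
  have hc1 : c ^ 2 ≤ (k / A) ^ 2 := pow_le_pow_left₀ hc0 hc.2.le 2
  rw [hw] at hc'
  have h1 : Real.arctan (k / A) - Real.arctan ((k - 1) / A) = 1 / (1 + c ^ 2) * (1 / A) := by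
    rw [hc']
    (clear * - hA; field_simp)
  rw [h1, mul_one_div, div_div]
  rw [div_le_div_iff₀ (by (clear * - hA hk; positivity)) (by positivity), one_mul]
  have h2 : A ^ 2 * c ^ 2 ≤ k ^ 2 := by
    calc A ^ 2 * c ^ 2 ≤ A ^ 2 * (k / A) ^ 2 := by gcongr
      _ = k ^ 2 := by field_simp
  have h3 : 1 / (1 + c ^ 2) * (A ^ 2 + k ^ 2) ≥ A ^ 2 := by
    rw [ge_iff_le, div_mul_eq_mul_div, one_mul, le_div_iff₀ (by (clear * -; positivity))]
    nlinarith only [h2]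
  nlinarith only [h3]

theorem sum_half {A : ℝ} (hA : 0 < A) (n : ℕ) :
    ∑ k ∈ Finset.range n, 1 / (A ^ 2 + ((k : ℝ) + 1) ^ 2) ≤ Real.arctan (n / A) / A := by
  induction n with
  | zero => simp only [Finset.range_zero, one_div, Finset.sum_empty, CharP.cast_eq_zero, zero_div, Real.arctan_zero, Std.le_refl]
  | succ n ih =>
    rw [Finset.sum_range_succ]
    have h := arctan_step hA (k := (n : ℝ) + 1) (by linarith only [])
    have h1 : ((n : ℝ) + 1 - 1) / A = n / A := by ring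
    rw [h1, sub_div] at h
    push_cast
    linarith only [ih, h]

/-- sums over a symmetric interval of integers -/
theorem sum_Icc_int (n : ℕ) (f : ℤ → ℝ) : ∑ k ∈ Finset.Icc (-(n : ℤ)) n, f k =
    f 0 + ∑ k ∈ Finset.range n, (f ((k : ℤ) + 1) + f (-((k : ℤ) + 1))) := by
  induction n with
  | zero => simp only [CharP.cast_eq_zero, neg_zero, Finset.Icc_self, Finset.sum_singleton, Finset.range_zero, neg_add_rev, Int.reduceNeg, Finset.sum_empty, add_zero]
  | succ n ih =>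
    rw [Finset.sum_range_succ, ← add_assoc, ← ih]
    have h1 : Finset.Icc (-((n + 1 : ℕ) : ℤ)) ((n + 1 : ℕ) : ℤ) =
        insert ((n : ℤ) + 1) (insert (-((n : ℤ) + 1)) (Finset.Icc (-(n : ℤ)) n)) := by
      ext x
      simp only [Finset.mem_Icc, Finset.mem_insert]
      push_cast
      omega
    rw [h1, Finset.sum_insert, Finset.sum_insert]
    · ring
    · simp only [Finset.mem_Icc]; omega
    · simp only [Finset.mem_Icc, Finset.mem_insert]; omega

theorem sum_inv_sq {A : ℝ} (hA : 0 < A) (n : ℕ) :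
    ∑ k ∈ Finset.Icc (-(n : ℤ)) n, 1 / (A ^ 2 + (k : ℝ) ^ 2) ≤ Real.pi / A + 1 / A ^ 2 := by
  rw [sum_Icc_int]
  have h := sum_half hA n
  have h2 : Real.arctan (n / A) / A ≤ (Real.pi / 2) / A :=
    div_le_div_of_nonneg_right (Real.arctan_lt_pi_div_two _).le hA.le
  have h3 : ∑ k ∈ Finset.range n, (1 / (A ^ 2 + (((k : ℤ) + 1 : ℤ) : ℝ) ^ 2) +
      1 / (A ^ 2 + ((-((k : ℤ) + 1) : ℤ) : ℝ) ^ 2)) =
      2 * ∑ k ∈ Finset.range n, 1 / (A ^ 2 + ((k : ℝ) + 1) ^ 2) := by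
    rw [Finset.mul_sum]
    refine Finset.sum_congr rfl fun k _ => ?_
    push_cast
    ring
  rw [h3]
  have h4 : (Real.pi / 2) / A * 2 = Real.pi / A := by ring
  simp only [Int.cast_zero]
  have h5 : (A ^ 2 + (0 : ℝ) ^ 2) = A ^ 2 := by ring
  rw [h5]
  linarith only [h, h2, h4]

/-- squared distance, regularised -/
noncomputable def qq (M : ℝ) (z : ℤ × ℤ) : ℝ := M ^ 2 + (z.1 : ℝ) ^ 2 + (z.2 : ℝ) ^ 2

/-- square box of sites -/
noncomputable def sq (n : ℕ) : Finset (ℤ × ℤ) :=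
  Finset.Icc (-(n : ℤ)) n ×ˢ Finset.Icc (-(n : ℤ)) n

theorem sum_sq_le {M : ℝ} (hM : 1 ≤ M) {n : ℕ} (hn : 1 ≤ n) :
    ∑ z ∈ sq n, 1 / qq M z ≤ 2 * Real.pi * Real.log n + 20 := by
  unfold sq qq
  rw [Finset.sum_product]
  have hM0 : 0 < M := by linarith only [hM]
  have hpi := Real.pi_pos
  have hpi4 := Real.pi_lt_d2
  have h1 : ∀ z1 ∈ Finset.Icc (-(n : ℤ)) n, ∑ z2 ∈ Finset.Icc (-(n : ℤ)) n,
      1 / (M ^ 2 + (z1 : ℝ) ^ 2 + (z2 : ℝ) ^ 2) ≤
      Real.pi / Real.sqrt (M ^ 2 + (z1 : ℝ) ^ 2) + 1 / (M ^ 2 + (z1 : ℝ) ^ 2) := by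
    intro z1 _
    have h0 : 0 < M ^ 2 + (z1 : ℝ) ^ 2 := by (clear * - hM; positivity)
    have h := sum_inv_sq (Real.sqrt_pos.2 h0) n
    rw [Real.sq_sqrt h0.le] at h
    exact h
  refine (Finset.sum_le_sum h1).trans ?_
  rw [Finset.sum_add_distrib]
  have h2 := sum_inv_sq hM0 n
  have h3 : Real.pi / M + 1 / M ^ 2 ≤ 5 := by
    have e1 : Real.pi / M ≤ Real.pi / 1 := by gcongr
    have e2 : 1 / M ^ 2 ≤ 1 / 1 ^ 2 := by gcongr
    norm_num at e1 e2
    have : (1 : ℝ) / M ^ 2 ≤ 1 := by simpa only [one_div] using e2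
    linarith only [hpi4, e1, this]
  have h4 : ∑ z1 ∈ Finset.Icc (-(n : ℤ)) n, Real.pi / Real.sqrt (M ^ 2 + (z1 : ℝ) ^ 2) ≤
      Real.pi + 2 * Real.pi * (1 + Real.log n) := by
    rw [sum_Icc_int]
    have h5 : ∑ k ∈ Finset.range n, (Real.pi / Real.sqrt (M ^ 2 + (((k : ℤ) + 1 : ℤ) : ℝ) ^ 2) +
        Real.pi / Real.sqrt (M ^ 2 + ((-((k : ℤ) + 1) : ℤ) : ℝ) ^ 2)) ≤
        ∑ k ∈ Finset.range n, 2 * Real.pi * (1 / ((k : ℝ) + 1)) := by
      refine Finset.sum_le_sum fun k _ => ?_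
      have h6 : (k : ℝ) + 1 ≤ Real.sqrt (M ^ 2 + ((k : ℝ) + 1) ^ 2) := by
        apply Real.le_sqrt_of_sq_le
        nlinarith only []
      have h7 : Real.pi / Real.sqrt (M ^ 2 + ((k : ℝ) + 1) ^ 2) ≤ Real.pi / ((k : ℝ) + 1) := by
        gcongr
      push_cast
      rw [neg_sq]
      have h8 : 2 * Real.pi * (1 / ((k : ℝ) + 1)) = 2 * (Real.pi / ((k : ℝ) + 1)) := by ring
      linarith only [h7, h8]
    have h6 : ∑ k ∈ Finset.range n, 2 * Real.pi * (1 / ((k : ℝ) + 1)) ≤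
        2 * Real.pi * (1 + Real.log n) := by
      rw [← Finset.mul_sum]
      refine mul_le_mul_of_nonneg_left ?_ (by positivity)
      have h7 := harmonic_le_one_add_log n
      have h8 : ((harmonic n : ℚ) : ℝ) = ∑ k ∈ Finset.range n, 1 / ((k : ℝ) + 1) := by
        unfold harmonic
        push_cast
        exact Finset.sum_congr rfl fun k _ => by rw [one_div]
      rw [← h8]
      exact h7
    have h7 : Real.pi / Real.sqrt (M ^ 2 + ((0 : ℤ) : ℝ) ^ 2) ≤ Real.pi := by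
      have e1 : (1 : ℝ) ≤ Real.sqrt (M ^ 2 + ((0 : ℤ) : ℝ) ^ 2) := by
        apply Real.le_sqrt_of_sq_le
        have e0 : (1 : ℝ) ^ 2 ≤ M ^ 2 := by (clear * - hM; gcongr)
        rw [Int.cast_zero]
        linarith only [e0]
      exact div_le_self hpi.le e1
    linarith only [h5, h6, h7]
  have hlog : 0 ≤ Real.log n := Real.log_nonneg (by exact_mod_cast hn)
  nlinarith only [hpi4, h2, h3, h4]

theorem sum_three_half_le {M : ℝ} (hM : 1 ≤ M) (n : ℕ) :
    ∑ z ∈ sq n, 1 / (qq M z * Real.sqrt (qq M z)) ≤ 25 := by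
  unfold sq qq
  rw [Finset.sum_product]
  have hM0 : 0 < M := by linarith
  have hpi4 := Real.pi_lt_d2
  have h1 : ∀ z1 ∈ Finset.Icc (-(n : ℤ)) n, ∑ z2 ∈ Finset.Icc (-(n : ℤ)) n,
      1 / ((M ^ 2 + (z1 : ℝ) ^ 2 + (z2 : ℝ) ^ 2) *
        Real.sqrt (M ^ 2 + (z1 : ℝ) ^ 2 + (z2 : ℝ) ^ 2)) ≤
      5 * (1 / (M ^ 2 + (z1 : ℝ) ^ 2)) := by
    intro z1 _
    have h0 : 0 < M ^ 2 + (z1 : ℝ) ^ 2 := by positivity
    set A := Real.sqrt (M ^ 2 + (z1 : ℝ) ^ 2) with hA
    have hA0 : 0 < A := Real.sqrt_pos.2 h0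
    have hA1 : 1 ≤ A := by
      apply Real.le_sqrt_of_sq_le
      nlinarith only [hM]
    have hA2 : A ^ 2 = M ^ 2 + (z1 : ℝ) ^ 2 := Real.sq_sqrt h0.le
    have h := sum_inv_sq hA0 n
    rw [hA2] at h
    calc ∑ z2 ∈ Finset.Icc (-(n : ℤ)) n,
        1 / ((M ^ 2 + (z1 : ℝ) ^ 2 + (z2 : ℝ) ^ 2) *
        Real.sqrt (M ^ 2 + (z1 : ℝ) ^ 2 + (z2 : ℝ) ^ 2))
        ≤ ∑ z2 ∈ Finset.Icc (-(n : ℤ)) n, (1 / A) * (1 / (M ^ 2 + (z1 : ℝ) ^ 2 + (z2 : ℝ) ^ 2)) := by
          refine Finset.sum_le_sum fun z2 _ => ?_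
          rw [one_div_mul_one_div, mul_comm A]
          have h3 : A ≤ Real.sqrt (M ^ 2 + (z1 : ℝ) ^ 2 + (z2 : ℝ) ^ 2) := by
            apply Real.sqrt_le_sqrt
            nlinarith only []
          (clear * - hM h3; gcongr)
      _ ≤ (1 / A) * (Real.pi / A + 1 / (M ^ 2 + (z1 : ℝ) ^ 2)) := by
          rw [← Finset.mul_sum]
          gcongr
      _ ≤ 5 * (1 / (M ^ 2 + (z1 : ℝ) ^ 2)) := by
          rw [← hA2]
          have e1 : (1 / A) * (Real.pi / A + 1 / A ^ 2) = (Real.pi + 1 / A) * (1 / A ^ 2) := by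
            (clear * - hA0; field_simp)
          rw [e1]
          have e2 : 1 / A ≤ 1 := by
            rw [div_le_one hA0]; exact hA1
          gcongr
          linarith only [hpi4, e2]
  refine (Finset.sum_le_sum h1).trans ?_
  rw [← Finset.mul_sum]
  have h2 := sum_inv_sq hM0 n
  have h3 : Real.pi / M + 1 / M ^ 2 ≤ 5 := by
    have e1 : Real.pi / M ≤ Real.pi / 1 := by (clear * - hM; gcongr)
    have e2 : 1 / M ^ 2 ≤ 1 / 1 ^ 2 := by gcongr
    norm_num at e1 e2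
    have : (1 : ℝ) / M ^ 2 ≤ 1 := by simpa only [one_div] using e2
    linarith only [hpi4, e1, this]
  linarith

/-- logarithmic profile -/
noncomputable def phi (M : ℝ) (z : ℤ × ℤ) : ℝ := Real.log (qq M z) / 2

theorem log_one_add_bound {u : ℝ} (hu : |u| ≤ 1 / 2) : |Real.log (1 + u)| ≤ |u| + 2 * u ^ 2 := by
  have h1 : |-u| < 1 := by rw [abs_neg]; linarith
  have h := Real.abs_log_sub_add_sum_range_le h1 1
  simp only [Finset.range_one, Finset.sum_singleton, zero_add, pow_one, Nat.cast_zero, div_one,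
    sub_neg_eq_add, abs_neg] at h
  have h2 : |u| ^ (1 + 1) / (1 - |u|) ≤ 2 * u ^ 2 := by
    rw [div_le_iff₀ (by linarith only [hu])]
    rw [show |u| ^ (1 + 1) = u ^ 2 by rw [one_add_one_eq_two, sq_abs]]
    nlinarith only [hu]
  have h3 : |Real.log (1 + u)| ≤ |-u + Real.log (1 + u)| + |u| := by
    calc |Real.log (1 + u)| = |(-u + Real.log (1 + u)) + u| := by ring_nf
      _ ≤ _ := abs_add_le _ _
  linarith only [h, h2, h3]

theorem log_one_add_bound' {u : ℝ} (hu : |u| ≤ 1 / 2) : |Real.log (1 + u)| ≤ 2 * |u| := by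
  have h := log_one_add_bound hu
  have : 2 * u ^ 2 ≤ |u| := by
    rw [← sq_abs]
    nlinarith only [hu, abs_nonneg u]
  linarith only [h, this]

section Cell

variable {M : ℝ} (hM : 9 ≤ M)
include hM

theorem qq_ge (z : ℤ × ℤ) : 81 ≤ qq M z := by
  unfold qq
  nlinarith [sq_nonneg (z.1 : ℝ), sq_nonneg (z.2 : ℝ)]

theorem qq_pos (z : ℤ × ℤ) : 0 < qq M z := by linarith [qq_ge hM z]

theorem sqrt_qq_ge (z : ℤ × ℤ) : 9 ≤ Real.sqrt (qq M z) := by
  apply Real.le_sqrt_of_sq_le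
  linarith [qq_ge hM z]

theorem abs_fst_le (z : ℤ × ℤ) : |(z.1 : ℝ)| ≤ Real.sqrt (qq M z) := by
  apply Real.le_sqrt_of_sq_le
  rw [sq_abs]
  unfold qq
  nlinarith [sq_nonneg (z.2 : ℝ)]

theorem abs_snd_le (z : ℤ × ℤ) : |(z.2 : ℝ)| ≤ Real.sqrt (qq M z) := by
  apply Real.le_sqrt_of_sq_le
  rw [sq_abs]
  unfold qq
  nlinarith only []

/-- general increment bound -/
theorem log_incr {q t : ℝ} (hq : 81 ≤ q) (ht : |t| ≤ Real.sqrt q) :
    |Real.log (q + (2 * t + 1)) / 2 - Real.log q / 2| ≤ (|t| + 10) / q ∧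
    |2 * t + 1| ≤ 3 * Real.sqrt q ∧ |(2 * t + 1) / q| ≤ 3 / Real.sqrt q := by
  have hq0 : 0 < q := by linarith
  set r := Real.sqrt q with hr
  have hr9 : 9 ≤ r := Real.le_sqrt_of_sq_le (by linarith only [hq])
  have hr2 : r * r = q := Real.mul_self_sqrt hq0.le
  have h1 : |2 * t + 1| ≤ 2 * |t| + 1 := by
    refine (abs_add_le _ _).trans ?_
    rw [abs_mul, abs_two, abs_one]
  have h2 : |2 * t + 1| ≤ 3 * r := by linarith only [ht, hr9, h1]
  have h3 : |(2 * t + 1) / q| ≤ 3 / r := by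
    rw [abs_div, abs_of_pos hq0, div_le_div_iff₀ hq0 (by linarith only [hr9]), ← hr2]
    nlinarith only [ht, hr9, h1]
  have h3' : |(2 * t + 1) / q| ≤ 1 / 2 := by
    refine h3.trans ?_
    rw [div_le_div_iff₀ (by linarith only [hr9]) (by norm_num)]
    linarith only [hr9]
  refine ⟨?_, h2, h3⟩
  have h4 : Real.log (q + (2 * t + 1)) / 2 - Real.log q / 2
      = Real.log (1 + (2 * t + 1) / q) / 2 := by
    have e1 : 1 + (2 * t + 1) / q = (q + (2 * t + 1)) / q := by (clear * - hq; field_simp)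
    have e2 : q + (2 * t + 1) ≠ 0 := by
      have := (abs_le.1 h3').1
      have e3 : 0 < 1 + (2 * t + 1) / q := by linarith only [this]
      rw [e1] at e3
      have e4 := mul_pos e3 hq0
      rw [div_mul_cancel₀ _ hq0.ne'] at e4
      exact e4.ne'
    rw [e1, Real.log_div e2 hq0.ne']
    ring
  rw [h4, abs_div, abs_two]
  have h5 := log_one_add_bound h3'
  have h6 : ((2 * t + 1) / q) ^ 2 ≤ 9 / q := by
    rw [← sq_abs]
    calc |(2 * t + 1) / q| ^ 2 ≤ (3 / r) ^ 2 := pow_le_pow_left₀ (abs_nonneg _) h3 2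
      _ = 9 / q := by rw [div_pow, ← hr2]; ring
  have h7 : |(2 * t + 1) / q| ≤ (2 * |t| + 1) / q := by
    rw [abs_div, abs_of_pos hq0]
    (clear * - h1 hq; gcongr)
  have h8 : (|t| + 10) / q = (2 * |t| + 1) / q / 2 + (19 / 2) / q := by ring
  have h9 : 9 / q ≤ (19 / 2 - 1 / 2) / q := by norm_num
  rw [h8]
  have h10 : (19 / 2 - 1 / 2) / q ≤ (19 / 2) / q := by
    gcongr
    norm_num
  linarith only [h5, h6, h7, h10]

end Cell

theorem qq_add1 (M : ℝ) (z : ℤ × ℤ) : qq M (z + (1, 0)) = qq M z + (2 * (z.1 : ℝ) + 1) := by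
  unfold qq
  simp only [Prod.fst_add, Prod.snd_add]
  push_cast
  ring

theorem qq_add2 (M : ℝ) (z : ℤ × ℤ) : qq M (z + (0, 1)) = qq M z + (2 * (z.2 : ℝ) + 1) := by
  unfold qq
  simp only [Prod.fst_add, Prod.snd_add]
  push_cast
  ring

section Cell2

variable {M : ℝ} (hM : 9 ≤ M)
include hM

theorem phi_d1 (z : ℤ × ℤ) :
    |phi M (z + (1, 0)) - phi M z| ≤ (|(z.1 : ℝ)| + 10) / qq M z := by
  unfold phi
  rw [qq_add1]
  exact (log_incr hM (qq_ge hM z) (abs_fst_le hM z)).1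

theorem phi_d2 (z : ℤ × ℤ) :
    |phi M (z + (0, 1)) - phi M z| ≤ (|(z.2 : ℝ)| + 10) / qq M z := by
  unfold phi
  rw [qq_add2]
  exact (log_incr hM (qq_ge hM z) (abs_snd_le hM z)).1

/-- comparison of `1/q` at neighbours -/
theorem inv_comp {q t : ℝ} (hq : 81 ≤ q) (ht : |t| ≤ Real.sqrt q) :
    1 / (q + (2 * t + 1)) ≤ 1 / q + (9 / 2) / (q * Real.sqrt q) ∧ q / 2 ≤ q + (2 * t + 1) := by
  have hq0 : 0 < q := by linarith
  obtain ⟨_, h2, h3⟩ := log_incr hM hq ht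
  set r := Real.sqrt q with hr
  have hr9 : 9 ≤ r := Real.le_sqrt_of_sq_le (by linarith only [hq])
  have hr2 : r * r = q := Real.mul_self_sqrt hq0.le
  have h4 : -(3 * r) ≤ 2 * t + 1 := (abs_le.1 h2).1
  have h5 : q - 3 * r ≤ q + (2 * t + 1) := by linarith only [h4]
  have h6 : 2 / 3 * q ≤ q - 3 * r := by rw [← hr2]; nlinarith only [hr9]
  have h7 : 0 < q - 3 * r := by linarith only [hq, h6]
  refine ⟨?_, by linarith only [hq, h4, h6]⟩
  have h8 : 1 / (q + (2 * t + 1)) ≤ 1 / (q - 3 * r) := one_div_le_one_div_of_le h7 h5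
  refine h8.trans ?_
  have h9 : 1 / q + (9 / 2) / (q * r) = (r + 9 / 2) / (q * r) := by
    field_simp
  rw [h9, div_le_div_iff₀ h7 (by positivity)]
  rw [← hr2]
  nlinarith only [hr2, h6]

theorem shifted_bound {q t s : ℝ} (hq : 81 ≤ q) (ht : |t| ≤ Real.sqrt q)
    (hs : |s| ≤ Real.sqrt q) :
    (|s| + 10) / (q + (2 * t + 1)) ≤ (|s| + 21) / q := by
  have hq0 : 0 < q := by linarith
  obtain ⟨h1, h2⟩ := inv_comp hM hq ht
  set r := Real.sqrt q with hr
  have hr9 : 9 ≤ r := Real.le_sqrt_of_sq_le (by linarith only [hq])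
  have hr2 : r * r = q := Real.mul_self_sqrt hq0.le
  have h3 : (|s| + 10) / (q + (2 * t + 1)) ≤ (|s| + 10) * (1 / q + (9 / 2) / (q * r)) := by
    rw [div_eq_mul_one_div]
    exact mul_le_mul_of_nonneg_left h1 (by positivity)
  refine h3.trans ?_
  have h4 : (|s| + 10) * (1 / q + (9 / 2) / (q * r)) =
      (|s| + 10 + (9 / 2) * ((|s| + 10) / r)) / q := by
    field_simp
  rw [h4]
  have h5 : (|s| + 10) / r ≤ 19 / 9 := by
    rw [div_le_div_iff₀ (by linarith only [hr9]) (by norm_num)]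
    nlinarith only [hs, hr9]
  have h6 : |s| + 10 + 9 / 2 * ((|s| + 10) / r) ≤ |s| + 21 := by linarith only [h5]
  exact div_le_div_of_nonneg_right h6 hq0.le

theorem phi_d1' (z : ℤ × ℤ) :
    |phi M (z + (0, 1) + (1, 0)) - phi M (z + (0, 1))| ≤ (|(z.1 : ℝ)| + 21) / qq M z := by
  refine (phi_d1 hM _).trans ?_
  rw [qq_add2]
  have h1 : ((z + (0, 1)).1 : ℝ) = z.1 := by simp
  rw [h1]
  exact shifted_bound hM (qq_ge hM z) (abs_snd_le hM z) (abs_fst_le hM z)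

theorem phi_d2' (z : ℤ × ℤ) :
    |phi M (z + (1, 0) + (0, 1)) - phi M (z + (1, 0))| ≤ (|(z.2 : ℝ)| + 21) / qq M z := by
  refine (phi_d2 hM _).trans ?_
  rw [qq_add1]
  have h1 : ((z + (1, 0)).2 : ℝ) = z.2 := by simp
  rw [h1]
  exact shifted_bound hM (qq_ge hM z) (abs_fst_le hM z) (abs_snd_le hM z)

/-- mixed second difference -/
theorem phi_mixed (z : ℤ × ℤ) :
    |phi M (z + (1, 0) + (0, 1)) - phi M (z + (1, 0)) - phi M (z + (0, 1)) + phi M z| ≤
      36 / qq M z := by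
  have hq := qq_ge hM z
  have hq0 := qq_pos hM z
  obtain ⟨_, a2, _⟩ := log_incr hM hq (abs_fst_le hM z)
  obtain ⟨_, b2, _⟩ := log_incr hM hq (abs_snd_le hM z)
  obtain ⟨_, c1⟩ := inv_comp hM hq (abs_fst_le hM z)
  obtain ⟨_, c2⟩ := inv_comp hM hq (abs_snd_le hM z)
  have e1 : qq M (z + (1, 0) + (0, 1)) = qq M z + (2 * (z.1 : ℝ) + 1) + (2 * (z.2 : ℝ) + 1) := by
    rw [qq_add2, qq_add1]; simp
  unfold phi
  rw [e1, qq_add1, qq_add2]
  have hp11 : 0 < qq M (z + (1, 0) + (0, 1)) := qq_pos hM _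
  rw [e1] at hp11
  generalize qq M z = q at *
  generalize 2 * (z.1 : ℝ) + 1 = s at *
  generalize 2 * (z.2 : ℝ) + 1 = t at *
  set r := Real.sqrt q with hr
  have hr9 : 9 ≤ r := Real.le_sqrt_of_sq_le (by linarith only [hq])
  have hr2 : r * r = q := Real.mul_self_sqrt hq0.le
  have hp10 : 0 < q + s := by linarith only [hq, c1]
  have hp01 : 0 < q + t := by linarith only [hq, c2]
  set v := -(s * t) / ((q + s) * (q + t)) with hv
  have h1 : 1 + v = (q + s + t) * q / ((q + s) * (q + t)) := by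
    rw [hv]; field_simp; ring
  have h2 : Real.log (q + s + t) / 2 - Real.log (q + s) / 2 - Real.log (q + t) / 2 +
      Real.log q / 2 = Real.log (1 + v) / 2 := by
    rw [h1, Real.log_div (by (clear * - hp11 hq; positivity)) (by (clear * - hp10 hp01; positivity)), Real.log_mul hp11.ne' hq0.ne',
      Real.log_mul hp10.ne' hp01.ne']
    ring
  have h3 : |v| ≤ 36 / q := by
    rw [hv, abs_div, abs_neg, abs_mul, abs_of_pos (mul_pos hp10 hp01),
      div_le_div_iff₀ (mul_pos hp10 hp01) hq0]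
    have h4 : |s| * |t| ≤ 9 * q := by
      calc |s| * |t| ≤ (3 * r) * (3 * r) := by (clear * - a2 b2 hq; gcongr)
        _ = 9 * q := by rw [← hr2]; ring
    have h5 : q / 2 * (q / 2) ≤ (q + s) * (q + t) := by (clear * - c1 c2 hq hp10; gcongr)
    nlinarith only [hq, h4, h5]
  have h4 : |v| ≤ 1 / 2 := by
    refine h3.trans ?_
    rw [div_le_div_iff₀ hq0 (by norm_num)]
    linarith only [hq]
  rw [h2, abs_div, abs_two]
  have h5 := log_one_add_bound' h4
  linarith only [h3, h5]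

end Cell2

end Vale.Agent.P159
end

section

/-!
The truncated logarithmic profile and the estimates for its cells.
-/

open Filter Topology
open scoped BigOperators

namespace Vale.Agent.P159

/-- mean horizontal increment of a cell -/
noncomputable def cp (f : ℤ × ℤ → ℝ) (z : ℤ × ℤ) : ℝ :=
  ((f (z + (1, 0)) - f z) + (f (z + (0, 1) + (1, 0)) - f (z + (0, 1)))) / 2

/-- mean vertical increment of a cell -/
noncomputable def cq (f : ℤ × ℤ → ℝ) (z : ℤ × ℤ) : ℝ :=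
  ((f (z + (0, 1)) - f z) + (f (z + (1, 0) + (0, 1)) - f (z + (1, 0)))) / 2

/-- mixed second difference of a cell -/
noncomputable def ck (f : ℤ × ℤ → ℝ) (z : ℤ × ℤ) : ℝ :=
  f (z + (1, 0) + (0, 1)) - f (z + (1, 0)) - f (z + (0, 1)) + f z

/-- total size of the increments of a cell -/
noncomputable def cY (f : ℤ × ℤ → ℝ) (z : ℤ × ℤ) : ℝ := |cp f z| + |cq f z| + |ck f z|

/-- truncated profile -/
noncomputable def psi (M : ℝ) (n : ℕ) (z : ℤ × ℤ) : ℝ :=
  max 0 (Real.log (M ^ 2 + (n : ℝ) ^ 2) / 2 - phi M z)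

theorem abs_max_sub_max (a b L : ℝ) : |max 0 (L - a) - max 0 (L - b)| ≤ |a - b| := by
  have h := abs_max_sub_max_le_abs (L - a) (L - b) 0
  rw [max_comm 0, max_comm 0]
  refine h.trans (le_of_eq ?_)
  rw [show L - a - (L - b) = -(a - b) by ring, abs_neg]

variable {M : ℝ}

theorem psi_zero_of {n : ℕ} (hM : 9 ≤ M) {z : ℤ × ℤ} (hz : (n : ℝ) ^ 2 ≤ (z.1 : ℝ) ^ 2 + (z.2 : ℝ) ^ 2) :
    psi M n z = 0 := by
  unfold psi phi qq
  apply max_eq_left
  have h : Real.log (M ^ 2 + (n : ℝ) ^ 2) ≤ Real.log (M ^ 2 + (z.1 : ℝ) ^ 2 + (z.2 : ℝ) ^ 2) := by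
    apply Real.log_le_log
    · positivity
    · linarith
  linarith only [h]

theorem psi_support {n : ℕ} (hM : 9 ≤ M) {z : ℤ × ℤ} (hz : psi M n z ≠ 0) :
    |z.1| < n ∧ |z.2| < n := by
  by_contra hcon
  apply hz
  apply psi_zero_of hM
  have h1 : (n : ℤ) ≤ |z.1| ∨ (n : ℤ) ≤ |z.2| := by
    by_contra h2
    push Not at h2
    exact hcon h2
  rcases h1 with h1 | h1
  · have h2 : (n : ℝ) ≤ |(z.1 : ℝ)| := by exact_mod_cast h1
    have h3 : (n : ℝ) ^ 2 ≤ |(z.1 : ℝ)| ^ 2 := by (clear * - h2; gcongr)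
    rw [sq_abs] at h3
    nlinarith only [h3]
  · have h2 : (n : ℝ) ≤ |(z.2 : ℝ)| := by exact_mod_cast h1
    have h3 : (n : ℝ) ^ 2 ≤ |(z.2 : ℝ)| ^ 2 := by gcongr
    rw [sq_abs] at h3
    nlinarith only [h3]

theorem mem_sq_iff {n : ℕ} {z : ℤ × ℤ} : z ∈ sq n ↔ |z.1| ≤ n ∧ |z.2| ≤ n := by
  unfold sq
  rw [Finset.mem_product, Finset.mem_Icc, Finset.mem_Icc, abs_le, abs_le]

/-- cells off `sq n` are inactive -/
theorem psi_inactive {n : ℕ} (hM : 9 ≤ M) {z : ℤ × ℤ} (hz : z ∉ sq n) :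
    cp (psi M n) z = 0 ∧ cq (psi M n) z = 0 ∧ ck (psi M n) z = 0 := by
  have h : ∀ w : ℤ × ℤ, (|w.1 - z.1| ≤ 1 ∧ |w.2 - z.2| ≤ 1) → psi M n w = 0 := by
    intro w hw
    by_contra hne
    obtain ⟨h1, h2⟩ := psi_support hM hne
    apply hz
    rw [mem_sq_iff]
    rw [abs_lt] at h1 h2
    obtain ⟨h3, h4⟩ := hw
    rw [abs_le] at h3 h4 ⊢
    rw [abs_le]
    (clear * - h1 h2 h3 h4; omega)
  have e0 : psi M n z = 0 := h z (by simp only [sub_self, abs_zero, zero_le_one, and_self])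
  have e1 : psi M n (z + (1, 0)) = 0 := h _ (by simp only [Prod.fst_add, add_sub_cancel_left, abs_one, Std.le_refl, Prod.snd_add, add_zero, sub_self, abs_zero, zero_le_one, and_self])
  have e2 : psi M n (z + (0, 1)) = 0 := h _ (by simp only [Prod.fst_add, add_zero, sub_self, abs_zero, zero_le_one, Prod.snd_add, add_sub_cancel_left, abs_one, Std.le_refl, and_self])
  have e3 : psi M n (z + (1, 0) + (0, 1)) = 0 := h _ (by simp only [Prod.fst_add, add_zero, add_sub_cancel_left, abs_one, Std.le_refl, Prod.snd_add, and_self])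
  have e4 : psi M n (z + (0, 1) + (1, 0)) = 0 := h _ (by simp)
  unfold cp cq ck
  rw [e0, e1, e2, e3, e4]
  norm_num

section

variable (hM : 9 ≤ M)
include hM

theorem cp_le (n : ℕ) (z : ℤ × ℤ) : |cp (psi M n) z| ≤ (|(z.1 : ℝ)| + 21) / qq M z := by
  unfold cp
  have h1 : |psi M n (z + (1, 0)) - psi M n z| ≤ (|(z.1 : ℝ)| + 10) / qq M z :=
    (abs_max_sub_max _ _ _).trans (phi_d1 hM z)
  have h2 : |psi M n (z + (0, 1) + (1, 0)) - psi M n (z + (0, 1))| ≤
      (|(z.1 : ℝ)| + 21) / qq M z :=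
    (abs_max_sub_max _ _ _).trans (phi_d1' hM z)
  have h3 : (|(z.1 : ℝ)| + 10) / qq M z ≤ (|(z.1 : ℝ)| + 21) / qq M z := by
    have := qq_pos hM z
    gcongr
    norm_num
  rw [abs_div, abs_two]
  have h4 := abs_add_le (psi M n (z + (1, 0)) - psi M n z)
    (psi M n (z + (0, 1) + (1, 0)) - psi M n (z + (0, 1)))
  linarith

theorem cq_le (n : ℕ) (z : ℤ × ℤ) : |cq (psi M n) z| ≤ (|(z.2 : ℝ)| + 21) / qq M z := by
  unfold cq
  have h1 : |psi M n (z + (0, 1)) - psi M n z| ≤ (|(z.2 : ℝ)| + 10) / qq M z :=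
    (abs_max_sub_max _ _ _).trans (phi_d2 hM z)
  have h2 : |psi M n (z + (1, 0) + (0, 1)) - psi M n (z + (1, 0))| ≤
      (|(z.2 : ℝ)| + 21) / qq M z :=
    (abs_max_sub_max _ _ _).trans (phi_d2' hM z)
  have h3 : (|(z.2 : ℝ)| + 10) / qq M z ≤ (|(z.2 : ℝ)| + 21) / qq M z := by
    have := qq_pos hM z
    gcongr
    norm_num
  rw [abs_div, abs_two]
  have h4 := abs_add_le (psi M n (z + (0, 1)) - psi M n z)
    (psi M n (z + (1, 0) + (0, 1)) - psi M n (z + (1, 0)))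
  linarith only [h1, h2, h3, h4]

theorem ck_le (n : ℕ) (z : ℤ × ℤ) : |ck (psi M n) z| ≤ 2 * ((|(z.2 : ℝ)| + 21) / qq M z) := by
  unfold ck
  have h1 : |psi M n (z + (0, 1)) - psi M n z| ≤ (|(z.2 : ℝ)| + 10) / qq M z :=
    (abs_max_sub_max _ _ _).trans (phi_d2 hM z)
  have h2 : |psi M n (z + (1, 0) + (0, 1)) - psi M n (z + (1, 0))| ≤
      (|(z.2 : ℝ)| + 21) / qq M z :=
    (abs_max_sub_max _ _ _).trans (phi_d2' hM z)
  have h3 : (|(z.2 : ℝ)| + 10) / qq M z ≤ (|(z.2 : ℝ)| + 21) / qq M z := by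
    have := qq_pos hM z
    gcongr
    norm_num
  have h4 := abs_sub (psi M n (z + (1, 0) + (0, 1)) - psi M n (z + (1, 0)))
    (psi M n (z + (0, 1)) - psi M n z)
  have h5 : psi M n (z + (1, 0) + (0, 1)) - psi M n (z + (1, 0)) -
    (psi M n (z + (0, 1)) - psi M n z) = psi M n (z + (1, 0) + (0, 1)) - psi M n (z + (1, 0)) -
    psi M n (z + (0, 1)) + psi M n z := by ring
  rw [h5] at h4
  linarith

theorem frac_le {q s : ℝ} (hq : 81 ≤ q) (hs : |s| ≤ Real.sqrt q) :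
    (|s| + 21) / q ≤ 4 / Real.sqrt q := by
  set r := Real.sqrt q with hr
  have hr9 : 9 ≤ r := Real.le_sqrt_of_sq_le (by linarith only [hq])
  have hr2 : r * r = q := Real.mul_self_sqrt (by linarith only [hq])
  rw [div_le_div_iff₀ (by linarith only [hq]) (by linarith only [hr9]), ← hr2]
  nlinarith only [hs, hr9]

theorem cY_le (n : ℕ) (z : ℤ × ℤ) : cY (psi M n) z ≤ 16 / Real.sqrt (qq M z) := by
  unfold cY
  have h1 := cp_le hM n z
  have h2 := cq_le hM n z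
  have h3 := ck_le hM n z
  have h4 := frac_le hM (qq_ge hM z) (abs_fst_le hM z)
  have h5 := frac_le hM (qq_ge hM z) (abs_snd_le hM z)
  have h6 : 16 / Real.sqrt (qq M z) = 4 * (4 / Real.sqrt (qq M z)) := by ring
  rw [h6]
  linarith

theorem P_le (n : ℕ) (z : ℤ × ℤ) : cp (psi M n) z ^ 2 + cq (psi M n) z ^ 2 ≤
    1 / qq M z + 182 * (1 / (qq M z * Real.sqrt (qq M z))) := by
  have h1 := cp_le hM n z
  have h2 := cq_le hM n z
  have hq := qq_ge hM z
  have hq0 := qq_pos hM z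
  have hf := abs_fst_le hM z
  have hs := abs_snd_le hM z
  set r := Real.sqrt (qq M z) with hr
  have hr9 : 9 ≤ r := Real.le_sqrt_of_sq_le (by (clear * - hq; linarith))
  have hr2 : r * r = qq M z := Real.mul_self_sqrt hq0.le
  have h3 : cp (psi M n) z ^ 2 ≤ ((|(z.1 : ℝ)| + 21) / qq M z) ^ 2 := by
    rw [← sq_abs]; exact pow_le_pow_left₀ (abs_nonneg _) h1 2
  have h4 : cq (psi M n) z ^ 2 ≤ ((|(z.2 : ℝ)| + 21) / qq M z) ^ 2 := by
    rw [← sq_abs]; exact pow_le_pow_left₀ (abs_nonneg _) h2 2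
  refine (add_le_add h3 h4).trans ?_
  rw [div_pow, div_pow, ← add_div]
  have h5 : (|(z.1 : ℝ)| + 21) ^ 2 + (|(z.2 : ℝ)| + 21) ^ 2 ≤ qq M z + 182 * r := by
    have e1 : |(z.1 : ℝ)| ^ 2 + |(z.2 : ℝ)| ^ 2 + 81 ≤ qq M z := by
      unfold qq
      rw [sq_abs, sq_abs]
      nlinarith only [hM]
    nlinarith only [hf, hs, hr9, e1]
  have h6 : 1 / qq M z + 182 * (1 / (qq M z * r)) = (qq M z + 182 * r) / (qq M z) ^ 2 := by
    rw [← hr2]
    field_simp
  rw [h6]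
  (clear * - h5 hq; gcongr)

/-- error terms of a cell -/
theorem E_le {n : ℕ} (hn : 1 ≤ n) (z : ℤ × ℤ) :
    |ck (psi M n) z| * cY (psi M n) z + cY (psi M n) z ^ 4 ≤
      8000 * (1 / (qq M z * Real.sqrt (qq M z))) + 1100 / (n : ℝ) ^ 2 := by
  have hY := cY_le hM n z
  have hY0 : 0 ≤ cY (psi M n) z := by unfold cY; positivity
  have hq := qq_ge hM z
  have hq0 := qq_pos hM z
  have hn0 : (0 : ℝ) < n := by exact_mod_cast hn
  have hk2 := ck_le hM n z
  have hfr := frac_le hM (qq_ge hM z) (abs_snd_le hM z)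
  have hfr1 := frac_le hM (qq_ge hM z) (abs_fst_le hM z)
  have d1 := phi_d1 hM z
  have d1' := phi_d1' hM z
  have d2 := phi_d2 hM z
  have d2' := phi_d2' hM z
  have hmix := phi_mixed hM z
  set r := Real.sqrt (qq M z) with hr
  have hr9 : 9 ≤ r := Real.le_sqrt_of_sq_le (by linarith only [hq])
  have hr2 : r * r = qq M z := Real.mul_self_sqrt hq0.le
  have hr0 : 0 < r := by linarith only [hr9]
  -- fourth power
  have hY4 : cY (psi M n) z ^ 4 ≤ 7300 * (1 / (qq M z * r)) := by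
    calc cY (psi M n) z ^ 4 ≤ (16 / r) ^ 4 := pow_le_pow_left₀ hY0 hY 4
      _ = 65536 * (1 / (qq M z * r)) * (1 / r) := by
          rw [← hr2]; field_simp; (clear * -; norm_num)
      _ ≤ 65536 * (1 / (qq M z * r)) * (1 / 9) := by (clear * - hr9 hq; gcongr)
      _ ≤ 7300 * (1 / (qq M z * r)) := by
          have : 0 ≤ 1 / (qq M z * r) := by (clear * - hq; positivity)
          nlinarith only [this]
  have hpos1 : 0 ≤ 1 / (qq M z * r) := by (clear * - hq; positivity)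
  have hpos2 : 0 ≤ 1100 / (n : ℝ) ^ 2 := by positivity
  by_cases hcase : |ck (psi M n) z| ≤ 36 / qq M z
  · have h1 : |ck (psi M n) z| * cY (psi M n) z ≤ 576 * (1 / (qq M z * r)) := by
      calc |ck (psi M n) z| * cY (psi M n) z ≤ (36 / qq M z) * (16 / r) := by (clear * - hcase hY hY0 hq; gcongr)
        _ = 576 * (1 / (qq M z * r)) := by field_simp; norm_num
    linarith only [hY4, hpos1, hpos2, h1]
  · -- mixed case
    set L := Real.log (M ^ 2 + (n : ℝ) ^ 2) / 2 with hL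
    have hcomm : z + (0, 1) + (1, 0) = z + (1, 0) + (0, 1) := by
      rw [add_assoc, add_assoc, add_comm ((0, 1) : ℤ × ℤ)]
    have hfr10 : (|(z.1 : ℝ)| + 10) / qq M z ≤ 4 / r := le_trans (by gcongr; norm_num) hfr1
    have hfr20 : (|(z.2 : ℝ)| + 10) / qq M z ≤ 4 / r := le_trans (by gcongr; norm_num) hfr
    have h49 : 4 / r ≤ 4 / 9 := by (clear * - hr9; gcongr)
    have hlow : L - 1 ≤ phi M z := by
      by_contra hcon
      push Not at hcon
      apply hcase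
      have a0 : phi M z < L := by linarith only [hcon]
      have a1 : phi M (z + (1, 0)) < L := by
        have := (abs_le.1 (d1.trans (hfr10.trans h49))).2
        linarith only [hcon, this]
      have a2 : phi M (z + (0, 1)) < L := by
        have := (abs_le.1 (d2.trans (hfr20.trans h49))).2
        linarith only [hcon, this]
      have a3 : phi M (z + (1, 0) + (0, 1)) < L := by
        have b1 := (abs_le.1 (d1.trans (hfr10.trans h49))).2
        have b2 := (abs_le.1 (d2'.trans (hfr.trans h49))).2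
        linarith only [hcon, b1, b2]
      have e : ∀ w : ℤ × ℤ, phi M w < L → psi M n w = L - phi M w := by
        intro w hw
        unfold psi
        rw [← hL]
        exact max_eq_right (by linarith only [hw])
      unfold ck
      rw [e _ a0, e _ a1, e _ a2, e _ a3]
      have e2 : L - phi M (z + (1, 0) + (0, 1)) - (L - phi M (z + (1, 0))) -
          (L - phi M (z + (0, 1))) + (L - phi M z) = -(phi M (z + (1, 0) + (0, 1)) -
          phi M (z + (1, 0)) - phi M (z + (0, 1)) + phi M z) := by ring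
      rw [e2, abs_neg]
      exact hmix
    have hqn : (n : ℝ) ^ 2 / 8 ≤ qq M z := by
      have h1 : Real.log (M ^ 2 + (n : ℝ) ^ 2) - 2 ≤ Real.log (qq M z) := by
        unfold phi at hlow
        linarith only [hL, hlow]
      have hpos : 0 < M ^ 2 + (n : ℝ) ^ 2 := by positivity
      have h2 := Real.exp_le_exp.2 h1
      rw [Real.exp_log hq0, Real.exp_sub, Real.exp_log hpos] at h2
      have h3 : Real.exp 2 ≤ 8 := by
        have h4 := Real.exp_one_lt_d9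
        have h5 : Real.exp 2 = Real.exp 1 * Real.exp 1 := by
          rw [← Real.exp_add]; norm_num
        rw [h5]
        nlinarith only [h4, Real.exp_pos 1]
      have h4 : (n : ℝ) ^ 2 / 8 ≤ (M ^ 2 + (n : ℝ) ^ 2) / Real.exp 2 := by
        apply div_le_div₀ (by positivity) _ (Real.exp_pos _) h3
        nlinarith only []
      linarith only [h2, h4]
    have h1 : |ck (psi M n) z| * cY (psi M n) z ≤ 128 / qq M z := by
      calc |ck (psi M n) z| * cY (psi M n) z ≤ (2 * (4 / r)) * (16 / r) := by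
            gcongr
            exact hk2.trans (by (clear * - hfr; gcongr))
        _ = 128 / qq M z := by rw [← hr2]; field_simp; norm_num
    have h2 : 128 / qq M z ≤ 1100 / (n : ℝ) ^ 2 := by
      rw [div_le_div_iff₀ hq0 (by positivity)]
      nlinarith only [hqn]
    linarith only [hY4, hpos1, h1, h2]

end

theorem card_sq (n : ℕ) : ((sq n).card : ℝ) = (2 * n + 1) ^ 2 := by
  unfold sq
  rw [Finset.card_product, Int.card_Icc]
  have : ((n : ℤ) + 1 - -(n : ℤ)).toNat = 2 * n + 1 := by omega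
  rw [this]
  push_cast
  ring

theorem sum_le_of_support {α : Type*} [DecidableEq α] {S S' : Finset α} {f : α → ℝ}
    (h0 : ∀ z, 0 ≤ f z) (h : ∀ z, z ∉ S' → f z = 0) : ∑ z ∈ S, f z ≤ ∑ z ∈ S', f z := by
  have h1 : ∑ z ∈ S.filter (fun z => z ∈ S'), f z = ∑ z ∈ S, f z := by
    apply Finset.sum_filter_of_ne
    intro z _ hne
    by_contra hz
    exact hne (h z hz)
  rw [← h1]
  apply Finset.sum_le_sum_of_subset_of_nonneg
  · intro z hz
    exact (Finset.mem_filter.1 hz).2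
  · intro z _ _
    exact h0 z

theorem sum_P_le (hM : 9 ≤ M) {n : ℕ} (hn : 1 ≤ n) (S : Finset (ℤ × ℤ)) (x : ℤ × ℤ) :
    ∑ z ∈ S, (cp (psi M n) (z - x) ^ 2 + cq (psi M n) (z - x) ^ 2) ≤
      2 * Real.pi * Real.log n + 4600 := by
  have h0 : ∑ z ∈ S, (cp (psi M n) (z - x) ^ 2 + cq (psi M n) (z - x) ^ 2) ≤
      ∑ z ∈ sq n, (cp (psi M n) z ^ 2 + cq (psi M n) z ^ 2) := by
    rw [← Finset.sum_image (f := fun z => cp (psi M n) z ^ 2 + cq (psi M n) z ^ 2)
      (g := fun z => z - x) (s := S) (fun a _ b _ h => sub_left_injective h)]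
    apply sum_le_of_support (fun z => by (clear * -; positivity))
    intro z hz
    obtain ⟨h1, h2, _⟩ := psi_inactive hM hz
    simp [h1, h2]
  refine h0.trans ?_
  refine (Finset.sum_le_sum fun z _ => P_le hM n z).trans ?_
  rw [Finset.sum_add_distrib, ← Finset.mul_sum]
  have h1 := sum_sq_le (M := M) (by linarith only [hM]) hn
  have h2 := sum_three_half_le (M := M) (by linarith only [hM]) n
  linarith

theorem sum_E_le (hM : 9 ≤ M) {n : ℕ} (hn : 1 ≤ n) (S : Finset (ℤ × ℤ)) (x : ℤ × ℤ) :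
    ∑ z ∈ S, (|ck (psi M n) (z - x)| * cY (psi M n) (z - x) + cY (psi M n) (z - x) ^ 4) ≤
      210000 := by
  have h0 : ∑ z ∈ S, (|ck (psi M n) (z - x)| * cY (psi M n) (z - x) +
      cY (psi M n) (z - x) ^ 4) ≤
      ∑ z ∈ sq n, (|ck (psi M n) z| * cY (psi M n) z + cY (psi M n) z ^ 4) := by
    rw [← Finset.sum_image (f := fun z => |ck (psi M n) z| * cY (psi M n) z +
      cY (psi M n) z ^ 4) (g := fun z => z - x) (s := S) (fun a _ b _ h => sub_left_injective h)]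
    apply sum_le_of_support (fun z => by unfold cY; (clear * -; positivity))
    intro z hz
    obtain ⟨h1, h2, h3⟩ := psi_inactive hM hz
    simp [cY, h1, h2, h3]
  refine h0.trans ?_
  refine (Finset.sum_le_sum fun z _ => E_le hM hn z).trans ?_
  rw [Finset.sum_add_distrib, ← Finset.mul_sum, Finset.sum_const, nsmul_eq_mul, card_sq]
  have h2 := sum_three_half_le (M := M) (by linarith only [hM]) n
  have hn1 : (1 : ℝ) ≤ n := by exact_mod_cast hn
  have h3 : (2 * (n : ℝ) + 1) ^ 2 * (1100 / (n : ℝ) ^ 2) ≤ 9900 := by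
    rw [mul_div_assoc', div_le_iff₀ (by positivity)]
    nlinarith only [hn1]
  linarith only [h2, h3]

end Vale.Agent.P159
end

section

/-!
Summation of the affinities (real numbers only).
-/

open scoped BigOperators

namespace Vale.Agent.P159

namespace UJ

theorem geom_le {ρ : ℝ} (h0 : 0 ≤ ρ) (h1 : ρ < 1) (n : ℕ) :
    ∑ k ∈ Finset.range n, ρ ^ k ≤ 1 / (1 - ρ) := by
  have h2 : 0 < 1 - ρ := by linarith only [h1]
  have h3 : (∑ k ∈ Finset.range n, ρ ^ k) * (1 - ρ) = 1 - ρ ^ n := by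
    have := geom_sum_mul ρ n
    linarith only [this]
  rw [le_div_iff₀ h2, h3]
  linarith only [pow_nonneg h0 n]

/-- two sided geometric sum -/
theorem geom_two {ρ : ℝ} (h0 : 0 ≤ ρ) (h1 : ρ < 1) (M i : ℕ) :
    ∑ k ∈ Finset.range M, ρ ^ ((i : ℤ) - k).natAbs ≤ (1 + ρ) / (1 - ρ) := by
  have h2 : 0 < 1 - ρ := by linarith
  rw [← Finset.sum_filter_add_sum_filter_not (Finset.range M) (fun k => k < i)]
  have e1 : ∑ k ∈ (Finset.range M).filter (fun k => k < i), ρ ^ ((i : ℤ) - k).natAbs ≤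
      ρ * (1 / (1 - ρ)) := by
    calc ∑ k ∈ (Finset.range M).filter (fun k => k < i), ρ ^ ((i : ℤ) - k).natAbs
        ≤ ∑ k ∈ Finset.range i, ρ ^ ((i : ℤ) - k).natAbs := by
          refine Finset.sum_le_sum_of_subset_of_nonneg ?_ fun k _ _ => pow_nonneg h0 _
          intro k hk
          exact Finset.mem_range.2 (Finset.mem_filter.1 hk).2
      _ = ∑ k ∈ Finset.range i, ρ * ρ ^ k := by
          rw [← Finset.sum_range_reflect]
          refine Finset.sum_congr rfl fun k hk => ?_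
          have hk' := Finset.mem_range.1 hk
          rw [← pow_succ']
          congr 1
          omega
      _ = ρ * ∑ k ∈ Finset.range i, ρ ^ k := by rw [Finset.mul_sum]
      _ ≤ ρ * (1 / (1 - ρ)) := mul_le_mul_of_nonneg_left (geom_le h0 h1 i) h0
  have e2 : ∑ k ∈ (Finset.range M).filter (fun k => ¬ k < i), ρ ^ ((i : ℤ) - k).natAbs ≤
      1 / (1 - ρ) := by
    calc ∑ k ∈ (Finset.range M).filter (fun k => ¬ k < i), ρ ^ ((i : ℤ) - k).natAbs
        ≤ ∑ k ∈ (Finset.range M).map ⟨fun k => k + i, fun a b h => by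
            simpa using h⟩, ρ ^ ((i : ℤ) - k).natAbs := by
          refine Finset.sum_le_sum_of_subset_of_nonneg ?_ fun k _ _ => pow_nonneg h0 _
          intro k hk
          obtain ⟨a1, a2⟩ := Finset.mem_filter.1 hk
          have a3 := Finset.mem_range.1 a1
          rw [Finset.mem_map]
          refine ⟨k - i, Finset.mem_range.2 (by (clear * - a2 a3; omega)), ?_⟩
          show k - i + i = k
          omega
      _ = ∑ k ∈ Finset.range M, ρ ^ k := by
          rw [Finset.sum_map]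
          refine Finset.sum_congr rfl fun k _ => ?_
          congr 1
          show ((i : ℤ) - ((k + i : ℕ) : ℤ)).natAbs = k
          omega
      _ ≤ 1 / (1 - ρ) := geom_le h0 h1 M
  have e3 : (1 + ρ) / (1 - ρ) = ρ * (1 / (1 - ρ)) + 1 / (1 - ρ) := by ring
  rw [e3]
  exact add_le_add e1 e2

/-- the positions -/
def posn (M : ℕ) : Finset (ℕ × ℕ) := Finset.range M ×ˢ Finset.range M

theorem row_sum {M : ℕ} {A A0 ρ : ℝ} (hρ0 : 0 ≤ ρ) (hρ1 : ρ ≤ 1 / 10) (hA : 0 ≤ A)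
    (hA0 : 0 ≤ A0) {H : ℕ × ℕ → ℕ × ℕ → ℝ} (hdiag : ∀ p ∈ posn M, H p p ≤ 1)
    (hoff : ∀ p ∈ posn M, ∀ q ∈ posn M, p ≠ q → H p q ≤ A0 + A * (ρ ^ ((p.1 : ℤ) - q.1).natAbs *
      ρ ^ ((p.2 : ℤ) - q.2).natAbs)) {p : ℕ × ℕ} (hp : p ∈ posn M) :
    ∑ q ∈ posn M, H p q ≤ 1 + (M : ℝ) ^ 2 * A0 + 5 * A * ρ := by
  have hρ : ρ < 1 := by (clear * - hρ1; linarith)
  have e1 : ∑ q ∈ posn M, ρ ^ ((p.1 : ℤ) - q.1).natAbs * ρ ^ ((p.2 : ℤ) - q.2).natAbs ≤
      ((1 + ρ) / (1 - ρ)) * ((1 + ρ) / (1 - ρ)) := by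
    unfold posn
    rw [← Finset.sum_product' (Finset.range M) (Finset.range M)
      (fun a b => ρ ^ ((p.1 : ℤ) - a).natAbs * ρ ^ ((p.2 : ℤ) - b).natAbs) |>.symm]
    rw [← Finset.sum_mul_sum]
    have h1 := geom_two hρ0 hρ M p.1
    have h2 := geom_two hρ0 hρ M p.2
    exact mul_le_mul h1 h2 (Finset.sum_nonneg fun _ _ => pow_nonneg hρ0 _)
      (div_nonneg (by linarith only [hρ0]) (by linarith only [hρ1]))
  rw [← Finset.add_sum_erase _ _ hp]
  have e2 : ∑ q ∈ (posn M).erase p, H p q ≤ ∑ q ∈ (posn M).erase p,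
      (A0 + A * (ρ ^ ((p.1 : ℤ) - q.1).natAbs * ρ ^ ((p.2 : ℤ) - q.2).natAbs)) := by
    refine Finset.sum_le_sum fun q hq => ?_
    obtain ⟨h1, h2⟩ := Finset.mem_erase.1 hq
    exact hoff p hp q h2 (Ne.symm h1)
  rw [Finset.sum_add_distrib, ← Finset.mul_sum] at e2
  have e3 := Finset.add_sum_erase (posn M)
    (fun q => ρ ^ ((p.1 : ℤ) - q.1).natAbs * ρ ^ ((p.2 : ℤ) - q.2).natAbs) hp
  simp only [sub_self, Int.natAbs_zero, pow_zero, mul_one] at e3
  have e4 : ∑ _q ∈ (posn M).erase p, A0 ≤ (M : ℝ) ^ 2 * A0 := by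
    rw [Finset.sum_const, nsmul_eq_mul]
    refine mul_le_mul_of_nonneg_right ?_ hA0
    have : ((posn M).erase p).card ≤ (posn M).card := Finset.card_le_card (Finset.erase_subset _ _)
    have h2 : (posn M).card = M ^ 2 := by
      unfold posn
      rw [Finset.card_product, Finset.card_range]
      ring
    rw [h2] at this
    exact_mod_cast this
  have e5 : ((1 + ρ) / (1 - ρ)) * ((1 + ρ) / (1 - ρ)) ≤ 1 + 5 * ρ := by
    rw [div_mul_div_comm, div_le_iff₀ (by nlinarith only [hρ1])]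
    nlinarith only [hρ0, hρ1, mul_nonneg hρ0 (mul_nonneg hρ0 hρ0)]
  have e6 : ∑ q ∈ (posn M).erase p, ρ ^ ((p.1 : ℤ) - q.1).natAbs *
      ρ ^ ((p.2 : ℤ) - q.2).natAbs ≤ 5 * ρ := by
    linarith
  have e7 := mul_le_mul_of_nonneg_left e6 hA
  have := hdiag p hp
  linarith only [e2, e4, e7, this]

end UJ

end Vale.Agent.P159
end
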