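import Vale.Agent.P159.MathlibUsed

set_option linter.all false

section

/-!
# Positivity of exponential integrals
-/

open MeasureTheory Filter Topology

namespace Vale.Agent.P159.XY

section Abstract

variable {X : Type*} [TopologicalSpace X] [CompactSpace X] [MeasurableSpace X]
  [BorelSpace X] {μ : Measure X} [IsFiniteMeasure μ]

theorem integrable_of_continuous {f : X → ℝ} (hf : Continuous f) : Integrable f μ :=
  hf.integrable_of_hasCompactSupport (HasCompactSupport.of_compactSpace f)

theorem pos_pow {ι : Type*} [Fintype ι] (J : ι → ℝ) (hJ : ∀ i, 0 ≤ J i) (F : X → ℝ)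
    (g : ι → X → ℝ) (hF : Continuous F) (hg : ∀ i, Continuous (g i))
    (h : ∀ l : List ι, 0 ≤ ∫ x, F x * (l.map (fun i => g i x)).prod ∂μ) (n : ℕ) :
    ∀ l : List ι, 0 ≤ ∫ x, F x * (l.map (fun i => g i x)).prod * (∑ i, J i * g i x) ^ n ∂μ := by
  induction n with
  | zero => intro l; simpa only [pow_zero, mul_one] using h l
  | succ n ih =>
    intro l
    have e : ∀ x, F x * (l.map (fun i => g i x)).prod * (∑ i, J i * g i x) ^ (n + 1)
        = ∑ i, J i * (F x * ((i :: l).map (fun i => g i x)).prod
            * (∑ i, J i * g i x) ^ n) := by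
      intro x
      rw [pow_succ', Finset.sum_mul, Finset.mul_sum]
      refine Finset.sum_congr rfl fun i _ => ?_
      simp only [List.map_cons, List.prod_cons]
      ring
    simp_rw [e]
    have hcl : ∀ l : List ι, Continuous fun x => (l.map (fun i => g i x)).prod := by
      intro l
      exact continuous_list_prod _ fun i _ => hg i
    rw [integral_finsetSum]
    · refine Finset.sum_nonneg fun i _ => ?_
      rw [integral_const_mul]
      exact mul_nonneg (hJ i) (ih (i :: l))
    · intro i _
      apply integrable_of_continuous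
      have := hcl (i :: l)
      fun_prop

theorem pos_exp {ι : Type*} [Fintype ι] (J : ι → ℝ) (hJ : ∀ i, 0 ≤ J i) (F : X → ℝ)
    (g : ι → X → ℝ) (hF : Continuous F) (hg : ∀ i, Continuous (g i))
    (h : ∀ l : List ι, 0 ≤ ∫ x, F x * (l.map (fun i => g i x)).prod ∂μ) :
    0 ≤ ∫ x, F x * Real.exp (∑ i, J i * g i x) ∂μ := by
  set S : X → ℝ := fun x => ∑ i, J i * g i x with hS
  have hSc : Continuous S := by rw [hS]; fun_prop
  obtain ⟨B, hB⟩ : ∃ B, ∀ x, ‖S x‖ ≤ B := by
    obtain ⟨B, hB⟩ := (isCompact_range hSc).isBounded.exists_norm_le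
    exact ⟨B, fun x => hB _ ⟨x, rfl⟩⟩
  obtain ⟨C, hC⟩ : ∃ C, ∀ x, ‖F x‖ ≤ C := by
    obtain ⟨B, hB⟩ := (isCompact_range hF).isBounded.exists_norm_le
    exact ⟨B, fun x => hB _ ⟨x, rfl⟩⟩
  have hterm : ∀ n : ℕ, ∀ x, F x * (S x ^ n / n.factorial)
      = (1 / (n.factorial : ℝ)) * (F x * S x ^ n) := by
    intro n x; ring
  have h1 : HasSum (fun n : ℕ => ∫ x, F x * (S x ^ n / n.factorial) ∂μ)
      (∫ x, ∑' n : ℕ, F x * (S x ^ n / n.factorial) ∂μ) := by
    apply hasSum_integral_of_summable_integral_norm
    · intro n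
      apply integrable_of_continuous
      fun_prop
    · have hsum : Summable fun n : ℕ => (μ.real Set.univ) * (|C| * (|B| ^ n / n.factorial)) :=
        ((Real.summable_pow_div_factorial |B|).mul_left _).mul_left _
      refine Summable.of_nonneg_of_le (fun n => integral_nonneg fun x => norm_nonneg _)
        (fun n => ?_) hsum
      have : ∀ x, ‖F x * (S x ^ n / n.factorial)‖ ≤ |C| * (|B| ^ n / n.factorial) := by
        intro x
        rw [norm_mul, norm_div, norm_pow]
        have h1 : ‖(n.factorial : ℝ)‖ = n.factorial := by simp only [RCLike.norm_natCast]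
        rw [h1]
        have h2 : ‖F x‖ ≤ |C| := (hC x).trans (le_abs_self C)
        have h3 : ‖S x‖ ≤ |B| := (hB x).trans (le_abs_self B)
        (clear * - h2 h3; gcongr)
      calc ∫ x, ‖F x * (S x ^ n / n.factorial)‖ ∂μ
          ≤ ∫ _x, |C| * (|B| ^ n / n.factorial) ∂μ := by
            apply integral_mono
            · exact (integrable_of_continuous (by fun_prop)).norm
            · exact integrable_const _
            · exact this
        _ = (μ.real Set.univ) * (|C| * (|B| ^ n / n.factorial)) := by
            rw [integral_const, smul_eq_mul]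
  have h2 : ∀ x, ∑' n : ℕ, F x * (S x ^ n / n.factorial) = F x * Real.exp (S x) := by
    intro x
    rw [tsum_mul_left, Real.exp_eq_exp_ℝ, NormedSpace.exp_eq_tsum_div]
  simp_rw [h2] at h1
  refine h1.nonneg fun n => ?_
  simp_rw [hterm n, integral_const_mul]
  refine mul_nonneg (by positivity) ?_
  have := pos_pow J hJ F g hF hg h n []
  simpa only [ge_iff_le, List.map_nil, List.prod_nil, mul_one] using this

end Abstract

end Vale.Agent.P159.XY
end

section

/-!
# The circle, characters, duplication of variables, Ginibre inequality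
-/

open MeasureTheory Filter Topology

set_option linter.unusedSectionVars false

namespace Vale.Agent.P159.XY

/-- The circle `ℝ / 2πℤ`. -/
abbrev T : Type := AddCircle (2 * Real.pi)

instance factPos : Fact (0 < 2 * Real.pi) := ⟨Real.two_pi_pos⟩

instance instSCT : SecondCountableTopology T := inferInstance

/-- cosine on the circle -/
noncomputable def ct (t : T) : ℝ := Real.Angle.cos t

/-- sine on the circle -/
noncomputable def st (t : T) : ℝ := Real.Angle.sin t

theorem ct_coe (x : ℝ) : ct (x : T) = Real.cos x := Real.Angle.cos_coe x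
theorem st_coe (x : ℝ) : st (x : T) = Real.sin x := Real.Angle.sin_coe x
theorem ct_add (s t : T) : ct (s + t) = ct s * ct t - st s * st t := Real.Angle.cos_add s t
theorem st_add (s t : T) : st (s + t) = st s * ct t + ct s * st t := Real.Angle.sin_add s t
theorem ct_neg (t : T) : ct (-t) = ct t := Real.Angle.cos_neg t
theorem st_neg (t : T) : st (-t) = -st t := Real.Angle.sin_neg t
theorem ct_zero : ct 0 = 1 := Real.Angle.cos_zero
theorem st_zero : st 0 = 0 := Real.Angle.sin_zero
theorem ct_sub (s t : T) : ct (s - t) = ct s * ct t + st s * st t := by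
  rw [sub_eq_add_neg, ct_add, ct_neg, st_neg]; ring
theorem st_sub (s t : T) : st (s - t) = st s * ct t - ct s * st t := by
  rw [sub_eq_add_neg, st_add, ct_neg, st_neg]; ring
theorem ct_sq_add_st_sq (t : T) : ct t ^ 2 + st t ^ 2 = 1 := Real.Angle.cos_sq_add_sin_sq t
@[fun_prop] theorem continuous_ct : Continuous ct := Real.Angle.continuous_cos
@[fun_prop] theorem continuous_st : Continuous st := Real.Angle.continuous_sin
theorem ct_add_pi (t : T) : ct (t + (Real.pi : ℝ)) = -ct t := Real.Angle.cos_add_pi t
theorem st_add_pi (t : T) : st (t + (Real.pi : ℝ)) = -st t := Real.Angle.sin_add_pi t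
theorem abs_ct_le_one (t : T) : |ct t| ≤ 1 := by
  rw [abs_le_one_iff_mul_self_le_one]; nlinarith only [ct_sq_add_st_sq t]
theorem ct_le_one (t : T) : ct t ≤ 1 := (abs_le.1 (abs_ct_le_one t)).2
theorem neg_one_le_ct (t : T) : -1 ≤ ct t := (abs_le.1 (abs_ct_le_one t)).1

theorem exists_half (t : T) : ∃ s : T, s + s = t := by
  induction t using QuotientAddGroup.induction_on with
  | H x =>
    refine ⟨((x / 2 : ℝ) : T), ?_⟩
    rw [← AddCircle.coe_add]; congr 1; ring

section Group

variable {G : Type*} [AddCommGroup G] [TopologicalSpace G] [IsTopologicalAddGroup G]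
  [CompactSpace G] [MeasurableSpace G] [BorelSpace G]
  {μ : Measure G} [μ.IsAddHaarMeasure] [IsProbabilityMeasure μ]

/-- continuous characters of `G` (with values in `ℝ / 2πℤ`) -/
structure IsChar (k : G → T) : Prop where
  cont : Continuous k
  add : ∀ x y, k (x + y) = k x + k y

omit [IsTopologicalAddGroup G] [CompactSpace G] [MeasurableSpace G] [BorelSpace G] in
theorem IsChar.zero {k : G → T} (hk : IsChar k) : k 0 = 0 := by
  have := hk.add 0 0
  simpa only [add_zero, left_eq_add] using this

omit [IsTopologicalAddGroup G] [CompactSpace G] [MeasurableSpace G] [BorelSpace G] in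
theorem IsChar.neg {k : G → T} (hk : IsChar k) (x : G) : k (-x) = -k x := by
  have := hk.add x (-x)
  rw [add_neg_cancel, hk.zero] at this
  exact (neg_eq_of_add_eq_zero_right this.symm).symm

omit [IsTopologicalAddGroup G] [CompactSpace G] [MeasurableSpace G] [BorelSpace G] in
theorem IsChar.sub {k : G → T} (hk : IsChar k) (x y : G) : k (x - y) = k x - k y := by
  rw [sub_eq_add_neg, hk.add, hk.neg, sub_eq_add_neg]

omit [IsTopologicalAddGroup G] [CompactSpace G] [MeasurableSpace G] [BorelSpace G] in
theorem IsChar.add' {k l : G → T} (hk : IsChar k) (hl : IsChar l) :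
    IsChar (fun x => k x + l x) :=
  ⟨hk.cont.add hl.cont, fun x y => by rw [hk.add, hl.add]; abel⟩

omit [IsTopologicalAddGroup G] [CompactSpace G] [MeasurableSpace G] [BorelSpace G] in
theorem IsChar.sub' {k l : G → T} (hk : IsChar k) (hl : IsChar l) :
    IsChar (fun x => k x - l x) :=
  ⟨hk.cont.sub hl.cont, fun x y => by rw [hk.add, hl.add]; abel⟩

/-- Haar integral is reflection invariant. -/
theorem integral_neg_eq [SecondCountableTopology G] (f : G → ℝ) :
    ∫ x, f (-x) ∂μ = ∫ x, f x ∂μ := by
  exact integral_neg_eq_self f μ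

theorem integral_st_char_mul [SecondCountableTopology G] {k : G → T} (hk : IsChar k) {W : G → ℝ}
    (hW : ∀ x, W (-x) = W x) : ∫ x, st (k x) * W x ∂μ = 0 := by
  have h := integral_neg_eq (μ := μ) (fun x => st (k x) * W x)
  simp only [hk.neg, st_neg, hW, neg_mul] at h
  rw [integral_neg] at h
  linarith only [h]

/-- the integral of the cosine of a character is nonnegative -/
theorem integral_ct_char_nonneg [SecondCountableTopology G] {k : G → T} (hk : IsChar k) :
    0 ≤ ∫ x, ct (k x) ∂μ := by
  by_cases h : ∀ y, ct (k y) = 1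
  · simp only [h, integral_const, probReal_univ, smul_eq_mul, mul_one, zero_le_one]
  · push Not at h
    obtain ⟨y, hy⟩ := h
    have h1 : ∫ x, ct (k (x + y)) ∂μ = ∫ x, ct (k x) ∂μ :=
      integral_add_right_eq_self (μ := μ) (fun x => ct (k x)) y
    have h2 : ∫ x, st (k x) ∂μ = 0 := by
      simpa using integral_st_char_mul (μ := μ) hk (W := fun _ => 1) (fun _ => rfl)
    have hc1 : Continuous fun x => ct (k x) := continuous_ct.comp hk.cont
    have hs1 : Continuous fun x => st (k x) := continuous_st.comp hk.cont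
    simp_rw [hk.add, ct_add] at h1
    rw [integral_sub (integrable_of_continuous (by (clear * - hc1; fun_prop)))
      (integrable_of_continuous (by (clear * - hs1; fun_prop))), integral_mul_const, integral_mul_const, h2] at h1
    have h3 : (1 - ct (k y)) * ∫ x, ct (k x) ∂μ = 0 := by linarith only [h1]
    rcases mul_eq_zero.1 h3 with h4 | h4
    · exact absurd (by linarith only [h4]) hy
    · rw [h4]

/-- products of cosines of characters have nonnegative integral -/
theorem integral_ct_prod_nonneg [SecondCountableTopology G] {ι : Type*} {k : ι → G → T}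
    (hk : ∀ i, IsChar (k i)) (l : List ι) :
    ∀ k0 : G → T, IsChar k0 →
      0 ≤ ∫ x, ct (k0 x) * (l.map (fun i => ct (k i x))).prod ∂μ := by
  induction l with
  | nil => intro k0 hk0; simpa only [List.map_nil, List.prod_nil, mul_one] using integral_ct_char_nonneg hk0
  | cons i l ih =>
    intro k0 hk0
    have e : ∀ x, ct (k0 x) * ((i :: l).map (fun i => ct (k i x))).prod
        = (1 / 2) * (ct (k0 x + k i x) * (l.map (fun i => ct (k i x))).prod)
          + (1 / 2) * (ct (k0 x - k i x) * (l.map (fun i => ct (k i x))).prod) := by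
      intro x
      rw [List.map_cons, List.prod_cons, ct_add, ct_sub]
      ring
    simp_rw [e]
    have hcl : Continuous fun x => (l.map (fun i => ct (k i x))).prod :=
      continuous_list_prod _ fun i _ => continuous_ct.comp (hk i).cont
    have hk0c := hk0.cont
    have hkic := (hk i).cont
    rw [integral_add (integrable_of_continuous (by (clear * - hk0c hkic hcl; fun_prop)))
      (integrable_of_continuous (by (clear * - hk0c hkic hcl; fun_prop))), integral_const_mul, integral_const_mul]
    have h1 := ih _ (hk0.add' (hk i))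
    have h2 := ih _ (hk0.sub' (hk i))
    linarith only [h1, h2]

end Group

section Dup

variable {G : Type*} [AddCommGroup G] [TopologicalSpace G] [IsTopologicalAddGroup G]
  [CompactSpace G] [MeasurableSpace G] [BorelSpace G] [SecondCountableTopology G]
  {μ : Measure G} [μ.IsAddHaarMeasure] [IsProbabilityMeasure μ]

/-- Duplication of variables: `(α, β) ↦ (α + β, α - β)` preserves the product Haar measure. -/
theorem measurePreserving_dup (hdiv : ∀ x : G, ∃ y, y + y = x) :
    MeasurePreserving (fun p : G × G => (p.1 + p.2, p.1 - p.2)) (μ.prod μ) (μ.prod μ) := by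
  let Φ : G × G →+ G × G :=
    { toFun := fun p => (p.1 + p.2, p.1 - p.2)
      map_zero' := by simp only [Prod.fst_zero, Prod.snd_zero, add_zero, sub_self, Prod.mk_eq_zero, and_self]
      map_add' := fun p q => by ext <;> simp only [Prod.fst_add, Prod.snd_add, Prod.mk_add_mk] <;> abel }
  have hc : Continuous Φ := by
    change Continuous (fun p : G × G => (p.1 + p.2, p.1 - p.2))
    (clear hdiv Φ; fun_prop)
  have hs : Function.Surjective Φ := by
    rintro ⟨x, y⟩
    obtain ⟨a, ha⟩ := hdiv (x + y)
    refine ⟨(a, x - a), ?_⟩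
    change (a + (x - a), a - (x - a)) = (x, y)
    have : a - (x - a) = (a + a) - x := by abel
    rw [this, ha]
    simp
  exact AddMonoidHom.measurePreserving (μ := μ.prod μ) (ν := μ.prod μ) (f := Φ) hc hs rfl

theorem integral_dup (hdiv : ∀ x : G, ∃ y, y + y = x) {F : G × G → ℝ} (hF : Continuous F) :
    ∫ p, F p ∂(μ.prod μ) = ∫ p : G × G, F (p.1 + p.2, p.1 - p.2) ∂(μ.prod μ) := by
  have h := measurePreserving_dup (μ := μ) hdiv
  have h2 := integral_map (μ := μ.prod μ) (φ := fun p : G × G => (p.1 + p.2, p.1 - p.2))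
    h.measurable.aemeasurable (f := F) (by
      rw [h.map_eq]; exact hF.aestronglyMeasurable)
  rw [h.map_eq] at h2
  exact h2

end Dup

end Vale.Agent.P159.XY
end

section

/-!
# Ginibre inequality and the duplicated weight on a compact abelian group
-/

open MeasureTheory Filter Topology

set_option linter.unusedSectionVars false

namespace Vale.Agent.P159.XY

section Abstract

variable {G : Type*} [AddCommGroup G] [TopologicalSpace G] [IsTopologicalAddGroup G]
  [CompactSpace G] [MeasurableSpace G] [BorelSpace G] [SecondCountableTopology G]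
  {μ : Measure G} [μ.IsAddHaarMeasure] [IsProbabilityMeasure μ]
  {ι : Type*} [Fintype ι] {J : ι → ℝ} {ω : ι → G → T}

/-- Gibbs weight -/
noncomputable def gw (J : ι → ℝ) (ω : ι → G → T) (x : G) : ℝ :=
  Real.exp (∑ i, J i * ct (ω i x))

/-- duplicated Gibbs weight -/
noncomputable def gw2 (J : ι → ℝ) (ω : ι → G → T) (p : G × G) : ℝ :=
  Real.exp (∑ i, 2 * J i * (ct (ω i p.1) * ct (ω i p.2)))

omit [IsTopologicalAddGroup G] [CompactSpace G] [MeasurableSpace G] [BorelSpace G]
  [SecondCountableTopology G] in
theorem continuous_gw (hω : ∀ i, IsChar (ω i)) : Continuous (gw J ω) := by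
  have := fun i => (hω i).cont
  unfold gw
  fun_prop

omit [IsTopologicalAddGroup G] [CompactSpace G] [MeasurableSpace G] [BorelSpace G]
  [SecondCountableTopology G] in
theorem continuous_gw2 (hω : ∀ i, IsChar (ω i)) : Continuous (gw2 J ω) := by
  have := fun i => (hω i).cont
  unfold gw2
  fun_prop

omit [TopologicalSpace G] [IsTopologicalAddGroup G] [CompactSpace G] [MeasurableSpace G]
  [BorelSpace G] [SecondCountableTopology G] [AddCommGroup G] in
theorem gw_pos (x : G) : 0 < gw J ω x := Real.exp_pos _

omit [IsTopologicalAddGroup G] [CompactSpace G] [MeasurableSpace G] [BorelSpace G]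
  [SecondCountableTopology G] in
theorem gw_neg (hω : ∀ i, IsChar (ω i)) (x : G) : gw J ω (-x) = gw J ω x := by
  unfold gw
  congr 1
  refine Finset.sum_congr rfl fun i _ => ?_
  rw [(hω i).neg, ct_neg]

omit [IsTopologicalAddGroup G] [CompactSpace G] [MeasurableSpace G] [BorelSpace G]
  [SecondCountableTopology G] in
theorem gw_mul_gw (hω : ∀ i, IsChar (ω i)) (p : G × G) :
    gw J ω (p.1 + p.2) * gw J ω (p.1 - p.2) = gw2 J ω p := by
  unfold gw gw2
  rw [← Real.exp_add, ← Finset.sum_add_distrib]
  congr 1
  refine Finset.sum_congr rfl fun i _ => ?_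
  rw [(hω i).add, (hω i).sub, ct_add, ct_sub]
  ring

theorem integral_gw_pos (hω : ∀ i, IsChar (ω i)) : 0 < ∫ x, gw J ω x ∂μ := by
  apply integral_pos_of_integrable_nonneg_nonzero (x := 0) (continuous_gw hω)
    (integrable_of_continuous (continuous_gw hω)) (fun x => (gw_pos x).le) (gw_pos 0).ne'

/-- **Ginibre's inequality** (second Griffiths inequality for cosines). -/
theorem ginibre (hdiv : ∀ x : G, ∃ y, y + y = x) (hJ : ∀ i, 0 ≤ J i) (hω : ∀ i, IsChar (ω i))
    {A B : G → T} (hA : IsChar A) (hB : IsChar B) :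
    (∫ x, ct (A x) * gw J ω x ∂μ) * (∫ x, ct (B x) * gw J ω x ∂μ)
      ≤ (∫ x, ct (A x) * ct (B x) * gw J ω x ∂μ) * (∫ x, gw J ω x ∂μ) := by
  have cA := hA.cont
  have cB := hB.cont
  have cω := fun i => (hω i).cont
  have cW := continuous_gw (J := J) hω
  have cW2 := continuous_gw2 (J := J) hω
  -- the duplicated integral is nonnegative
  have key : 0 ≤ ∫ p : G × G, (4 * (st (A p.1) * st (B p.1)) * (st (A p.2) * st (B p.2)))
      * gw2 J ω p ∂(μ.prod μ) := by
    apply pos_exp (fun i => 2 * J i) (fun i => by have := hJ i; (clear * - this; positivity))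
      (fun p : G × G => 4 * (st (A p.1) * st (B p.1)) * (st (A p.2) * st (B p.2)))
      (fun i p => ct (ω i p.1) * ct (ω i p.2)) (by fun_prop) (by intro i; fun_prop)
    intro l
    have e : ∀ p : G × G, 4 * (st (A p.1) * st (B p.1)) * (st (A p.2) * st (B p.2))
          * (l.map (fun i => ct (ω i p.1) * ct (ω i p.2))).prod
        = 4 * ((st (A p.1) * st (B p.1) * (l.map (fun i => ct (ω i p.1))).prod)
          * (st (A p.2) * st (B p.2) * (l.map (fun i => ct (ω i p.2))).prod)) := by
      intro p
      rw [List.prod_map_mul]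
      ring
    simp_rw [e]
    rw [integral_const_mul, integral_prod_mul (μ := μ) (ν := μ)
      (fun x => st (A x) * st (B x) * (l.map (fun i => ct (ω i x))).prod)
      (fun x => st (A x) * st (B x) * (l.map (fun i => ct (ω i x))).prod)]
    nlinarith only []
  have h1 : ∀ p : G × G, (4 * (st (A p.1) * st (B p.1)) * (st (A p.2) * st (B p.2))) * gw2 J ω p
      = (fun q : G × G => (ct (A q.1) - ct (A q.2)) * (ct (B q.1) - ct (B q.2))
          * (gw J ω q.1 * gw J ω q.2)) (p.1 + p.2, p.1 - p.2) := by
    intro p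
    simp only
    rw [gw_mul_gw hω, hA.add, hA.sub, hB.add, hB.sub, ct_add, ct_add, ct_sub, ct_sub]
    ring
  simp_rw [h1] at key
  rw [← integral_dup hdiv (F := fun q : G × G => (ct (A q.1) - ct (A q.2))
    * (ct (B q.1) - ct (B q.2)) * (gw J ω q.1 * gw J ω q.2)) (by (clear * - cA cB cW; fun_prop))] at key
  have h2 : ∀ q : G × G, (ct (A q.1) - ct (A q.2)) * (ct (B q.1) - ct (B q.2))
        * (gw J ω q.1 * gw J ω q.2)
      = ((ct (A q.1) * ct (B q.1) * gw J ω q.1) * (gw J ω q.2)
        + (gw J ω q.1) * (ct (A q.2) * ct (B q.2) * gw J ω q.2))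
        - ((ct (A q.1) * gw J ω q.1) * (ct (B q.2) * gw J ω q.2)
        + (ct (B q.1) * gw J ω q.1) * (ct (A q.2) * gw J ω q.2)) := by
    intro q; ring
  simp_rw [h2] at key
  rw [integral_sub (integrable_of_continuous (by fun_prop))
      (integrable_of_continuous (by (clear * - cA cW cB; fun_prop))),
    integral_add (integrable_of_continuous (by fun_prop))
      (integrable_of_continuous (by fun_prop)),
    integral_add (integrable_of_continuous (by (clear * - cA cW cB; fun_prop)))
      (integrable_of_continuous (by fun_prop)),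
    integral_prod_mul (μ := μ) (ν := μ) (fun x => ct (A x) * ct (B x) * gw J ω x) (gw J ω),
    integral_prod_mul (μ := μ) (ν := μ) (gw J ω) (fun x => ct (A x) * ct (B x) * gw J ω x),
    integral_prod_mul (μ := μ) (ν := μ) (fun x => ct (A x) * gw J ω x)
      (fun x => ct (B x) * gw J ω x),
    integral_prod_mul (μ := μ) (ν := μ) (fun x => ct (B x) * gw J ω x)
      (fun x => ct (A x) * gw J ω x)] at key
  linarith only [key]

/-- the basic identity: a product of two one-copy integrals in the duplicated system -/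
theorem dup_identity (hdiv : ∀ x : G, ∃ y, y + y = x) (hω : ∀ i, IsChar (ω i))
    {k l : G → T} (hk : IsChar k) (hl : IsChar l) :
    ∫ p : G × G, (ct (k p.1 + l p.1) * ct (k p.2 - l p.2)) * gw2 J ω p ∂(μ.prod μ)
      = (∫ x, ct (k x) * gw J ω x ∂μ) * (∫ x, ct (l x) * gw J ω x ∂μ) := by
  have ck := hk.cont
  have cl := hl.cont
  have cω := fun i => (hω i).cont
  have cW := continuous_gw (J := J) hω
  have cW2 := continuous_gw2 (J := J) hω
  have hS : ∫ x, st (k x) * gw J ω x ∂μ = 0 :=
    integral_st_char_mul hk (W := gw J ω) (gw_neg hω)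
  -- the sine part vanishes
  have hv : ∫ p : G × G, (st (k p.1 + l p.1) * st (k p.2 - l p.2)) * gw2 J ω p ∂(μ.prod μ)
      = 0 := by
    rw [integral_prod _ (integrable_of_continuous (by fun_prop))]
    have : ∀ x : G, ∫ y, (st (k x + l x) * st (k y - l y)) * gw2 J ω (x, y) ∂μ = 0 := by
      intro x
      have h1 : ∀ y, (st (k x + l x) * st (k y - l y)) * gw2 J ω (x, y)
          = st (k x + l x) * (st (k y - l y) * gw2 J ω (x, y)) := fun y => by ring
      simp_rw [h1]
      rw [integral_const_mul, integral_st_char_mul (hk.sub' hl) (W := fun y => gw2 J ω (x, y)),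
        mul_zero]
      intro y
      unfold gw2
      congr 1
      refine Finset.sum_congr rfl fun i _ => ?_
      simp only
      rw [(hω i).neg, ct_neg]
    simp [this]
  have h1 : ∫ q : G × G, (ct (k q.1) * gw J ω q.1) * (ct (l q.2) * gw J ω q.2) ∂(μ.prod μ)
      = (∫ x, ct (k x) * gw J ω x ∂μ) * (∫ x, ct (l x) * gw J ω x ∂μ) :=
    integral_prod_mul (μ := μ) (ν := μ) (fun x => ct (k x) * gw J ω x)
      (fun x => ct (l x) * gw J ω x)
  have h2 : ∫ q : G × G, (st (k q.1) * gw J ω q.1) * (st (l q.2) * gw J ω q.2) ∂(μ.prod μ)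
      = 0 := by
    rw [integral_prod_mul (μ := μ) (ν := μ) (fun x => st (k x) * gw J ω x)
      (fun x => st (l x) * gw J ω x), hS, zero_mul]
  have h3 : ∫ q : G × G, ct (k q.1 + l q.2) * (gw J ω q.1 * gw J ω q.2) ∂(μ.prod μ)
      = (∫ x, ct (k x) * gw J ω x ∂μ) * (∫ x, ct (l x) * gw J ω x ∂μ) := by
    have e : ∀ q : G × G, ct (k q.1 + l q.2) * (gw J ω q.1 * gw J ω q.2)
        = (ct (k q.1) * gw J ω q.1) * (ct (l q.2) * gw J ω q.2)
          - (st (k q.1) * gw J ω q.1) * (st (l q.2) * gw J ω q.2) := by
      intro q; rw [ct_add]; ring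
    simp_rw [e]
    rw [integral_sub (integrable_of_continuous (by fun_prop))
      (integrable_of_continuous (by fun_prop)), h1, h2, sub_zero]
  rw [← h3, integral_dup hdiv (F := fun q : G × G => ct (k q.1 + l q.2)
    * (gw J ω q.1 * gw J ω q.2)) (by fun_prop)]
  have e : ∀ p : G × G, ct (k (p.1 + p.2) + l (p.1 - p.2))
        * (gw J ω (p.1 + p.2) * gw J ω (p.1 - p.2))
      = (ct (k p.1 + l p.1) * ct (k p.2 - l p.2)) * gw2 J ω p
        - (st (k p.1 + l p.1) * st (k p.2 - l p.2)) * gw2 J ω p := by
    intro p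
    rw [gw_mul_gw hω, hk.add, hl.sub,
      show k p.1 + k p.2 + (l p.1 - l p.2) = (k p.1 + l p.1) + (k p.2 - l p.2) by abel, ct_add]
    ring
  simp only [e]
  rw [integral_sub (integrable_of_continuous (by fun_prop))
    (integrable_of_continuous (by fun_prop)), hv, sub_zero]

end Abstract

end Vale.Agent.P159.XY
end

section

/-!
# The XY model on a finite set of sites with nonnegative couplings
-/

open MeasureTheory Filter Topology

set_option linter.unusedSectionVars false

namespace Vale.Agent.P159.XY

variable {V : Type*} [Fintype V]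

/-- normalized Haar measure on configurations `V → ℝ / 2πℤ` -/
noncomputable def haarV (V : Type*) [Fintype V] : Measure (V → T) :=
  Measure.pi fun _ => AddCircle.haarAddCircle

instance instBorelV : BorelSpace (V → T) := inferInstance
instance instSCTV : SecondCountableTopology (V → T) := inferInstance
instance instTopV : IsTopologicalAddGroup (V → T) := inferInstance
instance instCompV : CompactSpace (V → T) := inferInstance
instance instProbV : IsProbabilityMeasure (haarV V) := by unfold haarV; infer_instance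
instance instHaarV : (haarV V).IsAddHaarMeasure := by unfold haarV; infer_instance

theorem hdivV : ∀ x : V → T, ∃ y, y + y = x := by
  intro x
  choose y hy using fun v => exists_half (x v)
  exact ⟨y, funext hy⟩

/-- energy -/
noncomputable def energy (J : V → V → ℝ) (θ : V → T) : ℝ :=
  ∑ u, ∑ v, J u v * ct (θ u - θ v)

/-- partition function -/
noncomputable def part (J : V → V → ℝ) : ℝ := ∫ θ, Real.exp (energy J θ) ∂haarV V

/-- unnormalized expectation -/
noncomputable def un (J : V → V → ℝ) (f : (V → T) → ℝ) : ℝ :=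
  ∫ θ, f θ * Real.exp (energy J θ) ∂haarV V

/-- expectation -/
noncomputable def ev (J : V → V → ℝ) (f : (V → T) → ℝ) : ℝ := un J f / part J

/-- two-point function -/
noncomputable def corr (J : V → V → ℝ) (x y : V) : ℝ := ev J (fun θ => ct (θ x - θ y))

theorem isChar_eval (x : V) : IsChar (fun θ : V → T => θ x) :=
  ⟨continuous_apply x, fun _ _ => rfl⟩

theorem isChar_diff (x y : V) : IsChar (fun θ : V → T => θ x - θ y) :=
  (isChar_eval x).sub' (isChar_eval y)

theorem exp_energy (J : V → V → ℝ) (θ : V → T) :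
    Real.exp (energy J θ) = gw (fun e : V × V => J e.1 e.2) (fun e θ => θ e.1 - θ e.2) θ := by
  unfold energy gw
  rw [Fintype.sum_prod_type]

theorem isChar_edges : ∀ e : V × V, IsChar (fun θ : V → T => θ e.1 - θ e.2) :=
  fun e => isChar_diff e.1 e.2

@[fun_prop]
theorem continuous_energy (J : V → V → ℝ) : Continuous (energy J) := by
  unfold energy; (clear * -; fun_prop)

theorem un_eq (J : V → V → ℝ) (f : (V → T) → ℝ) :
    un J f = ∫ θ, f θ * gw (fun e : V × V => J e.1 e.2) (fun e θ => θ e.1 - θ e.2) θ ∂haarV V := by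
  unfold un
  simp_rw [exp_energy]

theorem part_eq (J : V → V → ℝ) :
    part J = ∫ θ, gw (fun e : V × V => J e.1 e.2) (fun e θ => θ e.1 - θ e.2) θ ∂haarV V := by
  unfold part
  simp_rw [exp_energy]

theorem part_pos (J : V → V → ℝ) : 0 < part J := by
  rw [part_eq]
  exact integral_gw_pos isChar_edges

theorem part_eq_un (J : V → V → ℝ) : part J = un J (fun _ => 1) := by
  unfold part un; simp

theorem un_add (J : V → V → ℝ) {f g : (V → T) → ℝ} (hf : Continuous f) (hg : Continuous g) :
    un J (fun θ => f θ + g θ) = un J f + un J g := by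
  unfold un
  simp_rw [add_mul]
  exact integral_add (integrable_of_continuous (by fun_prop))
    (integrable_of_continuous (by fun_prop))

theorem un_sub (J : V → V → ℝ) {f g : (V → T) → ℝ} (hf : Continuous f) (hg : Continuous g) :
    un J (fun θ => f θ - g θ) = un J f - un J g := by
  unfold un
  simp_rw [sub_mul]
  exact integral_sub (integrable_of_continuous (by fun_prop))
    (integrable_of_continuous (by fun_prop))

theorem un_const_mul (J : V → V → ℝ) (c : ℝ) (f : (V → T) → ℝ) :
    un J (fun θ => c * f θ) = c * un J f := by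
  unfold un
  simp_rw [mul_assoc]
  exact integral_const_mul _ _

theorem un_mono (J : V → V → ℝ) {f g : (V → T) → ℝ} (hf : Continuous f) (hg : Continuous g)
    (h : ∀ θ, f θ ≤ g θ) : un J f ≤ un J g := by
  unfold un
  apply integral_mono (integrable_of_continuous (by fun_prop))
    (integrable_of_continuous (by (clear * - hg; fun_prop)))
  intro θ
  exact mul_le_mul_of_nonneg_right (h θ) (Real.exp_pos _).le

theorem ev_add (J : V → V → ℝ) {f g : (V → T) → ℝ} (hf : Continuous f) (hg : Continuous g) :
    ev J (fun θ => f θ + g θ) = ev J f + ev J g := by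
  unfold ev; rw [un_add J hf hg, add_div]

theorem ev_sub (J : V → V → ℝ) {f g : (V → T) → ℝ} (hf : Continuous f) (hg : Continuous g) :
    ev J (fun θ => f θ - g θ) = ev J f - ev J g := by
  unfold ev; rw [un_sub J hf hg, sub_div]

theorem ev_const_mul (J : V → V → ℝ) (c : ℝ) (f : (V → T) → ℝ) :
    ev J (fun θ => c * f θ) = c * ev J f := by
  unfold ev; rw [un_const_mul, mul_div_assoc]

theorem ev_one (J : V → V → ℝ) : ev J (fun _ => 1) = 1 := by
  unfold ev; rw [← part_eq_un, div_self (part_pos J).ne']

theorem ev_mono (J : V → V → ℝ) {f g : (V → T) → ℝ} (hf : Continuous f) (hg : Continuous g)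
    (h : ∀ θ, f θ ≤ g θ) : ev J f ≤ ev J g := by
  unfold ev
  exact div_le_div_of_nonneg_right (un_mono J hf hg h) (part_pos J).le

theorem corr_le_one (J : V → V → ℝ) (x y : V) : corr J x y ≤ 1 := by
  rw [← ev_one J]
  exact ev_mono J (by fun_prop) continuous_const fun θ => ct_le_one _

theorem corr_self (J : V → V → ℝ) (x : V) : corr J x x = 1 := by
  unfold corr
  simp only [sub_self, ct_zero]
  exact ev_one J

theorem corr_comm (J : V → V → ℝ) (x y : V) : corr J x y = corr J y x := by
  unfold corr
  congr 1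
  funext θ
  rw [← neg_sub, ct_neg]

theorem ev_ct_nonneg (J : V → V → ℝ) (hJ : ∀ u v, 0 ≤ J u v) {k : (V → T) → T} (hk : IsChar k) :
    0 ≤ ev J (fun θ => ct (k θ)) := by
  unfold ev
  refine div_nonneg ?_ (part_pos J).le
  rw [un_eq]
  unfold gw
  have hc := hk.cont
  refine pos_exp (μ := haarV V) (fun e : V × V => J e.1 e.2) (fun e => hJ _ _)
    (fun θ => ct (k θ)) (fun e θ => ct (θ e.1 - θ e.2)) (by fun_prop) (by intro i; fun_prop) ?_
  intro l
  exact integral_ct_prod_nonneg (μ := haarV V) (ι := V × V) (k := fun e θ => θ e.1 - θ e.2) isChar_edges l k hk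

theorem corr_nonneg (J : V → V → ℝ) (hJ : ∀ u v, 0 ≤ J u v) (x y : V) : 0 ≤ corr J x y :=
  ev_ct_nonneg J hJ (isChar_diff x y)

/-- Ginibre's inequality in the finite volume model. -/
theorem ev_ginibre (J : V → V → ℝ) (hJ : ∀ u v, 0 ≤ J u v) {A B : (V → T) → T}
    (hA : IsChar A) (hB : IsChar B) :
    ev J (fun θ => ct (A θ)) * ev J (fun θ => ct (B θ)) ≤ ev J (fun θ => ct (A θ) * ct (B θ)) := by
  unfold ev
  have hp := part_pos J
  have h := ginibre (μ := haarV V) (J := fun e : V × V => J e.1 e.2)
    (ω := fun e θ => θ e.1 - θ e.2) hdivV (fun e => hJ _ _) isChar_edges hA hB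
  rw [← un_eq J (fun θ => ct (A θ)), ← un_eq J (fun θ => ct (B θ)),
    ← un_eq J (fun θ => ct (A θ) * ct (B θ)), ← part_eq] at h
  rw [div_mul_div_comm, div_le_div_iff₀ (by positivity) hp]
  nlinarith

/-! ### Monomials in cosines and sines -/

theorem integral_monomial_nonneg (p q : ℕ) :
    0 ≤ ∫ t : T, ct t ^ p * st t ^ q ∂(AddCircle.haarAddCircle) := by
  rcases Nat.even_or_odd q with hq | hq
  · rcases Nat.even_or_odd p with hp | hp
    · exact integral_nonneg fun t => mul_nonneg (hp.pow_nonneg _) (hq.pow_nonneg _)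
    · have h : ∫ t : T, ct (t + (Real.pi : ℝ)) ^ p * st (t + (Real.pi : ℝ)) ^ q
          ∂(AddCircle.haarAddCircle) = ∫ t : T, ct t ^ p * st t ^ q ∂(AddCircle.haarAddCircle) :=
        integral_add_right_eq_self (μ := (AddCircle.haarAddCircle : Measure T))
          (fun t => ct t ^ p * st t ^ q) _
      simp_rw [ct_add_pi, st_add_pi, hp.neg_pow, hq.neg_pow, neg_mul] at h
      rw [integral_neg] at h
      linarith only [h]
  · have h : ∫ t : T, ct (-t) ^ p * st (-t) ^ q ∂(AddCircle.haarAddCircle)
        = ∫ t : T, ct t ^ p * st t ^ q ∂(AddCircle.haarAddCircle) :=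
      integral_neg_eq (μ := (AddCircle.haarAddCircle : Measure T)) (fun t => ct t ^ p * st t ^ q)
    simp_rw [ct_neg, st_neg, hq.neg_pow, mul_neg] at h
    rw [integral_neg] at h
    linarith only [h]

/-- monomial functions of the cosines and sines of the spins -/
def IsMono (f : (V → T) → ℝ) : Prop :=
  (∀ θ, f θ = 0) ∨ ∃ p q : V → ℕ, ∀ θ, f θ = ∏ v, (ct (θ v) ^ p v * st (θ v) ^ q v)

theorem IsMono.one : IsMono (fun _ : V → T => (1 : ℝ)) :=
  Or.inr ⟨0, 0, fun θ => by simp only [Pi.zero_apply, pow_zero, mul_one, Finset.prod_const_one]⟩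

theorem IsMono.zero : IsMono (fun _ : V → T => (0 : ℝ)) := Or.inl fun _ => rfl

theorem IsMono.mul {f g : (V → T) → ℝ} (hf : IsMono f) (hg : IsMono g) :
    IsMono (fun θ => f θ * g θ) := by
  rcases hf with hf | ⟨p, q, hf⟩
  · exact Or.inl fun θ => by simp only [hf, zero_mul]
  rcases hg with hg | ⟨p', q', hg⟩
  · exact Or.inl fun θ => by simp only [hg, mul_zero]
  refine Or.inr ⟨p + p', q + q', fun θ => ?_⟩
  simp only [hf, hg]
  rw [← Finset.prod_mul_distrib]
  refine Finset.prod_congr rfl fun v _ => ?_
  simp only [Pi.add_apply, pow_add]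
  ring

theorem IsMono.ct [DecidableEq V] (x : V) : IsMono (fun θ : V → T => ct (θ x)) := by
  refine Or.inr ⟨Pi.single x 1, 0, fun θ => ?_⟩
  rw [Finset.prod_eq_single x]
  · simp
  · intro v _ hv; simp only [Pi.single_eq_of_ne hv, pow_zero, Pi.zero_apply, mul_one]
  · intro h; exact absurd (Finset.mem_univ x) h

theorem IsMono.st [DecidableEq V] (x : V) : IsMono (fun θ : V → T => st (θ x)) := by
  refine Or.inr ⟨0, Pi.single x 1, fun θ => ?_⟩
  rw [Finset.prod_eq_single x]
  · simp
  · intro v _ hv; simp [Pi.single_eq_of_ne hv]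
  · intro h; exact absurd (Finset.mem_univ x) h

theorem IsMono.integral_nonneg {f : (V → T) → ℝ} (hf : IsMono f) : 0 ≤ ∫ θ, f θ ∂haarV V := by
  rcases hf with hf | ⟨p, q, hf⟩
  · simp [hf]
  · simp_rw [hf]
    unfold haarV
    rw [integral_fintype_prod_eq_prod (fun v (t : T) => Vale.Agent.P159.XY.ct t ^ p v
      * Vale.Agent.P159.XY.st t ^ q v)]
    exact Finset.prod_nonneg fun v _ => integral_monomial_nonneg _ _

theorem IsMono.list_prod {ι : Type*} {g : ι → (V → T) → ℝ} (hg : ∀ i, IsMono (g i))
    (l : List ι) : IsMono (fun θ => (l.map (fun i => g i θ)).prod) := by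
  induction l with
  | nil => simpa using IsMono.one
  | cons i l ih =>
    simp only [List.map_cons, List.prod_cons]
    exact (hg i).mul ih

end Vale.Agent.P159.XY
end

section

/-!
# The four-point (Gaussian domination) inequality for the XY model
-/

open MeasureTheory Filter Topology

set_option linter.unusedSectionVars false

namespace Vale.Agent.P159.XY

variable {V : Type*} [Fintype V]

/-- duplicated weight of the finite volume model -/
noncomputable def w2 (J : V → V → ℝ) (p : (V → T) × (V → T)) : ℝ :=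
  gw2 (fun e : V × V => J e.1 e.2) (fun e θ => θ e.1 - θ e.2) p

theorem continuous_w2 (J : V → V → ℝ) : Continuous (w2 J) :=
  continuous_gw2 (isChar_edges)

theorem w2_shift (J : V → V → ℝ) (p : (V → T) × (V → T)) (h : T) :
    w2 J (p + (0, fun _ => h)) = w2 J p := by
  unfold w2 gw2
  congr 1
  refine Finset.sum_congr rfl fun e _ => ?_
  simp only [Prod.fst_add, Prod.snd_add, Pi.add_apply, Pi.zero_apply, add_zero,
    add_sub_add_right_eq_sub]

theorem integral_w2_antisymm (J : V → V → ℝ) {f : (V → T) × (V → T) → ℝ} (h : T)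
    (hf : ∀ p, f (p + (0, fun _ => h)) = - f p) :
    ∫ p, f p * w2 J p ∂((haarV V).prod (haarV V)) = 0 := by
  have h1 : ∫ p, f (p + (0, fun _ => h)) * w2 J (p + (0, fun _ => h))
      ∂((haarV V).prod (haarV V)) = ∫ p, f p * w2 J p ∂((haarV V).prod (haarV V)) :=
    integral_add_right_eq_self (μ := (haarV V).prod (haarV V)) (fun p => f p * w2 J p) _
  simp_rw [hf, w2_shift, neg_mul] at h1
  rw [integral_neg] at h1
  linarith only [h1]

theorem corner_nonneg (J : V → V → ℝ) (hJ : ∀ u v, 0 ≤ J u v) (a b c d : V) :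
    0 ≤ ∫ p : (V → T) × (V → T), (ct (p.1 a + p.1 b - p.1 c - p.1 d)
      * (ct (p.2 a) * ct (p.2 b) * (st (p.2 c) * st (p.2 d)))) * w2 J p
        ∂((haarV V).prod (haarV V)) := by
  classical
  let g : (V × V) × Bool → (V → T) → ℝ := fun i β =>
    if i.2 then ct (β i.1.1) * ct (β i.1.2) else st (β i.1.1) * st (β i.1.2)
  have hg : ∀ i, Continuous (g i) := by
    intro i
    rcases i with ⟨e, s⟩
    cases s
    · change Continuous fun β : V → T => st (β e.1) * st (β e.2); fun_prop
    · change Continuous fun β : V → T => ct (β e.1) * ct (β e.2); fun_prop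
  have hgm : ∀ i, IsMono (g i) := by
    intro i
    rcases i with ⟨e, s⟩
    cases s
    · exact (IsMono.st e.1).mul (IsMono.st e.2)
    · exact (IsMono.ct e.1).mul (IsMono.ct e.2)
  have hw : ∀ p : (V → T) × (V → T), w2 J p = Real.exp (∑ i : (V × V) × Bool,
      (2 * J i.1.1 i.1.2) * (ct (p.1 i.1.1 - p.1 i.1.2) * g i p.2)) := by
    intro p
    unfold w2 gw2
    congr 1
    symm
    rw [Fintype.sum_prod_type]
    refine Finset.sum_congr rfl fun e _ => ?_
    rw [Fintype.sum_bool]
    simp only [g, if_true, Bool.false_eq_true, if_false, ct_sub (p.2 e.1)]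
    ring
  simp_rw [hw]
  refine pos_exp (μ := (haarV V).prod (haarV V)) (fun i : (V × V) × Bool => 2 * J i.1.1 i.1.2)
    (fun i => by have := hJ i.1.1 i.1.2; (clear * - this; positivity))
    (fun p => ct (p.1 a + p.1 b - p.1 c - p.1 d)
      * (ct (p.2 a) * ct (p.2 b) * (st (p.2 c) * st (p.2 d))))
    (fun i p => ct (p.1 i.1.1 - p.1 i.1.2) * g i p.2) (by fun_prop)
    (by intro i; have := hg i; fun_prop) ?_
  intro l
  have e : ∀ p : (V → T) × (V → T), ct (p.1 a + p.1 b - p.1 c - p.1 d)
        * (ct (p.2 a) * ct (p.2 b) * (st (p.2 c) * st (p.2 d)))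
        * (l.map (fun i => ct (p.1 i.1.1 - p.1 i.1.2) * g i p.2)).prod
      = (ct (p.1 a + p.1 b - p.1 c - p.1 d)
          * (l.map (fun i => ct (p.1 i.1.1 - p.1 i.1.2))).prod)
        * ((ct (p.2 a) * ct (p.2 b) * (st (p.2 c) * st (p.2 d)))
          * (l.map (fun i => g i p.2)).prod) := by
    intro p
    rw [List.prod_map_mul]
    ring
  simp_rw [e]
  rw [integral_prod_mul (μ := haarV V) (ν := haarV V)
    (fun x : V → T => ct (x a + x b - x c - x d)
      * (l.map (fun i : (V × V) × Bool => ct (x i.1.1 - x i.1.2))).prod)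
    (fun x : V → T => (ct (x a) * ct (x b) * (st (x c) * st (x d)))
      * (l.map (fun i => g i x)).prod)]
  refine mul_nonneg ?_ ?_
  · exact integral_ct_prod_nonneg (μ := haarV V) (k := fun (i : (V × V) × Bool) (x : V → T) =>
      x i.1.1 - x i.1.2) (fun i => isChar_diff _ _) l (fun x => x a + x b - x c - x d)
      ((((isChar_eval a).add' (isChar_eval b)).sub' (isChar_eval c)).sub' (isChar_eval d))
  · exact ((((IsMono.ct a).mul (IsMono.ct b)).mul ((IsMono.st c).mul (IsMono.st d))).mul
      (IsMono.list_prod hgm l)).integral_nonneg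

theorem coe_pi_half_add : (((Real.pi / 2 : ℝ) : T) + ((Real.pi / 2 : ℝ) : T))
    = ((Real.pi : ℝ) : T) := by
  rw [← AddCircle.coe_add]; congr 1; ring

theorem coe_pi_quarter_add : (((Real.pi / 4 : ℝ) : T) + ((Real.pi / 4 : ℝ) : T))
    + (((Real.pi / 4 : ℝ) : T) + ((Real.pi / 4 : ℝ) : T)) = ((Real.pi : ℝ) : T) := by
  rw [← AddCircle.coe_add, ← AddCircle.coe_add]; congr 1; ring

/-- product-to-sum expansion -/
theorem trig_expand (a b c d : T) :
    ct a * ct b * (st c * st d)
      = (1 / 8) * (ct ((a - d) - (b - c)) + ct ((a - c) - (b - d)) - ct (a + b - c - d))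
        + ((1 / 4) * (ct (a + b) * ct (c - d)) - (1 / 4) * (ct (a - b) * ct (c + d))
          - (1 / 8) * ct ((a + b) + (c + d))) := by
  simp only [ct_add, ct_sub, st_add, st_sub]
  ring

/-- The four-point inequality `⟨cos(θ_a+θ_b-θ_c-θ_d)⟩ ≤ K_ac K_bd + K_ad K_bc`. -/
theorem four_point (J : V → V → ℝ) (hJ : ∀ u v, 0 ≤ J u v) (a b c d : V) :
    ev J (fun θ => ct (θ a + θ b - θ c - θ d))
      ≤ corr J a c * corr J b d + corr J a d * corr J b c := by
  have hZ := part_pos J
  have cw := continuous_w2 J
  set μ2 := (haarV V).prod (haarV V) with hμ2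
  have h0 := corner_nonneg J hJ a b c d
  -- the three balanced integrals
  have hA : IsChar (fun θ : V → T => θ a + θ b - θ c - θ d) :=
    (((isChar_eval a).add' (isChar_eval b)).sub' (isChar_eval c)).sub' (isChar_eval d)
  have h1 : ∫ p : (V → T) × (V → T), (ct (p.1 a + p.1 b - p.1 c - p.1 d)
      * ct (p.2 a + p.2 b - p.2 c - p.2 d)) * w2 J p ∂μ2
      = un J (fun θ => ct (θ a + θ b - θ c - θ d)) * part J := by
    have := dup_identity (μ := haarV V) (J := fun e : V × V => J e.1 e.2)
      (ω := fun e θ => θ e.1 - θ e.2) hdivV isChar_edges hA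
      (⟨continuous_const, fun _ _ => by simp⟩ : IsChar (fun _ : V → T => (0 : T)))
    simp only [add_zero, sub_zero, ct_zero, one_mul] at this
    rw [un_eq, part_eq, ← this]
    rfl
  have h2 : ∫ p : (V → T) × (V → T), (ct (p.1 a + p.1 b - p.1 c - p.1 d)
      * ct ((p.2 a - p.2 d) - (p.2 b - p.2 c))) * w2 J p ∂μ2
      = un J (fun θ => ct (θ a - θ d)) * un J (fun θ => ct (θ b - θ c)) := by
    have := dup_identity (μ := haarV V) (J := fun e : V × V => J e.1 e.2)
      (ω := fun e θ => θ e.1 - θ e.2) hdivV isChar_edges (isChar_diff a d) (isChar_diff b c)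
    rw [un_eq, un_eq, ← this]
    congr 1
    funext p
    rw [show p.1 a - p.1 d + (p.1 b - p.1 c) = p.1 a + p.1 b - p.1 c - p.1 d by abel]
    rfl
  have h3 : ∫ p : (V → T) × (V → T), (ct (p.1 a + p.1 b - p.1 c - p.1 d)
      * ct ((p.2 a - p.2 c) - (p.2 b - p.2 d))) * w2 J p ∂μ2
      = un J (fun θ => ct (θ a - θ c)) * un J (fun θ => ct (θ b - θ d)) := by
    have := dup_identity (μ := haarV V) (J := fun e : V × V => J e.1 e.2)
      (ω := fun e θ => θ e.1 - θ e.2) hdivV isChar_edges (isChar_diff a c) (isChar_diff b d)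
    rw [un_eq, un_eq, ← this]
    congr 1
    funext p
    rw [show p.1 a - p.1 c + (p.1 b - p.1 d) = p.1 a + p.1 b - p.1 c - p.1 d by abel]
    rfl
  -- the three unbalanced integrals vanish
  have h4 : ∫ p : (V → T) × (V → T), (ct (p.1 a + p.1 b - p.1 c - p.1 d)
      * (ct (p.2 a + p.2 b) * ct (p.2 c - p.2 d))) * w2 J p ∂μ2 = 0 := by
    refine integral_w2_antisymm J (f := fun p => ct (p.1 a + p.1 b - p.1 c - p.1 d)
      * (ct (p.2 a + p.2 b) * ct (p.2 c - p.2 d))) ((Real.pi / 2 : ℝ) : T) ?_
    intro p
    simp only [Prod.fst_add, Prod.snd_add, Pi.add_apply, Pi.zero_apply, add_zero,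
      add_sub_add_right_eq_sub]
    rw [show p.2 a + ((Real.pi / 2 : ℝ) : T) + (p.2 b + ((Real.pi / 2 : ℝ) : T))
      = (p.2 a + p.2 b) + (((Real.pi / 2 : ℝ) : T) + ((Real.pi / 2 : ℝ) : T)) by abel,
      coe_pi_half_add, ct_add_pi]
    ring
  have h5 : ∫ p : (V → T) × (V → T), (ct (p.1 a + p.1 b - p.1 c - p.1 d)
      * (ct (p.2 a - p.2 b) * ct (p.2 c + p.2 d))) * w2 J p ∂μ2 = 0 := by
    refine integral_w2_antisymm J (f := fun p => ct (p.1 a + p.1 b - p.1 c - p.1 d)
      * (ct (p.2 a - p.2 b) * ct (p.2 c + p.2 d))) ((Real.pi / 2 : ℝ) : T) ?_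
    intro p
    simp only [Prod.fst_add, Pi.add_apply, Pi.zero_apply, add_zero, Prod.snd_add, add_sub_add_right_eq_sub]
    rw [show p.2 c + ((Real.pi / 2 : ℝ) : T) + (p.2 d + ((Real.pi / 2 : ℝ) : T))
      = (p.2 c + p.2 d) + (((Real.pi / 2 : ℝ) : T) + ((Real.pi / 2 : ℝ) : T)) by abel,
      coe_pi_half_add, ct_add_pi]
    ring
  have h6 : ∫ p : (V → T) × (V → T), (ct (p.1 a + p.1 b - p.1 c - p.1 d)
      * ct ((p.2 a + p.2 b) + (p.2 c + p.2 d))) * w2 J p ∂μ2 = 0 := by
    refine integral_w2_antisymm J (f := fun p => ct (p.1 a + p.1 b - p.1 c - p.1 d)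
      * ct ((p.2 a + p.2 b) + (p.2 c + p.2 d))) ((Real.pi / 4 : ℝ) : T) ?_
    intro p
    simp only [Prod.fst_add, Pi.add_apply, Pi.zero_apply, add_zero, Prod.snd_add]
    rw [show p.2 a + ((Real.pi / 4 : ℝ) : T) + (p.2 b + ((Real.pi / 4 : ℝ) : T))
        + (p.2 c + ((Real.pi / 4 : ℝ) : T) + (p.2 d + ((Real.pi / 4 : ℝ) : T)))
      = ((p.2 a + p.2 b) + (p.2 c + p.2 d)) + ((((Real.pi / 4 : ℝ) : T)
        + ((Real.pi / 4 : ℝ) : T)) + (((Real.pi / 4 : ℝ) : T) + ((Real.pi / 4 : ℝ) : T))) by abel,
      coe_pi_quarter_add, ct_add_pi]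
    ring
  have e : ∀ p : (V → T) × (V → T), (ct (p.1 a + p.1 b - p.1 c - p.1 d)
        * (ct (p.2 a) * ct (p.2 b) * (st (p.2 c) * st (p.2 d)))) * w2 J p
      = (1 / 8) * ((ct (p.1 a + p.1 b - p.1 c - p.1 d)
          * ct ((p.2 a - p.2 d) - (p.2 b - p.2 c))) * w2 J p)
        + (1 / 8) * ((ct (p.1 a + p.1 b - p.1 c - p.1 d)
          * ct ((p.2 a - p.2 c) - (p.2 b - p.2 d))) * w2 J p)
        - (1 / 8) * ((ct (p.1 a + p.1 b - p.1 c - p.1 d)
          * ct (p.2 a + p.2 b - p.2 c - p.2 d)) * w2 J p)
        + (1 / 4) * ((ct (p.1 a + p.1 b - p.1 c - p.1 d)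
          * (ct (p.2 a + p.2 b) * ct (p.2 c - p.2 d))) * w2 J p)
        - (1 / 4) * ((ct (p.1 a + p.1 b - p.1 c - p.1 d)
          * (ct (p.2 a - p.2 b) * ct (p.2 c + p.2 d))) * w2 J p)
        - (1 / 8) * ((ct (p.1 a + p.1 b - p.1 c - p.1 d)
          * ct ((p.2 a + p.2 b) + (p.2 c + p.2 d))) * w2 J p) := by
    intro p
    rw [trig_expand]
    ring
  simp_rw [e] at h0
  rw [integral_sub (integrable_of_continuous (by fun_prop))
      (integrable_of_continuous (by fun_prop)),
    integral_sub (integrable_of_continuous (by fun_prop))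
      (integrable_of_continuous (by fun_prop)),
    integral_add (integrable_of_continuous (by fun_prop))
      (integrable_of_continuous (by fun_prop)),
    integral_sub (integrable_of_continuous (by fun_prop))
      (integrable_of_continuous (by fun_prop)),
    integral_add (integrable_of_continuous (by fun_prop))
      (integrable_of_continuous (by fun_prop))] at h0
  simp only [integral_const_mul] at h0
  rw [h1, h2, h3, h4, h5, h6] at h0
  unfold corr ev
  rw [div_mul_div_comm, div_mul_div_comm, ← add_div, div_le_div_iff₀ hZ (by positivity)]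
  nlinarith only [hZ, h0]

end Vale.Agent.P159.XY
end

section

/-!
# Supermultiplicativity of the two-point function
-/

open MeasureTheory Filter Topology

set_option linter.unusedSectionVars false

namespace Vale.Agent.P159.XY

variable {V : Type*} [Fintype V]

/-- pinned configuration: the spin at `y` is set to zero -/
noncomputable def pin [DecidableEq V] (y : V) (φ : V → T) (v : V) : T := if v = y then 0 else φ v

theorem measurePreserving_pin [DecidableEq V] (y : V) :
    MeasurePreserving (fun (φ : V → T) => fun v => if v = y then φ y else φ v + φ y)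
      (haarV V) (haarV V) := by
  let Φ : (V → T) →+ (V → T) :=
    { toFun := fun φ v => if v = y then φ y else φ v + φ y
      map_zero' := by
        funext v; by_cases h : v = y <;> simp only [Pi.zero_apply, add_zero, ite_self]
      map_add' := fun φ ψ => by
        funext v
        by_cases h : v = y
        · simp [h]
        · simp only [h, if_false, Pi.add_apply]; abel }
  have hc : Continuous Φ := by
    refine continuous_pi fun v => ?_
    change Continuous (fun φ : V → T => if v = y then φ y else φ v + φ y)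
    by_cases h : v = y
    · simp only [h, if_true]; fun_prop
    · simp only [h, if_false]; fun_prop
  have hs : Function.Surjective Φ := by
    intro θ
    refine ⟨fun v => if v = y then θ y else θ v - θ y, ?_⟩
    funext v
    change (if v = y then (if y = y then θ y else θ y - θ y) else
      (if v = y then θ y else θ v - θ y) + (if y = y then θ y else θ y - θ y)) = θ v
    by_cases h : v = y
    · simp [h]
    · simp only [h, ↓reduceIte, sub_add_cancel]
  exact AddMonoidHom.measurePreserving (μ := haarV V) (ν := haarV V) (f := Φ) hc hs rfl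

theorem isMono_ct_pin [DecidableEq V] (y v : V) : IsMono (fun φ : V → T => ct (pin y φ v)) := by
  unfold pin
  by_cases h : v = y
  · simp only [h, if_true, ct_zero]; exact IsMono.one
  · simp only [h, if_false]; exact IsMono.ct v

theorem isMono_st_pin [DecidableEq V] (y v : V) : IsMono (fun φ : V → T => st (pin y φ v)) := by
  unfold pin
  by_cases h : v = y
  · simp only [h, if_true, st_zero]; exact IsMono.zero
  · simp only [h, if_false]; exact IsMono.st v

theorem continuous_pin [DecidableEq V] (y v : V) : Continuous (fun φ : V → T => pin y φ v) := by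
  unfold pin
  by_cases h : v = y
  · simp only [h, if_true]; fun_prop
  · simp only [h, if_false]; fun_prop

theorem ev_st_st_nonneg (J : V → V → ℝ) (hJ : ∀ u v, 0 ≤ J u v) (x y z : V) :
    0 ≤ ev J (fun θ => st (θ x - θ y) * st (θ z - θ y)) := by
  classical
  unfold ev
  refine div_nonneg ?_ (part_pos J).le
  unfold un
  have hmp := measurePreserving_pin (V := V) y
  have hF : Continuous fun θ : V → T => st (θ x - θ y) * st (θ z - θ y)
      * Real.exp (energy J θ) := by (clear * -; fun_prop)
  have h2 := integral_map (μ := haarV V) hmp.measurable.aemeasurable (f := fun θ : V → T =>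
    st (θ x - θ y) * st (θ z - θ y) * Real.exp (energy J θ)) (by
      rw [hmp.map_eq]; exact hF.aestronglyMeasurable)
  rw [hmp.map_eq] at h2
  rw [h2]
  have hdiff : ∀ (φ : V → T) (u v : V), (if u = y then φ y else φ u + φ y)
      - (if v = y then φ y else φ v + φ y) = pin y φ u - pin y φ v := by
    intro φ u v
    unfold pin
    by_cases hu : u = y <;> by_cases hv : v = y <;> simp [hu, hv]
  have hdiffy : ∀ (φ : V → T) (u : V), (if u = y then φ y else φ u + φ y)
      - φ y = pin y φ u := by
    intro φ u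
    have := hdiff φ u y
    simpa only [pin, ↓reduceIte, sub_zero] using this
  let g : (V × V) × Bool → (V → T) → ℝ := fun i β =>
    if i.2 then ct (pin y β i.1.1) * ct (pin y β i.1.2)
      else st (pin y β i.1.1) * st (pin y β i.1.2)
  have hcp := fun v => continuous_pin (V := V) y v
  have hg : ∀ i, Continuous (g i) := by
    intro i
    rcases i with ⟨e, s⟩
    have h1 := hcp e.1
    have h2 := hcp e.2
    cases s
    · change Continuous fun β : V → T => st (pin y β e.1) * st (pin y β e.2); fun_prop
    · change Continuous fun β : V → T => ct (pin y β e.1) * ct (pin y β e.2); fun_prop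
  have hgm : ∀ i, IsMono (g i) := by
    intro i
    rcases i with ⟨e, s⟩
    cases s
    · exact (isMono_st_pin y e.1).mul (isMono_st_pin y e.2)
    · exact (isMono_ct_pin y e.1).mul (isMono_ct_pin y e.2)
  have hen : ∀ φ : V → T, energy J (fun v => if v = y then φ y else φ v + φ y)
      = ∑ i : (V × V) × Bool, J i.1.1 i.1.2 * g i φ := by
    intro φ
    unfold energy
    simp only [hdiff]
    symm
    rw [Fintype.sum_prod_type, Fintype.sum_prod_type]
    refine Finset.sum_congr rfl fun u _ => Finset.sum_congr rfl fun v _ => ?_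
    rw [Fintype.sum_bool]
    simp only [if_true, Bool.false_eq_true, if_false, ct_sub, g]
    ring
  simp only [if_true, hdiffy, hen]
  refine pos_exp (μ := haarV V) (fun i : (V × V) × Bool => J i.1.1 i.1.2)
    (fun i => hJ _ _) (fun φ => st (pin y φ x) * st (pin y φ z)) g
    (by have h1 := hcp x; have h2 := hcp z; fun_prop) hg ?_
  intro l
  exact (((isMono_st_pin y x).mul (isMono_st_pin y z)).mul
    (IsMono.list_prod hgm l)).integral_nonneg

/-- Supermultiplicativity of the two-point function -/
theorem corr_supermul (J : V → V → ℝ) (hJ : ∀ u v, 0 ≤ J u v) (x y z : V) :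
    corr J x y * corr J y z ≤ corr J x z := by
  have h1 := ev_ginibre J hJ (isChar_diff x y) (isChar_diff z y)
  have h2 := ev_st_st_nonneg J hJ x y z
  have h3 : corr J x z = ev J (fun θ => ct (θ x - θ y) * ct (θ z - θ y))
      + ev J (fun θ => st (θ x - θ y) * st (θ z - θ y)) := by
    rw [← ev_add J (by fun_prop) (by fun_prop)]
    unfold corr
    congr 1
    funext θ
    rw [← ct_sub]
    congr 1
    abel
  rw [corr_comm J y z]
  unfold corr at *
  linarith

end Vale.Agent.P159.XY
end

section

/-!
# Derivative in the couplings, monotonicity in the couplings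
-/

open MeasureTheory Filter Topology

set_option linter.unusedSectionVars false

namespace Vale.Agent.P159.XY

section Abstract

variable {X : Type*} [TopologicalSpace X] [CompactSpace X] [MeasurableSpace X]
  [BorelSpace X] {μ : Measure X} [IsFiniteMeasure μ]

theorem exists_bound {f : X → ℝ} (hf : Continuous f) : ∃ C, 0 ≤ C ∧ ∀ x, ‖f x‖ ≤ C := by
  obtain ⟨B, hB⟩ := (isCompact_range hf).isBounded.exists_norm_le
  exact ⟨|B|, abs_nonneg _, fun x => (hB _ ⟨x, rfl⟩).trans (le_abs_self B)⟩

/-- differentiation under the integral sign -/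
theorem hasDerivAt_integral_exp {f E0 E1 : X → ℝ} (hf : Continuous f) (h0 : Continuous E0)
    (h1 : Continuous E1) (b : ℝ) :
    HasDerivAt (fun b => ∫ x, f x * Real.exp (E0 x + b * E1 x) ∂μ)
      (∫ x, (f x * E1 x) * Real.exp (E0 x + b * E1 x) ∂μ) b := by
  obtain ⟨Cf, hCf0, hCf⟩ := exists_bound hf
  obtain ⟨C0, hC00, hC0⟩ := exists_bound h0
  obtain ⟨C1, hC10, hC1⟩ := exists_bound h1
  refine (hasDerivAt_integral_of_dominated_loc_of_deriv_le
    (F := fun b x => f x * Real.exp (E0 x + b * E1 x))
    (F' := fun b x => (f x * E1 x) * Real.exp (E0 x + b * E1 x))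
    (bound := fun _ => (Cf * C1) * Real.exp (C0 + (|b| + 1) * C1))
    (Metric.ball_mem_nhds b one_pos) ?_ ?_ ?_ ?_ ?_ ?_).2
  · exact Eventually.of_forall fun b' => Continuous.aestronglyMeasurable (by (clear * - hf h0 h1; fun_prop))
  · exact integrable_of_continuous (by fun_prop)
  · exact Continuous.aestronglyMeasurable (by fun_prop)
  · refine Eventually.of_forall fun x b' hb' => ?_
    rw [norm_mul, norm_mul, Real.norm_eq_abs (Real.exp _), abs_of_pos (Real.exp_pos _)]
    have hb2 : |b'| ≤ |b| + 1 := by
      rw [Metric.mem_ball, Real.dist_eq] at hb'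
      have := abs_sub_abs_le_abs_sub b' b
      (clear * - hb' this; linarith)
    have h3 : E0 x + b' * E1 x ≤ C0 + (|b| + 1) * C1 := by
      have e1 : E0 x ≤ C0 := (le_abs_self _).trans (hC0 x)
      have e2 : b' * E1 x ≤ (|b| + 1) * C1 := by
        calc b' * E1 x ≤ |b' * E1 x| := le_abs_self _
          _ = |b'| * |E1 x| := abs_mul _ _
          _ ≤ (|b| + 1) * C1 := mul_le_mul hb2 (hC1 x) (abs_nonneg _) (by positivity)
      linarith only [e1, e2]
    have h4 := hCf x
    have h5 := hC1 x
    (clear * - h4 h5 hCf0 h3 hC10; gcongr)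
  · exact integrable_const _
  · refine Eventually.of_forall fun x b' _ => ?_
    have h2 : HasDerivAt (fun b : ℝ => E0 x + b * E1 x) (E1 x) b' := by
      simpa only [hasDerivAt_const_add_iff, id_eq, one_mul] using     ((hasDerivAt_id b').mul_const (E1 x)).const_add (E0 x)
    have h3 := (h2.exp).const_mul (f x)
    refine h3.congr_deriv ?_
    ring

end Abstract

variable {V : Type*} [Fintype V]

theorem energy_add_smul (J A : V → V → ℝ) (b : ℝ) (θ : V → T) :
    energy (fun u v => J u v + b * A u v) θ = energy J θ + b * energy A θ := by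
  unfold energy
  rw [Finset.mul_sum, ← Finset.sum_add_distrib]
  refine Finset.sum_congr rfl fun u _ => ?_
  rw [Finset.mul_sum, ← Finset.sum_add_distrib]
  refine Finset.sum_congr rfl fun v _ => ?_
  ring

theorem hasDerivAt_un (J A : V → V → ℝ) {f : (V → T) → ℝ} (hf : Continuous f) (b : ℝ) :
    HasDerivAt (fun b => un (fun u v => J u v + b * A u v) f)
      (un (fun u v => J u v + b * A u v) (fun θ => f θ * energy A θ)) b := by
  unfold un
  simp_rw [energy_add_smul]
  exact hasDerivAt_integral_exp hf (continuous_energy J) (continuous_energy A) b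

theorem hasDerivAt_ev (J A : V → V → ℝ) {f : (V → T) → ℝ} (hf : Continuous f) (b : ℝ) :
    HasDerivAt (fun b => ev (fun u v => J u v + b * A u v) f)
      (ev (fun u v => J u v + b * A u v) (fun θ => f θ * energy A θ)
        - ev (fun u v => J u v + b * A u v) f
          * ev (fun u v => J u v + b * A u v) (energy A)) b := by
  unfold ev
  have h1 := hasDerivAt_un J A hf b
  have h2 := hasDerivAt_un J A (f := fun _ => 1) continuous_const b
  simp only [one_mul] at h2
  have hp : ∀ b, part (fun u v => J u v + b * A u v)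
      = un (fun u v => J u v + b * A u v) (fun _ => 1) := fun b => part_eq_un _
  have hne := (part_pos (fun u v => J u v + b * A u v)).ne'
  simp_rw [hp] at hne ⊢
  have h3 := h1.div h2 hne
  refine h3.congr_deriv ?_
  (clear * - hne; field_simp)

theorem ev_sum {ι : Type*} (s : Finset ι) (J : V → V → ℝ) (f : ι → (V → T) → ℝ)
    (hf : ∀ i, Continuous (f i)) :
    ev J (fun θ => ∑ i ∈ s, f i θ) = ∑ i ∈ s, ev J (f i) := by
  classical
  induction s using Finset.induction_on with
  | empty =>
    simp only [Finset.sum_empty]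
    unfold ev un; simp
  | insert i s hi ih =>
    simp_rw [Finset.sum_insert hi]
    rw [ev_add J (hf i) (continuous_finsetSum _ fun i _ => hf i), ih]

theorem ev_mul_energy (J A : V → V → ℝ) {f : (V → T) → ℝ} (hf : Continuous f) :
    ev J (fun θ => f θ * energy A θ)
      = ∑ u, ∑ v, A u v * ev J (fun θ => f θ * ct (θ u - θ v)) := by
  have e : ∀ θ : V → T, f θ * energy A θ = ∑ u, ∑ v, A u v * (f θ * ct (θ u - θ v)) := by
    intro θ
    unfold energy
    rw [Finset.mul_sum]
    refine Finset.sum_congr rfl fun u _ => ?_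
    rw [Finset.mul_sum]
    refine Finset.sum_congr rfl fun v _ => ?_
    ring
  simp_rw [e]
  rw [ev_sum _ _ _ (by intro i; fun_prop)]
  refine Finset.sum_congr rfl fun u _ => ?_
  rw [ev_sum _ _ _ (by intro i; fun_prop)]
  refine Finset.sum_congr rfl fun v _ => ?_
  rw [ev_const_mul]

/-- derivative of the two-point function along the direction `A` of couplings -/
noncomputable def dcorr (J A : V → V → ℝ) (x z : V) : ℝ :=
  ∑ u, ∑ v, A u v * (ev J (fun θ => ct (θ x - θ z) * ct (θ u - θ v))
    - corr J x z * corr J u v)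

theorem hasDerivAt_corr (J A : V → V → ℝ) (x z : V) (b : ℝ) :
    HasDerivAt (fun b => corr (fun u v => J u v + b * A u v) x z)
      (dcorr (fun u v => J u v + b * A u v) A x z) b := by
  have h := hasDerivAt_ev J A (f := fun θ : V → T => ct (θ x - θ z)) (by fun_prop) b
  unfold corr
  refine h.congr_deriv ?_
  have h1 := ev_mul_energy (fun u v => J u v + b * A u v) A
    (f := fun θ : V → T => ct (θ x - θ z)) (by fun_prop)
  have h2 := ev_mul_energy (fun u v => J u v + b * A u v) A
    (f := fun _ : V → T => (1 : ℝ)) (by fun_prop)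
  simp only [one_mul] at h2
  rw [h1, show (fun θ : V → T => energy A θ) = energy A from rfl] at *
  rw [h2, Finset.mul_sum, ← Finset.sum_sub_distrib]
  unfold dcorr corr
  refine Finset.sum_congr rfl fun u _ => ?_
  rw [Finset.mul_sum, ← Finset.sum_sub_distrib]
  refine Finset.sum_congr rfl fun v _ => ?_
  ring

theorem dcorr_nonneg (J A : V → V → ℝ) (hJ : ∀ u v, 0 ≤ J u v) (hA : ∀ u v, 0 ≤ A u v)
    (x z : V) : 0 ≤ dcorr J A x z := by
  unfold dcorr
  refine Finset.sum_nonneg fun u _ => Finset.sum_nonneg fun v _ => mul_nonneg (hA u v) ?_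
  have := ev_ginibre J hJ (isChar_diff x z) (isChar_diff u v)
  unfold corr
  linarith

/-- The two-point function is nondecreasing in the couplings. -/
theorem corr_mono {J J' : V → V → ℝ} (hJ : ∀ u v, 0 ≤ J u v) (h : ∀ u v, J u v ≤ J' u v)
    (x z : V) : corr J x z ≤ corr J' x z := by
  let A : V → V → ℝ := fun u v => J' u v - J u v
  have hA : ∀ u v, 0 ≤ A u v := fun u v => sub_nonneg.2 (h u v)
  let g : ℝ → ℝ := fun b => corr (fun u v => J u v + b * A u v) x z
  have hg : ∀ b, HasDerivAt g (dcorr (fun u v => J u v + b * A u v) A x z) b :=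
    fun b => hasDerivAt_corr J A x z b
  have hmono : MonotoneOn g (Set.Icc 0 1) := by
    apply monotoneOn_of_deriv_nonneg (convex_Icc 0 1)
      (fun b _ => (hg b).continuousAt.continuousWithinAt)
      (fun b _ => (hg b).differentiableAt.differentiableWithinAt)
    intro b hb
    rw [interior_Icc] at hb
    rw [(hg b).deriv]
    apply dcorr_nonneg _ _ _ hA
    intro u v
    have h1 := hJ u v
    have h2 := hA u v
    have h3 := hb.1.le
    (clear * - h1 h3 h2; positivity)
  have h01 := hmono (Set.left_mem_Icc.2 zero_le_one) (Set.right_mem_Icc.2 zero_le_one)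
    zero_le_one
  have e0 : g 0 = corr J x z := by simp [g]
  have e1 : g 1 = corr J' x z := by simp [g, A]
  rwa [e0, e1] at h01

/-- Upper bound on the derivative (from the four-point inequality), for symmetric `A`. -/
theorem dcorr_le (J A : V → V → ℝ) (hJ : ∀ u v, 0 ≤ J u v) (hA : ∀ u v, 0 ≤ A u v)
    (hsym : ∀ u v, A u v = A v u) (x z : V) :
    dcorr J A x z ≤ ∑ u, ∑ v, A u v * (corr J x u * corr J v z) := by
  have h1 : dcorr J A x z ≤ ∑ u, ∑ v, A u v * ((1 / 2) * (corr J x u * corr J v z)
      + (1 / 2) * (corr J x v * corr J u z)) := by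
    unfold dcorr
    refine Finset.sum_le_sum fun u _ => Finset.sum_le_sum fun v _ =>
      mul_le_mul_of_nonneg_left ?_ (hA u v)
    have e : ev J (fun θ => ct (θ x - θ z) * ct (θ u - θ v))
        = (1 / 2) * ev J (fun θ => ct (θ x + θ u - θ z - θ v))
          + (1 / 2) * ev J (fun θ => ct (θ x + θ v - θ z - θ u)) := by
      rw [← ev_const_mul, ← ev_const_mul, ← ev_add J (by fun_prop) (by fun_prop)]
      congr 1
      funext θ
      rw [show θ x + θ u - θ z - θ v = (θ x - θ z) + (θ u - θ v) by abel,
        show θ x + θ v - θ z - θ u = (θ x - θ z) - (θ u - θ v) by abel,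
        ct_add (θ x - θ z) (θ u - θ v), ct_sub (θ x - θ z) (θ u - θ v)]
      ring
    have h2 := four_point J hJ x u z v
    have h3 := four_point J hJ x v z u
    rw [e]
    rw [corr_comm J v u] at h3
    linarith only [h2, h3]
  refine h1.trans (le_of_eq ?_)
  have h2 : ∑ u, ∑ v, A u v * ((1 / 2) * (corr J x u * corr J v z)
        + (1 / 2) * (corr J x v * corr J u z))
      = (1 / 2) * ∑ u, ∑ v, A u v * (corr J x u * corr J v z)
        + (1 / 2) * ∑ u, ∑ v, A u v * (corr J x v * corr J u z) := by
    rw [Finset.mul_sum, Finset.mul_sum, ← Finset.sum_add_distrib]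
    refine Finset.sum_congr rfl fun u _ => ?_
    rw [Finset.mul_sum, Finset.mul_sum, ← Finset.sum_add_distrib]
    refine Finset.sum_congr rfl fun v _ => ?_
    ring
  have h3 : ∑ u, ∑ v, A u v * (corr J x v * corr J u z)
      = ∑ u, ∑ v, A u v * (corr J x u * corr J v z) := by
    rw [Finset.sum_comm]
    refine Finset.sum_congr rfl fun u _ => Finset.sum_congr rfl fun v _ => ?_
    rw [hsym v u]
  rw [h2, h3]
  ring

end Vale.Agent.P159.XY
end

section

/-!
# Monotonicity in the volume
-/

open MeasureTheory Filter Topology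

set_option linter.unusedSectionVars false

namespace Vale.Agent.P159.XY

variable {V W : Type*} [Fintype V] [Fintype W]

/-- restriction of configurations preserves the Haar measures -/
theorem measurePreserving_restrict (e : V → W) (he : Function.Injective e) :
    MeasurePreserving (fun (θ : W → T) => fun v => θ (e v)) (haarV W) (haarV V) := by
  let Φ : (W → T) →+ (V → T) :=
    { toFun := fun θ v => θ (e v)
      map_zero' := rfl
      map_add' := fun _ _ => rfl }
  have hc : Continuous Φ := by
    refine continuous_pi fun v => ?_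
    exact continuous_apply (e v)
  have hs : Function.Surjective Φ := by
    intro φ
    refine ⟨Function.extend e φ 0, ?_⟩
    funext v
    exact he.extend_apply φ 0 v
  exact AddMonoidHom.measurePreserving (μ := haarV W) (ν := haarV V) (f := Φ) hc hs (by simp)

/-- push-forward of couplings -/
noncomputable def pushJ [DecidableEq W] (e : V → W) (J : V → V → ℝ) (a b : W) : ℝ :=
  ∑ u, ∑ v, if e u = a ∧ e v = b then J u v else 0

theorem energy_pushJ [DecidableEq W] (e : V → W) (J : V → V → ℝ) (θ : W → T) :
    energy (pushJ e J) θ = energy J (fun v => θ (e v)) := by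
  unfold energy pushJ
  have h1 : ∀ a b : W, (∑ u, ∑ v, if e u = a ∧ e v = b then J u v else 0) * ct (θ a - θ b)
      = ∑ u, ∑ v, if e u = a then (if e v = b then J u v * ct (θ a - θ b) else 0) else 0 := by
    intro a b
    rw [Finset.sum_mul]
    refine Finset.sum_congr rfl fun u _ => ?_
    rw [Finset.sum_mul]
    refine Finset.sum_congr rfl fun v _ => ?_
    by_cases ha : e u = a <;> by_cases hb : e v = b <;> simp [ha, hb]
  simp_rw [h1]
  calc ∑ a, ∑ b, ∑ u, ∑ v, (if e u = a then (if e v = b then J u v * ct (θ a - θ b) else 0) else 0)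
      = ∑ u, ∑ v, ∑ a, ∑ b, (if e u = a then
          (if e v = b then J u v * ct (θ a - θ b) else 0) else 0) := by
        have s1 : ∀ a : W, ∑ b, ∑ u, ∑ v, (if e u = a then
              (if e v = b then J u v * ct (θ a - θ b) else 0) else 0)
            = ∑ u, ∑ v, ∑ b, (if e u = a then
              (if e v = b then J u v * ct (θ a - θ b) else 0) else 0) := by
          intro a
          rw [Finset.sum_comm]
          exact Finset.sum_congr rfl fun u _ => Finset.sum_comm
        simp_rw [s1]
        rw [Finset.sum_comm]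
        exact Finset.sum_congr rfl fun u _ => Finset.sum_comm
    _ = ∑ u, ∑ v, J u v * ct (θ (e u) - θ (e v)) := by
        refine Finset.sum_congr rfl fun u _ => Finset.sum_congr rfl fun v _ => ?_
        rw [Finset.sum_eq_single (e u)]
        · rw [Finset.sum_eq_single (e v)]
          · simp
          · intro b _ hb; simp [hb.symm]
          · intro h; exact absurd (Finset.mem_univ _) h
        · intro a _ ha; simp only [ha.symm, ↓reduceIte, Finset.sum_const_zero]
        · intro h; exact absurd (Finset.mem_univ _) h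

theorem un_pushJ [DecidableEq W] (e : V → W) (he : Function.Injective e) (J : V → V → ℝ)
    {f : (V → T) → ℝ} (hf : Continuous f) :
    un (pushJ e J) (fun θ => f (fun v => θ (e v))) = un J f := by
  unfold un
  simp_rw [energy_pushJ]
  have hmp := measurePreserving_restrict e he
  have h2 := integral_map (μ := haarV W) hmp.measurable.aemeasurable
    (f := fun φ : V → T => f φ * Real.exp (energy J φ)) (by
      rw [hmp.map_eq]
      exact Continuous.aestronglyMeasurable (by fun_prop))
  rw [hmp.map_eq] at h2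
  rw [h2]

theorem corr_pushJ [DecidableEq W] (e : V → W) (he : Function.Injective e) (J : V → V → ℝ)
    (x y : V) : corr (pushJ e J) (e x) (e y) = corr J x y := by
  unfold corr ev
  rw [part_eq_un, part_eq_un]
  have h1 := un_pushJ e he J (f := fun θ => ct (θ x - θ y)) (by fun_prop)
  have h2 := un_pushJ e he J (f := fun _ => 1) (by fun_prop)
  rw [h1, h2]

/-- The two-point function is monotone under embeddings of graphs. -/
theorem corr_embed (e : V → W) (he : Function.Injective e) {J : V → V → ℝ} {J' : W → W → ℝ}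
    (hJ : ∀ u v, 0 ≤ J u v) (hJ' : ∀ a b, 0 ≤ J' a b) (h : ∀ u v, J u v ≤ J' (e u) (e v))
    (x y : V) : corr J x y ≤ corr J' (e x) (e y) := by
  classical
  rw [← corr_pushJ e he J x y]
  refine corr_mono ?_ ?_ _ _
  · intro a b
    exact Finset.sum_nonneg fun u _ => Finset.sum_nonneg fun v _ => by
      split_ifs
      · exact hJ u v
      · exact le_rfl
  · intro a b
    unfold pushJ
    by_cases ha : ∃ u, e u = a
    · obtain ⟨u, rfl⟩ := ha
      by_cases hb : ∃ v, e v = b
      · obtain ⟨v, rfl⟩ := hb
        rw [Finset.sum_eq_single u]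
        · rw [Finset.sum_eq_single v]
          · simpa only [and_self, ↓reduceIte] using h u v
          · intro w _ hw
            have : e w ≠ e v := fun h => hw (he h)
            simp [this]
          · intro h; exact absurd (Finset.mem_univ _) h
        · intro w _ hw
          have : e w ≠ e u := fun h => hw (he h)
          simp only [this, false_and, ↓reduceIte, Finset.sum_const_zero]
        · intro h; exact absurd (Finset.mem_univ _) h
      · have : ∀ v, e v ≠ b := fun v hv => hb ⟨v, hv⟩
        simp only [this, and_false, if_false, Finset.sum_const_zero]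
        exact hJ' _ _
    · have : ∀ u, e u ≠ a := fun u hu => ha ⟨u, hu⟩
      simp only [this, false_and, if_false, Finset.sum_const_zero]
      exact hJ' _ _

/-- invariance under isomorphisms -/
theorem corr_equiv (e : V ≃ W) {J : V → V → ℝ} {J' : W → W → ℝ}
    (hJ : ∀ u v, 0 ≤ J u v) (h : ∀ u v, J u v = J' (e u) (e v))
    (x y : V) : corr J x y = corr J' (e x) (e y) := by
  have hJ' : ∀ a b, 0 ≤ J' a b := by
    intro a b
    have := hJ (e.symm a) (e.symm b)
    rw [h] at this
    simpa only [ge_iff_le, Equiv.apply_symm_apply] using this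
  apply le_antisymm
  · exact corr_embed e e.injective hJ hJ' (fun u v => (h u v).le) x y
  · have := corr_embed e.symm e.symm.injective (J := J') (J' := J) hJ' hJ
      (fun a b => by rw [h]; simp) (e x) (e y)
    simpa only [ge_iff_le, Equiv.symm_apply_apply] using this

end Vale.Agent.P159.XY
end

section

/-!
# The differential inequality for weighted susceptibilities
-/

open MeasureTheory Filter Topology

set_option linter.unusedSectionVars false

namespace Vale.Agent.P159.XY

variable {V : Type*} [Fintype V]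

/-- weighted row sums of the two-point function at couplings `b A` -/
noncomputable def rowsum (A : V → V → ℝ) (τ : V → ℝ) (b : ℝ) (x : V) : ℝ :=
  ∑ z, τ z / τ x * corr (fun u v => b * A u v) x z

theorem hasDerivAt_corr' (A : V → V → ℝ) (x z : V) (b : ℝ) :
    HasDerivAt (fun b => corr (fun u v => b * A u v) x z)
      (dcorr (fun u v => b * A u v) A x z) b := by
  have := hasDerivAt_corr (fun _ _ => 0) A x z b
  simpa only [zero_add] using this

theorem hasDerivAt_rowsum (A : V → V → ℝ) (τ : V → ℝ) (b : ℝ) (x : V) :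
    HasDerivAt (fun b => rowsum A τ b x)
      (∑ z, τ z / τ x * dcorr (fun u v => b * A u v) A x z) b := by
  unfold rowsum
  exact HasDerivAt.fun_sum fun z _ => (hasDerivAt_corr' A x z b).const_mul _

theorem drowsum_le (A : V → V → ℝ) (hA : ∀ u v, 0 ≤ A u v) (hsym : ∀ u v, A u v = A v u)
    (τ : V → ℝ) (hτ : ∀ v, 0 < τ v) (c : ℝ) (hc : ∀ u, ∑ v, A u v * τ v ≤ c * τ u)
    (b : ℝ) (hb : 0 ≤ b) (N : ℝ) (hN : ∀ x, rowsum A τ b x ≤ N) (x : V) :
    ∑ z, τ z / τ x * dcorr (fun u v => b * A u v) A x z ≤ c * N ^ 2 := by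
  set J : V → V → ℝ := fun u v => b * A u v with hJdef
  have hJ : ∀ u v, 0 ≤ J u v := fun u v => mul_nonneg hb (hA u v)
  have hK : ∀ u v, 0 ≤ corr J u v := corr_nonneg J hJ
  have hN0 : 0 ≤ N := by
    refine le_trans ?_ (hN x)
    unfold rowsum
    exact Finset.sum_nonneg fun z _ => mul_nonneg (div_nonneg (hτ z).le (hτ x).le) (hK x z)
  calc ∑ z, τ z / τ x * dcorr J A x z
      ≤ ∑ z, τ z / τ x * ∑ u, ∑ v, A u v * (corr J x u * corr J v z) := by
        refine Finset.sum_le_sum fun z _ => mul_le_mul_of_nonneg_left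
          (dcorr_le J A hJ hA hsym x z) (div_nonneg (hτ z).le (hτ x).le)
    _ = ∑ u, τ u / τ x * corr J x u * ∑ v, (A u v * τ v / τ u)
          * ∑ z, τ z / τ v * corr J v z := by
        simp_rw [Finset.mul_sum]
        rw [Finset.sum_comm]
        refine Finset.sum_congr rfl fun u _ => ?_
        rw [Finset.sum_comm]
        refine Finset.sum_congr rfl fun v _ => ?_
        refine Finset.sum_congr rfl fun z _ => ?_
        have h1 := (hτ u).ne'
        have h2 := (hτ v).ne'
        have h3 := (hτ x).ne'
        (clear * - h1 h2 h3; field_simp)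
    _ ≤ ∑ u, τ u / τ x * corr J x u * (c * N) := by
        refine Finset.sum_le_sum fun u _ => mul_le_mul_of_nonneg_left ?_
          (mul_nonneg (div_nonneg (hτ u).le (hτ x).le) (hK x u))
        calc ∑ v, (A u v * τ v / τ u) * ∑ z, τ z / τ v * corr J v z
            ≤ ∑ v, (A u v * τ v / τ u) * N := by
              refine Finset.sum_le_sum fun v _ => mul_le_mul_of_nonneg_left (hN v) ?_
              exact div_nonneg (mul_nonneg (hA u v) (hτ v).le) (hτ u).le
          _ = (∑ v, A u v * τ v) / τ u * N := by
              rw [← Finset.sum_mul, Finset.sum_div]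
          _ ≤ c * N := by
              refine mul_le_mul_of_nonneg_right ?_ hN0
              rw [div_le_iff₀ (hτ u)]
              exact hc u
    _ = rowsum A τ b x * (c * N) := by
        unfold rowsum
        rw [Finset.sum_mul]
    _ ≤ N * (c * N) := by
        by_cases hcn : 0 ≤ c
        · exact mul_le_mul_of_nonneg_right (hN x) (mul_nonneg hcn hN0)
        · exfalso
          have h1 := hc x
          have h2 : 0 ≤ ∑ v, A x v * τ v :=
            Finset.sum_nonneg fun v _ => mul_nonneg (hA x v) (hτ v).le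
          have h3 := hτ x
          push Not at hcn
          nlinarith only [h1, h2, h3, hcn]
    _ = c * N ^ 2 := by ring

theorem rowsum_nonneg (A : V → V → ℝ) (hA : ∀ u v, 0 ≤ A u v) (τ : V → ℝ)
    (hτ : ∀ v, 0 < τ v) (b : ℝ) (hb : 0 ≤ b) (x : V) : 0 ≤ rowsum A τ b x := by
  unfold rowsum
  exact Finset.sum_nonneg fun z _ => mul_nonneg (div_nonneg (hτ z).le (hτ x).le)
    (corr_nonneg _ (fun u v => mul_nonneg hb (hA u v)) x z)

/-- comparison with a strictly larger constant -/
theorem rowsum_bound_aux (A : V → V → ℝ) (hA : ∀ u v, 0 ≤ A u v)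
    (hsym : ∀ u v, A u v = A v u)
    (τ : V → ℝ) (hτ : ∀ v, 0 < τ v) (c : ℝ) (hc : ∀ u, ∑ v, A u v * τ v ≤ c * τ u)
    (c' : ℝ) (hc0 : 0 ≤ c) (hcc : c < c')
    (b0 b : ℝ) (hb0 : 0 ≤ b0) (hb : b0 ≤ b) (M : ℝ) (hM : 0 < M)
    (hM0 : ∀ x, rowsum A τ b0 x ≤ M) (hlt : c' * M * (b - b0) < 1) (x : V) :
    rowsum A τ b x ≤ M / (1 - c' * M * (b - b0)) := by
  have hc'0 : 0 < c' := lt_of_le_of_lt hc0 hcc
  let f : ℝ → V → ℝ := fun t x => rowsum A τ t x
  let f' : ℝ → V → ℝ := fun t x => ∑ z, τ z / τ x * dcorr (fun u v => t * A u v) A x z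
  have hf : ∀ t, HasDerivAt f (f' t) t := fun t =>
    hasDerivAt_pi.2 fun x => hasDerivAt_rowsum A τ t x
  let B : ℝ → ℝ := fun t => M / (1 - c' * M * (t - b0))
  let B' : ℝ → ℝ := fun t => c' * (M / (1 - c' * M * (t - b0))) ^ 2
  have hden : ∀ t ∈ Set.Icc b0 b, 0 < 1 - c' * M * (t - b0) := by
    intro t ht
    have : c' * M * (t - b0) ≤ c' * M * (b - b0) :=
      mul_le_mul_of_nonneg_left (by linarith only [ht.2]) (by (clear * - hc'0 hM; positivity))
    linarith only [hlt, this]
  have hB : ∀ t ∈ Set.Icc b0 b, HasDerivAt B (B' t) t := by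
    intro t ht
    have h1 : HasDerivAt (fun t => 1 - c' * M * (t - b0)) (-(c' * M)) t := by
      have := (((hasDerivAt_id t).sub_const b0).const_mul (c' * M)).const_sub 1
      simpa only [id_eq, mul_one] using this
    have h2 := (hasDerivAt_const t M).div h1 (hden t ht).ne'
    refine h2.congr_deriv ?_
    simp only [B']
    have := (hden t ht).ne'
    field_simp
    ring
  have key := image_norm_le_of_norm_deriv_right_lt_deriv_boundary' (f := f) (f' := f')
    (a := b0) (b := b) (B := B) (B' := B')
    (fun t _ => (hf t).continuousAt.continuousWithinAt)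
    (fun t _ => (hf t).hasDerivWithinAt)
    (by
      have : B b0 = M := by simp [B]
      rw [this]
      rw [pi_norm_le_iff_of_nonneg hM.le]
      intro x
      rw [Real.norm_eq_abs, abs_of_nonneg (rowsum_nonneg A hA τ hτ b0 hb0 x)]
      exact hM0 x)
    (fun t ht => (hB t ht).continuousAt.continuousWithinAt)
    (fun t ht => (hB t ⟨ht.1, ht.2.le⟩).hasDerivWithinAt)
    (by
      intro t ht hBt
      have ht0 : 0 ≤ t := hb0.trans ht.1
      have hBpos : 0 < B t := div_pos hM (hden t ⟨ht.1, ht.2.le⟩)
      have hle : ∀ x, rowsum A τ t x ≤ B t := by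
        intro x
        rw [← hBt]
        have := norm_le_pi_norm (f t) x
        rw [Real.norm_eq_abs] at this
        exact (le_abs_self _).trans this
      have h1 : ‖f' t‖ ≤ c * (B t) ^ 2 := by
        rw [pi_norm_le_iff_of_nonneg (by (clear * - hc0 hBpos; positivity))]
        intro x
        have h2 := drowsum_le A hA hsym τ hτ c hc t ht0 (B t) hle x
        rw [Real.norm_eq_abs, abs_of_nonneg]
        · exact h2
        · exact Finset.sum_nonneg fun z _ => mul_nonneg (div_nonneg (hτ z).le (hτ x).le)
            (dcorr_nonneg _ _ (fun u v => mul_nonneg ht0 (hA u v)) hA x z)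
      calc ‖f' t‖ ≤ c * (B t) ^ 2 := h1
        _ < c' * (B t) ^ 2 := mul_lt_mul_of_pos_right hcc (by (clear * - hBpos; positivity))
        _ = B' t := rfl)
    (Set.right_mem_Icc.2 hb)
  have h3 := norm_le_pi_norm (f b) x
  rw [Real.norm_eq_abs] at h3
  exact ((le_abs_self _).trans h3).trans key

/-- The differential inequality for weighted row sums, in integrated form. -/
theorem rowsum_bound (A : V → V → ℝ) (hA : ∀ u v, 0 ≤ A u v)
    (hsym : ∀ u v, A u v = A v u)
    (τ : V → ℝ) (hτ : ∀ v, 0 < τ v) (c : ℝ) (hc : ∀ u, ∑ v, A u v * τ v ≤ c * τ u)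
    (hc0 : 0 ≤ c)
    (b0 b : ℝ) (hb0 : 0 ≤ b0) (hb : b0 ≤ b) (M : ℝ) (hM : 0 < M)
    (hM0 : ∀ x, rowsum A τ b0 x ≤ M) (hlt : c * M * (b - b0) < 1) (x : V) :
    rowsum A τ b x ≤ M / (1 - c * M * (b - b0)) := by
  have hcont : Tendsto (fun c' : ℝ => M / (1 - c' * M * (b - b0))) (𝓝[>] c)
      (𝓝 (M / (1 - c * M * (b - b0)))) := by
    apply Tendsto.mono_left _ nhdsWithin_le_nhds
    have : ContinuousAt (fun c' : ℝ => M / (1 - c' * M * (b - b0))) c := by
      apply ContinuousAt.div continuousAt_const (by fun_prop)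
      (clear * - hlt; linarith)
    exact this
  have hev : ∀ᶠ c' in 𝓝[>] c, rowsum A τ b x ≤ M / (1 - c' * M * (b - b0)) := by
    have h1 : ∀ᶠ c' in 𝓝 c, c' * M * (b - b0) < 1 := by
      have : ContinuousAt (fun c' : ℝ => c' * M * (b - b0)) c := by fun_prop
      exact this.eventually (gt_mem_nhds hlt)
    filter_upwards [nhdsWithin_le_nhds h1, self_mem_nhdsWithin] with c' h2 h3
    exact rowsum_bound_aux A hA hsym τ hτ c hc c' hc0 h3 b0 b hb0 hb M hM hM0 h2 x
  exact ge_of_tendsto hcont hev

end Vale.Agent.P159.XY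
end
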