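import Vale.Agent.P159.Bdl.B1
import Vale.Agent.P159.Defs
import Vale.Agent.P159.Bdl.B2

set_option linter.all false

section

/-!
The group of all spin configurations on the square lattice.
-/

open MeasureTheory Filter Topology
open scoped BigOperators

namespace Vale.Agent.P159

/-- spin configurations on the whole lattice -/
abbrev Ginf : Type := ℤ × ℤ → T

noncomputable instance : IsTopologicalAddGroup Ginf := inferInstance
noncomputable instance : CompactSpace Ginf := inferInstance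
noncomputable instance : SecondCountableTopology Ginf := inferInstance
noncomputable instance : BorelSpace Ginf := inferInstance

/-- Haar probability measure on configurations -/
noncomputable def muInf : Measure Ginf := Measure.addHaarMeasure ⊤

instance : (muInf).IsAddHaarMeasure := by unfold muInf; infer_instance

instance : IsProbabilityMeasure muInf := by
  constructor
  have := Measure.addHaarMeasure_self (K₀ := (⊤ : TopologicalSpace.PositiveCompacts Ginf))
  simpa only [muInf, TopologicalSpace.PositiveCompacts.coe_top] using this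

theorem T_div2 (g : T) : ∃ h : T, h + h = g := by
  induction g using QuotientAddGroup.induction_on with
  | H r =>
    refine ⟨((r / 2 : ℝ) : T), ?_⟩
    show ((r / 2 : ℝ) : T) + ((r / 2 : ℝ) : T) = ((r : ℝ) : T)
    rw [← AddCircle.coe_add]
    congr 1
    ring

theorem pi_div2 {V : Type*} (g : V → T) : ∃ h : V → T, h + h = g := by
  choose h hh using fun v => T_div2 (g v)
  exact ⟨h, funext hh⟩

theorem cont_cos : Continuous cosT := Real.Angle.continuous_cos
theorem cont_sin : Continuous sinT := Real.Angle.continuous_sin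

theorem cosT_neg (x : T) : cosT (-x) = cosT x := Real.Angle.cos_neg x
theorem sinT_neg (x : T) : sinT (-x) = -sinT x := Real.Angle.sin_neg x
theorem cosT_zero : cosT 0 = 1 := Real.Angle.cos_zero
theorem sinT_zero : sinT 0 = 0 := Real.Angle.sin_zero
theorem cosT_coe (r : ℝ) : cosT (r : T) = Real.cos r := Real.Angle.cos_coe r
theorem sinT_coe (r : ℝ) : sinT (r : T) = Real.sin r := Real.Angle.sin_coe r

/-- difference of the spins at two sites -/
noncomputable def grad {V : Type*} (u v : V) : Chr (V → T) where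
  c θ := cosT (θ u - θ v)
  s θ := sinT (θ u - θ v)
  cont_c := cont_cos.comp ((continuous_apply u).sub (continuous_apply v))
  cont_s := cont_sin.comp ((continuous_apply u).sub (continuous_apply v))
  c_add x y := by
    have : (x + y) u - (x + y) v = (x u - x v) + (y u - y v) := by
      simp only [Pi.add_apply]; abel
    rw [this]
    exact Real.Angle.cos_add _ _
  s_add x y := by
    have : (x + y) u - (x + y) v = (x u - x v) + (y u - y v) := by
      simp only [Pi.add_apply]; abel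
    rw [this]
    exact Real.Angle.sin_add _ _
  norm_sq x := Real.Angle.cos_sq_add_sin_sq _

/-- relabelling of the spins -/
def relabel {V W : Type*} (σ : W → V) : (V → T) →+ (W → T) where
  toFun θ := fun w => θ (σ w)
  map_zero' := rfl
  map_add' _ _ := rfl

theorem relabel_cont {V W : Type*} (σ : W → V) : Continuous (relabel σ) :=
  continuous_pi fun w => continuous_apply (σ w)

theorem relabel_surj {V W : Type*} (σ : W → V) (hσ : Function.Injective σ) :
    Function.Surjective (relabel σ) := by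
  intro θ
  refine ⟨Function.extend σ θ 0, ?_⟩
  funext w
  exact hσ.extend_apply _ _ _

theorem relabel_mp {V W : Type*} [Countable V] [Countable W] (σ : W → V)
    (hσ : Function.Injective σ) (μ : Measure (V → T)) (ν : Measure (W → T))
    [μ.IsAddHaarMeasure] [IsProbabilityMeasure μ] [ν.IsAddHaarMeasure] [IsProbabilityMeasure ν] :
    MeasurePreserving (relabel σ) μ ν := by
  apply AddMonoidHom.measurePreserving
  · exact relabel_cont σ
  · exact relabel_surj σ hσ
  · simp

instance torusHaar_haar (V : Type*) [Fintype V] : (torusHaar V).IsAddHaarMeasure := by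
  unfold torusHaar; infer_instance

instance torusHaar_prob (V : Type*) [Fintype V] : IsProbabilityMeasure (torusHaar V) := by
  unfold torusHaar; infer_instance

theorem integral_relabel {V W : Type*} [Countable V] [Countable W] (σ : W → V)
    (hσ : Function.Injective σ) (μ : Measure (V → T)) (ν : Measure (W → T))
    [μ.IsAddHaarMeasure] [IsProbabilityMeasure μ] [ν.IsAddHaarMeasure] [IsProbabilityMeasure ν]
    {E : Type*} [NormedAddCommGroup E] [NormedSpace ℝ E] [SecondCountableTopology E]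
    {f : (W → T) → E} (hf : Continuous f) :
    ∫ θ, f (relabel σ θ) ∂μ = ∫ θ, f θ ∂ν := by
  have h := relabel_mp σ hσ μ ν
  have h1 := integral_map (μ := μ) h.measurable.aemeasurable (f := f) hf.aestronglyMeasurable
  rw [h.map_eq] at h1
  exact h1.symm

/-- set the spins off `S` to `0` -/
noncomputable def proj (S : Set (ℤ × ℤ)) : Ginf →+ Ginf where
  toFun θ := fun v => by classical exact if v ∈ S then θ v else 0
  map_zero' := by
    funext v
    simp
  map_add' x y := by
    funext v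
    by_cases h : v ∈ S <;> simp [h]

theorem proj_of_mem {S : Set (ℤ × ℤ)} {v : ℤ × ℤ} (h : v ∈ S) (θ : Ginf) :
    proj S θ v = θ v := by
  simp [proj, h]

theorem proj_of_notMem {S : Set (ℤ × ℤ)} {v : ℤ × ℤ} (h : v ∉ S) (θ : Ginf) :
    proj S θ v = 0 := by
  simp only [proj, AddMonoidHom.coe_mk, ZeroHom.coe_mk, h, ↓reduceIte]

theorem proj_cont (S : Set (ℤ × ℤ)) : Continuous (proj S) := by
  refine continuous_pi fun v => ?_
  by_cases h : v ∈ S
  · have : (fun θ : Ginf => proj S θ v) = fun θ => θ v := by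
      funext θ; exact proj_of_mem h θ
    rw [this]
    exact continuous_apply v
  · have : (fun θ : Ginf => proj S θ v) = fun _ => 0 := by
      funext θ; exact proj_of_notMem h θ
    rw [this]
    exact continuous_const

theorem ext_cont (S : Finset (ℤ × ℤ)) : Continuous (fun θ : S → T => ext θ) := by
  refine continuous_pi fun v => ?_
  by_cases h : v ∈ S
  · have : (fun θ : S → T => ext θ v) = fun θ => θ ⟨v, h⟩ := by
      funext θ; simp only [ext, h, ↓reduceDIte]
    rw [this]
    exact continuous_apply _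
  · have : (fun θ : S → T => ext θ v) = fun _ => 0 := by
      funext θ; simp [ext, h]
    rw [this]
    exact continuous_const

theorem proj_eq_ext (S : Finset (ℤ × ℤ)) (θ : Ginf) :
    proj (S : Set (ℤ × ℤ)) θ = ext (relabel (fun w : S => (w : ℤ × ℤ)) θ) := by
  funext v
  by_cases h : v ∈ S
  · rw [proj_of_mem (by simpa using h)]
    simp only [ext, h, ↓reduceDIte, relabel, AddMonoidHom.coe_mk, ZeroHom.coe_mk]
  · rw [proj_of_notMem (by simpa using h)]
    simp [ext, h]

/-- integrals over finitely many spins as integrals over all configurations -/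
theorem integral_ext {E : Type*} [NormedAddCommGroup E] [NormedSpace ℝ E]
    [SecondCountableTopology E] (S : Finset (ℤ × ℤ)) {f : Ginf → E} (hf : Continuous f) :
    ∫ θ : S → T, f (ext θ) ∂torusHaar S = ∫ θ, f (proj (S : Set (ℤ × ℤ)) θ) ∂muInf := by
  have h := integral_relabel (fun w : S => (w : ℤ × ℤ)) Subtype.val_injective muInf
    (torusHaar S) (f := fun θ => f (ext θ)) (hf.comp (ext_cont S))
  rw [← h]
  simp_rw [proj_eq_ext]

end Vale.Agent.P159
end

section

/-!
The block of side `l` with wired boundary condition.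
-/

open MeasureTheory Filter Topology
open scoped BigOperators

namespace Vale.Agent.P159

/-- index set of the bonds of a block, each bond listed once per unit square -/
abbrev BI (l : ℕ) : Type := (Fin l × Fin l) × (Bool × Bool)

/-- first endpoint -/
def bu {l : ℕ} (e : BI l) : ℤ × ℤ :=
  ((e.1.1 : ℤ) + (if e.2.1 && e.2.2 then 1 else 0),
    (e.1.2 : ℤ) + (if (!e.2.1) && e.2.2 then 1 else 0))

/-- second endpoint -/
def bv {l : ℕ} (e : BI l) : ℤ × ℤ := bu e + (if e.2.1 then (0, 1) else (1, 0))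

/-- indicator of horizontal bonds -/
def hh {l : ℕ} (e : BI l) : ℝ := if e.2.1 then 0 else 1

/-- indicator of vertical bonds -/
def vv {l : ℕ} (e : BI l) : ℝ := if e.2.1 then 1 else 0

/-- saddle direction -/
noncomputable def ww {l : ℕ} (e : BI l) : ℝ :=
  if e.2.1 then ((bu e).1 : ℝ) / l - 1 / 2 else ((bu e).2 : ℝ) / l - 1 / 2

theorem sum_BI {l : ℕ} (F : BI l → ℝ) : ∑ e, F e = ∑ i : Fin l, ∑ j : Fin l,
    (F ((i, j), (false, false)) + F ((i, j), (false, true)) + F ((i, j), (true, false))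
      + F ((i, j), (true, true))) := by
  rw [Fintype.sum_prod_type, Fintype.sum_prod_type]
  refine Finset.sum_congr rfl fun i _ => Finset.sum_congr rfl fun j _ => ?_
  rw [Fintype.sum_prod_type]
  simp only [Fintype.sum_bool]
  ring

theorem sum_hh {l : ℕ} (b : ℝ) (f : T → ℝ) (θ : Ginf) :
    ∑ e : BI l, b / 2 * hh e * f (θ (bu e) - θ (bv e)) = horiz l b f θ := by
  rw [sum_BI, horiz, Finset.sum_range]
  refine Finset.sum_congr rfl fun i _ => ?_
  rw [Finset.sum_range]
  refine Finset.sum_congr rfl fun j _ => ?_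
  simp only [hh, Bool.false_eq_true, ↓reduceIte, mul_one, bu, Bool.and_self, add_zero, Bool.not_false, Bool.and_false, bv, Prod.mk_add_mk, Bool.and_true, mul_zero, Bool.not_true, zero_mul]
  ring

theorem sum_vv {l : ℕ} (b : ℝ) (f : T → ℝ) (θ : Ginf) :
    ∑ e : BI l, b / 2 * vv e * f (θ (bu e) - θ (bv e)) = vert l b f θ := by
  rw [sum_BI, vert, Finset.sum_range]
  refine Finset.sum_congr rfl fun i _ => ?_
  rw [Finset.sum_range]
  refine Finset.sum_congr rfl fun j _ => ?_
  simp only [vv, Bool.false_eq_true, ↓reduceIte, mul_zero, bu, Bool.and_self, add_zero, Bool.not_false, Bool.and_false, bv, Prod.mk_add_mk, zero_mul, Bool.and_true, mul_one, Bool.not_true, zero_add]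
  ring

theorem hh_add_vv {l : ℕ} (e : BI l) : hh e + vv e = 1 := by
  unfold hh vv; split_ifs <;> norm_num

theorem sum_all {l : ℕ} (b : ℝ) (f : T → ℝ) (θ : Ginf) :
    ∑ e : BI l, b / 2 * f (θ (bu e) - θ (bv e)) = horiz l b f θ + vert l b f θ := by
  rw [← sum_hh, ← sum_vv, ← Finset.sum_add_distrib]
  refine Finset.sum_congr rfl fun e _ => ?_
  have := hh_add_vv e
  linear_combination (-(b / 2) * f (θ (bu e) - θ (bv e))) * this

/-- characters of the block at the origin with the boundary spins set to `0` -/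
noncomputable def chi0 (l : ℕ) (e : BI l) : Chr Ginf :=
  (grad (bu e) (bv e)).comp (proj (inner l : Set (ℤ × ℤ))) (proj_cont _)

theorem horiz_cont (l : ℕ) (b : ℝ) {f : T → ℝ} (hf : Continuous f) :
    Continuous (horiz l b f) := by
  unfold horiz
  refine continuous_finsetSum _ fun i _ => continuous_finsetSum _ fun j _ => ?_
  refine continuous_const.mul (Continuous.add ?_ ?_)
  · exact hf.comp ((continuous_apply _).sub (continuous_apply _))
  · exact hf.comp ((continuous_apply _).sub (continuous_apply _))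

theorem vert_cont (l : ℕ) (b : ℝ) {f : T → ℝ} (hf : Continuous f) :
    Continuous (vert l b f) := by
  unfold vert
  refine continuous_finsetSum _ fun i _ => continuous_finsetSum _ fun j _ => ?_
  refine continuous_const.mul (Continuous.add ?_ ?_)
  · exact hf.comp ((continuous_apply _).sub (continuous_apply _))
  · exact hf.comp ((continuous_apply _).sub (continuous_apply _))

/-- energy of the block on configurations of the whole lattice -/
noncomputable def blockE (l : ℕ) (b : ℝ) (θ : Ginf) : ℝ :=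
  horiz l b cosT θ + vert l b cosT θ

theorem blockE_cont (l : ℕ) (b : ℝ) : Continuous (blockE l b) :=
  (horiz_cont l b cont_cos).add (vert_cont l b cont_cos)

theorem energy_chi0 (l : ℕ) (b : ℝ) (θ : Ginf) :
    ∑ e : BI l, b / 2 * (chi0 l e).c θ = blockE l b (proj (inner l : Set (ℤ × ℤ)) θ) := by
  rw [blockE, ← sum_all]
  rfl

/-- Gibbs expectation in the block -/
theorem gibbs_chi0 (l : ℕ) (b : ℝ) {F : Ginf → ℝ} (hF : Continuous F) :
    gibbs muInf (fun _ => b / 2) (chi0 l) (fun θ => F (proj (inner l : Set (ℤ × ℤ)) θ)) =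
      expect (blockEnergy l b) (fun θ => F (ext θ)) := by
  unfold gibbs expect
  simp only [energy_chi0]
  have h1 := integral_ext (inner l) (f := fun θ => F θ * Real.exp (blockE l b θ))
    (hF.mul (Real.continuous_exp.comp (blockE_cont l b)))
  have h2 := integral_ext (inner l) (f := fun θ => Real.exp (blockE l b θ))
    (Real.continuous_exp.comp (blockE_cont l b))
  rw [← h1, ← h2]
  rfl

theorem relabel_proj (S : Set (ℤ × ℤ)) (σ : ℤ × ℤ → ℤ × ℤ) (hσ : ∀ v, σ v ∈ S ↔ v ∈ S)
    (θ : Ginf) : proj S (relabel σ θ) = relabel σ (proj S θ) := by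
  funext v
  by_cases h : v ∈ S
  · rw [proj_of_mem h]
    show θ (σ v) = proj S θ (σ v)
    rw [proj_of_mem ((hσ v).2 h)]
  · rw [proj_of_notMem h]
    show 0 = proj S θ (σ v)
    rw [proj_of_notMem (fun h' => h ((hσ v).1 h'))]

theorem integral_symm (S : Set (ℤ × ℤ)) (σ : ℤ × ℤ → ℤ × ℤ) (hinj : Function.Injective σ)
    (hσ : ∀ v, σ v ∈ S ↔ v ∈ S) {F : Ginf → ℝ} (hF : Continuous F) :
    ∫ θ, F (relabel σ (proj S θ)) ∂muInf = ∫ θ, F (proj S θ) ∂muInf := by
  have h := integral_relabel σ hinj muInf muInf (f := fun θ => F (proj S θ))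
    (hF.comp (proj_cont S))
  simp_rw [relabel_proj S σ hσ] at h
  exact h

/-- reflection of the first coordinate -/
def refl1 (l : ℕ) (v : ℤ × ℤ) : ℤ × ℤ := ((l : ℤ) - v.1, v.2)

theorem refl1_inner (l : ℕ) (v : ℤ × ℤ) : refl1 l v ∈ (inner l : Set (ℤ × ℤ)) ↔
    v ∈ (inner l : Set (ℤ × ℤ)) := by
  simp only [inner, refl1, Finset.coe_Icc, Set.mem_Icc, Prod.le_def]
  constructor <;> intro h <;> omega

theorem swap_inner (l : ℕ) (v : ℤ × ℤ) : v.swap ∈ (inner l : Set (ℤ × ℤ)) ↔
    v ∈ (inner l : Set (ℤ × ℤ)) := by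
  simp only [inner, Finset.coe_Icc, Set.mem_Icc, Prod.le_def, Prod.fst_swap, Prod.snd_swap]
  constructor <;> intro h <;> omega

theorem horiz_refl (l : ℕ) (b : ℝ) (f : T → ℝ) (θ : Ginf) :
    horiz l b f (relabel (refl1 l) θ) = horiz l b (fun x => f (-x)) θ := by
  unfold horiz
  rw [← Finset.sum_range_reflect]
  refine Finset.sum_congr rfl fun i hi => Finset.sum_congr rfl fun j _ => ?_
  have hi' : i < l := Finset.mem_range.1 hi
  have e1 : ((l - 1 - i : ℕ) : ℤ) = (l : ℤ) - 1 - i := by omega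
  congr 1
  simp only [relabel, AddMonoidHom.coe_mk, ZeroHom.coe_mk, refl1, e1, neg_sub]
  congr 2
  · congr 3 <;> ring
  · congr 3 <;> ring

theorem vert_refl (l : ℕ) (b : ℝ) (f : T → ℝ) (θ : Ginf) :
    vert l b f (relabel (refl1 l) θ) = vert l b f θ := by
  unfold vert
  rw [← Finset.sum_range_reflect]
  refine Finset.sum_congr rfl fun i hi => Finset.sum_congr rfl fun j _ => ?_
  have hi' : i < l := Finset.mem_range.1 hi
  have e1 : ((l - 1 - i : ℕ) : ℤ) = (l : ℤ) - 1 - i := by omega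
  simp only [relabel, AddMonoidHom.coe_mk, ZeroHom.coe_mk, refl1, e1]
  have e2 : (l : ℤ) - ((l : ℤ) - 1 - i) = (i : ℤ) + 1 := by ring
  have e3 : (l : ℤ) - ((l : ℤ) - 1 - i + 1) = (i : ℤ) := by ring
  rw [e2, e3]
  ring

theorem horiz_swap (l : ℕ) (b : ℝ) (f : T → ℝ) (θ : Ginf) :
    horiz l b f (relabel Prod.swap θ) = vert l b f θ := by
  unfold horiz vert
  rw [Finset.sum_comm]
  rfl

theorem vert_swap (l : ℕ) (b : ℝ) (f : T → ℝ) (θ : Ginf) :
    vert l b f (relabel Prod.swap θ) = horiz l b f θ := by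
  unfold horiz vert
  rw [Finset.sum_comm]
  rfl

theorem blockE_refl (l : ℕ) (b : ℝ) (θ : Ginf) :
    blockE l b (relabel (refl1 l) θ) = blockE l b θ := by
  unfold blockE
  rw [horiz_refl, vert_refl]
  simp only [cosT_neg]

theorem blockE_swap (l : ℕ) (b : ℝ) (θ : Ginf) :
    blockE l b (relabel Prod.swap θ) = blockE l b θ := by
  unfold blockE
  rw [horiz_swap, vert_swap]
  ring

theorem gibbs_refl (l : ℕ) (b : ℝ) {F : Ginf → ℝ} (hF : Continuous F) :
    gibbs muInf (fun _ => b / 2) (chi0 l)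
      (fun θ => F (relabel (refl1 l) (proj (inner l : Set (ℤ × ℤ)) θ))) =
    gibbs muInf (fun _ => b / 2) (chi0 l) (fun θ => F (proj (inner l : Set (ℤ × ℤ)) θ)) := by
  unfold gibbs
  congr 1
  simp only [energy_chi0]
  have hinj : Function.Injective (refl1 l) := by
    intro u v h
    simp only [refl1, Prod.mk.injEq] at h
    ext <;> omega
  have h := integral_symm (inner l : Set (ℤ × ℤ)) (refl1 l) hinj (refl1_inner l)
    (F := fun θ => F θ * Real.exp (blockE l b θ))
    (hF.mul (Real.continuous_exp.comp (blockE_cont l b)))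
  simp only [blockE_refl] at h
  exact h

theorem gibbs_swap (l : ℕ) (b : ℝ) {F : Ginf → ℝ} (hF : Continuous F) :
    gibbs muInf (fun _ => b / 2) (chi0 l)
      (fun θ => F (relabel Prod.swap (proj (inner l : Set (ℤ × ℤ)) θ))) =
    gibbs muInf (fun _ => b / 2) (chi0 l) (fun θ => F (proj (inner l : Set (ℤ × ℤ)) θ)) := by
  unfold gibbs
  congr 1
  simp only [energy_chi0]
  have h := integral_symm (inner l : Set (ℤ × ℤ)) Prod.swap Prod.swap_injective (swap_inner l)
    (F := fun θ => F θ * Real.exp (blockE l b θ))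
    (hF.mul (Real.continuous_exp.comp (blockE_cont l b)))
  simp only [blockE_swap] at h
  exact h

theorem sum_chi0_h (l : ℕ) (b : ℝ) (θ : Ginf) :
    ∑ e : BI l, b / 2 * hh e * (chi0 l e).s θ =
      horiz l b sinT (proj (inner l : Set (ℤ × ℤ)) θ) := by
  rw [← sum_hh]; rfl

theorem sum_chi0_v (l : ℕ) (b : ℝ) (θ : Ginf) :
    ∑ e : BI l, b / 2 * vv e * (chi0 l e).s θ =
      vert l b sinT (proj (inner l : Set (ℤ × ℤ)) θ) := by
  rw [← sum_vv]; rfl

theorem cross_zero (l : ℕ) (b : ℝ) :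
    gibbs muInf (fun _ => b / 2) (chi0 l) (fun x => (∑ e : BI l, b / 2 * hh e * (chi0 l e).s x) *
      (∑ e : BI l, b / 2 * vv e * (chi0 l e).s x)) = 0 := by
  simp only [sum_chi0_h, sum_chi0_v]
  have h := gibbs_refl l b (F := fun θ => horiz l b sinT θ * vert l b sinT θ)
    ((horiz_cont l b cont_sin).mul (vert_cont l b cont_sin))
  simp only [horiz_refl, vert_refl, sinT_neg] at h
  have h1 : ∀ θ : Ginf, horiz l b (fun x => -sinT x) θ
      = -horiz l b sinT θ := by
    intro θ
    unfold horiz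
    rw [← Finset.sum_neg_distrib]
    refine Finset.sum_congr rfl fun i _ => ?_
    rw [← Finset.sum_neg_distrib]
    refine Finset.sum_congr rfl fun j _ => ?_
    ring
  simp only [h1] at h
  have h2 := gibbs_const_mul muInf (fun _ => b / 2) (chi0 l) (-1)
    (fun θ => horiz l b sinT (proj (inner l : Set (ℤ × ℤ)) θ) *
      vert l b sinT (proj (inner l : Set (ℤ × ℤ)) θ))
  have h3 : (fun x => -1 * (horiz l b sinT (proj (inner l : Set (ℤ × ℤ)) x) *
      vert l b sinT (proj (inner l : Set (ℤ × ℤ)) x))) = fun x =>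
      -horiz l b sinT (proj (inner l : Set (ℤ × ℤ)) x) *
      vert l b sinT (proj (inner l : Set (ℤ × ℤ)) x) := by
    funext x; ring
  rw [h3, h] at h2
  linarith only [h2]

theorem hh_sq {l : ℕ} (e : BI l) : hh e ^ 2 = hh e := by
  unfold hh; split_ifs <;> norm_num

theorem vv_sq {l : ℕ} (e : BI l) : vv e ^ 2 = vv e := by
  unfold vv; split_ifs <;> norm_num

theorem Q_h (l : ℕ) (b : ℝ) (hl : 1 ≤ l) :
    Qform muInf (fun _ => b / 2) (chi0 l) hh = (l : ℝ) ^ 2 * stiff l b := by
  unfold Qform stiff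
  simp only [hh_sq, sum_chi0_h]
  have h1 : ∀ θ : Ginf, ∑ e : BI l, b / 2 * hh e * (chi0 l e).c θ =
      horiz l b cosT (proj (inner l : Set (ℤ × ℤ)) θ) := by
    intro θ
    rw [← sum_hh]; rfl
  simp only [h1]
  rw [gibbs_chi0 l b (horiz_cont l b cont_cos),
    gibbs_chi0 l b (F := fun θ => (horiz l b sinT θ) ^ 2)
      ((horiz_cont l b cont_sin).pow 2)]
  have : (l : ℝ) ≠ 0 := by positivity
  field_simp

theorem Q_v (l : ℕ) (b : ℝ) (hl : 1 ≤ l) :
    Qform muInf (fun _ => b / 2) (chi0 l) vv = (l : ℝ) ^ 2 * stiff l b := by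
  rw [← Q_h l b hl]
  unfold Qform
  simp only [hh_sq, vv_sq, sum_chi0_h, sum_chi0_v]
  have h1 : ∀ θ : Ginf, ∑ e : BI l, b / 2 * hh e * (chi0 l e).c θ =
      horiz l b cosT (proj (inner l : Set (ℤ × ℤ)) θ) := by
    intro θ
    rw [← sum_hh]; rfl
  have h2 : ∀ θ : Ginf, ∑ e : BI l, b / 2 * vv e * (chi0 l e).c θ =
      vert l b cosT (proj (inner l : Set (ℤ × ℤ)) θ) := by
    intro θ
    rw [← sum_vv]; rfl
  simp only [h2, h1]
  have h3 := gibbs_swap l b (F := horiz l b cosT) (horiz_cont l b cont_cos)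
  have h4 := gibbs_swap l b (F := fun θ => (horiz l b sinT θ) ^ 2)
      ((horiz_cont l b cont_sin).pow 2)
  simp only [horiz_swap] at h3 h4
  rw [h3, h4]

end Vale.Agent.P159
end

section

/-!
Block decomposition of the lattice: interpolation, translation of blocks, energies.
-/

open MeasureTheory Filter Topology
open scoped BigOperators

namespace Vale.Agent.P159

/-- corner of the block number `k` -/
def cor (l : ℕ) (k : ℤ × ℤ) : ℤ × ℤ := ((l : ℤ) * k.1, (l : ℤ) * k.2)

/-- bilinear interpolation on a cell -/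
noncomputable def bil (f : ℤ × ℤ → ℝ) (k : ℤ × ℤ) (s t : ℝ) : ℝ :=
  f k * (1 - s) * (1 - t) + f (k + (1, 0)) * s * (1 - t) + f (k + (0, 1)) * (1 - s) * t
    + f (k + (1, 0) + (0, 1)) * s * t

/-- piecewise bilinear interpolation of a function of the coarse lattice -/
noncomputable def interp (l : ℕ) (f : ℤ × ℤ → ℝ) (v : ℤ × ℤ) : ℝ :=
  bil f (v.1 / l, v.2 / l) (((v.1 % l : ℤ) : ℝ) / l) (((v.2 % l : ℤ) : ℝ) / l)

theorem interp_lt {l : ℕ} (hl : 1 ≤ l) (f : ℤ × ℤ → ℝ) (k : ℤ × ℤ) {i j : ℕ} (hi : i < l)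
    (hj : j < l) : interp l f (cor l k + ((i : ℤ), (j : ℤ))) = bil f k ((i : ℝ) / l) ((j : ℝ) / l) := by
  have hl0 : (0 : ℤ) < l := by exact_mod_cast hl
  unfold interp cor
  simp only [Prod.fst_add, Prod.snd_add]
  have e1 : ((l : ℤ) * k.1 + (i : ℤ)) / l = k.1 := by
    rw [Int.mul_add_ediv_left _ _ hl0.ne', Int.ediv_eq_zero_of_lt (by omega) (by omega), add_zero]
  have e2 : ((l : ℤ) * k.2 + (j : ℤ)) / l = k.2 := by
    rw [Int.mul_add_ediv_left _ _ hl0.ne', Int.ediv_eq_zero_of_lt (by omega) (by omega), add_zero]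
  have e3 : ((l : ℤ) * k.1 + (i : ℤ)) % l = i := by
    rw [Int.mul_add_emod_self_left, Int.emod_eq_of_lt (by (clear * -; omega)) (by omega)]
  have e4 : ((l : ℤ) * k.2 + (j : ℤ)) % l = j := by
    rw [Int.mul_add_emod_self_left, Int.emod_eq_of_lt (by omega) (by omega)]
  rw [e1, e2, e3, e4]
  push_cast
  rfl

theorem interp_le {l : ℕ} (hl : 1 ≤ l) (f : ℤ × ℤ → ℝ) (k : ℤ × ℤ) {i j : ℕ} (hi : i ≤ l)
    (hj : j ≤ l) : interp l f (cor l k + ((i : ℤ), (j : ℤ))) = bil f k ((i : ℝ) / l) ((j : ℝ) / l) := by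
  have hl0 : (l : ℝ) ≠ 0 := by positivity
  have hlpos : 0 < l := hl
  rcases Nat.lt_or_ge i l with hi' | hi'
  · rcases Nat.lt_or_ge j l with hj' | hj'
    · exact interp_lt hl f k hi' hj'
    · have hjl : j = l := le_antisymm hj hj'
      subst hjl
      have e1 : cor j k + ((i : ℤ), (j : ℤ)) = cor j (k + (0, 1)) + ((i : ℤ), ((0 : ℕ) : ℤ)) := by
        unfold cor
        ext <;> simp only [Prod.mk_add_mk, Prod.fst_add, add_zero, Prod.snd_add, CharP.cast_eq_zero] <;> ring
      rw [e1, interp_lt hl f _ hi' hlpos]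
      unfold bil
      have e2 : k + (0, 1) + (1, 0) = k + (1, 0) + (0, 1) := by
        rw [add_assoc, add_assoc, add_comm ((0, 1) : ℤ × ℤ)]
      rw [e2, div_self hl0]
      push_cast
      ring
  · have hil : i = l := le_antisymm hi hi'
    subst hil
    rcases Nat.lt_or_ge j i with hj' | hj'
    · have e1 : cor i k + ((i : ℤ), (j : ℤ)) = cor i (k + (1, 0)) + (((0 : ℕ) : ℤ), (j : ℤ)) := by
        unfold cor
        ext <;> simp only [Prod.mk_add_mk, Prod.fst_add, Prod.snd_add, add_zero, CharP.cast_eq_zero] <;> ring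
      rw [e1, interp_lt hl f _ hlpos hj']
      unfold bil
      rw [div_self hl0]
      push_cast
      ring
    · have hjl : j = i := le_antisymm hj hj'
      subst hjl
      have e1 : cor j k + ((j : ℤ), (j : ℤ)) =
          cor j (k + (1, 0) + (0, 1)) + (((0 : ℕ) : ℤ), ((0 : ℕ) : ℤ)) := by
        unfold cor
        ext <;> simp only [Prod.mk_add_mk, Prod.fst_add, add_zero, Prod.snd_add, CharP.cast_eq_zero] <;> ring
      rw [e1, interp_lt hl f _ hlpos hlpos]
      unfold bil
      rw [div_self hl0]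
      push_cast
      ring

theorem interp_cor {l : ℕ} (hl : 1 ≤ l) (f : ℤ × ℤ → ℝ) (k : ℤ × ℤ) :
    interp l f (cor l k) = f k := by
  have h := interp_lt hl f k (i := 0) (j := 0) hl hl
  have e1 : cor l k + (((0 : ℕ) : ℤ), ((0 : ℕ) : ℤ)) = cor l k := by
    ext <;> simp
  rw [e1] at h
  rw [h]
  unfold bil
  push_cast
  ring

/-- increments of the interpolation along the bonds of a block -/
theorem interp_bond {l : ℕ} (hl : 1 ≤ l) (f : ℤ × ℤ → ℝ) (k : ℤ × ℤ) (e : BI l) :
    interp l f (cor l k + bu e) - interp l f (cor l k + bv e) =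
      (-(cp f k / l)) * hh e + (-(cq f k / l)) * vv e + (-(ck f k / l)) * ww e := by
  obtain ⟨⟨i, j⟩, d, s⟩ := e
  have hl0 : (l : ℝ) ≠ 0 := by positivity
  have hcomm : k + (0, 1) + (1, 0) = k + (1, 0) + (0, 1) := by
    rw [add_assoc, add_assoc, add_comm ((0, 1) : ℤ × ℤ)]
  have hi := i.2
  have hj := j.2
  cases d <;> cases s
  · have e1 : bu (l := l) ((i, j), (false, false)) = (((i : ℕ) : ℤ), ((j : ℕ) : ℤ)) := by
      simp only [bu, Bool.and_self, Bool.false_eq_true, ↓reduceIte, add_zero, Bool.not_false, Bool.and_false]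
    have e2 : bv (l := l) ((i, j), (false, false)) = (((i + 1 : ℕ) : ℤ), ((j : ℕ) : ℤ)) := by
      simp only [bv, bu, Bool.and_self, Bool.false_eq_true, ↓reduceIte, add_zero, Bool.not_false, Bool.and_false, Prod.mk_add_mk, Nat.cast_add, Nat.cast_one]
    have e3 : ww (l := l) ((i, j), (false, false)) = ((j : ℕ) : ℝ) / l - 1 / 2 := by
      simp only [ww, Bool.false_eq_true, ↓reduceIte, bu, Bool.and_self, add_zero, Bool.not_false, Bool.and_false, Int.cast_natCast, one_div]
    rw [e1, e2, e3, interp_le hl f k hi.le hj.le, interp_le hl f k (by omega) hj.le]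
    simp only [bil, cp, hcomm, hh, cq, vv, ck]
    push_cast
    field_simp
    simp only [neg_add_rev, neg_sub, mul_zero, neg_zero, add_zero]
    ring
  · have e1 : bu (l := l) ((i, j), (false, true)) = (((i : ℕ) : ℤ), ((j + 1 : ℕ) : ℤ)) := by
      simp only [bu, Bool.and_true, Bool.false_eq_true, ↓reduceIte, add_zero, Bool.not_false, Bool.and_self, Nat.cast_add, Nat.cast_one]
    have e2 : bv (l := l) ((i, j), (false, true)) = (((i + 1 : ℕ) : ℤ), ((j + 1 : ℕ) : ℤ)) := by
      simp only [bv, bu, Bool.and_true, Bool.false_eq_true, ↓reduceIte, add_zero, Bool.not_false, Bool.and_self, Prod.mk_add_mk, Nat.cast_add, Nat.cast_one]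
    have e3 : ww (l := l) ((i, j), (false, true)) = ((j + 1 : ℕ) : ℝ) / l - 1 / 2 := by
      simp only [ww, Bool.false_eq_true, ↓reduceIte, bu, Bool.and_true, add_zero, Bool.not_false, Bool.and_self, Int.cast_add, Int.cast_natCast, Int.cast_one, one_div, Nat.cast_add, Nat.cast_one]
    rw [e1, e2, e3, interp_le hl f k hi.le (by omega), interp_le hl f k (by omega) (by omega)]
    simp only [hh, vv, bil, cp, cq, ck, hcomm]
    push_cast
    field_simp
    simp only [neg_add_rev, neg_sub, mul_zero, neg_zero, add_zero]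
    ring
  · have e1 : bu (l := l) ((i, j), (true, false)) = (((i : ℕ) : ℤ), ((j : ℕ) : ℤ)) := by
      simp only [bu, Bool.and_false, Bool.false_eq_true, ↓reduceIte, add_zero, Bool.not_true, Bool.and_self]
    have e2 : bv (l := l) ((i, j), (true, false)) = (((i : ℕ) : ℤ), ((j + 1 : ℕ) : ℤ)) := by
      simp only [bv, bu, Bool.and_false, Bool.false_eq_true, ↓reduceIte, add_zero, Bool.not_true, Bool.and_self, Prod.mk_add_mk, Nat.cast_add, Nat.cast_one]
    have e3 : ww (l := l) ((i, j), (true, false)) = ((i : ℕ) : ℝ) / l - 1 / 2 := by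
      simp only [ww, ↓reduceIte, bu, Bool.and_false, Bool.false_eq_true, add_zero, Bool.not_true, Bool.and_self, Int.cast_natCast, one_div]
    rw [e1, e2, e3, interp_le hl f k hi.le hj.le, interp_le hl f k hi.le (by omega)]
    simp only [bil, cp, hcomm, hh, cq, vv, ck]
    push_cast
    field_simp
    simp only [mul_zero, neg_zero, neg_add_rev, neg_sub, zero_add]
    ring
  · have e1 : bu (l := l) ((i, j), (true, true)) = (((i + 1 : ℕ) : ℤ), ((j : ℕ) : ℤ)) := by
      simp only [bu, Bool.and_self, ↓reduceIte, Bool.not_true, Bool.and_true, Bool.false_eq_true, add_zero, Nat.cast_add, Nat.cast_one]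
    have e2 : bv (l := l) ((i, j), (true, true)) = (((i + 1 : ℕ) : ℤ), ((j + 1 : ℕ) : ℤ)) := by
      simp only [bv, bu, Bool.and_self, ↓reduceIte, Bool.not_true, Bool.and_true, Bool.false_eq_true, add_zero, Prod.mk_add_mk, Nat.cast_add, Nat.cast_one]
    have e3 : ww (l := l) ((i, j), (true, true)) = ((i + 1 : ℕ) : ℝ) / l - 1 / 2 := by
      simp only [ww, ↓reduceIte, bu, Bool.and_self, Bool.not_true, Bool.and_true, Bool.false_eq_true, add_zero, Int.cast_add, Int.cast_natCast, Int.cast_one, one_div, Nat.cast_add, Nat.cast_one]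
    rw [e1, e2, e3, interp_le hl f k (by omega) hj.le, interp_le hl f k (by omega) (by omega)]
    simp only [bil, cp, hcomm, hh, cq, vv, ck]
    push_cast
    field_simp
    simp only [mul_zero, neg_zero, neg_add_rev, neg_sub, zero_add]
    ring

/-- interior of the block number `k` -/
def innerAt (l : ℕ) (k : ℤ × ℤ) : Set (ℤ × ℤ) := {v | v - cor l k ∈ inner l}

theorem mem_innerAt {l : ℕ} {k v : ℤ × ℤ} : v ∈ innerAt l k ↔
    1 ≤ v.1 - l * k.1 ∧ v.1 - l * k.1 ≤ l - 1 ∧ 1 ≤ v.2 - l * k.2 ∧ v.2 - l * k.2 ≤ l - 1 := by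
  unfold innerAt inner cor
  simp only [Set.mem_setOf_eq, Finset.mem_Icc, Prod.le_def, Prod.fst_sub, Prod.snd_sub]
  constructor <;> intro h <;> omega

theorem bu_range {l : ℕ} (e : BI l) : 0 ≤ (bu e).1 ∧ (bu e).1 ≤ l ∧ 0 ≤ (bu e).2 ∧
    (bu e).2 ≤ l := by
  obtain ⟨⟨i, j⟩, d, s⟩ := e
  have hi := i.2
  have hj := j.2
  cases d <;> cases s <;> simp [bu] <;> omega

theorem bv_range {l : ℕ} (e : BI l) : 0 ≤ (bv e).1 ∧ (bv e).1 ≤ l ∧ 0 ≤ (bv e).2 ∧
    (bv e).2 ≤ l := by
  obtain ⟨⟨i, j⟩, d, s⟩ := e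
  have hi := i.2
  have hj := j.2
  cases d <;> cases s <;> simp [bv, bu] <;> omega

/-- a site of the closed block `k` is not interior to another block -/
theorem notMem_innerAt {l : ℕ} {j k u : ℤ × ℤ} (hjk : j ≠ k) (h1 : 0 ≤ u.1) (h2 : u.1 ≤ l)
    (h3 : 0 ≤ u.2) (h4 : u.2 ≤ l) : cor l k + u ∉ innerAt l j := by
  rw [mem_innerAt]
  unfold cor
  simp only [Prod.fst_add, Prod.snd_add]
  rintro ⟨a1, a2, a3, a4⟩
  apply hjk
  have e1 : (l : ℤ) * k.1 + u.1 - l * j.1 = l * (k.1 - j.1) + u.1 := by ring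
  have e2 : (l : ℤ) * k.2 + u.2 - l * j.2 = l * (k.2 - j.2) + u.2 := by ring
  rw [e1] at a1 a2
  rw [e2] at a3 a4
  have b1 : k.1 - j.1 = 0 := by
    by_contra h
    rcases lt_or_gt_of_ne h with h | h
    · have : (l : ℤ) * (k.1 - j.1) ≤ l * (-1) := mul_le_mul_of_nonneg_left (by omega) (by (clear * -; omega))
      (clear * - h2 a1 e1 this; omega)
    · have : (l : ℤ) * 1 ≤ l * (k.1 - j.1) := mul_le_mul_of_nonneg_left (by omega) (by (clear * -; omega))
      (clear * - h1 a2 e1 this; omega)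
  have b2 : k.2 - j.2 = 0 := by
    by_contra h
    rcases lt_or_gt_of_ne h with h | h
    · have : (l : ℤ) * (k.2 - j.2) ≤ l * (-1) := mul_le_mul_of_nonneg_left (by omega) (by omega)
      omega
    · have : (l : ℤ) * 1 ≤ l * (k.2 - j.2) := mul_le_mul_of_nonneg_left (by omega) (by omega)
      omega
  ext <;> omega

theorem cor_notMem {l : ℕ} (k x : ℤ × ℤ) : cor l x ∉ innerAt l k := by
  rw [mem_innerAt]
  unfold cor
  rintro ⟨a1, a2, _, _⟩
  simp only at a1 a2
  have e1 : (l : ℤ) * x.1 - l * k.1 = l * (x.1 - k.1) := by ring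
  rw [e1] at a1 a2
  rcases lt_trichotomy (x.1 - k.1) 0 with h | h | h
  · have : (l : ℤ) * (x.1 - k.1) ≤ l * (-1) := mul_le_mul_of_nonneg_left (by omega) (by omega)
    omega
  · rw [h] at a1
    (clear * - a1; omega)
  · have : (l : ℤ) * 1 ≤ l * (x.1 - k.1) := mul_le_mul_of_nonneg_left (by omega) (by omega)
    omega

/-- characters of the block number `k` -/
noncomputable def chiAt (l : ℕ) (k : ℤ × ℤ) (e : BI l) : Chr Ginf :=
  grad (cor l k + bu e) (cor l k + bv e)

/-- the ratio of partition functions does not depend on the block -/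
theorem rho_translate (l : ℕ) (b : ℝ) (k : ℤ × ℤ) (y : BI l → ℝ) :
    rho muInf (fun _ : BI l => b / 2)
      (fun e => (chiAt l k e).comp (proj (innerAt l k)) (proj_cont _)) y =
    rho muInf (fun _ : BI l => b / 2) (chi0 l) y := by
  have key : ∀ z : BI l → ℂ, ZZ muInf (fun _ : BI l => b / 2)
      (fun e => (chiAt l k e).comp (proj (innerAt l k)) (proj_cont _)) z =
      ZZ muInf (fun _ : BI l => b / 2) (chi0 l) z := by
    intro z
    unfold ZZ
    have hinj : Function.Injective (fun v : ℤ × ℤ => cor l k + v) := add_right_injective _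
    have hc : Continuous (fun x : Ginf => Complex.exp (∑ e : BI l,
        ((b / 2 : ℝ) : ℂ) * (chi0 l e).C (z e) x)) :=
      Complex.continuous_exp.comp (continuous_finsetSum _ fun e _ =>
        continuous_const.mul ((chi0 l e).cont_C _))
    rw [← integral_relabel (fun v : ℤ × ℤ => cor l k + v) hinj muInf muInf hc]
    congr 1
    ext x
    congr 1
    refine Finset.sum_congr rfl fun e _ => ?_
    congr 1
    have hv : ∀ v : ℤ × ℤ, proj (inner l : Set (ℤ × ℤ)) (relabel (fun v => cor l k + v) x) v =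
        proj (innerAt l k) x (cor l k + v) := by
      intro v
      by_cases h : v ∈ inner l
      · rw [proj_of_mem (by simpa using h), proj_of_mem (by simpa only [innerAt, Set.mem_ofPred_eq, add_sub_cancel_left] using h)]
        rfl
      · rw [proj_of_notMem (by simpa using h), proj_of_notMem (by simpa only [innerAt, Set.mem_ofPred_eq, add_sub_cancel_left] using h)]
    unfold Chr.C chi0 chiAt Chr.comp grad
    simp only
    rw [hv, hv]
  unfold rho
  rw [key, key]

end Vale.Agent.P159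
end

section

/-!
Displaced vortex configurations in a big square block.
The core of the vortex number `(i,j)` is a block of side `s = l * m`, the big block has side
`s * NN K M`.
-/

open scoped BigOperators

namespace Vale.Agent.P159

namespace UJ

/-- smooth cutoff: `1` for `|s| ≤ 1/4`, `0` for `|s| ≥ 3/8` -/
noncomputable def kap (s : ℝ) : ℝ :=
  Real.smoothTransition (3 - 8 * s) * Real.smoothTransition (3 + 8 * s)

/-- half integer centre of `[0,L]` -/
noncomputable def ctr (L : ℕ) : ℝ := ((L / 2 : ℕ) : ℝ) + 1 / 2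

/-- the centre of the block as a complex number -/
noncomputable def cc (L : ℕ) : ℂ := ⟨ctr L, ctr L⟩

/-- a site as a complex number -/
noncomputable def zc (z : ℤ × ℤ) : ℂ := ⟨(z.1 : ℝ), (z.2 : ℝ)⟩

/-- cutoff on the big block -/
noncomputable def kk (L : ℕ) (z : ℤ × ℤ) : ℝ :=
  kap (((z.1 : ℝ) - ctr L) / L) * kap (((z.2 : ℝ) - ctr L) / L)

/-- the vortex function with displacement `P`, undisplaced near the boundary -/
noncomputable def wf (L : ℕ) (P : ℂ) (z : ℤ × ℤ) : ℂ := zc z - cc L - (kk L z : ℂ) * P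

/-- the vortex configuration -/
noncomputable def ang (L : ℕ) (P : ℂ) (z : ℤ × ℤ) : T := ((Complex.arg (wf L P z) : ℝ) : T)

/-- increment of the angle between `v` and `u` -/
noncomputable def inc (L : ℕ) (P : ℂ) (u v : ℤ × ℤ) : ℝ := Complex.arg (wf L P u / wf L P v)

/-- number of cores per side of the big block -/
def NN (K M : ℕ) : ℕ := 8 * K * M + 1

/-- displacement of the vortex `(i,j)` -/
noncomputable def pos (s K i j : ℕ) : ℂ := ⟨(K : ℝ) * s * i, (K : ℝ) * s * j⟩

/-- lower left cell of the core number `(i,j)`, cells of side `l`, core of `m × m` cells -/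
def ccell (m K M i j : ℕ) : ℤ × ℤ := ((m : ℤ) * (4 * K * M + K * i), (m : ℤ) * (4 * K * M + K * j))

/-- cells of the block of `n × n` cells -/
noncomputable def cells (n : ℕ) : Finset (ℤ × ℤ) := Finset.Ico 0 (n : ℤ) ×ˢ Finset.Ico 0 (n : ℤ)

/-- cells of the core `(i,j)` -/
noncomputable def core (m K M i j : ℕ) : Finset (ℤ × ℤ) :=
  Finset.Ico (ccell m K M i j).1 ((ccell m K M i j).1 + m) ×ˢ
    Finset.Ico (ccell m K M i j).2 ((ccell m K M i j).2 + m)

/-- cells outside the core -/
noncomputable def outer (m K M i j : ℕ) : Finset (ℤ × ℤ) := cells (m * NN K M) \ core m K M i j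

/-- increments of the vortex configuration `(i,j)` along the bonds of the cell `k` -/
noncomputable def ainc (l m K M i j : ℕ) (k : ℤ × ℤ) (e : BI l) : ℝ :=
  inc (l * m * NN K M) (pos (l * m) K i j) (cor l k + bu e) (cor l k + bv e)

end UJ

end Vale.Agent.P159
end

section

/-!
Blocks of the lattice with boundary values, conditional expectations, Gibbs functionals of the
big block with boundary values.
-/

open MeasureTheory Filter Topology
open scoped BigOperators

namespace Vale.Agent.P159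

namespace UJ

section Av

variable {G : Type*} [AddCommGroup G] [TopologicalSpace G] [IsTopologicalAddGroup G]
  [CompactSpace G] [SecondCountableTopology G] [MeasurableSpace G] [BorelSpace G]
  (μ : Measure G)

/-- average over the image of `P` -/
noncomputable def av (P : G → G) (f : G → ℝ) (x : G) : ℝ := ∫ y, f (x + P y) ∂μ

/-- conditional expectation for the weight `exp E`, given everything but the image of `P` -/
noncomputable def CE (P : G → G) (E f : G → ℝ) (x : G) : ℝ :=
  av μ P (fun z => f z * Real.exp (E z)) x / av μ P (fun z => Real.exp (E z)) x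

/-- invariance of `ν` under the translations `P y` -/
def Inv (ν : Measure G) (P : G → G) : Prop :=
  ∀ f : G → ℝ, Continuous f → ∀ y, ∫ x, f (x + P y) ∂ν = ∫ x, f x ∂ν

end Av

/-- interior of the block of side `s` with lower left corner `c` -/
def inB (s : ℕ) (c : ℤ × ℤ) : Set (ℤ × ℤ) := {z | z - c ∈ (inner s : Set (ℤ × ℤ))}

/-- closed block of side `s` with lower left corner `c` -/
def clB (s : ℕ) (c : ℤ × ℤ) : Set (ℤ × ℤ) :=
  {z | 0 ≤ (z - c).1 ∧ (z - c).1 ≤ s ∧ 0 ≤ (z - c).2 ∧ (z - c).2 ≤ s}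

/-- restriction of a configuration to the interior of the block -/
noncomputable def PB (s : ℕ) (c : ℤ × ℤ) : Ginf →+ Ginf := proj (inB s c)

/-- energy of the block -/
noncomputable def EB (b : ℝ) (s : ℕ) (c : ℤ × ℤ) (θ : Ginf) : ℝ :=
  ∑ e : BI s, b / 2 * cosT (θ (c + bu e) - θ (c + bv e))

/-- current in the direction `h` -/
noncomputable def SB (b : ℝ) (s : ℕ) (c : ℤ × ℤ) (h : BI s → ℝ) (θ : Ginf) : ℝ :=
  ∑ e : BI s, b / 2 * h e * sinT (θ (c + bu e) - θ (c + bv e))

/-- diamagnetic term -/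
noncomputable def BB (b : ℝ) (s : ℕ) (c : ℤ × ℤ) (h : BI s → ℝ) (θ : Ginf) : ℝ :=
  ∑ e : BI s, b / 2 * (h e * h e) * cosT (θ (c + bu e) - θ (c + bv e))

/-- weight of the block with given boundary values -/
noncomputable def WB (b : ℝ) (s : ℕ) (c : ℤ × ℤ) (θ : Ginf) : ℝ :=
  av muInf (PB s c) (fun z => Real.exp (EB b s c z)) θ

/-- mean current of the block given its boundary values -/
noncomputable def jc (b : ℝ) (s : ℕ) (c : ℤ × ℤ) (h : BI s → ℝ) (θ : Ginf) : ℝ :=
  CE muInf (PB s c) (EB b s c) (SB b s c h) θ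

/-- stiffness form of the block given its boundary values -/
noncomputable def qc (b : ℝ) (s : ℕ) (c : ℤ × ℤ) (h : BI s → ℝ) (θ : Ginf) : ℝ :=
  CE muInf (PB s c) (EB b s c) (BB b s c h) θ -
    CE muInf (PB s c) (EB b s c) (fun z => SB b s c h z ^ 2) θ + jc b s c h θ ^ 2

/-- configurations equal to `v` off the interior of the big block `[0,L]²` -/
noncomputable def nu (L : ℕ) (v : Ginf) : Measure Ginf :=
  Measure.map (fun x => v + PB L 0 x) muInf

/-- Gibbs functional of the big block with boundary value `v`, divided by the partition function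
with boundary value `0` -/
noncomputable def Ev (b : ℝ) (L : ℕ) (v : Ginf) (F : Ginf → ℝ) : ℝ :=
  (∫ x, F x * Real.exp (EB b L 0 x) ∂(nu L v)) / WB b L 0 0

/-- corner of the core number `(i,j)` -/
def cnr (l m K M i j : ℕ) : ℤ × ℤ := cor l (ccell m K M i j)

/-- the vortex configuration number `(i,j)` -/
noncomputable def alp (l m K M i j : ℕ) : Ginf := ang (l * m * NN K M) (pos (l * m) K i j)

/-- density of the vortex number `(i,j)` -/
noncomputable def Dn (b : ℝ) (l m K M i j : ℕ) (θ : Ginf) : ℝ :=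
  (∏ k ∈ outer m K M i j, WB b l (cor l k) (θ - alp l m K M i j) / WB b l (cor l k) θ) *
    (WB b (l * m) (cnr l m K M i j) (θ - alp l m K M i j) / WB b (l * m) (cnr l m K M i j) θ)

/-- the vortex ratio -/
noncomputable def yy (b : ℝ) (s : ℕ) : ℝ := WB b s 0 (ang s 0) / WB b s 0 0

end UJ

end Vale.Agent.P159
end

section

/-!
Averages over the image of a homomorphism, conditional expectations, Gibbs measures with boundary
values.
-/

open MeasureTheory Filter Topology
open scoped BigOperators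

namespace Vale.Agent.P159

namespace UJ

section AvL

variable {G : Type*} [AddCommGroup G] [TopologicalSpace G] [IsTopologicalAddGroup G]
  [CompactSpace G] [SecondCountableTopology G] [MeasurableSpace G] [BorelSpace G]
  (μ : Measure G) [μ.IsAddHaarMeasure] [IsProbabilityMeasure μ]

theorem av_cont {P : G → G} (hP : Continuous P) {f : G → ℝ} (hf : Continuous f) :
    Continuous (av μ P f) := by
  have h : Continuous (Function.uncurry fun (x y : G) => f (x + P y)) :=
    hf.comp (continuous_fst.add (hP.comp continuous_snd))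
  have h1 := continuous_parametric_integral_of_continuous (μ := μ) h
    (isCompact_univ (X := G))
  have h2 : av μ P f = fun x => ∫ y, f (x + P y) ∂μ := rfl
  rw [h2]
  simpa only [Measure.restrict_univ] using h1

theorem av_inv (P : G →+ G) (f : G → ℝ) (x y : G) : av μ P f (x + P y) = av μ P f x := by
  unfold av
  have h : ∀ z, f (x + P y + P z) = (fun z => f (x + P z)) (y + z) := by
    intro z
    simp only [map_add]
    rw [add_assoc]
  simp_rw [h]
  exact integral_add_left_eq_self (μ := μ) (fun z => f (x + P z)) y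

theorem int_mul_av {ν : Measure G} [IsProbabilityMeasure ν] {P : G → G} (hP : Continuous P)
    (hν : Inv ν P) {h f : G → ℝ} (hh : Continuous h) (hf : Continuous f)
    (hinv : ∀ x y, h (x + P y) = h x) :
    ∫ x, h x * av μ P f x ∂ν = ∫ x, h x * f x ∂ν := by
  have e1 : ∀ x, h x * av μ P f x = ∫ y, h x * f (x + P y) ∂μ := by
    intro x
    unfold av
    rw [integral_const_mul]
  simp_rw [e1]
  have hc : Continuous (Function.uncurry fun (x y : G) => h x * f (x + P y)) :=
    (hh.comp continuous_fst).mul (hf.comp (continuous_fst.add (hP.comp continuous_snd)))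
  rw [integral_integral_swap (cint hc)]
  have e2 : ∀ y, ∫ x, h x * f (x + P y) ∂ν = ∫ x, h x * f x ∂ν := by
    intro y
    have : ∀ x, h x * f (x + P y) = (fun x => h x * f x) (x + P y) := by
      intro x
      simp only [hinv]
    simp_rw [this]
    exact hν (fun x => h x * f x) (hh.mul hf) y
  simp_rw [e2]
  simp

theorem int_prod {ν : Measure G} [IsProbabilityMeasure ν] {K : Type*} [DecidableEq K]
    (P : K → G → G) (hP : ∀ k, Continuous (P k)) (f : K → G → ℝ) (hf : ∀ k, Continuous (f k))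
    (S : Finset K) (hν : ∀ k ∈ S, Inv ν (P k))
    (hfinv : ∀ j ∈ S, ∀ k ∈ S, j ≠ k → ∀ x y, f k (x + P j y) = f k x)
    (g : G → ℝ) (hg : Continuous g) (hginv : ∀ k ∈ S, ∀ x y, g (x + P k y) = g x) :
    ∫ x, g x * ∏ k ∈ S, f k x ∂ν = ∫ x, g x * ∏ k ∈ S, av μ (P k) (f k) x ∂ν := by
  induction S using Finset.induction_on generalizing g with
  | empty => simp only [Finset.prod_empty, mul_one]
  | insert k S hk ih =>
    have hSc : Continuous fun x => ∏ j ∈ S, f j x := continuous_finsetProd _ fun j _ => hf j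
    have e1 : ∫ x, g x * ∏ j ∈ insert k S, f j x ∂ν
        = ∫ x, (g x * av μ (P k) (f k) x) * ∏ j ∈ S, f j x ∂ν := by
      have h1 := int_mul_av μ (hP k) (hν k (Finset.mem_insert_self _ _))
        (h := fun x => g x * ∏ j ∈ S, f j x) (hg.mul hSc) (hf k) (by
          intro x y
          rw [hginv k (Finset.mem_insert_self _ _)]
          congr 1
          refine Finset.prod_congr rfl fun j hj => ?_
          exact hfinv k (Finset.mem_insert_self _ _) j (Finset.mem_insert_of_mem hj)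
            (fun h => hk (h ▸ hj)) x y)
      rw [show (fun x => g x * ∏ j ∈ insert k S, f j x)
        = fun x => (g x * ∏ j ∈ S, f j x) * f k x by
          ext x; rw [Finset.prod_insert hk]; ring, ← h1]
      congr 1
      ext x
      ring
    rw [e1]
    have hinv' : ∀ j ∈ S, ∀ x y, g (x + P j y) * av μ (P k) (f k) (x + P j y)
        = g x * av μ (P k) (f k) x := by
      intro j hj x y
      rw [hginv j (Finset.mem_insert_of_mem hj)]
      congr 1
      unfold av
      congr 1
      ext z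
      rw [add_right_comm, hfinv j (Finset.mem_insert_of_mem hj) k (Finset.mem_insert_self _ _)
        (fun h => hk (h ▸ hj))]
    rw [ih (fun j hj => hν j (Finset.mem_insert_of_mem hj))
      (fun j hj l hl => hfinv j (Finset.mem_insert_of_mem hj) l (Finset.mem_insert_of_mem hl))
      (fun x => g x * av μ (P k) (f k) x) (hg.mul (av_cont μ (hP k) (hf k))) hinv']
    congr 1
    ext x
    rw [Finset.prod_insert hk]
    ring

theorem UJ_av_pos {P : G → G} (hP : Continuous P) {f : G → ℝ} (hf : Continuous f)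
    (h0 : ∀ x, 0 < f x) (x : G) : 0 < av μ P f x := by
  unfold av
  have hc : Continuous fun y => f (x + P y) := hf.comp (continuous_const.add hP)
  refine (integral_pos_iff_support_of_nonneg (fun y => (h0 _).le) (cint hc)).2 ?_
  have : Function.support (fun y => f (x + P y)) = Set.univ := by
    ext y
    simp only [Function.mem_support, Set.mem_univ, iff_true]
    exact (h0 _).ne'
  rw [this]
  simp only [measure_univ, zero_lt_one]

theorem CE_cont {P : G → G} (hP : Continuous P) {E f : G → ℝ} (hE : Continuous E)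
    (hf : Continuous f) : Continuous (CE μ P E f) := by
  unfold CE
  refine (av_cont μ hP (hf.mul (Real.continuous_exp.comp hE))).div
    (av_cont μ hP (Real.continuous_exp.comp hE)) fun x => ?_
  exact (UJ_av_pos μ hP (Real.continuous_exp.comp hE) (fun x => Real.exp_pos _) x).ne'

theorem CE_inv (P : G →+ G) (E f : G → ℝ) (x y : G) :
    CE μ P E f (x + P y) = CE μ P E f x := by
  unfold CE
  rw [av_inv, av_inv]

theorem CE_int {ν : Measure G} [IsProbabilityMeasure ν] {P : G →+ G} (hP : Continuous P)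
    (hν : Inv ν P) {E f g w : G → ℝ} (hE : Continuous E) (hf : Continuous f)
    (hg : Continuous g) (hw : Continuous w) (hginv : ∀ x y, g (x + P y) = g x)
    (hwinv : ∀ x y, w (x + P y) = w x) :
    ∫ x, g x * CE μ P E f x * (w x * Real.exp (E x)) ∂ν =
      ∫ x, g x * f x * (w x * Real.exp (E x)) ∂ν := by
  have hexp : Continuous fun z => Real.exp (E z) := Real.continuous_exp.comp hE
  have h1 := int_mul_av μ hP hν (h := fun x => g x * w x * CE μ P E f x)
    (f := fun z => Real.exp (E z)) ((hg.mul hw).mul (CE_cont μ hP hE hf)) hexp (by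
      intro x y
      rw [hginv, hwinv, CE_inv])
  have h2 := int_mul_av μ hP hν (h := fun x => g x * w x)
    (f := fun z => f z * Real.exp (E z)) (hg.mul hw) (hf.mul hexp) (by
      intro x y
      rw [hginv, hwinv])
  have e1 : (fun x => g x * CE μ P E f x * (w x * Real.exp (E x))) =
      fun x => g x * w x * CE μ P E f x * Real.exp (E x) := by
    ext x; ring
  have e2 : (fun x => g x * f x * (w x * Real.exp (E x))) =
      fun x => g x * w x * (f x * Real.exp (E x)) := by
    ext x; ring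
  rw [e1, e2, ← h1, ← h2]
  congr 1
  ext x
  have hpos := UJ_av_pos μ hP hexp (fun x => Real.exp_pos _) x
  unfold CE
  rw [mul_assoc, div_mul_cancel₀ _ hpos.ne']

end AvL

theorem UJ_shift_cont (L : ℕ) (v : Ginf) : Continuous fun x : Ginf => v + PB L 0 x :=
  continuous_const.add (proj_cont _)

instance nu_prob (L : ℕ) (v : Ginf) : IsProbabilityMeasure (nu L v) := by
  unfold nu
  exact Measure.isProbabilityMeasure_map (UJ_shift_cont L v).measurable.aemeasurable

theorem int_nu (L : ℕ) (v : Ginf) {f : Ginf → ℝ} (hf : Continuous f) :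
    ∫ x, f x ∂(nu L v) = ∫ x, f (v + PB L 0 x) ∂muInf := by
  unfold nu
  exact integral_map (UJ_shift_cont L v).measurable.aemeasurable hf.aestronglyMeasurable

theorem nu_inv {L s : ℕ} {c : ℤ × ℤ} (h : inB s c ⊆ inB L 0) (v : Ginf) :
    Inv (nu L v) (PB s c) := by
  intro f hf y
  rw [int_nu L v hf, int_nu L v (f := fun x => f (x + PB s c y))
    (hf.comp (continuous_id.add continuous_const))]
  have hPP : PB L 0 (PB s c y) = PB s c y := by
    funext z
    by_cases hz : z ∈ inB L 0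
    · exact proj_of_mem hz _
    · have hz' : z ∉ inB s c := fun h' => hz (h h')
      show proj (inB L 0) _ z = proj (inB s c) y z
      rw [proj_of_notMem hz, proj_of_notMem hz']
  have e : ∀ x, f (v + PB L 0 x + PB s c y) = (fun x => f (v + PB L 0 x)) (x + PB s c y) := by
    intro x
    simp only [map_add, hPP]
    rw [add_assoc]
  simp_rw [e]
  exact integral_add_right_eq_self (μ := muInf) (fun x => f (v + PB L 0 x)) (PB s c y)

end UJ

end Vale.Agent.P159
end

section

/-!
Blocks: continuity, splitting into cells, dependence on the boundary values, translations.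
-/

open MeasureTheory Filter Topology
open scoped BigOperators

namespace Vale.Agent.P159

namespace UJ

theorem l1_bond_cont {f : T → ℝ} (hf : Continuous f) (u v : ℤ × ℤ) :
    Continuous (fun θ : Ginf => f (θ u - θ v)) :=
  hf.comp ((continuous_apply u).sub (continuous_apply v))

theorem EB_cont (b : ℝ) (s : ℕ) (c : ℤ × ℤ) : Continuous (EB b s c) := by
  unfold EB
  exact continuous_finsetSum _ fun e _ =>
    continuous_const.mul (l1_bond_cont cont_cos (c + bu e) (c + bv e))

theorem SB_cont (b : ℝ) (s : ℕ) (c : ℤ × ℤ) (h : BI s → ℝ) : Continuous (SB b s c h) := by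
  unfold SB
  exact continuous_finsetSum _ fun e _ =>
    continuous_const.mul (l1_bond_cont cont_sin (c + bu e) (c + bv e))

theorem BB_cont (b : ℝ) (s : ℕ) (c : ℤ × ℤ) (h : BI s → ℝ) : Continuous (BB b s c h) := by
  unfold BB
  exact continuous_finsetSum _ fun e _ =>
    continuous_const.mul (l1_bond_cont cont_cos (c + bu e) (c + bv e))

/-! ### tilings -/

theorem l1_fin (s : ℕ) (f : ℤ → ℝ) :
    ∑ i : Fin s, f ((i : ℕ) : ℤ) = ∑ z ∈ Finset.Ico (0 : ℤ) s, f z := by
  rw [← Finset.sum_range (fun i : ℕ => f (i : ℤ))]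
  refine Finset.sum_bij' (fun i _ => (i : ℤ)) (fun z _ => z.toNat) ?_ ?_ ?_ ?_ ?_
  · intro i hi
    have := Finset.mem_range.1 hi
    rw [Finset.mem_Ico]
    omega
  · intro z hz
    have := Finset.mem_Ico.1 hz
    rw [Finset.mem_range]
    omega
  · intro i _
    simp
  · intro z hz
    have := Finset.mem_Ico.1 hz
    omega
  · intro i _
    rfl

theorem l1_tile1 {l : ℕ} (hl : 1 ≤ l) (n : ℕ) (f : ℤ → ℝ) :
    ∑ k ∈ Finset.Ico (0 : ℤ) n, ∑ i : Fin l, f ((l : ℤ) * k + (i : ℕ)) =
      ∑ z ∈ Finset.Ico (0 : ℤ) ((l * n : ℕ) : ℤ), f z := by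
  have hl0 : (0 : ℤ) < l := by exact_mod_cast hl
  rw [← Finset.sum_product' (Finset.Ico (0 : ℤ) n) Finset.univ
    (fun k (i : Fin l) => f ((l : ℤ) * k + (i : ℕ)))]
  refine Finset.sum_bij' (fun p _ => (l : ℤ) * p.1 + (p.2 : ℕ))
    (fun z _ => (z / l, ⟨(z % l).toNat, ?_⟩)) ?_ ?_ ?_ ?_ ?_
  · have h1 := Int.emod_nonneg z hl0.ne'
    have h2 := Int.emod_lt_of_pos z hl0
    omega
  · rintro ⟨k, i⟩ hk
    simp only [Finset.mem_product, Finset.mem_Ico, Finset.mem_univ, and_true] at hk ⊢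
    have hi := i.2
    obtain ⟨h1, h2⟩ := hk
    push_cast
    constructor
    · positivity
    · nlinarith only [hi, h2]
  · intro z hz
    simp only [Finset.mem_product, Finset.mem_Ico, Finset.mem_univ, and_true] at hz ⊢
    obtain ⟨h1, h2⟩ := hz
    push_cast at h1 h2
    constructor
    · exact Int.ediv_nonneg h1 hl0.le
    · rw [Int.ediv_lt_iff_lt_mul hl0]; linarith only [h2]
  · rintro ⟨k, i⟩ hk
    have hi := i.2
    ext
    · simp only
      rw [Int.mul_add_ediv_left _ _ hl0.ne', Int.ediv_eq_zero_of_lt (by omega) (by omega), add_zero]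
    · simp only
      rw [Int.mul_add_emod_self_left, Int.emod_eq_of_lt (by omega) (by omega)]
      simp
  · intro z hz
    simp only
    have h1 := Int.emod_nonneg z hl0.ne'
    rw [Int.toNat_of_nonneg h1]
    have := Int.mul_ediv_add_emod z l
    linarith only [this]
  · rintro ⟨k, i⟩ hk
    rfl

theorem l1_tile2 {l : ℕ} (hl : 1 ≤ l) (n : ℕ) (f : ℤ × ℤ → ℝ) :
    ∑ k ∈ cells n, ∑ i : Fin l, ∑ j : Fin l, f (cor l k + (((i : ℕ) : ℤ), ((j : ℕ) : ℤ)))
      = ∑ i : Fin (l * n), ∑ j : Fin (l * n), f (((i : ℕ) : ℤ), ((j : ℕ) : ℤ)) := by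
  have h0 : ∀ i : Fin (l * n), ∑ j : Fin (l * n), f (((i : ℕ) : ℤ), ((j : ℕ) : ℤ)) =
      ∑ k2 ∈ Finset.Ico (0 : ℤ) n, ∑ j : Fin l, f (((i : ℕ) : ℤ), (l : ℤ) * k2 + (j : ℕ)) :=
    fun i => by
      rw [l1_fin (l * n) (fun z => f (((i : ℕ) : ℤ), z)), l1_tile1 hl n
        (fun z2 => f (((i : ℕ) : ℤ), z2))]
  simp_rw [h0]
  rw [l1_fin (l * n) (fun z1 => ∑ k2 ∈ Finset.Ico (0 : ℤ) n, ∑ j : Fin l,
    f (z1, (l : ℤ) * k2 + (j : ℕ))), ← l1_tile1 hl n]
  unfold cells
  rw [Finset.sum_product]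
  refine Finset.sum_congr rfl fun k1 _ => ?_
  rw [Finset.sum_comm]
  refine Finset.sum_congr rfl fun i _ => ?_
  refine Finset.sum_congr rfl fun k2 _ => ?_
  refine Finset.sum_congr rfl fun j _ => ?_
  unfold cor
  simp only [Prod.mk_add_mk]

theorem l1_BI {s : ℕ} (Φ : Bool × Bool → ℤ × ℤ → ℝ) (c : ℤ × ℤ) :
    ∑ e : BI s, Φ e.2 (c + (((e.1.1 : ℕ) : ℤ), ((e.1.2 : ℕ) : ℤ))) =
      ∑ i : Fin s, ∑ j : Fin s, ∑ t : Bool × Bool,
        Φ t (c + (((i : ℕ) : ℤ), ((j : ℕ) : ℤ))) := by
  rw [Fintype.sum_prod_type, Fintype.sum_prod_type]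

theorem l1_split {l : ℕ} (hl : 1 ≤ l) (n : ℕ) (c : ℤ × ℤ) (Φ : Bool × Bool → ℤ × ℤ → ℝ) :
    ∑ e : BI (l * n), Φ e.2 (c + (((e.1.1 : ℕ) : ℤ), ((e.1.2 : ℕ) : ℤ))) =
      ∑ k ∈ cells n, ∑ e : BI l, Φ e.2 (c + cor l k + (((e.1.1 : ℕ) : ℤ), ((e.1.2 : ℕ) : ℤ))) := by
  simp only [l1_BI]
  rw [← l1_tile2 hl n (fun z => ∑ t : Bool × Bool, Φ t (c + z))]
  simp only [add_assoc]

/-- offset of the first endpoint -/
def l1o (t : Bool × Bool) : ℤ × ℤ :=
  ((if t.1 && t.2 then 1 else 0), (if (!t.1) && t.2 then 1 else 0))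

/-- offset of the second endpoint -/
def l1p (t : Bool × Bool) : ℤ × ℤ := l1o t + (if t.1 then (0, 1) else (1, 0))

theorem l1_bu {s : ℕ} (c : ℤ × ℤ) (e : BI s) :
    c + bu e = c + (((e.1.1 : ℕ) : ℤ), ((e.1.2 : ℕ) : ℤ)) + l1o e.2 := by
  rw [add_assoc]
  rfl

theorem l1_bv {s : ℕ} (c : ℤ × ℤ) (e : BI s) :
    c + bv e = c + (((e.1.1 : ℕ) : ℤ), ((e.1.2 : ℕ) : ℤ)) + l1p e.2 := by
  rw [add_assoc]
  unfold bv l1p
  rw [← add_assoc (((e.1.1 : ℕ) : ℤ), ((e.1.2 : ℕ) : ℤ)) (l1o e.2)]
  rfl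

theorem l1_split' {l : ℕ} (hl : 1 ≤ l) (n : ℕ) (c : ℤ × ℤ) (φ : Bool × Bool → ℝ) (f : T → ℝ)
    (θ : Ginf) :
    ∑ e : BI (l * n), φ e.2 * f (θ (c + bu e) - θ (c + bv e)) =
      ∑ k ∈ cells n, ∑ e : BI l, φ e.2 * f (θ (c + cor l k + bu e) - θ (c + cor l k + bv e)) := by
  simp only [l1_bu, l1_bv]
  exact l1_split hl n c (fun t z => φ t * f (θ (z + l1o t) - θ (z + l1p t)))

/-- the energy of a block of `n × n` cells is the sum of the energies of the cells -/
theorem EB_split (b : ℝ) {l : ℕ} (hl : 1 ≤ l) (n : ℕ) (c : ℤ × ℤ) (θ : Ginf) :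
    EB b (l * n) c θ = ∑ k ∈ cells n, EB b l (c + cor l k) θ :=
  l1_split' hl n c (fun _ => b / 2) cosT θ

/-- the same for the currents in the directions `hh` and `vv` and the diamagnetic terms -/
theorem SB_split_h (b : ℝ) {l : ℕ} (hl : 1 ≤ l) (n : ℕ) (c : ℤ × ℤ) (θ : Ginf) :
    SB b (l * n) c hh θ = ∑ k ∈ cells n, SB b l (c + cor l k) hh θ :=
  l1_split' hl n c (fun t => b / 2 * (if t.1 then 0 else 1)) sinT θ

theorem SB_split_v (b : ℝ) {l : ℕ} (hl : 1 ≤ l) (n : ℕ) (c : ℤ × ℤ) (θ : Ginf) :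
    SB b (l * n) c vv θ = ∑ k ∈ cells n, SB b l (c + cor l k) vv θ :=
  l1_split' hl n c (fun t => b / 2 * (if t.1 then 1 else 0)) sinT θ

theorem BB_split_h (b : ℝ) {l : ℕ} (hl : 1 ≤ l) (n : ℕ) (c : ℤ × ℤ) (θ : Ginf) :
    BB b (l * n) c hh θ = ∑ k ∈ cells n, BB b l (c + cor l k) hh θ :=
  l1_split' hl n c (fun t => b / 2 * ((if t.1 then 0 else 1) * (if t.1 then 0 else 1))) cosT θ

theorem BB_split_v (b : ℝ) {l : ℕ} (hl : 1 ≤ l) (n : ℕ) (c : ℤ × ℤ) (θ : Ginf) :
    BB b (l * n) c vv θ = ∑ k ∈ cells n, BB b l (c + cor l k) vv θ :=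
  l1_split' hl n c (fun t => b / 2 * ((if t.1 then 1 else 0) * (if t.1 then 1 else 0))) cosT θ

/-! ### dependence on the values in the closed block -/

theorem l1_mem {s : ℕ} (c : ℤ × ℤ) (e : BI s) : c + bu e ∈ clB s c ∧ c + bv e ∈ clB s c := by
  obtain ⟨⟨i, j⟩, ⟨t1, t2⟩⟩ := e
  have hi := i.2
  have hj := j.2
  cases t1 <;> cases t2 <;> simp only [clB, Prod.fst_sub, Int.sub_nonneg, tsub_le_iff_right, Prod.snd_sub, bu, Bool.and_self, Bool.false_eq_true, ↓reduceIte, add_zero, Bool.not_false, Bool.and_false, Set.mem_ofPred_eq, Prod.fst_add, le_add_iff_nonneg_right, Nat.cast_nonneg, Prod.snd_add, true_and, bv, Prod.mk_add_mk, Bool.and_true, Bool.not_true] <;> omega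

theorem EB_congr {b : ℝ} {s : ℕ} {c : ℤ × ℤ} {θ θ' : Ginf} (h : ∀ z ∈ clB s c, θ z = θ' z) :
    EB b s c θ = EB b s c θ' := by
  unfold EB
  refine Finset.sum_congr rfl fun e _ => ?_
  rw [h _ (l1_mem c e).1, h _ (l1_mem c e).2]

theorem SB_congr {b : ℝ} {s : ℕ} {c : ℤ × ℤ} {f : BI s → ℝ} {θ θ' : Ginf}
    (h : ∀ z ∈ clB s c, θ z = θ' z) : SB b s c f θ = SB b s c f θ' := by
  unfold SB
  refine Finset.sum_congr rfl fun e _ => ?_
  rw [h _ (l1_mem c e).1, h _ (l1_mem c e).2]

theorem BB_congr {b : ℝ} {s : ℕ} {c : ℤ × ℤ} {f : BI s → ℝ} {θ θ' : Ginf}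
    (h : ∀ z ∈ clB s c, θ z = θ' z) : BB b s c f θ = BB b s c f θ' := by
  unfold BB
  refine Finset.sum_congr rfl fun e _ => ?_
  rw [h _ (l1_mem c e).1, h _ (l1_mem c e).2]

/-! ### dependence on the boundary values -/

theorem l1_av_inv (P : Ginf →+ Ginf) (f : Ginf → ℝ) (x y : Ginf) :
    av muInf P f (x + P y) = av muInf P f x := by
  unfold av
  have h := integral_add_left_eq_self (μ := muInf) (fun z => f (x + P z)) y
  rw [← h]
  refine integral_congr_ae (Filter.Eventually.of_forall fun z => ?_)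
  simp only [add_assoc, map_add]

theorem l1_av_congr {s : ℕ} {c : ℤ × ℤ} {f : Ginf → ℝ}
    (hf : ∀ θ θ' : Ginf, (∀ z ∈ clB s c, θ z = θ' z) → f θ = f θ') {θ θ' : Ginf}
    (h : ∀ z ∈ clB s c, z ∉ inB s c → θ z = θ' z) :
    av muInf (PB s c) f θ = av muInf (PB s c) f θ' := by
  rw [← l1_av_inv (PB s c) f θ (θ' - θ)]
  unfold av
  refine integral_congr_ae (Filter.Eventually.of_forall fun y => hf _ _ fun z hz => ?_)
  simp only [Pi.add_apply]
  congr 1
  by_cases hz' : z ∈ inB s c
  · unfold PB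
    rw [proj_of_mem hz', Pi.sub_apply]
    abel
  · unfold PB
    rw [proj_of_notMem hz', add_zero]
    exact h z hz hz'

theorem l1_CE_congr {b : ℝ} {s : ℕ} {c : ℤ × ℤ} {f : Ginf → ℝ}
    (hf : ∀ θ θ' : Ginf, (∀ z ∈ clB s c, θ z = θ' z) → f θ = f θ') {θ θ' : Ginf}
    (h : ∀ z ∈ clB s c, z ∉ inB s c → θ z = θ' z) :
    CE muInf (PB s c) (EB b s c) f θ = CE muInf (PB s c) (EB b s c) f θ' := by
  unfold CE
  rw [l1_av_congr (f := fun z => f z * Real.exp (EB b s c z))
    (fun θ θ' hh => by simp only [hf θ θ' hh, EB_congr hh]) h,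
    l1_av_congr (f := fun z => Real.exp (EB b s c z))
    (fun θ θ' hh => by simp only [EB_congr hh]) h]

/-- the boundary values determine the averaged block quantities -/
theorem WB_congr {b : ℝ} {s : ℕ} {c : ℤ × ℤ} {θ θ' : Ginf}
    (h : ∀ z ∈ clB s c, z ∉ inB s c → θ z = θ' z) : WB b s c θ = WB b s c θ' :=
  l1_av_congr (f := fun z => Real.exp (EB b s c z))
    (fun θ θ' hh => by simp only [EB_congr hh]) h

theorem jc_congr {b : ℝ} {s : ℕ} {c : ℤ × ℤ} {f : BI s → ℝ} {θ θ' : Ginf}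
    (h : ∀ z ∈ clB s c, z ∉ inB s c → θ z = θ' z) : jc b s c f θ = jc b s c f θ' :=
  l1_CE_congr (f := SB b s c f) (fun _ _ hh => SB_congr hh) h

theorem qc_congr {b : ℝ} {s : ℕ} {c : ℤ × ℤ} {f : BI s → ℝ} {θ θ' : Ginf}
    (h : ∀ z ∈ clB s c, z ∉ inB s c → θ z = θ' z) : qc b s c f θ = qc b s c f θ' := by
  unfold qc
  rw [jc_congr h, l1_CE_congr (f := BB b s c f) (fun _ _ hh => BB_congr hh) h,
    l1_CE_congr (f := fun z => SB b s c f z ^ 2) (fun _ _ hh => by simp only [SB_congr hh]) h]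

/-! ### translations -/

theorem l1_EB_shift (b : ℝ) (s : ℕ) (c d : ℤ × ℤ) (θ : Ginf) :
    EB b s (c + d) θ = EB b s c (fun z => θ (z + d)) := by
  unfold EB
  refine Finset.sum_congr rfl fun e _ => ?_
  rw [add_right_comm c d (bu e), add_right_comm c d (bv e)]

theorem l1_PB_shift (s : ℕ) (c d : ℤ × ℤ) (y : Ginf) (z : ℤ × ℤ) :
    PB s (c + d) y (z + d) = PB s c (relabel (fun v : ℤ × ℤ => v + d) y) z := by
  have hmem : z + d ∈ inB s (c + d) ↔ z ∈ inB s c := by
    unfold inB
    simp only [Set.mem_setOf_eq, add_sub_add_right_eq_sub]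
  unfold PB
  by_cases h : z ∈ inB s c
  · rw [proj_of_mem h, proj_of_mem (hmem.2 h)]
    rfl
  · rw [proj_of_notMem h, proj_of_notMem (fun h' => h (hmem.1 h'))]

/-- translation -/
theorem WB_shift (b : ℝ) (s : ℕ) (c d : ℤ × ℤ) (θ : Ginf) :
    WB b s (c + d) θ = WB b s c (fun z => θ (z + d)) := by
  unfold WB av
  have hinj : Function.Injective (fun v : ℤ × ℤ => v + d) := add_left_injective d
  have hc : Continuous (fun y : Ginf => Real.exp (EB b s c ((fun z => θ (z + d)) + PB s c y))) :=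
    Real.continuous_exp.comp ((EB_cont b s c).comp (continuous_const.add (proj_cont _)))
  rw [← integral_relabel (fun v : ℤ × ℤ => v + d) hinj muInf muInf hc]
  refine integral_congr_ae (Filter.Eventually.of_forall fun y => ?_)
  simp only
  rw [l1_EB_shift]
  congr 2
  funext z
  simp only [Pi.add_apply]
  rw [l1_PB_shift]

end UJ

end Vale.Agent.P159
end

section

/-!
Block quantities in terms of real increments: `WB_eq`, `jc_eq`, `qc_eq` and consequences.
-/

open MeasureTheory Filter Topology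
open scoped BigOperators

namespace Vale.Agent.P159

namespace UJ

section Cont

variable {G : Type*} [AddCommGroup G] [TopologicalSpace G] [IsTopologicalAddGroup G]
  [CompactSpace G] [SecondCountableTopology G] [MeasurableSpace G] [BorelSpace G]
  (μ : Measure G) [IsProbabilityMeasure μ]

private theorem av_cont' {P : G → G} (hP : Continuous P) {f : G → ℝ} (hf : Continuous f) :
    Continuous (av μ P f) := by
  have h := continuous_parametric_integral_of_continuous (μ := μ)
    (f := fun x y => f (x + P y)) (s := Set.univ)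
    (hf.comp (continuous_fst.add (hP.comp continuous_snd))) isCompact_univ
  simp only [setIntegral_univ] at h
  exact h

private theorem av_pos' {P : G → G} (hP : Continuous P) {f : G → ℝ} (hf : Continuous f) (x : G) :
    0 < av μ P (fun z => Real.exp (f z)) x :=
  integral_exp_pos (cint (Real.continuous_exp.comp (hf.comp (continuous_const.add hP))))

private theorem CE_cont' {P : G → G} (hP : Continuous P) {E f : G → ℝ} (hE : Continuous E)
    (hf : Continuous f) : Continuous (CE μ P E f) :=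
  (av_cont' μ hP (hf.mul (Real.continuous_exp.comp hE))).div
    (av_cont' μ hP (Real.continuous_exp.comp hE)) fun x => (av_pos' μ hP hE x).ne'

end Cont

private theorem incr_cont (c u v : ℤ × ℤ) :
    Continuous (fun θ : Ginf => θ (c + u) - θ (c + v)) :=
  (continuous_apply _).sub (continuous_apply _)

private theorem EB_cont' (b : ℝ) (s : ℕ) (c : ℤ × ℤ) : Continuous (EB b s c) :=
  continuous_finsetSum _ fun _ _ => continuous_const.mul (cont_cos.comp (incr_cont _ _ _))

private theorem SB_cont' (b : ℝ) (s : ℕ) (c : ℤ × ℤ) (h : BI s → ℝ) :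
    Continuous (SB b s c h) :=
  continuous_finsetSum _ fun _ _ => continuous_const.mul (cont_sin.comp (incr_cont _ _ _))

private theorem BB_cont' (b : ℝ) (s : ℕ) (c : ℤ × ℤ) (h : BI s → ℝ) :
    Continuous (BB b s c h) :=
  continuous_finsetSum _ fun _ _ => continuous_const.mul (cont_cos.comp (incr_cont _ _ _))

/-- translation of the lattice -/
def tr2 (c : ℤ × ℤ) (v : ℤ × ℤ) : ℤ × ℤ := c + v

theorem tr2_inj (c : ℤ × ℤ) : Function.Injective (tr2 c) := fun _ _ h => add_left_cancel h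

theorem PB_apply (s : ℕ) (c v : ℤ × ℤ) (y : Ginf) :
    PB s c y (c + v) = proj (inner s : Set (ℤ × ℤ)) (relabel (tr2 c) y) v := by
  unfold PB
  by_cases h : v ∈ (inner s : Set (ℤ × ℤ))
  · rw [proj_of_mem h, proj_of_mem]
    · rfl
    · show c + v - c ∈ (inner s : Set (ℤ × ℤ))
      rwa [add_sub_cancel_left]
  · rw [proj_of_notMem h, proj_of_notMem]
    intro h'
    have h'' : c + v - c ∈ (inner s : Set (ℤ × ℤ)) := h'
    rw [add_sub_cancel_left] at h''
    exact h h''

theorem incr_eq {s : ℕ} {c : ℤ × ℤ} {θ : Ginf} {t : BI s → ℝ}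
    (ht : ∀ e, ((t e : ℝ) : T) = θ (c + bu e) - θ (c + bv e)) (y : Ginf) (e : BI s) :
    (θ + PB s c y) (c + bu e) - (θ + PB s c y) (c + bv e) =
      (proj (inner s : Set (ℤ × ℤ)) (relabel (tr2 c) y) (bu e) -
        proj (inner s : Set (ℤ × ℤ)) (relabel (tr2 c) y) (bv e)) + ((t e : ℝ) : T) := by
  rw [Pi.add_apply, Pi.add_apply, PB_apply, PB_apply, ht]
  abel

theorem cos_incr {s : ℕ} {c : ℤ × ℤ} {θ : Ginf} {t : BI s → ℝ}
    (ht : ∀ e, ((t e : ℝ) : T) = θ (c + bu e) - θ (c + bv e)) (y : Ginf) (e : BI s) :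
    cosT ((θ + PB s c y) (c + bu e) - (θ + PB s c y) (c + bv e)) =
      Ct (chi0 s) t e (relabel (tr2 c) y) := by
  rw [incr_eq ht]
  refine (Real.Angle.cos_add _ _).trans ?_
  have h1 : Real.Angle.cos ((t e : ℝ) : T) = Real.cos (t e) := Real.Angle.cos_coe _
  have h2 : Real.Angle.sin ((t e : ℝ) : T) = Real.sin (t e) := Real.Angle.sin_coe _
  rw [h1, h2]
  rfl

theorem sin_incr {s : ℕ} {c : ℤ × ℤ} {θ : Ginf} {t : BI s → ℝ}
    (ht : ∀ e, ((t e : ℝ) : T) = θ (c + bu e) - θ (c + bv e)) (y : Ginf) (e : BI s) :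
    sinT ((θ + PB s c y) (c + bu e) - (θ + PB s c y) (c + bv e)) =
      St (chi0 s) t e (relabel (tr2 c) y) := by
  rw [incr_eq ht]
  refine (Real.Angle.sin_add _ _).trans ?_
  have h1 : Real.Angle.cos ((t e : ℝ) : T) = Real.cos (t e) := Real.Angle.cos_coe _
  have h2 : Real.Angle.sin ((t e : ℝ) : T) = Real.sin (t e) := Real.Angle.sin_coe _
  rw [h1, h2]
  rfl

theorem EB_eq {b : ℝ} {s : ℕ} {c : ℤ × ℤ} {θ : Ginf} {t : BI s → ℝ}
    (ht : ∀ e, ((t e : ℝ) : T) = θ (c + bu e) - θ (c + bv e)) (y : Ginf) :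
    EB b s c (θ + PB s c y) = Ht (fun _ => b / 2) (chi0 s) t (relabel (tr2 c) y) := by
  unfold EB Ht
  exact Finset.sum_congr rfl fun e _ => by rw [cos_incr ht]

theorem SB_eq {b : ℝ} {s : ℕ} {c : ℤ × ℤ} {θ : Ginf} {t h : BI s → ℝ}
    (ht : ∀ e, ((t e : ℝ) : T) = θ (c + bu e) - θ (c + bv e)) (y : Ginf) :
    SB b s c h (θ + PB s c y) = Jt (fun _ => b / 2) (chi0 s) t h (relabel (tr2 c) y) := by
  unfold SB Jt
  exact Finset.sum_congr rfl fun e _ => by rw [sin_incr ht]

theorem BB_eq {b : ℝ} {s : ℕ} {c : ℤ × ℤ} {θ : Ginf} {t h : BI s → ℝ}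
    (ht : ∀ e, ((t e : ℝ) : T) = θ (c + bu e) - θ (c + bv e)) (y : Ginf) :
    BB b s c h (θ + PB s c y) = Bt (fun _ => b / 2) (chi0 s) t h h (relabel (tr2 c) y) := by
  unfold BB Bt
  exact Finset.sum_congr rfl fun e _ => by rw [cos_incr ht]

/-- averages over the interior of a block -/
theorem av_PB {s : ℕ} {c : ℤ × ℤ} {θ : Ginf} {F Φ : Ginf → ℝ} (hΦ : Continuous Φ)
    (h : ∀ y, F (θ + PB s c y) = Φ (relabel (tr2 c) y)) :
    av muInf (PB s c) F θ = ∫ x, Φ x ∂muInf := by
  unfold av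
  simp_rw [h]
  exact integral_relabel (tr2 c) (tr2_inj c) muInf muInf hΦ

/-- block quantities in terms of real increments -/
theorem WB_eq {b : ℝ} {s : ℕ} {c : ℤ × ℤ} {θ : Ginf} {t : BI s → ℝ}
    (ht : ∀ e, ((t e : ℝ) : T) = θ (c + bu e) - θ (c + bv e)) :
    WB b s c θ = Zr muInf (fun _ => b / 2) (chi0 s) t := by
  rw [Zr_eq]
  exact av_PB (cont_expH _ _ t) fun y => by rw [EB_eq ht]

theorem CE_eq {b : ℝ} {s : ℕ} {c : ℤ × ℤ} {θ : Ginf} {t : BI s → ℝ}
    (ht : ∀ e, ((t e : ℝ) : T) = θ (c + bu e) - θ (c + bv e)) {F Φ : Ginf → ℝ}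
    (hΦ : Continuous Φ) (h : ∀ y, F (θ + PB s c y) = Φ (relabel (tr2 c) y)) :
    CE muInf (PB s c) (EB b s c) F θ = ex muInf (fun _ => b / 2) (chi0 s) t Φ := by
  unfold CE ex
  have h1 : av muInf (PB s c) (fun z => F z * Real.exp (EB b s c z)) θ =
      ∫ x, Φ x * Real.exp (Ht (fun _ => b / 2) (chi0 s) t x) ∂muInf :=
    av_PB (hΦ.mul (cont_expH _ _ t)) fun y => by rw [EB_eq ht, h]
  have h2 : av muInf (PB s c) (fun z => Real.exp (EB b s c z)) θ =
      Zr muInf (fun _ => b / 2) (chi0 s) t := WB_eq ht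
  rw [h1, h2]

theorem jc_eq {b : ℝ} {s : ℕ} {c : ℤ × ℤ} {θ : Ginf} {t h : BI s → ℝ}
    (ht : ∀ e, ((t e : ℝ) : T) = θ (c + bu e) - θ (c + bv e)) :
    jc b s c h θ = jm muInf (fun _ => b / 2) (chi0 s) t h :=
  CE_eq ht (cont_Jt _ _ t h) fun y => SB_eq ht y

theorem qc_eq {b : ℝ} {s : ℕ} {c : ℤ × ℤ} {θ : Ginf} {t h : BI s → ℝ}
    (ht : ∀ e, ((t e : ℝ) : T) = θ (c + bu e) - θ (c + bv e)) :
    qc b s c h θ = QQ muInf (fun _ => b / 2) (chi0 s) t h h := by
  unfold qc QQ
  rw [jc_eq ht, CE_eq ht (cont_Bt _ _ t h h) fun y => BB_eq ht y,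
    CE_eq ht (Φ := fun x => Jt (fun _ => b / 2) (chi0 s) t h x *
      Jt (fun _ => b / 2) (chi0 s) t h x) ((cont_Jt _ _ t h).mul (cont_Jt _ _ t h))
      fun y => by rw [SB_eq ht, pow_two], pow_two]

theorem PB_cont (s : ℕ) (c : ℤ × ℤ) : Continuous (PB s c) := proj_cont _

theorem WB_cont (b : ℝ) (s : ℕ) (c : ℤ × ℤ) : Continuous (WB b s c) :=
  av_cont' muInf (PB_cont s c) (Real.continuous_exp.comp (EB_cont' b s c))

theorem jc_cont (b : ℝ) (s : ℕ) (c : ℤ × ℤ) (h : BI s → ℝ) : Continuous (jc b s c h) :=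
  CE_cont' muInf (PB_cont s c) (EB_cont' b s c) (SB_cont' b s c h)

theorem qc_cont (b : ℝ) (s : ℕ) (c : ℤ × ℤ) (h : BI s → ℝ) : Continuous (qc b s c h) :=
  ((CE_cont' muInf (PB_cont s c) (EB_cont' b s c) (BB_cont' b s c h)).sub
    (CE_cont' muInf (PB_cont s c) (EB_cont' b s c) ((SB_cont' b s c h).pow 2))).add
    ((jc_cont b s c h).pow 2)

/-- real representatives of increments -/
theorem exists_incr (s : ℕ) (c : ℤ × ℤ) (θ : Ginf) : ∃ t : BI s → ℝ,
    ∀ e, ((t e : ℝ) : T) = θ (c + bu e) - θ (c + bv e) := by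
  have h : ∀ x : T, ∃ r : ℝ, ((r : ℝ) : T) = x := fun x => QuotientAddGroup.mk_surjective x
  choose r hr using h
  exact ⟨fun e => r (θ (c + bu e) - θ (c + bv e)), fun e => hr _⟩

theorem WB_pos (b : ℝ) (s : ℕ) (c : ℤ × ℤ) (θ : Ginf) : 0 < WB b s c θ := by
  obtain ⟨t, ht⟩ := exists_incr s c θ
  rw [WB_eq ht]
  exact Zr_pos _ _ _ _

theorem WB_neg (b : ℝ) (s : ℕ) (c : ℤ × ℤ) (θ : Ginf) : WB b s c (-θ) = WB b s c θ := by
  obtain ⟨t, ht⟩ := exists_incr s c θ
  have ht' : ∀ e, (((-t) e : ℝ) : T) = (-θ) (c + bu e) - (-θ) (c + bv e) := by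
    intro e
    rw [Pi.neg_apply, Pi.neg_apply, Pi.neg_apply, AddCircle.coe_neg, ht]
    abel
  rw [WB_eq ht, WB_eq ht', Zr_neg]

theorem WB_four {b : ℝ} (hb : 0 ≤ b) (s : ℕ) (c : ℤ × ℤ) (β α : Ginf) :
    WB b s c β ^ 2 * WB b s c α ^ 2 ≤ WB b s c (β + α) * WB b s c (β - α) * WB b s c 0 ^ 2 := by
  obtain ⟨t, ht⟩ := exists_incr s c β
  obtain ⟨u, hu⟩ := exists_incr s c α
  have h1 : ∀ e, (((t + u) e : ℝ) : T) = (β + α) (c + bu e) - (β + α) (c + bv e) := by
    intro e
    rw [Pi.add_apply, Pi.add_apply, Pi.add_apply, AddCircle.coe_add, ht, hu]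
    abel
  have h2 : ∀ e, (((t - u) e : ℝ) : T) = (β - α) (c + bu e) - (β - α) (c + bv e) := by
    intro e
    rw [Pi.sub_apply, Pi.sub_apply, Pi.sub_apply, AddCircle.coe_sub, ht, hu]
    abel
  have h3 : ∀ e, (((0 : BI s → ℝ) e : ℝ) : T) = (0 : Ginf) (c + bu e) - (0 : Ginf) (c + bv e) := by
    intro e
    simp
  rw [WB_eq ht, WB_eq hu, WB_eq h1, WB_eq h2, WB_eq h3]
  exact four muInf _ _ pi_div2 (fun _ => by (clear * - hb; positivity)) t u

theorem WB_le {b : ℝ} (hb : 0 ≤ b) (s : ℕ) (c : ℤ × ℤ) (θ : Ginf) :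
    WB b s c θ ≤ WB b s c 0 := by
  obtain ⟨t, ht⟩ := exists_incr s c θ
  have h3 : ∀ e, (((0 : BI s → ℝ) e : ℝ) : T) = (0 : Ginf) (c + bu e) - (0 : Ginf) (c + bv e) := by
    intro e
    simp
  rw [WB_eq ht, WB_eq h3]
  exact Zr_le muInf _ _ pi_div2 (fun _ => by positivity) t

theorem qc_le {b : ℝ} (hb : 0 ≤ b) {s : ℕ} (hs : 1 ≤ s) (c : ℤ × ℤ) (θ : Ginf) :
    qc b s c hh θ ≤ (s : ℝ) ^ 2 * stiff s b ∧ qc b s c vv θ ≤ (s : ℝ) ^ 2 * stiff s b := by
  obtain ⟨t, ht⟩ := exists_incr s c θ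
  rw [qc_eq ht, qc_eq ht]
  constructor
  · rw [← Q_h s b hs, ← QQ_zero]
    exact QQ_le muInf _ _ pi_div2 (fun _ => by positivity) t hh
  · rw [← Q_v s b hs, ← QQ_zero]
    exact QQ_le muInf _ _ pi_div2 (fun _ => by positivity) t vv

end UJ

end Vale.Agent.P159
end

section

/-!
The total variance identity: the stiffness of a big block, the conditional mean currents of its
cells and the stiffness forms of the cells.
-/

open MeasureTheory Filter Topology
open scoped BigOperators

namespace Vale.Agent.P159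

namespace UJ

section Var

theorem var_PB_cont (s : ℕ) (c : ℤ × ℤ) : Continuous (PB s c) := proj_cont _

theorem var_PB_notMem {s : ℕ} {c z : ℤ × ℤ} (h : z ∉ inB s c) (x y : Ginf) :
    (x + PB s c y) z = x z := by
  show x z + PB s c y z = x z
  rw [PB, proj_of_notMem h, add_zero]

theorem var_mem_inB {s : ℕ} {c z : ℤ × ℤ} :
    z ∈ inB s c ↔ 1 ≤ z.1 - c.1 ∧ 1 ≤ z.2 - c.2 ∧ z.1 - c.1 ≤ s - 1 ∧ z.2 - c.2 ≤ s - 1 := by
  simp only [inB, inner, Finset.coe_Icc, Set.mem_ofPred_eq, Set.mem_Icc, Prod.le_def, Prod.fst_sub,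
    Prod.snd_sub]
  tauto

theorem var_mem_clB {s : ℕ} {c z : ℤ × ℤ} :
    z ∈ clB s c ↔ 0 ≤ z.1 - c.1 ∧ z.1 - c.1 ≤ s ∧ 0 ≤ z.2 - c.2 ∧ z.2 - c.2 ≤ s := by
  simp only [clB, Set.mem_ofPred_eq, Prod.fst_sub, Prod.snd_sub]

/-- the closed cell `k'` does not meet the interior of the cell `k ≠ k'` -/
theorem var_disj {l : ℕ} {k k' : ℤ × ℤ} (h : k ≠ k') {z : ℤ × ℤ}
    (hz : z ∈ clB l (cor l k')) : z ∉ inB l (cor l k) := by
  intro hz'
  rw [var_mem_clB] at hz
  rw [var_mem_inB] at hz'
  simp only [cor] at hz hz'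
  obtain ⟨a1, a2, a3, a4⟩ := hz
  obtain ⟨b1, b2, b3, b4⟩ := hz'
  have key : ∀ x y w : ℤ, 0 ≤ w - l * y → w - l * y ≤ l → 1 ≤ w - l * x → w - l * x ≤ l - 1 →
      x = y := by
    intro x y w h1 h2 h3 h4
    by_contra hne
    rcases lt_or_gt_of_ne hne with h5 | h5
    · have h6 : x + 1 ≤ y := h5
      have h7 : (l : ℤ) * (x + 1) ≤ l * y := mul_le_mul_of_nonneg_left h6 (by (clear * -; positivity))
      nlinarith only [h1, h4, h7]
    · have h6 : y + 1 ≤ x := h5
      have h7 : (l : ℤ) * (y + 1) ≤ l * x := mul_le_mul_of_nonneg_left h6 (by (clear * -; positivity))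
      nlinarith only [h2, h3, h7]
  apply h
  ext
  · exact key _ _ _ a1 a2 b1 b3
  · exact key _ _ _ a3 a4 b2 b4

/-- the interior of a cell is contained in the interior of the big block -/
theorem var_sub {l n : ℕ} {k : ℤ × ℤ} (hk : k ∈ cells n) : inB l (cor l k) ⊆ inB (l * n) 0 := by
  intro z hz
  rw [var_mem_inB] at hz ⊢
  simp only [cells, Finset.mem_product, Finset.mem_Ico] at hk
  simp only [cor] at hz
  obtain ⟨⟨h1, h2⟩, h3, h4⟩ := hk
  obtain ⟨b1, b2, b3, b4⟩ := hz
  have hl : (0 : ℤ) ≤ l := by (clear * -; positivity)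
  have c1 : (l : ℤ) * (k.1 + 1) ≤ l * n := mul_le_mul_of_nonneg_left h2 hl
  have c2 : (l : ℤ) * (k.2 + 1) ≤ l * n := mul_le_mul_of_nonneg_left h4 hl
  have c3 : 0 ≤ (l : ℤ) * k.1 := mul_nonneg hl h1
  have c4 : 0 ≤ (l : ℤ) * k.2 := mul_nonneg hl h3
  push_cast
  simp only [Prod.fst_zero, Prod.snd_zero, sub_zero]
  refine ⟨by linarith, by linarith only [b2, c4], by linarith only [b3, c1], by linarith only [b4, c2]⟩

theorem var_card (n : ℕ) : (cells n).card = n ^ 2 := by
  simp [cells, Finset.card_product, pow_two]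

variable (b : ℝ) (L : ℕ)

theorem var_wt_cont : Continuous fun x => Real.exp (EB b L 0 x) :=
  Real.continuous_exp.comp (EB_cont b L 0)

/-- `Ev b L 0` is the conditional expectation at `0` -/
theorem var_Ev_eq {f : Ginf → ℝ} (hf : Continuous f) :
    Ev b L 0 f = CE muInf (PB L 0) (EB b L 0) f 0 := by
  unfold Ev CE WB
  have h := int_nu L 0 (f := fun x => f x * Real.exp (EB b L 0 x)) (hf.mul (var_wt_cont b L))
  rw [h]
  rfl

theorem var_Ev_add {f g : Ginf → ℝ} (hf : Continuous f) (hg : Continuous g) :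
    Ev b L 0 (fun x => f x + g x) = Ev b L 0 f + Ev b L 0 g := by
  unfold Ev
  have h := integral_add (μ := nu L 0) (f := fun x => f x * Real.exp (EB b L 0 x))
    (g := fun x => g x * Real.exp (EB b L 0 x)) (cint (hf.mul (var_wt_cont b L)))
    (cint (hg.mul (var_wt_cont b L)))
  rw [← add_div, ← h]
  congr 1
  exact integral_congr_ae (Eventually.of_forall fun x => by ring)

theorem var_Ev_smul (c : ℝ) (f : Ginf → ℝ) :
    Ev b L 0 (fun x => c * f x) = c * Ev b L 0 f := by
  unfold Ev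
  rw [mul_div_assoc', ← integral_const_mul]
  congr 1
  exact integral_congr_ae (Eventually.of_forall fun x => by ring)

theorem var_Ev_sub {f g : Ginf → ℝ} (hf : Continuous f) (hg : Continuous g) :
    Ev b L 0 (fun x => f x - g x) = Ev b L 0 f - Ev b L 0 g := by
  have h := var_Ev_add b L (g := fun x => -1 * g x) hf (continuous_const.mul hg)
  have h2 := var_Ev_smul b L (-1) g
  rw [h2] at h
  have h6 : (fun x => f x + -1 * g x) = fun x => f x - g x := by
    funext x
    ring
  rw [h6] at h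
  linarith

theorem var_Ev_one : Ev b L 0 (fun _ => 1) = 1 := by
  have h := var_Ev_eq b L (f := fun _ => (1 : ℝ)) continuous_const
  rw [h]
  unfold CE
  simp only [one_mul]
  exact div_self (WB_pos b L 0 0).ne'

theorem var_Ev_const (c : ℝ) : Ev b L 0 (fun _ => c) = c := by
  have h := var_Ev_smul b L c (fun _ => 1)
  rw [var_Ev_one] at h
  simp only [mul_one] at h
  exact h

theorem var_Ev_sum {ι : Type*} (s : Finset ι) (f : ι → Ginf → ℝ) (hf : ∀ i, Continuous (f i)) :
    Ev b L 0 (fun x => ∑ i ∈ s, f i x) = ∑ i ∈ s, Ev b L 0 (f i) := by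
  classical
  induction s using Finset.induction_on with
  | empty =>
    simp only [Finset.sum_empty]
    exact var_Ev_const b L 0
  | insert a s ha ih =>
    simp only [Finset.sum_insert ha]
    rw [var_Ev_add b L (hf a) (continuous_finsetSum _ fun i _ => hf i), ih]

end Var

section Cell

variable {b : ℝ} {l n : ℕ}

/-- conditional expectation in the cell `k` -/
noncomputable def var_CE (b : ℝ) (l : ℕ) (k : ℤ × ℤ) (f : Ginf → ℝ) : Ginf → ℝ :=
  CE muInf (PB l (cor l k)) (EB b l (cor l k)) f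

theorem var_CE_cont (k : ℤ × ℤ) {f : Ginf → ℝ} (hf : Continuous f) :
    Continuous (var_CE b l k f) :=
  CE_cont muInf (var_PB_cont _ _) (EB_cont _ _ _) hf

theorem var_CE_inv (k : ℤ × ℤ) (f : Ginf → ℝ) (x y : Ginf) :
    var_CE b l k f (x + PB l (cor l k) y) = var_CE b l k f x :=
  CE_inv muInf (PB l (cor l k)) _ _ x y

/-- the tower property -/
theorem var_tower (hl : 1 ≤ l) {k : ℤ × ℤ} (hk : k ∈ cells n) {f g : Ginf → ℝ}
    (hf : Continuous f) (hg : Continuous g)
    (hinv : ∀ x y, g (x + PB l (cor l k) y) = g x) :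
    Ev b (l * n) 0 (fun x => g x * var_CE b l k f x) = Ev b (l * n) 0 (fun x => g x * f x) := by
  classical
  unfold Ev
  congr 1
  have hw : ∀ x, EB b (l * n) 0 x - EB b l (cor l k) x
      = ∑ k' ∈ (cells n).erase k, EB b l (cor l k') x := by
    intro x
    rw [EB_split b hl n 0 x, ← Finset.add_sum_erase _ _ hk]
    simp only [zero_add]
    ring
  have hwc : Continuous fun x => Real.exp (EB b (l * n) 0 x - EB b l (cor l k) x) :=
    Real.continuous_exp.comp ((EB_cont _ _ _).sub (EB_cont _ _ _))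
  have hwinv : ∀ x y, Real.exp (EB b (l * n) 0 (x + PB l (cor l k) y)
      - EB b l (cor l k) (x + PB l (cor l k) y))
      = Real.exp (EB b (l * n) 0 x - EB b l (cor l k) x) := by
    intro x y
    rw [hw, hw]
    congr 1
    refine Finset.sum_congr rfl fun k' hk' => ?_
    refine EB_congr fun z hz => ?_
    exact var_PB_notMem (var_disj (Finset.ne_of_mem_erase hk').symm hz) x y
  have h := CE_int muInf (ν := nu (l * n) 0) (P := PB l (cor l k)) (var_PB_cont _ _)
    (nu_inv (var_sub hk) 0) (E := EB b l (cor l k)) (f := f) (g := g)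
    (w := fun x => Real.exp (EB b (l * n) 0 x - EB b l (cor l k) x)) (EB_cont _ _ _) hf hg hwc
    hinv hwinv
  have h2 : ∀ x, Real.exp (EB b (l * n) 0 x - EB b l (cor l k) x) * Real.exp (EB b l (cor l k) x)
      = Real.exp (EB b (l * n) 0 x) := by
    intro x
    rw [← Real.exp_add]
    congr 1
    ring
  simp only [h2] at h
  exact h

theorem var_tower_one (hl : 1 ≤ l) {k : ℤ × ℤ} (hk : k ∈ cells n) {f : Ginf → ℝ}
    (hf : Continuous f) :
    Ev b (l * n) 0 (var_CE b l k f) = Ev b (l * n) 0 f := by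
  have h := var_tower (b := b) hl hk hf (g := fun _ => 1) continuous_const (fun _ _ => rfl)
  simp only [one_mul] at h
  exact h

/-- the variance identity in a direction `D` -/
theorem var_gen (hl : 1 ≤ l) (D : BI l → ℝ) (D' : BI (l * n) → ℝ)
    (hS : ∀ θ, SB b (l * n) 0 D' θ = ∑ k ∈ cells n, SB b l (0 + cor l k) D θ)
    (hB : ∀ θ, BB b (l * n) 0 D' θ = ∑ k ∈ cells n, BB b l (0 + cor l k) D θ)
    (hQ : QQ muInf (fun _ => b / 2) (chi0 (l * n)) 0 D' D' = ((l * n : ℕ) : ℝ) ^ 2 * stiff (l * n) b) :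
    Ev b (l * n) 0 (fun θ => (∑ k ∈ cells n, jc b l (cor l k) D θ) ^ 2) +
      ∑ k ∈ cells n, Ev b (l * n) 0 (fun θ => (l : ℝ) ^ 2 * stiff l b -
        qc b l (cor l k) D θ) =
      ((l * n : ℕ) : ℝ) ^ 2 * (stiff l b - stiff (l * n) b) := by
  classical
  simp only [zero_add] at hS hB
  set s : ℤ × ℤ → Ginf → ℝ := fun k => SB b l (cor l k) D with hs
  set d : ℤ × ℤ → Ginf → ℝ := fun k => BB b l (cor l k) D with hd
  set j : ℤ × ℤ → Ginf → ℝ := fun k => jc b l (cor l k) D with hj
  set q : ℤ × ℤ → Ginf → ℝ := fun k => qc b l (cor l k) D with hq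
  have hsc : ∀ k, Continuous (s k) := fun k => SB_cont b l (cor l k) D
  have hdc : ∀ k, Continuous (d k) := fun k => BB_cont b l (cor l k) D
  have hjc : ∀ k, Continuous (j k) := fun k => jc_cont b l (cor l k) D
  have hqc : ∀ k, Continuous (q k) := fun k => qc_cont b l (cor l k) D
  have hjCE : ∀ k, j k = var_CE b l k (s k) := fun k => rfl
  have hqCE : ∀ k x, q k x = var_CE b l k (d k) x - var_CE b l k (fun z => s k z ^ 2) x
      + j k x ^ 2 := fun k x => rfl
  -- off-diagonal terms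
  have hoff : ∀ k ∈ cells n, ∀ k' ∈ cells n, k ≠ k' →
      Ev b (l * n) 0 (fun x => s k x * s k' x) = Ev b (l * n) 0 (fun x => j k x * j k' x) := by
    intro k hk k' hk' hne
    have h1 := var_tower (b := b) hl hk (hsc k) (hsc k') (fun x y => by
      refine SB_congr fun z hz => ?_
      exact var_PB_notMem (var_disj hne hz) x y)
    have h2 := var_tower (b := b) hl hk' (hsc k') (hjc k) (fun x y => by
      refine jc_congr fun z hz _ => ?_
      exact var_PB_notMem (var_disj hne.symm hz) x y)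
    rw [← hjCE] at h1 h2
    rw [h2]
    have e1 : (fun x => s k x * s k' x) = fun x => s k' x * s k x := by
      funext x; ring
    have e2 : (fun x => s k' x * j k x) = fun x => j k x * s k' x := by
      funext x; ring
    rw [e1, ← h1, e2]
  -- diagonal terms
  have hdiag : ∀ k ∈ cells n, Ev b (l * n) 0 (fun x => s k x * s k x) =
      Ev b (l * n) 0 (fun x => j k x * j k x) +
        (Ev b (l * n) 0 (d k) - Ev b (l * n) 0 (q k)) := by
    intro k hk
    have hs2 : Continuous fun z => s k z ^ 2 := (hsc k).pow 2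
    have hj2 : Continuous fun z => j k z ^ 2 := (hjc k).pow 2
    have h1 := var_tower_one (b := b) hl hk hs2
    have h2 := var_tower_one (b := b) hl hk (hdc k)
    have h3 : Ev b (l * n) 0 (q k) = Ev b (l * n) 0 (var_CE b l k (d k))
        - Ev b (l * n) 0 (var_CE b l k (fun z => s k z ^ 2)) +
        Ev b (l * n) 0 (fun x => j k x ^ 2) := by
      have h4 : q k = fun x => (var_CE b l k (d k) x - var_CE b l k (fun z => s k z ^ 2) x)
          + j k x ^ 2 := funext fun x => hqCE k x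
      have h5 := var_Ev_add b (l * n)
        (f := fun x => var_CE b l k (d k) x - var_CE b l k (fun z => s k z ^ 2) x)
        (g := fun x => j k x ^ 2) ((var_CE_cont k (hdc k)).sub (var_CE_cont k hs2)) hj2
      have h6 := var_Ev_sub b (l * n) (f := var_CE b l k (d k))
        (g := var_CE b l k (fun z => s k z ^ 2)) (var_CE_cont k (hdc k)) (var_CE_cont k hs2)
      rw [h4, h5, h6]
    have e1 : (fun x => s k x * s k x) = fun x => s k x ^ 2 := by
      funext x; ring
    have e2 : (fun x => j k x * j k x) = fun x => j k x ^ 2 := by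
      funext x; ring
    rw [e1, e2, h3, h2]
    have h5 : Ev b (l * n) 0 (var_CE b l k (fun z => s k z ^ 2))
        = Ev b (l * n) 0 (fun x => s k x ^ 2) := h1
    rw [h5]
    ring
  -- expansion of squares
  have hsq : ∀ f : ℤ × ℤ → Ginf → ℝ, (∀ k, Continuous (f k)) →
      Ev b (l * n) 0 (fun x => (∑ k ∈ cells n, f k x) ^ 2) =
      ∑ k ∈ cells n, ∑ k' ∈ cells n, Ev b (l * n) 0 (fun x => f k x * f k' x) := by
    intro f hf
    have h1 : (fun x => (∑ k ∈ cells n, f k x) ^ 2)
        = fun x => ∑ k ∈ cells n, ∑ k' ∈ cells n, f k x * f k' x := by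
      funext x
      rw [pow_two, Finset.sum_mul_sum]
    rw [h1, var_Ev_sum b (l * n) _ (fun k x => ∑ k' ∈ cells n, f k x * f k' x)
      (fun k => continuous_finsetSum _ fun k' _ => (hf k).mul (hf k'))]
    refine Finset.sum_congr rfl fun k _ => ?_
    exact var_Ev_sum b (l * n) _ (fun k' x => f k x * f k' x) (fun k' => (hf k).mul (hf k'))
  have hmain : Ev b (l * n) 0 (fun x => (∑ k ∈ cells n, s k x) ^ 2) =
      Ev b (l * n) 0 (fun x => (∑ k ∈ cells n, j k x) ^ 2) +
        ∑ k ∈ cells n, (Ev b (l * n) 0 (d k) - Ev b (l * n) 0 (q k)) := by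
    rw [hsq s hsc, hsq j hjc, ← Finset.sum_add_distrib]
    refine Finset.sum_congr rfl fun k hk => ?_
    rw [← Finset.add_sum_erase _ _ hk, ← Finset.add_sum_erase _ _ hk, hdiag k hk]
    have h1 : ∑ x ∈ (cells n).erase k, Ev b (l * n) 0 (fun y => s k y * s x y)
        = ∑ x ∈ (cells n).erase k, Ev b (l * n) 0 (fun y => j k y * j x y) := by
      refine Finset.sum_congr rfl fun k' hk' => ?_
      exact hoff k hk k' (Finset.mem_of_mem_erase hk') (Finset.ne_of_mem_erase hk').symm
    rw [h1]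
    ring
  -- the big block
  have hbig : ((l * n : ℕ) : ℝ) ^ 2 * stiff (l * n) b =
      Ev b (l * n) 0 (BB b (l * n) 0 D') - Ev b (l * n) 0 (fun x => SB b (l * n) 0 D' x ^ 2) := by
    have ht : ∀ e : BI (l * n), (((0 : BI (l * n) → ℝ) e : ℝ) : T)
        = (0 : Ginf) ((0 : ℤ × ℤ) + bu e) - (0 : Ginf) ((0 : ℤ × ℤ) + bv e) := by
      intro e
      simp
    have h1 := qc_eq (b := b) (s := l * n) (c := 0) (θ := 0) (t := 0) (h := D') ht
    have h2 := jc_eq (b := b) (s := l * n) (c := 0) (θ := 0) (t := 0) (h := D') ht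
    rw [jm_zero] at h2
    rw [hQ, qc, h2] at h1
    have h3 : Continuous fun x => SB b (l * n) 0 D' x ^ 2 := (SB_cont b (l * n) 0 D').pow 2
    rw [var_Ev_eq b (l * n) (BB_cont b (l * n) 0 D'), var_Ev_eq b (l * n) h3, ← h1]
    ring
  have hS' : (fun x => SB b (l * n) 0 D' x ^ 2) = fun x => (∑ k ∈ cells n, s k x) ^ 2 := by
    funext x
    rw [hS]
  have hB' : BB b (l * n) 0 D' = fun x => ∑ k ∈ cells n, d k x := by
    funext x
    rw [hB]
  rw [hS', hB', var_Ev_sum b (l * n) _ d hdc, hmain] at hbig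
  have hfin : ∑ k ∈ cells n, Ev b (l * n) 0 (fun θ => (l : ℝ) ^ 2 * stiff l b - q k θ) =
      ((l * n : ℕ) : ℝ) ^ 2 * stiff l b - ∑ k ∈ cells n, Ev b (l * n) 0 (q k) := by
    have h1 : ∀ k ∈ cells n, Ev b (l * n) 0 (fun θ => (l : ℝ) ^ 2 * stiff l b - q k θ) =
        (l : ℝ) ^ 2 * stiff l b - Ev b (l * n) 0 (q k) := by
      intro k _
      rw [var_Ev_sub b (l * n) continuous_const (hqc k), var_Ev_const]
    rw [Finset.sum_congr rfl h1, Finset.sum_sub_distrib, Finset.sum_const, var_card]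
    push_cast
    ring
  rw [Finset.sum_sub_distrib] at hbig
  show Ev b (l * n) 0 (fun θ => (∑ k ∈ cells n, j k θ) ^ 2) +
      ∑ k ∈ cells n, Ev b (l * n) 0 (fun θ => (l : ℝ) ^ 2 * stiff l b - q k θ) = _
  rw [hfin]
  linarith only [hbig]

end Cell

/-- the total variance identity -/
theorem var_h {b : ℝ} (_hb : 0 ≤ b) {l n : ℕ} (hl : 1 ≤ l) (hn : 1 ≤ n) :
    Ev b (l * n) 0 (fun θ => (∑ k ∈ cells n, jc b l (cor l k) hh θ) ^ 2) +
      ∑ k ∈ cells n, Ev b (l * n) 0 (fun θ => (l : ℝ) ^ 2 * stiff l b -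
        qc b l (cor l k) hh θ) =
      ((l * n : ℕ) : ℝ) ^ 2 * (stiff l b - stiff (l * n) b) := by
  refine var_gen hl hh hh (fun θ => SB_split_h b hl n 0 θ) (fun θ => BB_split_h b hl n 0 θ) ?_
  rw [QQ_zero, Q_h _ _ (Nat.mul_pos hl hn)]

theorem var_v {b : ℝ} (_hb : 0 ≤ b) {l n : ℕ} (hl : 1 ≤ l) (hn : 1 ≤ n) :
    Ev b (l * n) 0 (fun θ => (∑ k ∈ cells n, jc b l (cor l k) vv θ) ^ 2) +
      ∑ k ∈ cells n, Ev b (l * n) 0 (fun θ => (l : ℝ) ^ 2 * stiff l b -
        qc b l (cor l k) vv θ) =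
      ((l * n : ℕ) : ℝ) ^ 2 * (stiff l b - stiff (l * n) b) := by
  refine var_gen hl vv vv (fun θ => SB_split_v b hl n 0 θ) (fun θ => BB_split_v b hl n 0 θ) ?_
  rw [QQ_zero, Q_v _ _ (Nat.mul_pos hl hn)]

end UJ

end Vale.Agent.P159
end
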