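import Vale.Agent.P159.Bdl.B4

set_option linter.all false

section

/-!
Exponential moments of sums of mean currents of the cells of a big block.
-/

open MeasureTheory Filter Topology
open scoped BigOperators

namespace Vale.Agent.P159

namespace UJ

namespace EB1

section Jensen

variable {G : Type*} [AddCommGroup G] [TopologicalSpace G] [IsTopologicalAddGroup G]
  [CompactSpace G] [SecondCountableTopology G] [MeasurableSpace G] [BorelSpace G]
  (μ : Measure G) [μ.IsAddHaarMeasure] [IsProbabilityMeasure μ]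

omit [SecondCountableTopology G] in
/-- Jensen inequality for the conditional expectations -/
theorem CE_jensen {P : G → G} (hP : Continuous P) {E f : G → ℝ} (hE : Continuous E)
    (hf : Continuous f) (r : ℝ) (x : G) :
    Real.exp (r * CE μ P E f x) ≤ CE μ P E (fun z => Real.exp (r * f z)) x := by
  set m := CE μ P E f x with hm
  set Z := av μ P (fun z => Real.exp (E z)) x with hZ
  have hxP : Continuous (fun y => x + P y) := continuous_const.add hP
  have hcE : Continuous (fun y => Real.exp (E (x + P y))) :=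
    Real.continuous_exp.comp (hE.comp hxP)
  have hcf : Continuous (fun y => f (x + P y)) := hf.comp hxP
  have hZpos : 0 < Z := integral_exp_pos (cint hcE)
  have hm2 : ∫ y, f (x + P y) * Real.exp (E (x + P y)) ∂μ = m * Z := by
    rw [hm]
    unfold CE
    rw [div_mul_cancel₀ _ hZpos.ne']
    rfl
  have hZ2 : ∫ y, Real.exp (E (x + P y)) ∂μ = Z := rfl
  have h1 : ∀ y, Real.exp (r * m) * ((1 - r * m) * Real.exp (E (x + P y)) +
      r * (f (x + P y) * Real.exp (E (x + P y)))) ≤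
      Real.exp (r * f (x + P y)) * Real.exp (E (x + P y)) := by
    intro y
    have h2 : r * f (x + P y) = r * m + r * (f (x + P y) - m) := by ring
    have h3 := Real.add_one_le_exp (r * (f (x + P y) - m))
    have h4 : Real.exp (r * m) * ((1 - r * m) * Real.exp (E (x + P y)) +
      r * (f (x + P y) * Real.exp (E (x + P y)))) =
      Real.exp (r * m) * (r * (f (x + P y) - m) + 1) * Real.exp (E (x + P y)) := by ring
    rw [h4, h2, Real.exp_add]
    refine mul_le_mul_of_nonneg_right ?_ (Real.exp_pos _).le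
    exact mul_le_mul_of_nonneg_left h3 (Real.exp_pos _).le
  have h5 : ∫ y, Real.exp (r * m) * ((1 - r * m) * Real.exp (E (x + P y)) +
      r * (f (x + P y) * Real.exp (E (x + P y)))) ∂μ = Real.exp (r * m) * Z := by
    have h7 : ∫ y, ((1 - r * m) * Real.exp (E (x + P y)) +
      r * (f (x + P y) * Real.exp (E (x + P y)))) ∂μ =
      (∫ y, (1 - r * m) * Real.exp (E (x + P y)) ∂μ) +
        ∫ y, r * (f (x + P y) * Real.exp (E (x + P y))) ∂μ :=
      integral_add (cint (by fun_prop)) (cint (by fun_prop))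
    rw [integral_const_mul, h7, integral_const_mul, integral_const_mul, hm2, hZ2]
    ring
  have h6 : Real.exp (r * m) * Z ≤ ∫ y, Real.exp (r * f (x + P y)) * Real.exp (E (x + P y)) ∂μ := by
    rw [← h5]
    exact integral_mono (cint (by fun_prop)) (cint (by fun_prop)) h1
  unfold CE
  rw [← hZ, le_div_iff₀ hZpos]
  exact h6

end Jensen

/-- the interior of a cell does not meet the other closed cells -/
theorem notMem_inB {l : ℕ} {a k z : ℤ × ℤ} (hak : a ≠ k) (hz : z ∈ clB l (cor l k)) :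
    z ∉ inB l (cor l a) := by
  intro h
  simp only [inB, inner, Set.mem_ofPred_eq, Finset.coe_Icc, Set.mem_Icc, Prod.le_def, cor,
    Prod.fst_sub, Prod.snd_sub] at h
  simp only [clB, Set.mem_ofPred_eq, cor, Prod.fst_sub, Prod.snd_sub] at hz
  apply hak
  obtain ⟨⟨h1, h2⟩, h3, h4⟩ := h
  obtain ⟨h5, h6, h7, h8⟩ := hz
  have e1 : a.1 = k.1 := by
    have c1 : (l : ℤ) * (k.1 - a.1) < l * 1 := by linarith
    have c2 : (l : ℤ) * (a.1 - k.1) < l * 1 := by linarith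
    have d1 := lt_of_mul_lt_mul_left c1 (by positivity)
    have d2 := lt_of_mul_lt_mul_left c2 (by positivity)
    omega
  have e2 : a.2 = k.2 := by
    have c1 : (l : ℤ) * (k.2 - a.2) < l * 1 := by linarith
    have c2 : (l : ℤ) * (a.2 - k.2) < l * 1 := by linarith
    have d1 := lt_of_mul_lt_mul_left c1 (by positivity)
    have d2 := lt_of_mul_lt_mul_left c2 (by positivity)
    omega
  exact Prod.ext e1 e2

/-- the interiors of the cells are contained in the interior of the big block -/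
theorem inB_sub {l n : ℕ} {k : ℤ × ℤ} (hk : k ∈ cells n) : inB l (cor l k) ⊆ inB (l * n) 0 := by
  intro z h
  simp only [inB, inner, Set.mem_ofPred_eq, Finset.coe_Icc, Set.mem_Icc, Prod.le_def, cor,
    Prod.fst_sub, Prod.snd_sub] at h
  simp only [inB, inner, Set.mem_ofPred_eq, Finset.coe_Icc, Set.mem_Icc, Prod.le_def, sub_zero]
  simp only [cells, Finset.mem_product, Finset.mem_Ico] at hk
  obtain ⟨⟨h1, h2⟩, h3, h4⟩ := h
  obtain ⟨⟨k1, k2⟩, k3, k4⟩ := hk
  have c0 : (0 : ℤ) ≤ l := by positivity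
  have c1 : (0 : ℤ) ≤ (l : ℤ) * k.1 := mul_nonneg c0 k1
  have c2 : (0 : ℤ) ≤ (l : ℤ) * k.2 := mul_nonneg c0 k3
  have c3 : (l : ℤ) * (k.1 + 1) ≤ (l : ℤ) * n := mul_le_mul_of_nonneg_left (by omega) c0
  have c4 : (l : ℤ) * (k.2 + 1) ≤ (l : ℤ) * n := mul_le_mul_of_nonneg_left (by omega) c0
  push_cast
  refine ⟨⟨by linarith, by linarith⟩, by linarith, by linarith⟩

theorem add_PB_off {l : ℕ} {a k z : ℤ × ℤ} (hak : a ≠ k) (hz : z ∈ clB l (cor l k))
    (x y : Ginf) : (x + PB l (cor l a) y) z = x z := by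
  rw [Pi.add_apply]
  unfold PB
  rw [proj_of_notMem (notMem_inB hak hz), add_zero]

theorem EB_off (b : ℝ) {l : ℕ} {a k : ℤ × ℤ} (hak : a ≠ k) (x y : Ginf) :
    EB b l (cor l k) (x + PB l (cor l a) y) = EB b l (cor l k) x :=
  EB_congr fun _ hz => add_PB_off hak hz x y

theorem SB_off (b : ℝ) {l : ℕ} {a k : ℤ × ℤ} (hak : a ≠ k) (h : BI l → ℝ) (x y : Ginf) :
    SB b l (cor l k) h (x + PB l (cor l a) y) = SB b l (cor l k) h x :=
  SB_congr fun _ hz => add_PB_off hak hz x y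

theorem jc_off (b : ℝ) {l : ℕ} {a k : ℤ × ℤ} (hak : a ≠ k) (h : BI l → ℝ) (x y : Ginf) :
    jc b l (cor l k) h (x + PB l (cor l a) y) = jc b l (cor l k) h x :=
  jc_congr fun _ hz _ => add_PB_off hak hz x y

theorem PB_cont (s : ℕ) (c : ℤ × ℤ) : Continuous (PB s c) := proj_cont _

/-- replace the mean currents by the currents -/
theorem replace (b : ℝ) {l n : ℕ} (hl : 1 ≤ l) (h : BI l → ℝ) (r : ℝ) (S : Finset (ℤ × ℤ)) :
    S ⊆ cells n → ∀ g : Ginf → ℝ, Continuous g → (∀ x, 0 ≤ g x) →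
      (∀ k ∈ S, ∀ x y, g (x + PB l (cor l k) y) = g x) →
      ∫ x, g x * Real.exp (r * ∑ k ∈ S, jc b l (cor l k) h x) *
        Real.exp (EB b (l * n) 0 x) ∂(nu (l * n) 0) ≤
      ∫ x, g x * Real.exp (r * ∑ k ∈ S, SB b l (cor l k) h x) *
        Real.exp (EB b (l * n) 0 x) ∂(nu (l * n) 0) := by
  classical
  induction S using Finset.induction_on with
  | empty => intro _ g _ _ _; simp
  | insert a S ha ih =>
    intro hS g hg hg0 hginv
    have haS : a ∈ cells n := hS (Finset.mem_insert_self a S)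
    have hS' : S ⊆ cells n := fun k hk => hS (Finset.mem_insert_of_mem hk)
    have hne : ∀ k ∈ S, k ≠ a := fun k hk h => ha (h ▸ hk)
    have hcE := EB_cont b (l * n) 0
    have hcs := SB_cont b l (cor l a) h
    have hcS : Continuous (fun x => ∑ k ∈ S, jc b l (cor l k) h x) :=
      continuous_finsetSum _ fun k _ => jc_cont b l (cor l k) h
    have hcS2 : Continuous (fun x => ∑ k ∈ S, SB b l (cor l k) h x) :=
      continuous_finsetSum _ fun k _ => SB_cont b l (cor l k) h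
    have hcja := jc_cont b l (cor l a) h
    have hcEa := EB_cont b l (cor l a)
    -- weight of the other cells
    set w : Ginf → ℝ := fun x => Real.exp (∑ k ∈ (cells n).erase a, EB b l (cor l k) x) with hw
    have hwc : Continuous w := Real.continuous_exp.comp
      (continuous_finsetSum _ fun k _ => EB_cont b l (cor l k))
    have hwE : ∀ x, Real.exp (EB b (l * n) 0 x) = w x * Real.exp (EB b l (cor l a) x) := by
      intro x
      rw [hw, EB_split b hl n 0 x, ← Real.exp_add]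
      congr 1
      simp only [zero_add]
      rw [Finset.sum_erase_add _ _ haS]
    have hwinv : ∀ x y, w (x + PB l (cor l a) y) = w x := by
      intro x y
      simp only [hw]
      congr 1
      refine Finset.sum_congr rfl fun k hk => EB_off b (Finset.ne_of_mem_erase hk).symm x y
    set G : Ginf → ℝ := fun x => g x * Real.exp (r * ∑ k ∈ S, jc b l (cor l k) h x) with hG
    have hGc : Continuous G := hg.mul (Real.continuous_exp.comp (continuous_const.mul hcS))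
    have hGinv : ∀ x y, G (x + PB l (cor l a) y) = G x := by
      intro x y
      simp only [hG]
      rw [hginv a (Finset.mem_insert_self a S) x y]
      congr 3
      exact Finset.sum_congr rfl fun k hk => jc_off b (hne k hk).symm h x y
    have hG0 : ∀ x, 0 ≤ G x := fun x => mul_nonneg (hg0 x) (Real.exp_pos _).le
    have hfc : Continuous (fun z => Real.exp (r * SB b l (cor l a) h z)) :=
      Real.continuous_exp.comp (continuous_const.mul hcs)
    have hCEc := CE_cont muInf (PB_cont l (cor l a)) hcEa hfc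
    have h1 : ∫ x, g x * Real.exp (r * ∑ k ∈ insert a S, jc b l (cor l k) h x) *
        Real.exp (EB b (l * n) 0 x) ∂(nu (l * n) 0) ≤
        ∫ x, G x * CE muInf (PB l (cor l a)) (EB b l (cor l a))
          (fun z => Real.exp (r * SB b l (cor l a) h z)) x *
          (w x * Real.exp (EB b l (cor l a) x)) ∂(nu (l * n) 0) := by
      refine integral_mono (cint ?_) (cint ?_) fun x => ?_
      · refine (hg.mul (Real.continuous_exp.comp (continuous_const.mul
          (continuous_finsetSum _ fun k _ => jc_cont b l (cor l k) h)))).mul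
          (Real.continuous_exp.comp hcE)
      · exact (hGc.mul hCEc).mul (hwc.mul (Real.continuous_exp.comp hcEa))
      · show g x * Real.exp (r * ∑ k ∈ insert a S, jc b l (cor l k) h x) *
          Real.exp (EB b (l * n) 0 x) ≤ _
        rw [hwE x]
        refine mul_le_mul_of_nonneg_right ?_ (mul_nonneg (Real.exp_pos _).le (Real.exp_pos _).le)
        have h2 : g x * Real.exp (r * ∑ k ∈ insert a S, jc b l (cor l k) h x) =
            G x * Real.exp (r * jc b l (cor l a) h x) := by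
          rw [Finset.sum_insert ha, hG, mul_add, Real.exp_add]
          ring
        rw [h2]
        exact mul_le_mul_of_nonneg_left
          (CE_jensen muInf (PB_cont l (cor l a)) hcEa hcs r x) (hG0 x)
    have h3 := CE_int muInf (PB_cont l (cor l a)) (nu_inv (inB_sub haS) 0) hcEa hfc hGc hwc hGinv
      hwinv
    have h4 := ih hS' (fun x => g x * Real.exp (r * SB b l (cor l a) h x))
      (hg.mul hfc) (fun x => mul_nonneg (hg0 x) (Real.exp_pos _).le) (by
        intro k hk x y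
        show g (x + PB l (cor l k) y) * Real.exp (r * SB b l (cor l a) h (x + PB l (cor l k) y)) =
          _
        rw [hginv k (Finset.mem_insert_of_mem hk) x y, SB_off b (hne k hk) h x y])
    refine h1.trans ?_
    rw [h3]
    have e1 : ∀ x, G x * Real.exp (r * SB b l (cor l a) h x) *
        (w x * Real.exp (EB b l (cor l a) x)) = g x * Real.exp (r * SB b l (cor l a) h x) *
        Real.exp (r * ∑ k ∈ S, jc b l (cor l k) h x) * Real.exp (EB b (l * n) 0 x) := by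
      intro x
      rw [← hwE x, hG]
      ring
    have e2 : ∀ x, g x * Real.exp (r * ∑ k ∈ insert a S, SB b l (cor l k) h x) *
        Real.exp (EB b (l * n) 0 x) = g x * Real.exp (r * SB b l (cor l a) h x) *
        Real.exp (r * ∑ k ∈ S, SB b l (cor l k) h x) * Real.exp (EB b (l * n) 0 x) := by
      intro x
      rw [Finset.sum_insert ha, mul_add, Real.exp_add]
      ring
    simp_rw [e1, e2]
    exact h4

/-- the bond variables of the big block, listed cell by cell -/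
noncomputable def chB (l n : ℕ) (p : {k // k ∈ cells n} × BI l) : Chr Ginf :=
  (grad (cor l (p.1 : ℤ × ℤ) + bu p.2) (cor l (p.1 : ℤ × ℤ) + bv p.2)).comp (PB (l * n) 0)
    (PB_cont (l * n) 0)

open Classical in
/-- the exponential of the energy plus currents, integrated -/
theorem bound3 {b : ℝ} (hb : 0 ≤ b) {l n : ℕ} (hl : 1 ≤ l) (S : Finset (ℤ × ℤ))
    (hS : S ⊆ cells n) (h : BI l → ℝ) (r : ℝ) :
    ∫ x, Real.exp (r * ∑ k ∈ S, SB b l (cor l k) h (PB (l * n) 0 x)) *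
        Real.exp (EB b (l * n) 0 (PB (l * n) 0 x)) ∂muInf ≤
      Real.exp (r ^ 2 / 2 * ∑ _k ∈ S, ∑ e : BI l, b / 2 * h e ^ 2) *
        ∫ x, Real.exp (EB b (l * n) 0 (PB (l * n) 0 x)) ∂muInf := by
  set u : {k // k ∈ cells n} × BI l → ℝ := fun p => if (p.1 : ℤ × ℤ) ∈ S then r * h p.2 else 0
    with hu
  set J' : {k // k ∈ cells n} × BI l → ℝ := fun p => b / 2 * Real.sqrt (1 + u p ^ 2) with hJ'
  set t : {k // k ∈ cells n} × BI l → ℝ := fun p => - Real.arctan (u p) with ht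
  have hsum : ∀ f : ℤ × ℤ → BI l → ℝ, ∑ p : {k // k ∈ cells n} × BI l, f (p.1 : ℤ × ℤ) p.2 =
      ∑ k ∈ cells n, ∑ e, f k e := by
    intro f
    rw [Fintype.sum_prod_type, ← Finset.sum_coe_sort (cells n)]
  have hE : ∀ x : Ginf, EB b (l * n) 0 (PB (l * n) 0 x) =
      ∑ p : {k // k ∈ cells n} × BI l, b / 2 * (chB l n p).c x := by
    intro x
    rw [EB_split b hl n 0]
    simp only [zero_add]
    have := hsum (fun k e => b / 2 * cosT (PB (l * n) 0 x (cor l k + bu e) -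
      PB (l * n) 0 x (cor l k + bv e)))
    unfold EB
    rw [← this]
    rfl
  have hSS : ∀ x : Ginf, r * ∑ k ∈ S, SB b l (cor l k) h (PB (l * n) 0 x) =
      ∑ p : {k // k ∈ cells n} × BI l, b / 2 * u p * (chB l n p).s x := by
    intro x
    have h1 := hsum (fun k e => b / 2 * (if k ∈ S then r * h e else 0) *
      sinT (PB (l * n) 0 x (cor l k + bu e) - PB (l * n) 0 x (cor l k + bv e)))
    have h2 : ∑ p : {k // k ∈ cells n} × BI l, b / 2 * u p * (chB l n p).s x =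
        ∑ k ∈ cells n, ∑ e, b / 2 * (if k ∈ S then r * h e else 0) *
      sinT (PB (l * n) 0 x (cor l k + bu e) - PB (l * n) 0 x (cor l k + bv e)) := by
      rw [← h1]
      rfl
    rw [h2, Finset.mul_sum, ← Finset.sum_subset hS]
    · refine Finset.sum_congr rfl fun k hk => ?_
      unfold SB
      rw [Finset.mul_sum]
      refine Finset.sum_congr rfl fun e _ => ?_
      rw [if_pos hk]
      ring
    · intro k _ hk
      refine Finset.sum_eq_zero fun e _ => ?_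
      rw [if_neg hk]
      ring
  have hsq : ∀ p, 0 < Real.sqrt (1 + u p ^ 2) := fun p => Real.sqrt_pos.2 (by positivity)
  have hJ0 : ∀ p, 0 ≤ J' p := fun p => mul_nonneg (by linarith only [hb]) (hsq p).le
  have hZ : Zr muInf J' (chB l n) t =
      ∫ x, Real.exp (r * ∑ k ∈ S, SB b l (cor l k) h (PB (l * n) 0 x)) *
        Real.exp (EB b (l * n) 0 (PB (l * n) 0 x)) ∂muInf := by
    unfold Zr
    congr 1
    ext x
    rw [← Real.exp_add, hE, hSS, ← Finset.sum_add_distrib]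
    congr 1
    refine Finset.sum_congr rfl fun p _ => ?_
    simp only [hJ', ht]
    rw [Real.cos_neg, Real.sin_neg, Real.cos_arctan, Real.sin_arctan]
    have := (hsq p).ne'
    field_simp
    ring
  have hle := Zr_le muInf J' (chB l n) pi_div2 hJ0 t
  rw [hZ] at hle
  refine hle.trans ?_
  have hcE : Continuous (fun x => Real.exp (EB b (l * n) 0 (PB (l * n) 0 x))) :=
    Real.continuous_exp.comp ((EB_cont b (l * n) 0).comp (PB_cont (l * n) 0))
  rw [← integral_const_mul]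
  unfold Zr
  refine integral_mono (cint (Zr_cont_integrand J' (chB l n) 0)) (cint (by fun_prop))
    fun x => ?_
  show Real.exp (∑ p, J' p * ((chB l n p).c x * Real.cos ((0 : {k // k ∈ cells n} × BI l → ℝ) p) -
    (chB l n p).s x * Real.sin ((0 : {k // k ∈ cells n} × BI l → ℝ) p))) ≤ _
  rw [← Real.exp_add, hE]
  refine Real.exp_le_exp.2 ?_
  have hR : r ^ 2 / 2 * ∑ _k ∈ S, ∑ e : BI l, b / 2 * h e ^ 2 =
      ∑ p : {k // k ∈ cells n} × BI l, b / 2 * (u p ^ 2 / 2) := by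
    have h1 := hsum (fun k e => b / 2 * ((if k ∈ S then r * h e else 0) ^ 2 / 2))
    have h2 : ∑ p : {k // k ∈ cells n} × BI l, b / 2 * (u p ^ 2 / 2) =
        ∑ k ∈ cells n, ∑ e, b / 2 * ((if k ∈ S then r * h e else 0) ^ 2 / 2) := by
      rw [← h1]
    rw [h2, Finset.mul_sum, ← Finset.sum_subset hS]
    · refine Finset.sum_congr rfl fun k hk => ?_
      rw [Finset.mul_sum]
      refine Finset.sum_congr rfl fun e _ => ?_
      rw [if_pos hk]
      ring
    · intro k _ hk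
      refine Finset.sum_eq_zero fun e _ => ?_
      rw [if_neg hk]
      ring
  rw [hR, ← Finset.sum_add_distrib]
  refine Finset.sum_le_sum fun p _ => ?_
  rw [Pi.zero_apply, Real.cos_zero, Real.sin_zero]
  have hc : (chB l n p).c x ≤ 1 := (abs_le.1 ((chB l n p).abs_c_le x)).2
  have hs1 : Real.sqrt (1 + u p ^ 2) ≤ 1 + u p ^ 2 / 2 := by
    rw [Real.sqrt_le_left (by positivity)]
    nlinarith only []
  have hs2 : 1 ≤ Real.sqrt (1 + u p ^ 2) := by
    rw [Real.one_le_sqrt]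
    nlinarith only []
  have hb2 : 0 ≤ b / 2 := by linarith
  have h3 : (Real.sqrt (1 + u p ^ 2) - 1) * (chB l n p).c x ≤
      (Real.sqrt (1 + u p ^ 2) - 1) * 1 := mul_le_mul_of_nonneg_left hc (by linarith)
  have h4 : Real.sqrt (1 + u p ^ 2) * (chB l n p).c x ≤ u p ^ 2 / 2 + (chB l n p).c x := by
    nlinarith only [hs1, h3]
  calc J' p * ((chB l n p).c x * 1 - (chB l n p).s x * 0)
      = b / 2 * (Real.sqrt (1 + u p ^ 2) * (chB l n p).c x) := by
        simp only [hJ']; ring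
    _ ≤ b / 2 * (u p ^ 2 / 2 + (chB l n p).c x) := mul_le_mul_of_nonneg_left h4 hb2
    _ = b / 2 * (u p ^ 2 / 2) + b / 2 * (chB l n p).c x := by ring

end EB1

/-- exponential moments of sums of mean currents -/
theorem exp_bound {b : ℝ} (hb : 0 ≤ b) {l n : ℕ} (hl : 1 ≤ l) (S : Finset (ℤ × ℤ))
    (hS : S ⊆ cells n) (h : BI l → ℝ) (r : ℝ) :
    Ev b (l * n) 0 (fun θ => Real.exp (r * ∑ k ∈ S, jc b l (cor l k) h θ)) ≤
      Real.exp (r ^ 2 / 2 * ∑ _k ∈ S, ∑ e : BI l, b / 2 * h e ^ 2) := by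
  have hW : WB b (l * n) 0 0 = ∫ x, Real.exp (EB b (l * n) 0 (PB (l * n) 0 x)) ∂muInf := by
    unfold WB av
    simp only [zero_add]
  have hWpos := WB_pos b (l * n) 0 0
  unfold Ev
  rw [div_le_iff₀ hWpos]
  have h1 := EB1.replace b hl h r S hS (fun _ => 1) continuous_const (fun _ => zero_le_one)
    (fun _ _ _ _ => rfl)
  simp only [one_mul] at h1
  refine h1.trans ?_
  have hc : Continuous (fun x => Real.exp (r * ∑ k ∈ S, SB b l (cor l k) h x) *
      Real.exp (EB b (l * n) 0 x)) :=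
    (Real.continuous_exp.comp (continuous_const.mul (continuous_finsetSum _ fun k _ =>
      SB_cont b l (cor l k) h))).mul (Real.continuous_exp.comp (EB_cont b (l * n) 0))
  rw [int_nu (l * n) 0 hc, hW]
  simp only [zero_add]
  exact EB1.bound3 hb hl S hS h r

end UJ

end Vale.Agent.P159
end

section

/-!
Expansion of the mean current and of the weight of one cell.
-/

open MeasureTheory Filter Topology
open scoped BigOperators

namespace Vale.Agent.P159

namespace UJ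

/-- average of `a` with respect to a `0,1` valued weight of total mass `N` -/
theorem avg_facts {κ : Type*} [Fintype κ] (w a : κ → ℝ) (hw : ∀ e, w e = 0 ∨ w e = 1) {N : ℝ}
    (hN : 0 < N) (hsum : ∑ e, w e = N) {Y R : ℝ} (ha : ∀ e, |a e| ≤ Y)
    (hR : ∀ e e', w e = 1 → w e' = 1 → |a e - a e'| ≤ R) {xi : ℝ} (hxi : N * xi = ∑ e, w e * a e) :
    |xi| ≤ Y ∧ (∀ e, w e = 1 → |a e - xi| ≤ R) ∧ N * xi ^ 2 ≤ ∑ e, w e * a e ^ 2 := by
  have hw0 : ∀ e, 0 ≤ w e := by
    intro e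
    rcases hw e with h | h
    · rw [h]
    · rw [h]; norm_num
  refine ⟨?_, ?_, ?_⟩
  · have h1 : |N * xi| ≤ N * Y := by
      rw [hxi, ← hsum, Finset.sum_mul]
      refine (Finset.abs_sum_le_sum_abs _ _).trans (Finset.sum_le_sum fun e _ => ?_)
      rw [abs_mul, abs_of_nonneg (hw0 e)]
      exact mul_le_mul_of_nonneg_left (ha e) (hw0 e)
    rw [abs_mul, abs_of_pos hN] at h1
    exact le_of_mul_le_mul_left h1 hN
  · intro e he
    have h0 : N * (a e - xi) = ∑ e', w e' * (a e - a e') := by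
      simp only [mul_sub, Finset.sum_sub_distrib]
      rw [← Finset.sum_mul, hsum, hxi]
    have h1 : |N * (a e - xi)| ≤ N * R := by
      rw [h0, ← hsum, Finset.sum_mul]
      refine (Finset.abs_sum_le_sum_abs _ _).trans (Finset.sum_le_sum fun e' _ => ?_)
      rw [abs_mul, abs_of_nonneg (hw0 e')]
      rcases hw e' with h | h
      · rw [h]; simp
      · exact mul_le_mul_of_nonneg_left (hR e e' he h) (hw0 e')
    rw [abs_mul, abs_of_pos hN] at h1
    exact le_of_mul_le_mul_left h1 hN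
  · have h0 : 0 ≤ ∑ e, w e * (a e - xi) ^ 2 :=
      Finset.sum_nonneg fun e _ => mul_nonneg (hw0 e) (sq_nonneg _)
    have h1 : ∑ e, w e * (a e - xi) ^ 2 = ∑ e, w e * a e ^ 2 - N * xi ^ 2 := by
      have e1 : ∀ e, w e * (a e - xi) ^ 2 = w e * a e ^ 2 - 2 * xi * (w e * a e) +
          w e * xi ^ 2 := fun e => by ring
      simp only [e1, Finset.sum_add_distrib, Finset.sum_sub_distrib]
      rw [← Finset.mul_sum, ← Finset.sum_mul, hsum, ← hxi]
      ring
    linarith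

theorem sum_hh_one (l : ℕ) : ∑ e : BI l, hh e = 2 * (l : ℝ) ^ 2 := by
  rw [sum_BI]
  simp only [hh, Bool.false_eq_true, ↓reduceIte, add_zero, Finset.sum_const, Finset.card_univ, Fintype.card_fin, smul_add, nsmul_eq_mul, mul_one]
  ring

theorem sum_vv_one (l : ℕ) : ∑ e : BI l, vv e = 2 * (l : ℝ) ^ 2 := by
  rw [sum_BI]
  simp only [vv, Bool.false_eq_true, ↓reduceIte, add_zero, zero_add, Finset.sum_const, Finset.card_univ, Fintype.card_fin, smul_add, nsmul_eq_mul, mul_one]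
  ring

theorem hh01 {l : ℕ} (e : BI l) : hh e = 0 ∨ hh e = 1 := by
  unfold hh; split_ifs <;> simp

theorem vv01 {l : ℕ} (e : BI l) : vv e = 0 ∨ vv e = 1 := by
  unfold vv; split_ifs <;> simp

theorem decomp {l : ℕ} (hl : 1 ≤ l) {a : BI l → ℝ} {Y R : ℝ} (ha : ∀ e, |a e| ≤ Y)
    (hR : ∀ e e', hh e = hh e' → |a e - a e'| ≤ R) : ∃ xi1 xi2 : ℝ, ∃ r : BI l → ℝ,
      a = xi1 • hh + (xi2 • vv + r) ∧ |xi1| ≤ Y ∧ |xi2| ≤ Y ∧ (∀ e, |r e| ≤ R) ∧
      (l : ℝ) ^ 2 * xi1 = ∑ e, 1 / 2 * hh e * a e ∧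
      (l : ℝ) ^ 2 * xi2 = ∑ e, 1 / 2 * vv e * a e ∧
      (l : ℝ) ^ 2 * (xi1 ^ 2 + xi2 ^ 2) ≤ 1 / 2 * ∑ e, a e ^ 2 := by
  have hl0 : (0 : ℝ) < (l : ℝ) := by exact_mod_cast hl
  have hN : (0 : ℝ) < 2 * (l : ℝ) ^ 2 := by positivity
  obtain ⟨xi1, hxi1⟩ : ∃ xi, 2 * (l : ℝ) ^ 2 * xi = ∑ e, hh e * a e :=
    ⟨(∑ e, hh e * a e) / (2 * (l : ℝ) ^ 2), by field_simp⟩
  obtain ⟨xi2, hxi2⟩ : ∃ xi, 2 * (l : ℝ) ^ 2 * xi = ∑ e, vv e * a e :=
    ⟨(∑ e, vv e * a e) / (2 * (l : ℝ) ^ 2), by field_simp⟩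
  obtain ⟨p1, p2, p3⟩ := avg_facts hh a hh01 hN (sum_hh_one l) ha
    (fun e e' h h' => hR e e' (h.trans h'.symm)) hxi1
  obtain ⟨q1, q2, q3⟩ := avg_facts vv a vv01 hN (sum_vv_one l) ha
    (fun e e' h h' => hR e e' (by
      have h1 := hh_add_vv e
      have h2 := hh_add_vv e'
      linarith only [h, h', h1, h2])) hxi2
  refine ⟨xi1, xi2, fun e => a e - xi1 * hh e - xi2 * vv e, ?_, p1, q1, ?_, ?_, ?_, ?_⟩
  · funext e
    simp only [Pi.add_apply, Pi.smul_apply, smul_eq_mul]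
    ring
  · intro e
    have h1 := hh_add_vv e
    rcases hh01 e with h | h
    · have h2 : vv e = 1 := by linarith only [h1, h]
      have := q2 e h2
      simp only [h, h2]
      simpa using this
    · have h2 : vv e = 0 := by linarith only [h1, h]
      have := p2 e h
      simp only [h, h2]
      simpa using this
  · have : ∑ e, 1 / 2 * hh e * a e = 1 / 2 * ∑ e, hh e * a e := by
      rw [Finset.mul_sum]; exact Finset.sum_congr rfl fun e _ => by ring
    rw [this, ← hxi1]; ring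
  · have : ∑ e, 1 / 2 * vv e * a e = 1 / 2 * ∑ e, vv e * a e := by
      rw [Finset.mul_sum]; exact Finset.sum_congr rfl fun e _ => by ring
    rw [this, ← hxi2]; ring
  · have : ∑ e, a e ^ 2 = ∑ e, hh e * a e ^ 2 + ∑ e, vv e * a e ^ 2 := by
      rw [← Finset.sum_add_distrib]
      refine Finset.sum_congr rfl fun e _ => ?_
      rw [← add_mul, hh_add_vv, one_mul]
    rw [this]
    nlinarith only [p3, q3]

theorem abs_hh_le {l : ℕ} (e : BI l) : |hh e| ≤ 1 := by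
  rcases hh01 e with h | h <;> rw [h] <;> norm_num

theorem abs_vv_le {l : ℕ} (e : BI l) : |vv e| ≤ 1 := by
  rcases vv01 e with h | h <;> rw [h] <;> norm_num

theorem Q0_h (l : ℕ) (b : ℝ) (hl : 1 ≤ l) :
    QQ muInf (fun _ => b / 2) (chi0 l) 0 hh hh = (l : ℝ) ^ 2 * stiff l b := by
  rw [QQ_zero, Q_h l b hl]

theorem Q0_v (l : ℕ) (b : ℝ) (hl : 1 ≤ l) :
    QQ muInf (fun _ => b / 2) (chi0 l) 0 vv vv = (l : ℝ) ^ 2 * stiff l b := by
  rw [QQ_zero, Q_v l b hl]

theorem Q0_hv (l : ℕ) (b : ℝ) :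
    QQ muInf (fun _ => b / 2) (chi0 l) 0 hh vv = 0 := by
  unfold QQ
  rw [jm_zero, zero_mul, add_zero, ex_zero, ex_zero]
  have h1 : Bt (fun _ => b / 2) (chi0 l) 0 hh vv = fun _ => 0 := by
    funext x
    unfold Bt
    refine Finset.sum_eq_zero fun e _ => ?_
    have : hh e * vv e = 0 := by unfold hh vv; split_ifs <;> simp
    rw [this]; ring
  have h2 : (fun x => Jt (fun _ => b / 2) (chi0 l) 0 hh x * Jt (fun _ => b / 2) (chi0 l) 0 vv x) =
      fun x => (∑ e : BI l, b / 2 * hh e * (chi0 l e).s x) *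
      (∑ e : BI l, b / 2 * vv e * (chi0 l e).s x) := by
    funext x
    unfold Jt
    simp only [St_zero]
  rw [h1, h2, cross_zero]
  unfold gibbs
  simp only [zero_mul, integral_zero, zero_div, sub_self]

theorem stiff_nonneg' {b : ℝ} (hb : 0 ≤ b) {l : ℕ} (hl : 1 ≤ l) : 0 ≤ stiff l b := by
  have hJ : ∀ _ : BI l, 0 ≤ (fun _ : BI l => b / 2) ‹_› := fun _ => by positivity
  have h1 := lowerZ muInf (fun _ => b / 2) (chi0 l) pi_div2 hJ hh
  have h2 := Zr_le muInf (fun _ => b / 2) (chi0 l) pi_div2 hJ hh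
  have h3 := Zr_pos muInf (fun _ => b / 2) (chi0 l) 0
  have h4 : Real.exp (-(QQ muInf (fun _ => b / 2) (chi0 l) 0 hh hh) / 2) ≤ 1 :=
    h1.trans (by rw [div_le_one h3]; exact h2)
  rw [Real.exp_le_one_iff, Q0_h l b hl] at h4
  have hl0 : (0 : ℝ) < (l : ℝ) := by exact_mod_cast hl
  have h5 : 0 ≤ (l : ℝ) ^ 2 * stiff l b := by linarith only [h4]
  exact nonneg_of_mul_nonneg_right h5 (by positivity)

theorem rep_exists {l : ℕ} (c : ℤ × ℤ) (x : Ginf) : ∃ t : BI l → ℝ,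
    ∀ e, ((t e : ℝ) : T) = x (c + bu e) - x (c + bv e) := by
  have : ∀ e : BI l, ∃ t : ℝ, ((t : ℝ) : T) = x (c + bu e) - x (c + bv e) := fun e =>
    QuotientAddGroup.mk_surjective _
  exact ⟨fun e => (this e).choose, fun e => (this e).choose_spec⟩

/-- the algebra behind the expansion of the current -/
theorem curr_alg {st xi1 xi2 Y R Qth Qtv Qtr L2 CQ s1 : ℝ} (hY : 0 ≤ Y)
    (h1 : |xi1| ≤ Y) (h2 : |xi2| ≤ Y) {Dh Dv : ℝ} (hDh : Dh = L2 * st - Qth) (hDh0 : 0 ≤ Dh)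
    (hDv0 : 0 ≤ Dv) (hv : |Qtv| ≤ (Dh + Dv) / 2) (hr : |Qtr| ≤ CQ * R)
    (hs1 : L2 * xi1 = s1) :
    |xi1 * Qth + (xi2 * Qtv + Qtr) - st * s1| ≤ 2 * Y * (Dh + Dv) + CQ * R := by
  have e1 : xi1 * Qth + (xi2 * Qtv + Qtr) - st * s1 = -(xi1 * Dh) + (xi2 * Qtv + Qtr) := by
    rw [hDh, ← hs1]; ring
  rw [e1]
  have a1 : |-(xi1 * Dh)| ≤ Y * Dh := by
    rw [abs_neg, abs_mul, abs_of_nonneg hDh0]
    exact mul_le_mul_of_nonneg_right h1 hDh0
  have a2 : |xi2 * Qtv| ≤ Y * ((Dh + Dv) / 2) := by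
    rw [abs_mul]
    exact mul_le_mul h2 hv (abs_nonneg _) hY
  have a3 := abs_add_le (-(xi1 * Dh)) (xi2 * Qtv + Qtr)
  have a4 := abs_add_le (xi2 * Qtv) Qtr
  nlinarith only [hr, a1, a2, a3, a4, mul_nonneg hY hDh0, mul_nonneg hY hDv0]

theorem cell_current {b : ℝ} (hb : 0 < b) {l : ℕ} (hl : 1 ≤ l) : ∃ C Y0 : ℝ, 0 ≤ C ∧ 0 < Y0 ∧
    ∀ (c : ℤ × ℤ) (x α : Ginf) (a : BI l → ℝ) (Y R : ℝ), 0 ≤ Y → Y ≤ Y0 → 0 ≤ R →
      (∀ e, ((a e : ℝ) : T) = α (c + bu e) - α (c + bv e)) → (∀ e, |a e| ≤ Y) →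
      (∀ e e', hh e = hh e' → |a e - a e'| ≤ R) →
      |jc b l c hh (x + α) - jc b l c hh x - stiff l b * ∑ e, 1 / 2 * hh e * a e| ≤
        2 * Y * (((l : ℝ) ^ 2 * stiff l b - qc b l c hh x) +
          ((l : ℝ) ^ 2 * stiff l b - qc b l c vv x)) + C * (R + Y ^ 2) ∧
      |jc b l c vv (x + α) - jc b l c vv x - stiff l b * ∑ e, 1 / 2 * vv e * a e| ≤
        2 * Y * (((l : ℝ) ^ 2 * stiff l b - qc b l c hh x) +
          ((l : ℝ) ^ 2 * stiff l b - qc b l c vv x)) + C * (R + Y ^ 2) := by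
  have hJ : ∀ _ : BI l, 0 ≤ b / 2 := fun _ => by positivity
  obtain ⟨S, hS⟩ : ∃ S, S = ∑ _e : BI l, b / 2 := ⟨_, rfl⟩
  have hS0 : 0 ≤ S := by rw [hS]; exact Finset.sum_nonneg fun e _ => hJ e
  have hc4 : 0 ≤ c4 S := by unfold c4; positivity
  have hK4 : 0 ≤ K4 S := by unfold K4; positivity
  refine ⟨K4 S + (S + 2 * S ^ 2), 1 / (2 + 6 * S + 2 * c4 S), by positivity, by positivity, ?_⟩
  intro c x α a Y R hY hYY hR haα ha hRa
  rw [le_div_iff₀ (by positivity)] at hYY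
  have n1 := mul_nonneg hY hS0
  have n2 := mul_nonneg hY hc4
  have hY1 : Y ≤ 1 := by nlinarith only [hYY, n1, n2]
  have hSY : 6 * S * Y ≤ 1 := by nlinarith only [hY, hYY, n2]
  have hsm : S * Y + c4 S * Y ^ 2 ≤ 1 / 2 := by
    have : Y ^ 2 ≤ Y := by nlinarith only [hS0, hc4, hY, hYY]
    nlinarith only [hYY, n1, this, mul_le_mul_of_nonneg_left this hc4]
  obtain ⟨t, ht⟩ := rep_exists (l := l) c x
  have hta : ∀ e, (((t + a) e : ℝ) : T) = (x + α) (c + bu e) - (x + α) (c + bv e) := by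
    intro e
    rw [Pi.add_apply, AddCircle.coe_add, ht, haα, Pi.add_apply, Pi.add_apply]
    abel
  rw [jc_eq hta, jc_eq ht, jc_eq hta, jc_eq ht, qc_eq ht, qc_eq ht]
  have x1 := jm_expand muInf (fun _ => b / 2) (chi0 l) hJ (t := t) (a := a) (h := hh) hY hY1
    (by rw [← hS]; exact hSY) (by rw [← hS]; exact hsm) ha abs_hh_le
  have x2 := jm_expand muInf (fun _ => b / 2) (chi0 l) hJ (t := t) (a := a) (h := vv) hY hY1
    (by rw [← hS]; exact hSY) (by rw [← hS]; exact hsm) ha abs_vv_le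
  rw [← hS] at x1 x2
  obtain ⟨xi1, xi2, r, hdec, h1, h2, hr, hs1, hs2, -⟩ := decomp hl ha hRa
  -- the defects
  have hDh0 := QQ_le muInf (fun _ => b / 2) (chi0 l) pi_div2 hJ t hh
  have hDv0 := QQ_le muInf (fun _ => b / 2) (chi0 l) pi_div2 hJ t vv
  have hDp := QQ_le muInf (fun _ => b / 2) (chi0 l) pi_div2 hJ t (hh + vv)
  have hDm := QQ_le muInf (fun _ => b / 2) (chi0 l) pi_div2 hJ t (hh + (-1 : ℝ) • vv)
  have bil : ∀ (s h k : BI l → ℝ), QQ muInf (fun _ => b / 2) (chi0 l) s (h + k) (h + k) =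
      QQ muInf (fun _ => b / 2) (chi0 l) s h h + 2 * QQ muInf (fun _ => b / 2) (chi0 l) s h k +
        QQ muInf (fun _ => b / 2) (chi0 l) s k k := by
    intro s h k
    rw [QQ_add, QQ_symm muInf _ _ s (h + k) h, QQ_symm muInf _ _ s (h + k) k, QQ_add, QQ_add,
      QQ_symm muInf _ _ s k h]
    ring
  have bil2 : ∀ s : BI l → ℝ, QQ muInf (fun _ => b / 2) (chi0 l) s (hh + (-1 : ℝ) • vv)
      (hh + (-1 : ℝ) • vv) = QQ muInf (fun _ => b / 2) (chi0 l) s hh hh -
        2 * QQ muInf (fun _ => b / 2) (chi0 l) s hh vv +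
        QQ muInf (fun _ => b / 2) (chi0 l) s vv vv := by
    intro s
    rw [bil, QQ_smul2, QQ_smul]
    ring
  rw [bil, bil, Q0_hv] at hDp
  rw [bil2, bil2, Q0_hv] at hDm
  rw [Q0_h l b hl] at hDh0 hDp hDm
  rw [Q0_v l b hl] at hDv0 hDp hDm
  obtain ⟨Qhh, hQhh⟩ : ∃ q, q = QQ muInf (fun _ => b / 2) (chi0 l) t hh hh := ⟨_, rfl⟩
  obtain ⟨Qvv, hQvv⟩ : ∃ q, q = QQ muInf (fun _ => b / 2) (chi0 l) t vv vv := ⟨_, rfl⟩
  obtain ⟨Qhv, hQhv⟩ : ∃ q, q = QQ muInf (fun _ => b / 2) (chi0 l) t hh vv := ⟨_, rfl⟩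
  rw [← hQhh] at hDh0 hDp hDm ⊢
  rw [← hQvv] at hDv0 hDp hDm ⊢
  rw [← hQhv] at hDp hDm
  have hcross : |Qhv| ≤ (((l : ℝ) ^ 2 * stiff l b - Qhh) +
      ((l : ℝ) ^ 2 * stiff l b - Qvv)) / 2 := by
    rw [abs_le]
    constructor <;> linarith only [hDm, hDp]
  have r1 : |QQ muInf (fun _ => b / 2) (chi0 l) t hh r| ≤ (S + 2 * S ^ 2) * R := by
    have := abs_QQ_le muInf (fun _ => b / 2) (chi0 l) hJ (t := t) (a := hh) (a' := r) (Y := 1)
      (Y' := R) abs_hh_le hr zero_le_one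
    rw [← hS, one_mul] at this
    exact this
  have r2 : |QQ muInf (fun _ => b / 2) (chi0 l) t vv r| ≤ (S + 2 * S ^ 2) * R := by
    have := abs_QQ_le muInf (fun _ => b / 2) (chi0 l) hJ (t := t) (a := vv) (a' := r) (Y := 1)
      (Y' := R) abs_vv_le hr zero_le_one
    rw [← hS, one_mul] at this
    exact this
  have f1 : QQ muInf (fun _ => b / 2) (chi0 l) t hh a = xi1 * Qhh + (xi2 * Qhv +
      QQ muInf (fun _ => b / 2) (chi0 l) t hh r) := by
    conv_lhs => rw [hdec]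
    rw [QQ_add, QQ_add, QQ_smul, QQ_smul, ← hQhh, ← hQhv]
  have f2 : QQ muInf (fun _ => b / 2) (chi0 l) t vv a = xi2 * Qvv + (xi1 * Qhv +
      QQ muInf (fun _ => b / 2) (chi0 l) t vv r) := by
    conv_lhs => rw [hdec]
    rw [QQ_add, QQ_add, QQ_smul, QQ_smul, QQ_symm muInf _ _ t vv hh, ← hQvv, ← hQhv]
    ring
  have g1 := curr_alg (st := stiff l b) (Qth := Qhh) (Qtv := Qhv)
    (Qtr := QQ muInf (fun _ => b / 2) (chi0 l) t hh r) (L2 := (l : ℝ) ^ 2) hY h1 h2
    (Dh := (l : ℝ) ^ 2 * stiff l b - Qhh) (Dv := (l : ℝ) ^ 2 * stiff l b - Qvv) rfl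
    (by linarith only [hDh0]) (by linarith only [hDv0]) hcross r1 hs1
  have g2 := curr_alg (st := stiff l b) (Qth := Qvv) (Qtv := Qhv)
    (Qtr := QQ muInf (fun _ => b / 2) (chi0 l) t vv r) (L2 := (l : ℝ) ^ 2) hY h2 h1
    (Dh := (l : ℝ) ^ 2 * stiff l b - Qvv) (Dv := (l : ℝ) ^ 2 * stiff l b - Qhh) rfl
    (by linarith only [hDv0]) (by linarith only [hDh0]) (by linarith only [hcross]) r2 hs2
  rw [← f1] at g1
  rw [← f2] at g2
  have hX : 0 ≤ K4 S * R := mul_nonneg hK4 hR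
  have hX' : 0 ≤ (S + 2 * S ^ 2) * Y ^ 2 := by positivity
  have hXX : (K4 S + (S + 2 * S ^ 2)) * (R + Y ^ 2) = K4 S * R + K4 S * Y ^ 2 +
      (S + 2 * S ^ 2) * R + (S + 2 * S ^ 2) * Y ^ 2 := by ring
  rw [hXX]
  constructor
  · have := abs_add_le (jm muInf (fun _ => b / 2) (chi0 l) (t + a) hh -
      jm muInf (fun _ => b / 2) (chi0 l) t hh - QQ muInf (fun _ => b / 2) (chi0 l) t hh a)
      (QQ muInf (fun _ => b / 2) (chi0 l) t hh a - stiff l b * ∑ e, 1 / 2 * hh e * a e)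
    rw [sub_add_sub_cancel] at this
    linarith only [x1, g1, hX, hX', this]
  · have := abs_add_le (jm muInf (fun _ => b / 2) (chi0 l) (t + a) vv -
      jm muInf (fun _ => b / 2) (chi0 l) t vv - QQ muInf (fun _ => b / 2) (chi0 l) t vv a)
      (QQ muInf (fun _ => b / 2) (chi0 l) t vv a - stiff l b * ∑ e, 1 / 2 * vv e * a e)
    rw [sub_add_sub_cancel] at this
    linarith only [x2, g2, hX, hX', this]

theorem cell_weight {b : ℝ} (hb : 0 < b) {l : ℕ} (hl : 1 ≤ l) : ∃ C : ℝ, 0 ≤ C ∧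
    ∀ (c : ℤ × ℤ) (α : Ginf) (a : BI l → ℝ) (Y R : ℝ), 0 ≤ Y → 0 ≤ R →
      (∀ e, ((a e : ℝ) : T) = α (c + bu e) - α (c + bv e)) → (∀ e, |a e| ≤ Y) →
      (∀ e e', hh e = hh e' → |a e - a e'| ≤ R) →
      Real.exp (-(stiff l b / 4 * ∑ e, a e ^ 2) - C * (Y * R + R ^ 2)) ≤
        WB b l c α / WB b l c 0 := by
  have hJ : ∀ _ : BI l, 0 ≤ b / 2 := fun _ => by positivity
  obtain ⟨S, hS⟩ : ∃ S, S = ∑ _e : BI l, b / 2 := ⟨_, rfl⟩
  have hS0 : 0 ≤ S := by rw [hS]; exact Finset.sum_nonneg fun e _ => hJ e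
  refine ⟨2 * (S + 2 * S ^ 2), by positivity, ?_⟩
  intro c α a Y R hY hR haα ha hRa
  have h0 : ∀ e : BI l, (((0 : BI l → ℝ) e : ℝ) : T) = (0 : Ginf) (c + bu e) -
      (0 : Ginf) (c + bv e) := by
    intro e
    simp
  rw [WB_eq haα, WB_eq h0]
  refine le_trans ?_ (lowerZ muInf (fun _ => b / 2) (chi0 l) pi_div2 hJ a)
  rw [Real.exp_le_exp]
  obtain ⟨xi1, xi2, r, hdec, h1, h2, hr, hs1, hs2, hsq⟩ := decomp hl ha hRa
  have hst := stiff_nonneg' hb.le hl
  have r1 : |QQ muInf (fun _ => b / 2) (chi0 l) 0 hh r| ≤ (S + 2 * S ^ 2) * R := by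
    have := abs_QQ_le muInf (fun _ => b / 2) (chi0 l) hJ (t := 0) (a := hh) (a' := r) (Y := 1)
      (Y' := R) abs_hh_le hr zero_le_one
    rw [← hS, one_mul] at this
    exact this
  have r2 : |QQ muInf (fun _ => b / 2) (chi0 l) 0 vv r| ≤ (S + 2 * S ^ 2) * R := by
    have := abs_QQ_le muInf (fun _ => b / 2) (chi0 l) hJ (t := 0) (a := vv) (a' := r) (Y := 1)
      (Y' := R) abs_vv_le hr zero_le_one
    rw [← hS, one_mul] at this
    exact this
  have r3 : |QQ muInf (fun _ => b / 2) (chi0 l) 0 r r| ≤ (S + 2 * S ^ 2) * (R * R) := by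
    have := abs_QQ_le muInf (fun _ => b / 2) (chi0 l) hJ (t := 0) (a := r) (a' := r) (Y := R)
      (Y' := R) hr hr hR
    rw [← hS] at this
    exact this
  have bil : ∀ (h k : BI l → ℝ), QQ muInf (fun _ => b / 2) (chi0 l) 0 (h + k) (h + k) =
      QQ muInf (fun _ => b / 2) (chi0 l) 0 h h + 2 * QQ muInf (fun _ => b / 2) (chi0 l) 0 h k +
        QQ muInf (fun _ => b / 2) (chi0 l) 0 k k := by
    intro h k
    rw [QQ_add, QQ_symm muInf _ _ 0 (h + k) h, QQ_symm muInf _ _ 0 (h + k) k, QQ_add, QQ_add,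
      QQ_symm muInf _ _ 0 k h]
    ring
  have hQ : QQ muInf (fun _ => b / 2) (chi0 l) 0 a a = (l : ℝ) ^ 2 * stiff l b *
      (xi1 ^ 2 + xi2 ^ 2) + 2 * xi1 * QQ muInf (fun _ => b / 2) (chi0 l) 0 hh r +
      2 * xi2 * QQ muInf (fun _ => b / 2) (chi0 l) 0 vv r +
      QQ muInf (fun _ => b / 2) (chi0 l) 0 r r := by
    conv_lhs => rw [hdec]
    rw [bil, bil, QQ_smul2, QQ_smul2, QQ_add, QQ_smul, QQ_symm muInf _ _ 0 (xi1 • hh) vv,
      QQ_smul, QQ_symm muInf _ _ 0 (xi1 • hh) r, QQ_smul, QQ_symm muInf _ _ 0 (xi2 • vv) r,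
      QQ_smul, QQ_symm muInf _ _ 0 vv hh, Q0_hv, Q0_h l b hl, Q0_v l b hl,
      QQ_symm muInf _ _ 0 r hh, QQ_symm muInf _ _ 0 r vv]
    ring
  rw [hQ]
  have t1 : xi1 * QQ muInf (fun _ => b / 2) (chi0 l) 0 hh r ≤ Y * ((S + 2 * S ^ 2) * R) := by
    refine (le_abs_self _).trans ?_
    rw [abs_mul]
    exact mul_le_mul h1 r1 (abs_nonneg _) hY
  have t2 : xi2 * QQ muInf (fun _ => b / 2) (chi0 l) 0 vv r ≤ Y * ((S + 2 * S ^ 2) * R) := by
    refine (le_abs_self _).trans ?_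
    rw [abs_mul]
    exact mul_le_mul h2 r2 (abs_nonneg _) hY
  have t3 := (le_abs_self _).trans r3
  have t4 := mul_le_mul_of_nonneg_left hsq hst
  have t5 : 0 ≤ (S + 2 * S ^ 2) * (R * R) := by positivity
  nlinarith only [t1, t2, t3, t4, t5]

end UJ

end Vale.Agent.P159
end

section

/-! Vortex geometry, part 1: the displaced vortex function near the boundary, in the core, and
away from the core. -/

open scoped BigOperators

namespace Vale.Agent.P159

namespace UJ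

theorem kap_nonneg (s : ℝ) : 0 ≤ kap s :=
  mul_nonneg (Real.smoothTransition.nonneg _) (Real.smoothTransition.nonneg _)

theorem kap_le_one (s : ℝ) : kap s ≤ 1 :=
  mul_le_one₀ (Real.smoothTransition.le_one _) (Real.smoothTransition.nonneg _)
    (Real.smoothTransition.le_one _)

theorem kap_eq_zero {s : ℝ} (h : s ≤ -(3 / 8) ∨ 3 / 8 ≤ s) : kap s = 0 := by
  unfold kap
  rcases h with h | h
  · rw [Real.smoothTransition.zero_of_nonpos (x := 3 + 8 * s) (by linarith), mul_zero]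
  · rw [Real.smoothTransition.zero_of_nonpos (x := 3 - 8 * s) (by linarith), zero_mul]

theorem kap_eq_one {s : ℝ} (h : |s| ≤ 1 / 4) : kap s = 1 := by
  obtain ⟨h1, h2⟩ := abs_le.1 h
  unfold kap
  rw [Real.smoothTransition.one_of_one_le (by linarith only [h2]),
    Real.smoothTransition.one_of_one_le (by linarith only [h1]), mul_one]

theorem kk_nonneg (L : ℕ) (z : ℤ × ℤ) : 0 ≤ kk L z := mul_nonneg (kap_nonneg _) (kap_nonneg _)

theorem kk_le_one (L : ℕ) (z : ℤ × ℤ) : kk L z ≤ 1 :=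
  mul_le_one₀ (kap_le_one _) (kap_nonneg _) (kap_le_one _)

theorem ctr_ge (L : ℕ) : (L : ℝ) / 2 ≤ ctr L := by
  unfold ctr
  have h : L ≤ 2 * (L / 2) + 1 := by omega
  have h' : (L : ℝ) ≤ 2 * ((L / 2 : ℕ) : ℝ) + 1 := by exact_mod_cast h
  linarith only [h']

theorem ctr_le (L : ℕ) : ctr L ≤ (L : ℝ) / 2 + 1 / 2 := by
  unfold ctr
  have h : 2 * (L / 2) ≤ L := by omega
  have h' : 2 * ((L / 2 : ℕ) : ℝ) ≤ (L : ℝ) := by exact_mod_cast h
  linarith only [h']

theorem kk_eq_one {L : ℕ} (hL : 0 < L) {z : ℤ × ℤ} (h1 : |(z.1 : ℝ) - ctr L| ≤ L / 4)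
    (h2 : |(z.2 : ℝ) - ctr L| ≤ L / 4) : kk L z = 1 := by
  have hL' : (0 : ℝ) < L := by exact_mod_cast hL
  unfold kk
  rw [kap_eq_one, kap_eq_one, mul_one]
  · rw [abs_div, abs_of_pos hL', div_le_iff₀ hL']; linarith only [h2]
  · rw [abs_div, abs_of_pos hL', div_le_iff₀ hL']; linarith only [h1]

theorem kap_bdry {L : ℕ} (hL : 4 ≤ L) {x : ℤ} (hx : x ≤ 0 ∨ (L : ℤ) ≤ x) :
    kap (((x : ℝ) - ctr L) / L) = 0 := by
  have hL' : (4 : ℝ) ≤ L := by exact_mod_cast hL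
  have hp : (0 : ℝ) < L := by linarith
  apply kap_eq_zero
  rcases hx with h | h
  · left
    have h' : (x : ℝ) ≤ 0 := by exact_mod_cast h
    rw [div_le_iff₀ hp]
    linarith [ctr_ge L]
  · right
    have h' : (L : ℝ) ≤ x := by exact_mod_cast h
    rw [le_div_iff₀ hp]
    linarith [ctr_le L]

theorem kk_bdry {L : ℕ} (hL : 4 ≤ L) {z : ℤ × ℤ}
    (hz : z.1 ≤ 0 ∨ (L : ℤ) ≤ z.1 ∨ z.2 ≤ 0 ∨ (L : ℤ) ≤ z.2) : kk L z = 0 := by
  unfold kk
  rcases hz with h | h | h | h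
  · rw [kap_bdry hL (Or.inl h), zero_mul]
  · rw [kap_bdry hL (Or.inr h), zero_mul]
  · rw [kap_bdry hL (x := z.2) (Or.inl h), mul_zero]
  · rw [kap_bdry hL (x := z.2) (Or.inr h), mul_zero]

theorem geo_bdry {L : ℕ} (hL : 4 ≤ L) (P : ℂ) {z : ℤ × ℤ}
    (hz : z.1 ≤ 0 ∨ (L : ℤ) ≤ z.1 ∨ z.2 ≤ 0 ∨ (L : ℤ) ≤ z.2) : wf L P z = wf L 0 z := by
  unfold wf
  rw [kk_bdry hL hz]
  simp

/-- centre of the big block in terms of the centre of the core -/
theorem ctr_big (s K M : ℕ) : ctr (s * NN K M) = (s : ℝ) * (4 * K * M) + ctr s := by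
  have h : s * NN K M / 2 = s * (4 * K * M) + s / 2 := by
    have h1 : s * NN K M = 2 * (s * (4 * K * M)) + s := by unfold NN; ring
    rw [h1]; omega
  unfold ctr
  rw [h]
  push_cast
  ring

theorem NN_cast (K M : ℕ) : ((NN K M : ℕ) : ℝ) = 8 * K * M + 1 := by
  unfold NN; push_cast; ring

theorem cor_ccell1 (l m K M i j : ℕ) : (((cor l (ccell m K M i j)).1 : ℤ) : ℝ) =
    ((l * m : ℕ) : ℝ) * (4 * K * M + K * i) := by
  unfold cor ccell; push_cast; ring

theorem cor_ccell2 (l m K M i j : ℕ) : (((cor l (ccell m K M i j)).2 : ℤ) : ℝ) =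
    ((l * m : ℕ) : ℝ) * (4 * K * M + K * j) := by
  unfold cor ccell; push_cast; ring

theorem one_coord {s K M i : ℕ} (hs : 2 ≤ s) (hK : 1 ≤ K) (hi : i < M) {t : ℝ}
    (h1 : 0 ≤ t) (h2 : t ≤ s) :
    |(s : ℝ) * (4 * K * M + K * i) + t - ctr (s * NN K M)| ≤ ((s * NN K M : ℕ) : ℝ) / 4 := by
  have hs' : (2 : ℝ) ≤ s := by exact_mod_cast hs
  have hK' : (1 : ℝ) ≤ K := by exact_mod_cast hK
  have hi' : (i : ℝ) + 1 ≤ M := by exact_mod_cast hi
  have hi0 : (0 : ℝ) ≤ i := Nat.cast_nonneg _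
  have e1 : (s : ℝ) * (4 * K * M + K * i) + t - ctr (s * NN K M) =
      (s : ℝ) * K * i + (t - ctr s) := by rw [ctr_big]; ring
  have hc1 := ctr_ge s
  have hc2 := ctr_le s
  have hsK : (2 : ℝ) ≤ s * K := by nlinarith only [hs', hK']
  have hsKs : (s : ℝ) ≤ s * K := by nlinarith only [hK']
  have h3 : (s : ℝ) * K * i + s * K ≤ s * K * M := by nlinarith only [hi', hsK]
  have h4 : 0 ≤ (s : ℝ) * K * i := by positivity
  rw [e1, Nat.cast_mul, NN_cast, abs_le]
  constructor <;> nlinarith only [h1, hc2, hsK, hsKs, h3, h2, hc1]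

theorem geo_core {l m K M i j : ℕ} (hs : 2 ≤ l * m) (hK : 1 ≤ K) (hi : i < M) (hj : j < M)
    {y : ℤ × ℤ} (h1 : 0 ≤ y.1) (h2 : y.1 ≤ (l * m : ℕ)) (h3 : 0 ≤ y.2) (h4 : y.2 ≤ (l * m : ℕ)) :
    wf (l * m * NN K M) (pos (l * m) K i j) (cor l (ccell m K M i j) + y) = wf (l * m) 0 y := by
  have hL : 0 < l * m * NN K M := by
    have : 0 < NN K M := by unfold NN; omega
    positivity
  have g1 : (0 : ℝ) ≤ y.1 := by exact_mod_cast h1
  have g2 : (y.1 : ℝ) ≤ (l * m : ℕ) := by exact_mod_cast h2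
  have g3 : (0 : ℝ) ≤ y.2 := by exact_mod_cast h3
  have g4 : (y.2 : ℝ) ≤ (l * m : ℕ) := by exact_mod_cast h4
  have e1 : (((cor l (ccell m K M i j) + y).1 : ℤ) : ℝ) =
      ((l * m : ℕ) : ℝ) * (4 * K * M + K * i) + y.1 := by
    rw [Prod.fst_add, Int.cast_add, cor_ccell1]
  have e2 : (((cor l (ccell m K M i j) + y).2 : ℤ) : ℝ) =
      ((l * m : ℕ) : ℝ) * (4 * K * M + K * j) + y.2 := by
    rw [Prod.snd_add, Int.cast_add, cor_ccell2]
  have hk : kk (l * m * NN K M) (cor l (ccell m K M i j) + y) = 1 := by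
    apply kk_eq_one hL
    · rw [e1]; exact one_coord hs hK hi g1 g2
    · rw [e2]; exact one_coord hs hK hj g3 g4
  unfold wf
  rw [hk]
  apply Complex.ext
  · simp only [zc, cc, pos, Complex.sub_re, Complex.mul_re, Complex.ofReal_re, Complex.ofReal_im,
      Complex.zero_re, Complex.zero_im]
    rw [e1, ctr_big]
    ring
  · simp only [zc, cc, pos, Complex.sub_im, Complex.mul_im, Complex.ofReal_re, Complex.ofReal_im,
      Complex.zero_re, Complex.zero_im]
    rw [e2, ctr_big]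
    ring

theorem far_coord {s K M i : ℕ} (hi : i < M) {κ a : ℝ}
    (h0 : 0 ≤ κ) (h1 : κ ≤ 1) (ha : ((s * NN K M : ℕ) : ℝ) / 4 < |a|) :
    (s : ℝ) / 4 ≤ |a - κ * ((K : ℝ) * s * i)| := by
  have hi' : (i : ℝ) + 1 ≤ M := by exact_mod_cast hi
  have h4 : 0 ≤ (K : ℝ) * s * i := by positivity
  have h5 : κ * ((K : ℝ) * s * i) ≤ (K : ℝ) * s * i := mul_le_of_le_one_left h4 h1
  have h6 : 0 ≤ κ * ((K : ℝ) * s * i) := mul_nonneg h0 h4
  have h7 : 0 ≤ (K : ℝ) * s := by positivity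
  have h8 : (K : ℝ) * s * i + K * s ≤ K * s * M := by nlinarith only [hi', h7]
  rw [Nat.cast_mul, NN_cast] at ha
  have h9 : |a| ≤ |a - κ * ((K : ℝ) * s * i)| + |κ * ((K : ℝ) * s * i)| := by
    have := abs_add_le (a - κ * ((K : ℝ) * s * i)) (κ * ((K : ℝ) * s * i))
    simpa only [abs_mul, Nat.abs_cast, ge_iff_le, sub_add_cancel] using this
  rw [abs_of_nonneg h6] at h9
  nlinarith only [ha, h5, h7, h8, h9]

theorem near_coord {s K M i : ℕ} (hs : 2 ≤ s) {x : ℝ}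
    (hx : x ≤ (s : ℝ) * (4 * K * M + K * i) ∨ (s : ℝ) * (4 * K * M + K * i) + s ≤ x) :
    (s : ℝ) / 4 ≤ |x - ctr (s * NN K M) - 1 * ((K : ℝ) * s * i)| := by
  have hs' : (2 : ℝ) ≤ s := by exact_mod_cast hs
  have hc1 := ctr_ge s
  have hc2 := ctr_le s
  rw [ctr_big]
  rcases hx with h | h
  · rw [abs_of_nonpos]
    · linarith only [hc1, h]
    · linarith only [hc1, h]
  · rw [abs_of_nonneg]
    · linarith only [hs', hc2, h]
    · linarith

theorem geo_nz {l m K M i j : ℕ} (hs : 2 ≤ l * m) (hK : 1 ≤ K) (hi : i < M) (hj : j < M)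
    {z : ℤ × ℤ} (hz : z.1 ≤ (cor l (ccell m K M i j)).1 ∨
      (cor l (ccell m K M i j)).1 + (l * m : ℕ) ≤ z.1 ∨
      z.2 ≤ (cor l (ccell m K M i j)).2 ∨ (cor l (ccell m K M i j)).2 + (l * m : ℕ) ≤ z.2) :
    ((l * m : ℕ) : ℝ) / 4 ≤ ‖wf (l * m * NN K M) (pos (l * m) K i j) z‖ := by
  have hL : 0 < l * m * NN K M := by
    have : 0 < NN K M := by unfold NN; omega
    positivity
  set κ := kk (l * m * NN K M) z with hκ
  have hκ0 : 0 ≤ κ := kk_nonneg _ _
  have hκ1 : κ ≤ 1 := kk_le_one _ _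
  have hre : (wf (l * m * NN K M) (pos (l * m) K i j) z).re =
      (z.1 : ℝ) - ctr (l * m * NN K M) - κ * ((K : ℝ) * ((l * m : ℕ) : ℝ) * i) := by
    simp only [wf, zc, cc, pos, Complex.sub_re, Complex.mul_re, Complex.ofReal_re,
      Complex.ofReal_im]
    rw [← hκ]; ring
  have him : (wf (l * m * NN K M) (pos (l * m) K i j) z).im =
      (z.2 : ℝ) - ctr (l * m * NN K M) - κ * ((K : ℝ) * ((l * m : ℕ) : ℝ) * j) := by
    simp only [wf, zc, cc, pos, Complex.sub_im, Complex.mul_im, Complex.ofReal_re,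
      Complex.ofReal_im]
    rw [← hκ]; ring
  by_cases ha : |(z.1 : ℝ) - ctr (l * m * NN K M)| ≤ ((l * m * NN K M : ℕ) : ℝ) / 4
  · by_cases hb : |(z.2 : ℝ) - ctr (l * m * NN K M)| ≤ ((l * m * NN K M : ℕ) : ℝ) / 4
    · have h1 : κ = 1 := kk_eq_one hL ha hb
      rw [h1] at hre him
      have key : (z.1 : ℝ) ≤ ((l * m : ℕ) : ℝ) * (4 * K * M + K * i) ∨
          ((l * m : ℕ) : ℝ) * (4 * K * M + K * i) + ((l * m : ℕ) : ℝ) ≤ z.1 ∨
          (z.2 : ℝ) ≤ ((l * m : ℕ) : ℝ) * (4 * K * M + K * j) ∨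
          ((l * m : ℕ) : ℝ) * (4 * K * M + K * j) + ((l * m : ℕ) : ℝ) ≤ z.2 := by
        rw [← cor_ccell1 l m K M i j, ← cor_ccell2 l m K M i j]
        rcases hz with h | h | h | h
        · left; exact_mod_cast h
        · right; left; exact_mod_cast h
        · right; right; left; exact_mod_cast h
        · right; right; right; exact_mod_cast h
      rcases key with h | h | h | h
      · exact le_trans (hre ▸ near_coord hs (Or.inl h)) (Complex.abs_re_le_norm _)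
      · exact le_trans (hre ▸ near_coord hs (Or.inr h)) (Complex.abs_re_le_norm _)
      · exact le_trans (him ▸ near_coord hs (Or.inl h)) (Complex.abs_im_le_norm _)
      · exact le_trans (him ▸ near_coord hs (Or.inr h)) (Complex.abs_im_le_norm _)
    · exact le_trans (him ▸ far_coord hj hκ0 hκ1 (not_le.1 hb)) (Complex.abs_im_le_norm _)
  · exact le_trans (hre ▸ far_coord hi hκ0 hκ1 (not_le.1 ha)) (Complex.abs_re_le_norm _)

end UJ

end Vale.Agent.P159
end

section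

/-! Increments and second differences of the vortex configurations. -/

open scoped BigOperators

namespace Vale.Agent.P159

namespace UJ

/-- the argument near `1` -/
theorem arg_near {ζ : ℂ} (h : ‖ζ‖ ≤ 1 / 2) : |Complex.arg (1 + ζ) - ζ.im| ≤ 4 * ‖ζ‖ ^ 2 := by
  have h1 : ‖ζ‖ < 1 := by linarith
  have h2 := Complex.norm_log_one_add_sub_self_le h1
  have h3 : |(Complex.log (1 + ζ) - ζ).im| ≤ ‖Complex.log (1 + ζ) - ζ‖ := Complex.abs_im_le_norm _
  rw [Complex.sub_im, Complex.log_im] at h3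
  have h4 : (1 - ‖ζ‖)⁻¹ ≤ 2 := by
    rw [inv_le_comm₀ (by linarith only [h1]) (by norm_num)]
    linarith
  have h5 : ‖ζ‖ ^ 2 * (1 - ‖ζ‖)⁻¹ / 2 ≤ ‖ζ‖ ^ 2 * 2 / 2 := by
    have := mul_le_mul_of_nonneg_left h4 (sq_nonneg ‖ζ‖)
    linarith only [this]
  have h6 := sq_nonneg ‖ζ‖
  linarith

/-- crude bound for the argument near `1` -/
theorem arg_near' {ζ : ℂ} (h : ‖ζ‖ ≤ 1 / 2) : |Complex.arg (1 + ζ)| ≤ 3 * ‖ζ‖ := by
  have h1 := arg_near h
  have h2 : |ζ.im| ≤ ‖ζ‖ := Complex.abs_im_le_norm _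
  have h3 : 4 * ‖ζ‖ ^ 2 ≤ 2 * ‖ζ‖ := by
    have := norm_nonneg ζ
    nlinarith only [h, this]
  have h4 : |Complex.arg (1 + ζ)| ≤ |Complex.arg (1 + ζ) - ζ.im| + |ζ.im| := by
    have := abs_add_le (Complex.arg (1 + ζ) - ζ.im) ζ.im
    simpa using this
  linarith

theorem g2_kap_nonneg (x : ℝ) : 0 ≤ kap x :=
  mul_nonneg (Real.smoothTransition.nonneg _) (Real.smoothTransition.nonneg _)

theorem g2_kap_le_one (x : ℝ) : kap x ≤ 1 :=
  mul_le_one₀ (Real.smoothTransition.le_one _) (Real.smoothTransition.nonneg _)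
    (Real.smoothTransition.le_one _)

theorem g2_kap_zero {x : ℝ} (h : 3 / 8 ≤ |x|) : kap x = 0 := by
  unfold kap
  rcases le_abs.mp h with h | h
  · rw [Real.smoothTransition.zero_of_nonpos (by linarith), zero_mul]
  · rw [Real.smoothTransition.zero_of_nonpos (x := 3 + 8 * x) (by linarith only [h]), mul_zero]

theorem g2_kap_contDiff : ContDiff ℝ (⊤ : ℕ∞) kap := by
  unfold kap
  exact (Real.smoothTransition.contDiff.comp (by fun_prop)).mul
    (Real.smoothTransition.contDiff.comp (by fun_prop))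

theorem g2_kap_supp : HasCompactSupport kap := by
  refine HasCompactSupport.intro (isCompact_Icc (a := -(3 / 8 : ℝ)) (b := 3 / 8)) ?_
  intro x hx
  apply g2_kap_zero
  by_contra h
  push Not at h
  exact hx ⟨by linarith only [(abs_lt.mp h).1], by linarith only [(abs_lt.mp h).2]⟩

/-- Lipschitz constants of `kap` and `kap'` -/
theorem g2_kap_lip : ∃ C : ℝ, 1 ≤ C ∧ (∀ x y, |kap x - kap y| ≤ C * |x - y|) ∧
    ∀ x y d : ℝ, |(kap x - kap (x + d)) - (kap y - kap (y + d))| ≤ C * |d| * |x - y| := by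
  obtain ⟨C1, h1⟩ := ContDiff.lipschitzWith_of_hasCompactSupport g2_kap_supp g2_kap_contDiff
    (by simp)
  have hd : ContDiff ℝ 1 (deriv kap) := by
    have h0 : ((1 : WithTop ℕ∞) + 1) ≤ ((⊤ : ℕ∞) : WithTop ℕ∞) := by
      have : ((1 : WithTop ℕ∞) + 1) = (((1 + 1 : ℕ) : ℕ∞) : WithTop ℕ∞) := by norm_cast
      rw [this]
      exact WithTop.coe_le_coe.mpr le_top
    have := (contDiff_succ_iff_deriv (n := 1) (f := kap)).mp (g2_kap_contDiff.of_le h0)
    exact this.2.2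
  obtain ⟨C2, h2⟩ := ContDiff.lipschitzWith_of_hasCompactSupport g2_kap_supp.deriv hd
    (by simp)
  refine ⟨1 + C1 + C2, ?_, ?_, ?_⟩
  · have := C1.2; have := C2.2
    change (1 : ℝ) ≤ 1 + (C1 : ℝ) + (C2 : ℝ)
    linarith [NNReal.coe_nonneg C1, NNReal.coe_nonneg C2]
  · intro x y
    have := h1.dist_le_mul x y
    rw [Real.dist_eq, Real.dist_eq] at this
    refine this.trans ?_
    apply mul_le_mul_of_nonneg_right _ (abs_nonneg _)
    linarith [NNReal.coe_nonneg C1, NNReal.coe_nonneg C2]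
  · intro x y d
    have hdiff : Differentiable ℝ kap := g2_kap_contDiff.differentiable (by simp)
    have hder : ∀ t, HasDerivAt (fun t => kap t - kap (t + d)) (deriv kap t - deriv kap (t + d)) t := by
      intro t
      have a1 := (hdiff t).hasDerivAt
      have a2 : HasDerivAt (fun t => kap (t + d)) (deriv kap (t + d)) t := by
        exact (hdiff (t + d)).hasDerivAt.comp_add_const t d
      exact a1.sub a2
    have hb : ∀ t, ‖deriv (fun t => kap t - kap (t + d)) t‖ ≤ C2 * |d| := by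
      intro t
      rw [(hder t).deriv]
      have := h2.dist_le_mul t (t + d)
      rw [Real.dist_eq, Real.dist_eq] at this
      rw [Real.norm_eq_abs]
      have e : |t - (t + d)| = |d| := by
        rw [show t - (t + d) = -d by ring, abs_neg]
      rwa [e] at this
    have := Convex.norm_image_sub_le_of_norm_deriv_le (f := fun t => kap t - kap (t + d))
      (s := Set.univ) (C := C2 * |d|) (x := y) (y := x)
      (fun t _ => (hder t).differentiableAt) (fun t _ => hb t) convex_univ (Set.mem_univ _)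
      (Set.mem_univ _)
    rw [Real.norm_eq_abs, Real.norm_eq_abs] at this
    refine this.trans ?_
    apply mul_le_mul_of_nonneg_right _ (abs_nonneg _)
    apply mul_le_mul_of_nonneg_right _ (abs_nonneg _)
    linarith [NNReal.coe_nonneg C1, NNReal.coe_nonneg C2]

/-- the one dimensional cutoff -/
noncomputable def g2A (L : ℕ) (x : ℤ) : ℝ := kap (((x : ℝ) - ctr L) / L)

theorem g2_kk (L : ℕ) (z : ℤ × ℤ) : kk L z = g2A L z.1 * g2A L z.2 := rfl

theorem g2A_abs (L : ℕ) (x : ℤ) : |g2A L x| ≤ 1 := by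
  rw [abs_le]
  exact ⟨by linarith [g2_kap_nonneg (((x : ℝ) - ctr L) / L), show g2A L x = kap _ from rfl],
    g2_kap_le_one _⟩

theorem g2A_sub {C : ℝ} (hC : ∀ x y, |kap x - kap y| ≤ C * |x - y|) {L : ℕ} (hL : 1 ≤ L)
    (x y : ℤ) : |g2A L x - g2A L y| ≤ C * |(x : ℝ) - y| / L := by
  have hL0 : (0 : ℝ) < L := by exact_mod_cast hL
  have h := hC (((x : ℝ) - ctr L) / L) (((y : ℝ) - ctr L) / L)
  have e : ((x : ℝ) - ctr L) / L - ((y : ℝ) - ctr L) / L = ((x : ℝ) - y) / L := by ring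
  rw [e, abs_div, abs_of_pos hL0] at h
  unfold g2A
  calc _ ≤ _ := h
    _ = _ := by ring

theorem g2A_sub2 {C : ℝ} (hC : ∀ x y d : ℝ, |(kap x - kap (x + d)) - (kap y - kap (y + d))| ≤
    C * |d| * |x - y|) {L : ℕ} (hL : 1 ≤ L) (x y : ℤ) :
    |(g2A L x - g2A L (x + 1)) - (g2A L y - g2A L (y + 1))| ≤ C * |(x : ℝ) - y| / (L : ℝ) ^ 2 := by
  have hL0 : (0 : ℝ) < L := by exact_mod_cast hL
  have h := hC (((x : ℝ) - ctr L) / L) (((y : ℝ) - ctr L) / L) (1 / L)
  have e : ((x : ℝ) - ctr L) / L - ((y : ℝ) - ctr L) / L = ((x : ℝ) - y) / L := by ring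
  have e1 : ((x : ℝ) - ctr L) / L + 1 / L = (((x + 1 : ℤ) : ℝ) - ctr L) / L := by
    push_cast; ring
  have e2 : ((y : ℝ) - ctr L) / L + 1 / L = (((y + 1 : ℤ) : ℝ) - ctr L) / L := by
    push_cast; ring
  rw [e, e1, e2, abs_div, abs_div, abs_of_pos hL0, abs_one] at h
  unfold g2A
  calc _ ≤ _ := h
    _ = _ := by field_simp

theorem g2_kk_sub {C : ℝ} (_hC0 : 0 ≤ C) (hC : ∀ x y, |kap x - kap y| ≤ C * |x - y|) {L : ℕ}
    (hL : 1 ≤ L) (u v : ℤ × ℤ) :
    |kk L u - kk L v| ≤ C * (|(u.1 : ℝ) - v.1| + |(u.2 : ℝ) - v.2|) / L := by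
  have hL0 : (0 : ℝ) < L := by exact_mod_cast hL
  rw [g2_kk, g2_kk]
  have e : g2A L u.1 * g2A L u.2 - g2A L v.1 * g2A L v.2 =
      (g2A L u.1 - g2A L v.1) * g2A L u.2 + g2A L v.1 * (g2A L u.2 - g2A L v.2) := by ring
  rw [e]
  have h1 := g2A_sub hC hL u.1 v.1
  have h2 := g2A_sub hC hL u.2 v.2
  have h3 : |(g2A L u.1 - g2A L v.1) * g2A L u.2| ≤ C * |(u.1 : ℝ) - v.1| / L := by
    rw [abs_mul]
    calc _ ≤ |g2A L u.1 - g2A L v.1| * 1 :=
          mul_le_mul_of_nonneg_left (g2A_abs _ _) (abs_nonneg _)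
      _ ≤ _ := by rw [mul_one]; exact h1
  have h4 : |g2A L v.1 * (g2A L u.2 - g2A L v.2)| ≤ C * |(u.2 : ℝ) - v.2| / L := by
    rw [abs_mul]
    calc _ ≤ 1 * |g2A L u.2 - g2A L v.2| :=
          mul_le_mul_of_nonneg_right (g2A_abs _ _) (abs_nonneg _)
      _ ≤ _ := by rw [one_mul]; exact h2
  calc _ ≤ _ := abs_add_le _ _
    _ ≤ _ := add_le_add h3 h4
    _ = _ := by ring

theorem g2_zc_sub (u v : ℤ × ℤ) : ‖zc u - zc v‖ ≤ |(u.1 : ℝ) - v.1| + |(u.2 : ℝ) - v.2| := by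
  refine (Complex.norm_le_abs_re_add_abs_im _).trans ?_
  simp [zc]

theorem g2_wf_sub_eq (L : ℕ) (P : ℂ) (u v : ℤ × ℤ) :
    wf L P u - wf L P v = (zc u - zc v) - ((kk L u - kk L v : ℝ) : ℂ) * P := by
  unfold wf
  push_cast
  ring

theorem g2_wf_sub {C : ℝ} (hC0 : 0 ≤ C) (hC : ∀ x y, |kap x - kap y| ≤ C * |x - y|) {L : ℕ}
    (hL : 1 ≤ L) {P : ℂ} (hP : ‖P‖ ≤ L / 4) (u v : ℤ × ℤ) :
    ‖wf L P u - wf L P v‖ ≤ (1 + C / 4) * (|(u.1 : ℝ) - v.1| + |(u.2 : ℝ) - v.2|) := by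
  have hL0 : (0 : ℝ) < L := by exact_mod_cast hL
  rw [g2_wf_sub_eq]
  set D := |(u.1 : ℝ) - v.1| + |(u.2 : ℝ) - v.2| with hD
  have hD0 : 0 ≤ D := by positivity
  have h1 : ‖((kk L u - kk L v : ℝ) : ℂ) * P‖ ≤ C / 4 * D := by
    rw [norm_mul, Complex.norm_real, Real.norm_eq_abs]
    calc _ ≤ (C * D / L) * (L / 4) :=
          mul_le_mul (g2_kk_sub hC0 hC hL u v) hP (norm_nonneg _) (by positivity)
      _ = _ := by field_simp
  calc _ ≤ ‖zc u - zc v‖ + ‖((kk L u - kk L v : ℝ) : ℂ) * P‖ := norm_sub_le _ _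
    _ ≤ D + C / 4 * D := add_le_add (g2_zc_sub u v) h1
    _ = _ := by ring

/-- second differences of the cutoff, first coordinate -/
theorem g2_sd {C : ℝ} (hC1 : 1 ≤ C) (hC : ∀ x y, |kap x - kap y| ≤ C * |x - y|)
    (hC' : ∀ x y d : ℝ, |(kap x - kap (x + d)) - (kap y - kap (y + d))| ≤
    C * |d| * |x - y|) {L : ℕ} (hL : 1 ≤ L) {l : ℝ} (x y x' y' : ℤ)
    (hx : |(x : ℝ) - x'| ≤ l) (hy : |(y : ℝ) - y'| ≤ l) :
    |(g2A L x * g2A L y - g2A L (x + 1) * g2A L y) -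
      (g2A L x' * g2A L y' - g2A L (x' + 1) * g2A L y')| ≤ (C + C ^ 2) * l / (L : ℝ) ^ 2 := by
  have hL0 : (0 : ℝ) < L := by exact_mod_cast hL
  have e : (g2A L x * g2A L y - g2A L (x + 1) * g2A L y) -
      (g2A L x' * g2A L y' - g2A L (x' + 1) * g2A L y') =
      ((g2A L x - g2A L (x + 1)) - (g2A L x' - g2A L (x' + 1))) * g2A L y +
      (g2A L x' - g2A L (x' + 1)) * (g2A L y - g2A L y') := by ring
  rw [e]
  have h1 : |((g2A L x - g2A L (x + 1)) - (g2A L x' - g2A L (x' + 1))) * g2A L y| ≤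
      C * l / (L : ℝ) ^ 2 := by
    rw [abs_mul]
    calc _ ≤ |(g2A L x - g2A L (x + 1)) - (g2A L x' - g2A L (x' + 1))| * 1 :=
          mul_le_mul_of_nonneg_left (g2A_abs _ _) (abs_nonneg _)
      _ ≤ C * |(x : ℝ) - x'| / (L : ℝ) ^ 2 := by rw [mul_one]; exact g2A_sub2 hC' hL x x'
      _ ≤ _ := by gcongr
  have h2 : |(g2A L x' - g2A L (x' + 1)) * (g2A L y - g2A L y')| ≤ C ^ 2 * l / (L : ℝ) ^ 2 := by
    rw [abs_mul]
    have a1 := g2A_sub hC hL x' (x' + 1)
    have e1 : |(x' : ℝ) - ((x' + 1 : ℤ) : ℝ)| = 1 := by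
      push_cast
      rw [show (x' : ℝ) - (x' + 1) = -1 by ring]
      simp
    rw [e1] at a1
    have a2 := g2A_sub hC hL y y'
    calc _ ≤ (C * 1 / L) * (C * |(y : ℝ) - y'| / L) :=
          mul_le_mul a1 a2 (abs_nonneg _) (by positivity)
      _ ≤ (C * 1 / L) * (C * l / L) := by gcongr
      _ = _ := by ring
  calc _ ≤ _ := abs_add_le _ _
    _ ≤ _ := add_le_add h1 h2
    _ = _ := by ring

theorem g2_inc_one {w1 w2 : ℂ} {s D : ℝ} (hs : 0 < s) (hw : s / 4 ≤ ‖w2‖)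
    (hD : ‖w1 - w2‖ ≤ D) (hsD : 8 * D ≤ s) :
    |Complex.arg (w1 / w2)| ≤ 12 * D / s ∧
    |Complex.arg (w1 / w2) - ((w1 - w2) / w2).im| ≤ 64 * D ^ 2 / s ^ 2 ∧
    ‖(w1 - w2) / w2‖ ≤ 4 * D / s := by
  have hw0 : 0 < ‖w2‖ := by linarith
  have hw2 : w2 ≠ 0 := norm_pos_iff.mp hw0
  have hD0 : 0 ≤ D := (norm_nonneg _).trans hD
  have e : w1 / w2 = 1 + (w1 - w2) / w2 := by field_simp; ring
  have hz : ‖(w1 - w2) / w2‖ ≤ 4 * D / s := by
    rw [norm_div, div_le_div_iff₀ hw0 hs]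
    calc _ ≤ D * s := mul_le_mul_of_nonneg_right hD hs.le
      _ = 4 * D * (s / 4) := by ring
      _ ≤ _ := mul_le_mul_of_nonneg_left hw (by positivity)
  have hz2 : 4 * D / s ≤ 1 / 2 := by
    rw [div_le_div_iff₀ hs (by norm_num)]
    linarith
  have h1 := arg_near (hz.trans hz2)
  have h2 := arg_near' (hz.trans hz2)
  rw [e]
  refine ⟨?_, ?_, hz⟩
  · calc _ ≤ _ := h2
      _ ≤ 3 * (4 * D / s) := by gcongr
      _ = _ := by ring
  · calc _ ≤ _ := h1
      _ ≤ 4 * (4 * D / s) ^ 2 := by gcongr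
      _ = _ := by ring

theorem g2_inc_two {w1 w2 w1' w2' : ℂ} {s D E F : ℝ} (hs : 0 < s) (hw : s / 4 ≤ ‖w2‖)
    (hw' : s / 4 ≤ ‖w2'‖) (hD : ‖w1 - w2‖ ≤ D) (hD' : ‖w1' - w2'‖ ≤ D) (hsD : 8 * D ≤ s)
    (hE : ‖(w1 - w2) - (w1' - w2')‖ ≤ E) (hF : ‖w2 - w2'‖ ≤ F) :
    |Complex.arg (w1 / w2) - Complex.arg (w1' / w2')| ≤
      128 * D ^ 2 / s ^ 2 + 4 * E / s + 16 * D * F / s ^ 2 := by
  obtain ⟨-, a2, a3⟩ := g2_inc_one hs hw hD hsD
  obtain ⟨-, b2, b3⟩ := g2_inc_one hs hw' hD' hsD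
  have hw0 : 0 < ‖w2‖ := by linarith only [hs, hw]
  have hw2 : w2 ≠ 0 := norm_pos_iff.mp hw0
  have hw0' : 0 < ‖w2'‖ := by linarith only [hs, hw']
  have hw2' : w2' ≠ 0 := norm_pos_iff.mp hw0'
  have hD0 : 0 ≤ D := (norm_nonneg _).trans hD
  have hE0 : 0 ≤ E := (norm_nonneg _).trans hE
  have hF0 : 0 ≤ F := (norm_nonneg _).trans hF
  have e : (w1 - w2) / w2 - (w1' - w2') / w2' =
      ((w1 - w2) - (w1' - w2')) / w2 - ((w1' - w2') / w2') * ((w2 - w2') / w2) := by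
    field_simp
    ring
  have h1 : ‖((w1 - w2) - (w1' - w2')) / w2‖ ≤ 4 * E / s := by
    rw [norm_div, div_le_div_iff₀ hw0 hs]
    calc _ ≤ E * s := mul_le_mul_of_nonneg_right hE hs.le
      _ = 4 * E * (s / 4) := by ring
      _ ≤ _ := mul_le_mul_of_nonneg_left hw (by positivity)
  have h2 : ‖(w2 - w2') / w2‖ ≤ 4 * F / s := by
    rw [norm_div, div_le_div_iff₀ hw0 hs]
    calc _ ≤ F * s := mul_le_mul_of_nonneg_right hF hs.le
      _ = 4 * F * (s / 4) := by ring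
      _ ≤ _ := mul_le_mul_of_nonneg_left hw (by positivity)
  have h3 : ‖((w1' - w2') / w2') * ((w2 - w2') / w2)‖ ≤ 16 * D * F / s ^ 2 := by
    rw [norm_mul]
    calc _ ≤ (4 * D / s) * (4 * F / s) := mul_le_mul b3 h2 (norm_nonneg _) (by positivity)
      _ = _ := by ring
  have h4 : |((w1 - w2) / w2).im - ((w1' - w2') / w2').im| ≤ 4 * E / s + 16 * D * F / s ^ 2 := by
    rw [← Complex.sub_im]
    refine (Complex.abs_im_le_norm _).trans ?_
    rw [e]
    exact (norm_sub_le _ _).trans (add_le_add h1 h3)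
  have h5 : Complex.arg (w1 / w2) - Complex.arg (w1' / w2') =
      (Complex.arg (w1 / w2) - ((w1 - w2) / w2).im) +
      (((w1 - w2) / w2).im - ((w1' - w2') / w2').im) -
      (Complex.arg (w1' / w2') - ((w1' - w2') / w2').im) := by ring
  rw [h5]
  calc _ ≤ |(Complex.arg (w1 / w2) - ((w1 - w2) / w2).im) +
      (((w1 - w2) / w2).im - ((w1' - w2') / w2').im)| +
      |Complex.arg (w1' / w2') - ((w1' - w2') / w2').im| := abs_sub _ _
    _ ≤ (|Complex.arg (w1 / w2) - ((w1 - w2) / w2).im| +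
      |((w1 - w2) / w2).im - ((w1' - w2') / w2').im|) +
      |Complex.arg (w1' / w2') - ((w1' - w2') / w2').im| := by gcongr; exact abs_add_le _ _
    _ ≤ (64 * D ^ 2 / s ^ 2 + (4 * E / s + 16 * D * F / s ^ 2)) + 64 * D ^ 2 / s ^ 2 := by
      gcongr
    _ = _ := by ring

/-- coordinates of the end points of the bonds of a cell -/
theorem g2_bu {l : ℕ} (e : BI l) : 0 ≤ (bu e).1 ∧ (bu e).1 ≤ l ∧ 0 ≤ (bu e).2 ∧ (bu e).2 ≤ l := by
  obtain ⟨⟨i, j⟩, d, t⟩ := e
  have := i.2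
  have := j.2
  cases d <;> cases t <;> simp only [bu, Bool.and_true, Bool.false_eq_true, ↓reduceIte, add_zero, Bool.not_false, Bool.and_self, Nat.cast_nonneg, Nat.cast_le, Fin.is_le', Order.add_one_le_iff, Nat.cast_lt, Fin.is_lt, and_true, true_and, ge_iff_le, Bool.and_false, Bool.not_true, and_self] <;> omega

theorem g2_bv {l : ℕ} (e : BI l) : 0 ≤ (bv e).1 ∧ (bv e).1 ≤ l ∧ 0 ≤ (bv e).2 ∧ (bv e).2 ≤ l := by
  obtain ⟨⟨i, j⟩, d, t⟩ := e
  have := i.2
  have := j.2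
  cases d <;> cases t <;> simp only [bv, bu, Bool.and_self, Bool.false_eq_true, ↓reduceIte, add_zero, Bool.not_false, Bool.and_false, Prod.mk_add_mk, Order.add_one_le_iff, Nat.cast_lt, Fin.is_lt, Nat.cast_nonneg, Nat.cast_le, Fin.is_le', and_self, and_true, ge_iff_le, Bool.not_true, true_and, Bool.and_true] <;> omega

/-- points of the closed cells outside the core are outside the open core -/
theorem g2_outer {l m K M i j : ℕ} {k : ℤ × ℤ} (hk : k ∈ outer m K M i j) {y : ℤ × ℤ}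
    (h1 : 0 ≤ y.1) (h2 : y.1 ≤ l) (h3 : 0 ≤ y.2) (h4 : y.2 ≤ l) :
    (cor l k + y).1 ≤ (cor l (ccell m K M i j)).1 ∨
      (cor l (ccell m K M i j)).1 + (l * m : ℕ) ≤ (cor l k + y).1 ∨
      (cor l k + y).2 ≤ (cor l (ccell m K M i j)).2 ∨
      (cor l (ccell m K M i j)).2 + (l * m : ℕ) ≤ (cor l k + y).2 := by
  have hk' : k ∉ core m K M i j := (Finset.mem_sdiff.mp hk).2
  unfold core at hk'
  rw [Finset.mem_product, Finset.mem_Ico, Finset.mem_Ico] at hk'
  set c := ccell m K M i j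
  have hl : (0 : ℤ) ≤ l := by positivity
  have key : ∀ a b t : ℤ, 0 ≤ t → t ≤ l → a < b → (l : ℤ) * a + t ≤ (l : ℤ) * b := by
    intro a b t ht ht' hab
    have := mul_le_mul_of_nonneg_left (show a + 1 ≤ b by omega) hl
    linarith
  have key2 : ∀ a b t : ℤ, 0 ≤ t → b + m ≤ a → (l : ℤ) * b + (l * m : ℕ) ≤ (l : ℤ) * a + t := by
    intro a b t ht hab
    have := mul_le_mul_of_nonneg_left hab hl
    push_cast
    linarith
  simp only [cor, Prod.fst_add, Prod.snd_add]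
  by_cases a1 : k.1 < c.1
  · exact Or.inl (key _ _ _ h1 h2 a1)
  by_cases a2 : c.1 + m ≤ k.1
  · exact Or.inr (Or.inl (key2 _ _ _ h1 a2))
  by_cases a3 : k.2 < c.2
  · exact Or.inr (Or.inr (Or.inl (key _ _ _ h3 h4 a3)))
  by_cases a4 : c.2 + m ≤ k.2
  · exact Or.inr (Or.inr (Or.inr (key2 _ _ _ h3 a4)))
  exfalso
  apply hk'
  push Not at a1 a2 a3 a4
  exact ⟨⟨a1, a2⟩, ⟨a3, a4⟩⟩

theorem g2_pos {s K M i j : ℕ} (hi : i < M) (hj : j < M) :
    ‖pos s K i j‖ ≤ ((s * NN K M : ℕ) : ℝ) / 4 := by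
  refine (Complex.norm_le_abs_re_add_abs_im _).trans ?_
  have e1 : |(pos s K i j).re| = (K : ℝ) * s * i := by
    unfold pos
    exact abs_of_nonneg (by positivity)
  have e2 : |(pos s K i j).im| = (K : ℝ) * s * j := by
    unfold pos
    exact abs_of_nonneg (by positivity)
  rw [e1, e2]
  have hi' : (i : ℝ) ≤ M := by exact_mod_cast hi.le
  have hj' : (j : ℝ) ≤ M := by exact_mod_cast hj.le
  have h1 : (K : ℝ) * s * i ≤ K * s * M := by gcongr
  have h2 : (K : ℝ) * s * j ≤ K * s * M := by gcongr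
  unfold NN
  push_cast
  have h3 : (0 : ℝ) ≤ s := by positivity
  linarith only [h1, h2]

/-- second differences of the vortex function over a cell -/
theorem g2_wf_sd {C : ℝ} (hC1 : 1 ≤ C) (hC : ∀ x y, |kap x - kap y| ≤ C * |x - y|)
    (hC' : ∀ x y d : ℝ, |(kap x - kap (x + d)) - (kap y - kap (y + d))| ≤
    C * |d| * |x - y|) {L : ℕ} (hL : 1 ≤ L) {P : ℂ} (hP : ‖P‖ ≤ L / 4) {l : ℕ} (k : ℤ × ℤ)
    (e e' : BI l) (hee : hh e = hh e') :
    ‖(wf L P (cor l k + bu e) - wf L P (cor l k + bv e)) -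
      (wf L P (cor l k + bu e') - wf L P (cor l k + bv e'))‖ ≤ (C + C ^ 2) * l / (4 * L) := by
  have hL0 : (0 : ℝ) < L := by exact_mod_cast hL
  have hd : e.2.1 = e'.2.1 := by
    unfold hh at hee
    by_cases a : e.2.1 = true <;> by_cases b : e'.2.1 = true <;> simp_all
  obtain ⟨h1, h2, h3, h4⟩ := g2_bu e
  obtain ⟨h1', h2', h3', h4'⟩ := g2_bu e'
  have hx : |((l * k.1 + (bu e).1 : ℤ) : ℝ) - ((l * k.1 + (bu e').1 : ℤ) : ℝ)| ≤ l := by
    rw [← Int.cast_sub, ← Int.cast_abs]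
    have : |(l * k.1 + (bu e).1 : ℤ) - (l * k.1 + (bu e').1 : ℤ)| ≤ (l : ℤ) := by
      rw [abs_le]; constructor <;> linarith
    exact_mod_cast this
  have hy : |((l * k.2 + (bu e).2 : ℤ) : ℝ) - ((l * k.2 + (bu e').2 : ℤ) : ℝ)| ≤ l := by
    rw [← Int.cast_sub, ← Int.cast_abs]
    have : |(l * k.2 + (bu e).2 : ℤ) - (l * k.2 + (bu e').2 : ℤ)| ≤ (l : ℤ) := by
      rw [abs_le]; constructor <;> linarith
    exact_mod_cast this
  have key : |(kk L (cor l k + bu e) - kk L (cor l k + bv e)) -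
      (kk L (cor l k + bu e') - kk L (cor l k + bv e'))| ≤ (C + C ^ 2) * l / (L : ℝ) ^ 2 := by
    simp only [g2_kk, bv, ← hd, cor, Prod.fst_add, Prod.snd_add]
    by_cases a : e.2.1 = true
    · simp only [a, if_true, add_zero]
      have := g2_sd hC1 hC hC' hL (l * k.2 + (bu e).2) (l * k.1 + (bu e).1)
        (l * k.2 + (bu e').2) (l * k.1 + (bu e').1) hy hx
      rw [add_assoc, add_assoc] at this
      convert this using 2
      ring
    · simp only [Bool.not_eq_true] at a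
      simp only [a, Bool.false_eq_true, if_false, add_zero]
      have := g2_sd hC1 hC hC' hL (l * k.1 + (bu e).1) (l * k.2 + (bu e).2)
        (l * k.1 + (bu e').1) (l * k.2 + (bu e').2) hx hy
      rw [add_assoc, add_assoc] at this
      convert this using 2
  have hz : (zc (cor l k + bu e) - zc (cor l k + bv e)) -
      (zc (cor l k + bu e') - zc (cor l k + bv e')) = 0 := by
    simp only [zc, bv, ← hd]
    by_cases a : e.2.1 = true
    · apply Complex.ext <;> simp [a]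
    · apply Complex.ext <;> simp [a]
  rw [g2_wf_sub_eq, g2_wf_sub_eq]
  have e3 : zc (cor l k + bu e) - zc (cor l k + bv e) -
      ((kk L (cor l k + bu e) - kk L (cor l k + bv e) : ℝ) : ℂ) * P -
      (zc (cor l k + bu e') - zc (cor l k + bv e') -
      ((kk L (cor l k + bu e') - kk L (cor l k + bv e') : ℝ) : ℂ) * P) =
      -((((kk L (cor l k + bu e) - kk L (cor l k + bv e)) -
      (kk L (cor l k + bu e') - kk L (cor l k + bv e')) : ℝ) : ℂ) * P) := by
    push_cast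
    linear_combination hz
  rw [e3, norm_neg, norm_mul, Complex.norm_real, Real.norm_eq_abs]
  calc _ ≤ ((C + C ^ 2) * l / (L : ℝ) ^ 2) * (L / 4) :=
        mul_le_mul key hP (norm_nonneg _) (by positivity)
    _ = _ := by field_simp

/-- distance of two end points of bonds of a cell -/
theorem g2_bv_dist {l : ℕ} (k : ℤ × ℤ) (e e' : BI l) :
    |((cor l k + bv e).1 : ℝ) - (cor l k + bv e').1| +
      |((cor l k + bv e).2 : ℝ) - (cor l k + bv e').2| ≤ 2 * l := by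
  obtain ⟨h1, h2, h3, h4⟩ := g2_bv e
  obtain ⟨h1', h2', h3', h4'⟩ := g2_bv e'
  have hx : |((cor l k + bv e).1 : ℝ) - (cor l k + bv e').1| ≤ l := by
    rw [← Int.cast_sub, ← Int.cast_abs]
    have : |(cor l k + bv e).1 - (cor l k + bv e').1| ≤ (l : ℤ) := by
      rw [abs_le, Prod.fst_add, Prod.fst_add]; constructor <;> linarith
    exact_mod_cast this
  have hy : |((cor l k + bv e).2 : ℝ) - (cor l k + bv e').2| ≤ l := by
    rw [← Int.cast_sub, ← Int.cast_abs]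
    have : |(cor l k + bv e).2 - (cor l k + bv e').2| ≤ (l : ℤ) := by
      rw [abs_le, Prod.snd_add, Prod.snd_add]; constructor <;> linarith
    exact_mod_cast this
  linarith

theorem g2_bond_dist {l : ℕ} (k : ℤ × ℤ) (e : BI l) :
    |((cor l k + bu e).1 : ℝ) - (cor l k + bv e).1| +
      |((cor l k + bu e).2 : ℝ) - (cor l k + bv e).2| = 1 := by
  simp only [bv, Prod.fst_add, Prod.snd_add]
  by_cases a : e.2.1 = true
  · simp [a]
  · simp [a]

theorem geo_inc : ∃ C0 s0 : ℝ, 1 ≤ C0 ∧ 2 ≤ s0 ∧ ∀ l m K M i j : ℕ, 1 ≤ l → 1 ≤ K → i < M →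
    j < M → s0 ≤ ((l * m : ℕ) : ℝ) → ∀ k ∈ outer m K M i j, ∀ e : BI l,
      |ainc l m K M i j k e| ≤ C0 / ((l * m : ℕ) : ℝ) ∧
      ∀ e' : BI l, hh e = hh e' → |ainc l m K M i j k e - ainc l m K M i j k e'| ≤
        C0 * l / ((l * m : ℕ) : ℝ) ^ 2 := by
  obtain ⟨C, hC1, hC, hC'⟩ := g2_kap_lip
  have hC0 : 0 ≤ C := by linarith
  refine ⟨12 * (1 + C / 4) + 128 * (1 + C / 4) ^ 2 + (C + C ^ 2) + 32 * (1 + C / 4) ^ 2,
    8 * (1 + C / 4), by nlinarith only [], by linarith, ?_⟩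
  intro l m K M i j hl hK hi hj hs k hk e
  set s : ℝ := ((l * m : ℕ) : ℝ) with hsdef
  have hspos : 0 < s := by linarith
  have hs2 : 2 ≤ l * m := by
    have : (2 : ℝ) ≤ ((l * m : ℕ) : ℝ) := by rw [← hsdef]; linarith
    exact_mod_cast this
  have hLs : l * m ≤ l * m * NN K M := Nat.le_mul_of_pos_right _ (by unfold NN; omega)
  have hL : 1 ≤ l * m * NN K M := by omega
  have hLs' : s ≤ ((l * m * NN K M : ℕ) : ℝ) := by
    rw [hsdef]
    exact_mod_cast hLs
  have hP : ‖pos (l * m) K i j‖ ≤ ((l * m * NN K M : ℕ) : ℝ) / 4 := g2_pos hi hj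
  have hw : ∀ e : BI l, s / 4 ≤ ‖wf (l * m * NN K M) (pos (l * m) K i j) (cor l k + bv e)‖ := by
    intro e
    obtain ⟨h1, h2, h3, h4⟩ := g2_bv e
    exact geo_nz hs2 hK hi hj (g2_outer hk h1 h2 h3 h4)
  have hD : ∀ e : BI l, ‖wf (l * m * NN K M) (pos (l * m) K i j) (cor l k + bu e) -
      wf (l * m * NN K M) (pos (l * m) K i j) (cor l k + bv e)‖ ≤ 1 + C / 4 := by
    intro e
    have := g2_wf_sub hC0 hC hL hP (cor l k + bu e) (cor l k + bv e)
    rwa [g2_bond_dist, mul_one] at this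
  have hl1 : (1 : ℝ) ≤ l := by exact_mod_cast hl
  constructor
  · have h := (g2_inc_one hspos (hw e) (hD e) hs).1
    unfold ainc inc
    refine h.trans ?_
    apply div_le_div_of_nonneg_right _ hspos.le
    nlinarith only []
  · intro e' hee
    have hE := g2_wf_sd hC1 hC hC' hL hP k e e' hee
    have hF : ‖wf (l * m * NN K M) (pos (l * m) K i j) (cor l k + bv e) -
        wf (l * m * NN K M) (pos (l * m) K i j) (cor l k + bv e')‖ ≤ (1 + C / 4) * (2 * l) := by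
      refine (g2_wf_sub hC0 hC hL hP _ _).trans ?_
      exact mul_le_mul_of_nonneg_left (g2_bv_dist k e e') (by positivity)
    have h := g2_inc_two hspos (hw e) (hw e') (hD e) (hD e') hs hE hF
    unfold ainc inc
    refine h.trans ?_
    have h1 : 128 * (1 + C / 4) ^ 2 / s ^ 2 ≤ 128 * (1 + C / 4) ^ 2 * l / s ^ 2 := by
      apply div_le_div_of_nonneg_right _ (by positivity)
      nlinarith only [hl1]
    have h2 : 4 * ((C + C ^ 2) * l / (4 * ((l * m * NN K M : ℕ) : ℝ))) / s ≤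
        (C + C ^ 2) * l / s ^ 2 := by
      have e1 : 4 * ((C + C ^ 2) * l / (4 * ((l * m * NN K M : ℕ) : ℝ))) / s =
          (C + C ^ 2) * l / (((l * m * NN K M : ℕ) : ℝ) * s) := by
        have : ((l * m * NN K M : ℕ) : ℝ) ≠ 0 := by
          have : 0 < ((l * m * NN K M : ℕ) : ℝ) := lt_of_lt_of_le hspos hLs'
          exact this.ne'
        field_simp
      rw [e1]
      apply div_le_div_of_nonneg_left (by positivity) (by positivity)
      rw [pow_two]
      exact mul_le_mul_of_nonneg_right hLs' hspos.le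
    have h3 : 16 * (1 + C / 4) * ((1 + C / 4) * (2 * l)) / s ^ 2 =
        32 * (1 + C / 4) ^ 2 * l / s ^ 2 := by ring
    rw [h3]
    have h4 : (0 : ℝ) ≤ 12 * (1 + C / 4) * l / s ^ 2 := by positivity
    calc _ ≤ 128 * (1 + C / 4) ^ 2 * l / s ^ 2 + (C + C ^ 2) * l / s ^ 2 +
          32 * (1 + C / 4) ^ 2 * l / s ^ 2 := by gcongr
      _ ≤ 12 * (1 + C / 4) * l / s ^ 2 + (128 * (1 + C / 4) ^ 2 * l / s ^ 2 +
          (C + C ^ 2) * l / s ^ 2 + 32 * (1 + C / 4) ^ 2 * l / s ^ 2) := by linarith only [h4]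
      _ = _ := by ring

end UJ

end Vale.Agent.P159
end
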