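import Vale.Agent.P159.Bdl.B4
import Vale.Agent.P159.Bdl.B2
import Vale.Agent.P159.Bdl.B5

set_option linter.all false

section

/-! Energy of the displaced vortex configurations outside of the core. -/

open scoped BigOperators

namespace Vale.Agent.P159

namespace UJ

theorem g3_arg {ζ : ℂ} (h : ‖ζ‖ ≤ 1 / 2) : |Complex.arg (1 + ζ) - ζ.im| ≤ ‖ζ‖ ^ 2 := by
  have h1 := Complex.norm_log_one_add_sub_self_le (z := ζ) (by linarith)
  have h2 : Complex.arg (1 + ζ) - ζ.im = (Complex.log (1 + ζ) - ζ).im := by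
    rw [Complex.sub_im, Complex.log_im]
  rw [h2]
  refine (Complex.abs_im_le_norm _).trans (h1.trans ?_)
  have h3 : (1 - ‖ζ‖)⁻¹ ≤ 2 := by
    rw [inv_le_comm₀ (by linarith only [h]) (by norm_num)]; linarith only [h]
  nlinarith only [h3]

theorem g3_div {u v : ℂ} (hv : v ≠ 0) : u / v = 1 + (u - v) / v := by
  field_simp
  ring

/-- bonds far from the centre -/
theorem g3_far {u v : ℂ} {D r : ℝ} (hD : ‖u - v‖ ≤ D) (hr : 0 < r) (hv : r ≤ ‖v‖)
    (h2 : 2 * D ≤ r) : Complex.arg (u / v) ^ 2 ≤ 4 * D ^ 2 / r ^ 2 := by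
  have hv0 : v ≠ 0 := by
    intro h; rw [h, norm_zero] at hv; linarith only [hr, hv]
  have hD0 : 0 ≤ D := (norm_nonneg _).trans hD
  rw [g3_div hv0]
  set ζ := (u - v) / v with hζ
  have h1 : ‖ζ‖ ≤ D / r := by
    rw [hζ, norm_div]
    gcongr
  have h3 : D / r ≤ 1 / 2 := by
    rw [div_le_iff₀ hr]; linarith only [h2]
  have h4 := g3_arg (h1.trans h3)
  have h5 := Complex.abs_im_le_norm ζ
  have h6 : |Complex.arg (1 + ζ)| ≤ 2 * (D / r) := by
    have : |Complex.arg (1 + ζ)| ≤ |Complex.arg (1 + ζ) - ζ.im| + |ζ.im| := by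
      calc |Complex.arg (1 + ζ)| = |(Complex.arg (1 + ζ) - ζ.im) + ζ.im| := by ring_nf
        _ ≤ _ := abs_add_le _ _
    have h7 : ‖ζ‖ ^ 2 ≤ ‖ζ‖ := by nlinarith only [h1, h3, norm_nonneg ζ]
    linarith only [h1, h4, h5, this, h7]
  calc Complex.arg (1 + ζ) ^ 2 = |Complex.arg (1 + ζ)| ^ 2 := (sq_abs _).symm
    _ ≤ (2 * (D / r)) ^ 2 := pow_le_pow_left₀ (abs_nonneg _) h6 2
    _ = 4 * D ^ 2 / r ^ 2 := by ring

/-- bonds near the centre -/
theorem g3_near {w u v : ℂ} (hw : 4 ≤ ‖w‖) (hv : ‖w - v‖ ≤ 2) (hD : ‖u - v‖ ≤ 1) :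
    Complex.arg (u / v) ^ 2 ≤ ((u - v) / w).im ^ 2 + 80 / ‖w‖ ^ 3 := by
  have hw0 : 0 < ‖w‖ := by linarith
  have hwn : w ≠ 0 := norm_pos_iff.1 hw0
  have hvw : ‖w‖ / 2 ≤ ‖v‖ := by
    have := norm_sub_norm_le w v
    linarith only [hw, hv, this]
  have hv0 : 0 < ‖v‖ := by linarith
  have hvn : v ≠ 0 := norm_pos_iff.1 hv0
  rw [g3_div hvn]
  set ζ := (u - v) / v with hζ
  set b := ((u - v) / w).im with hb
  have h1 : ‖ζ‖ ≤ 2 / ‖w‖ := by
    rw [hζ, norm_div, div_le_div_iff₀ hv0 hw0]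
    nlinarith only [hw, hD, hvw]
  have h2 : 2 / ‖w‖ ≤ 1 / 2 := by
    rw [div_le_div_iff₀ hw0 (by norm_num)]; linarith only [hw]
  have h3 := g3_arg (h1.trans h2)
  have h4 : ‖ζ‖ ^ 2 ≤ 4 / ‖w‖ ^ 2 := by
    calc ‖ζ‖ ^ 2 ≤ (2 / ‖w‖) ^ 2 := pow_le_pow_left₀ (norm_nonneg _) h1 2
      _ = 4 / ‖w‖ ^ 2 := by ring
  have h5 : |ζ.im - b| ≤ 4 / ‖w‖ ^ 2 := by
    have e1 : ζ.im - b = ((u - v) * (w - v) / (v * w)).im := by
      rw [hζ, hb, ← Complex.sub_im]
      congr 1
      (clear * - hwn hvn; field_simp)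
    rw [e1]
    refine (Complex.abs_im_le_norm _).trans ?_
    rw [norm_div, norm_mul, norm_mul, div_le_div_iff₀ (by positivity) (by positivity)]
    have h6 : ‖u - v‖ * ‖w - v‖ ≤ 1 * 2 := by (clear * - hD hv; gcongr)
    nlinarith only [hw, hvw, h6]
  have h6 : |b| ≤ 1 / ‖w‖ := by
    rw [hb]
    refine (Complex.abs_im_le_norm _).trans ?_
    rw [norm_div]
    (clear * - hD hwn; gcongr)
  have h7 : |Complex.arg (1 + ζ)| ≤ |b| + 8 / ‖w‖ ^ 2 := by
    have e2 : Complex.arg (1 + ζ) = (Complex.arg (1 + ζ) - ζ.im) + (ζ.im - b) + b := by ring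
    have e3 := abs_add_three (Complex.arg (1 + ζ) - ζ.im) (ζ.im - b) b
    rw [← e2] at e3
    have e4 : 8 / ‖w‖ ^ 2 = 4 / ‖w‖ ^ 2 + 4 / ‖w‖ ^ 2 := by ring
    (clear * - h3 h4 h5 e3 e4; linarith)
  calc Complex.arg (1 + ζ) ^ 2 = |Complex.arg (1 + ζ)| ^ 2 := (sq_abs _).symm
    _ ≤ (|b| + 8 / ‖w‖ ^ 2) ^ 2 := pow_le_pow_left₀ (abs_nonneg _) h7 2
    _ = b ^ 2 + 16 * |b| / ‖w‖ ^ 2 + 64 / ‖w‖ ^ 4 := by
        rw [← sq_abs b]; ring
    _ ≤ b ^ 2 + 16 * (1 / ‖w‖) / ‖w‖ ^ 2 + 64 / ‖w‖ ^ 3 := by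
        have : 64 / ‖w‖ ^ 4 ≤ 64 / ‖w‖ ^ 3 := by
          have e : ‖w‖ ^ 3 ≤ ‖w‖ ^ 4 := pow_le_pow_right₀ (by linarith only [hw]) (by norm_num)
          (clear * - hwn e; gcongr)
        (clear * - h6 hwn this; gcongr)
    _ = b ^ 2 + 80 / ‖w‖ ^ 3 := by
        field_simp
        ring

/-! ### lattice sums in rings -/

theorem g3_Icc (q : ℤ) (n : ℕ) (f : ℤ → ℝ) : ∑ z ∈ Finset.Icc (q + 1 - n) (q + n), f z =
    ∑ k ∈ Finset.range n, (f (q + 1 + k) + f (q - k)) := by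
  induction n with
  | zero => simp only [CharP.cast_eq_zero, sub_zero, add_zero, lt_add_iff_pos_right, zero_lt_one, Finset.Icc_eq_empty_of_lt, Finset.sum_empty, Finset.range_zero]
  | succ n ih =>
    rw [Finset.sum_range_succ, ← ih]
    have h1 : Finset.Icc (q + 1 - ((n + 1 : ℕ) : ℤ)) (q + ((n + 1 : ℕ) : ℤ)) =
        insert (q + 1 + (n : ℤ)) (insert (q - (n : ℤ)) (Finset.Icc (q + 1 - n) (q + n))) := by
      ext x
      simp only [Finset.mem_Icc, Finset.mem_insert]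
      push_cast
      omega
    rw [h1, Finset.sum_insert, Finset.sum_insert]
    · ring
    · simp only [Finset.mem_Icc]; omega
    · simp only [Finset.mem_Icc, Finset.mem_insert]; omega

/-- squared distance to the half integer point `q + 1/2` -/
noncomputable def g3_dd (q z : ℤ × ℤ) : ℝ :=
  ((z.1 : ℝ) - q.1 - 1 / 2) ^ 2 + ((z.2 : ℝ) - q.2 - 1 / 2) ^ 2

/-- box of side `2 n` around `q + 1/2` -/
noncomputable def g3_bx (q : ℤ × ℤ) (n : ℕ) : Finset (ℤ × ℤ) :=
  Finset.Icc (q.1 + 1 - n) (q.1 + n) ×ˢ Finset.Icc (q.2 + 1 - n) (q.2 + n)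

theorem g3_strip (q : ℤ) (n : ℕ) : ∑ z ∈ Finset.Icc (q + 1 - ((n + 1 : ℕ) : ℤ))
    (q + ((n + 1 : ℕ) : ℤ)), 1 / (((n : ℝ) + 1 / 2) ^ 2 + ((z : ℝ) - q - 1 / 2) ^ 2) ≤
      Real.pi / 2 / ((n : ℝ) + 1 / 2) + 2 / ((n : ℝ) + 1 / 2) ^ 2 := by
  rw [g3_Icc]
  set X : ℝ := (n : ℝ) + 1 / 2 with hX
  have hn : (0 : ℝ) ≤ n := n.cast_nonneg
  have hX0 : 0 < X := by linarith only [hX]
  have h1 : ∀ k ∈ Finset.range (n + 1), 1 / (X ^ 2 + (((q + 1 + (k : ℤ) : ℤ) : ℝ) - q - 1 / 2) ^ 2) +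
      1 / (X ^ 2 + (((q - (k : ℤ) : ℤ) : ℝ) - q - 1 / 2) ^ 2) ≤ 2 * (1 / (X ^ 2 + (k : ℝ) ^ 2)) := by
    intro k _
    have hk : (0 : ℝ) ≤ k := k.cast_nonneg
    have e1 : (((q + 1 + (k : ℤ) : ℤ) : ℝ) - q - 1 / 2) = k + 1 / 2 := by push_cast; ring
    have e2 : (((q - (k : ℤ) : ℤ) : ℝ) - q - 1 / 2) = -(k + 1 / 2) := by push_cast; ring
    rw [e1, e2, neg_sq, ← two_mul]
    have e3 : (k : ℝ) ^ 2 ≤ (k + 1 / 2) ^ 2 := by nlinarith only [e2]
    (clear * - e3; gcongr)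
  refine (Finset.sum_le_sum h1).trans ?_
  rw [← Finset.mul_sum, Finset.sum_range_succ']
  have h2 := sum_half hX0 n
  have h3 : Real.arctan (n / X) ≤ Real.pi / 4 := by
    rw [← Real.arctan_one]
    apply Real.arctan_strictMono.monotone
    rw [div_le_one hX0]
    linarith only [hX]
  have h4 : Real.arctan (n / X) / X ≤ Real.pi / 4 / X := by (clear * - h3; gcongr)
  have h5 : ∑ k ∈ Finset.range n, 1 / (X ^ 2 + (((k + 1 : ℕ) : ℝ)) ^ 2) =
      ∑ k ∈ Finset.range n, 1 / (X ^ 2 + ((k : ℝ) + 1) ^ 2) := by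
    refine Finset.sum_congr rfl fun k _ => ?_
    push_cast
    rfl
  rw [h5]
  have h6 : X ^ 2 + ((0 : ℕ) : ℝ) ^ 2 = X ^ 2 := by simp
  rw [h6]
  have h7 : Real.pi / 2 / X + 2 / X ^ 2 = 2 * (Real.pi / 4 / X + 1 / X ^ 2) := by ring
  rw [h7]
  linarith only [h2, h4]

theorem g3_union {A B : Finset (ℤ × ℤ)} {f : ℤ × ℤ → ℝ} (hf : ∀ z, 0 ≤ f z) :
    ∑ z ∈ A ∪ B, f z ≤ ∑ z ∈ A, f z + ∑ z ∈ B, f z := by
  rw [← Finset.sum_union_inter]
  have : 0 ≤ ∑ z ∈ A ∩ B, f z := Finset.sum_nonneg fun z _ => hf z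
  linarith only [this]

theorem g3_dd_nonneg (q z : ℤ × ℤ) : 0 ≤ g3_dd q z := by unfold g3_dd; positivity

theorem g3_ring_inv (q : ℤ × ℤ) (n : ℕ) : ∑ z ∈ g3_bx q (n + 1) \ g3_bx q n, 1 / g3_dd q z ≤
    2 * Real.pi / ((n : ℝ) + 1 / 2) + 8 / ((n : ℝ) + 1 / 2) ^ 2 := by
  have hnn : ∀ z, 0 ≤ 1 / g3_dd q z := fun z => div_nonneg zero_le_one (g3_dd_nonneg q z)
  set I1 := Finset.Icc (q.1 + 1 - ((n + 1 : ℕ) : ℤ)) (q.1 + ((n + 1 : ℕ) : ℤ)) with hI1
  set I2 := Finset.Icc (q.2 + 1 - ((n + 1 : ℕ) : ℤ)) (q.2 + ((n + 1 : ℕ) : ℤ)) with hI2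
  have hsub : g3_bx q (n + 1) \ g3_bx q n ⊆ ((({q.1 + (n : ℤ) + 1} : Finset ℤ) ×ˢ I2) ∪
      (({q.1 - (n : ℤ)} : Finset ℤ) ×ˢ I2)) ∪ ((I1 ×ˢ ({q.2 + (n : ℤ) + 1} : Finset ℤ)) ∪
      (I1 ×ˢ ({q.2 - (n : ℤ)} : Finset ℤ))) := by
    intro z hz
    simp only [g3_bx, Finset.mem_sdiff, Finset.mem_product, Finset.mem_Icc, hI2, hI1, Finset.mem_union, Finset.mem_singleton] at hz ⊢
    push_cast at hz ⊢
    omega
  refine (Finset.sum_le_sum_of_subset_of_nonneg hsub fun z _ _ => hnn z).trans ?_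
  refine (g3_union hnn).trans ?_
  refine (add_le_add (g3_union hnn) (g3_union hnn)).trans ?_
  have s1 := g3_strip q.1 n
  have s2 := g3_strip q.2 n
  have e1 : ∑ z ∈ ({q.1 + (n : ℤ) + 1} : Finset ℤ) ×ˢ I2, 1 / g3_dd q z ≤
      Real.pi / 2 / ((n : ℝ) + 1 / 2) + 2 / ((n : ℝ) + 1 / 2) ^ 2 := by
    rw [Finset.sum_product, Finset.sum_singleton]
    refine le_trans (le_of_eq (Finset.sum_congr rfl fun z _ => ?_)) s2
    unfold g3_dd
    push_cast
    ring_nf
  have e2 : ∑ z ∈ ({q.1 - (n : ℤ)} : Finset ℤ) ×ˢ I2, 1 / g3_dd q z ≤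
      Real.pi / 2 / ((n : ℝ) + 1 / 2) + 2 / ((n : ℝ) + 1 / 2) ^ 2 := by
    rw [Finset.sum_product, Finset.sum_singleton]
    refine le_trans (le_of_eq (Finset.sum_congr rfl fun z _ => ?_)) s2
    unfold g3_dd
    push_cast
    ring_nf
  have e3 : ∑ z ∈ I1 ×ˢ ({q.2 + (n : ℤ) + 1} : Finset ℤ), 1 / g3_dd q z ≤
      Real.pi / 2 / ((n : ℝ) + 1 / 2) + 2 / ((n : ℝ) + 1 / 2) ^ 2 := by
    rw [Finset.sum_product]
    simp only [Finset.sum_singleton]
    refine le_trans (le_of_eq (Finset.sum_congr rfl fun z _ => ?_)) s1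
    unfold g3_dd
    push_cast
    ring_nf
  have e4 : ∑ z ∈ I1 ×ˢ ({q.2 - (n : ℤ)} : Finset ℤ), 1 / g3_dd q z ≤
      Real.pi / 2 / ((n : ℝ) + 1 / 2) + 2 / ((n : ℝ) + 1 / 2) ^ 2 := by
    rw [Finset.sum_product]
    simp only [Finset.sum_singleton]
    refine le_trans (le_of_eq (Finset.sum_congr rfl fun z _ => ?_)) s1
    unfold g3_dd
    push_cast
    ring_nf
  have e5 : 2 * Real.pi / ((n : ℝ) + 1 / 2) + 8 / ((n : ℝ) + 1 / 2) ^ 2 =
      4 * (Real.pi / 2 / ((n : ℝ) + 1 / 2) + 2 / ((n : ℝ) + 1 / 2) ^ 2) := by ring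
  rw [e5]
  linarith only [e1, e2, e3, e4]

/-- the summand -/
noncomputable def g3_gg (q z : ℤ × ℤ) : ℝ := 1 / g3_dd q z + 160 / (g3_dd q z * Real.sqrt (g3_dd q z))

theorem g3_gg_nonneg (q z : ℤ × ℤ) : 0 ≤ g3_gg q z := by
  unfold g3_gg
  have := g3_dd_nonneg q z
  positivity

theorem g3_dd_ring {q z : ℤ × ℤ} {n : ℕ} (hz : z ∉ g3_bx q n) : ((n : ℝ) + 1 / 2) ^ 2 ≤ g3_dd q z := by
  have hn : (0 : ℝ) ≤ n := n.cast_nonneg
  unfold g3_dd
  simp only [g3_bx, Finset.mem_product, Finset.mem_Icc] at hz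
  have h : z.1 ≤ q.1 - n ∨ q.1 + n + 1 ≤ z.1 ∨ z.2 ≤ q.2 - n ∨ q.2 + n + 1 ≤ z.2 := by (clear * - hz; omega)
  rcases h with h | h | h | h
  · have h' : (z.1 : ℝ) ≤ q.1 - n := by exact_mod_cast h
    nlinarith only [h']
  · have h' : (q.1 : ℝ) + n + 1 ≤ z.1 := by exact_mod_cast h
    nlinarith only [h']
  · have h' : (z.2 : ℝ) ≤ q.2 - n := by exact_mod_cast h
    nlinarith only [h']
  · have h' : (q.2 : ℝ) + n + 1 ≤ z.2 := by exact_mod_cast h
    nlinarith only [h']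

theorem g3_ring (q : ℤ × ℤ) {n : ℕ} (hn : 1 ≤ n) : ∑ z ∈ g3_bx q (n + 1) \ g3_bx q n, g3_gg q z ≤
    2 * Real.pi * (Real.log ((n : ℝ) + 1) - Real.log n) + 2300 * (1 / (n : ℝ) - 1 / ((n : ℝ) + 1)) := by
  have hn1 : (1 : ℝ) ≤ n := by exact_mod_cast hn
  set X : ℝ := (n : ℝ) + 1 / 2 with hX
  have hX0 : 0 < X := by linarith only [hX]
  have h1 : ∀ z ∈ g3_bx q (n + 1) \ g3_bx q n, g3_gg q z ≤ (1 + 160 / X) * (1 / g3_dd q z) := by
    intro z hz
    have h2 := g3_dd_ring (Finset.mem_sdiff.1 hz).2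
    have h3 : 0 < g3_dd q z := lt_of_lt_of_le (by positivity) h2
    have h4 : X ≤ Real.sqrt (g3_dd q z) := Real.le_sqrt_of_sq_le h2
    unfold g3_gg
    have h5 : 160 / (g3_dd q z * Real.sqrt (g3_dd q z)) ≤ 160 / (g3_dd q z * X) := by (clear * - h3 hn h4; gcongr)
    have h6 : (1 + 160 / X) * (1 / g3_dd q z) = 1 / g3_dd q z + 160 / (g3_dd q z * X) := by
      (clear * - hX0 h3; field_simp)
    rw [h6]
    linarith only [h5]
  refine (Finset.sum_le_sum h1).trans ?_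
  rw [← Finset.mul_sum]
  have h2 := g3_ring_inv q n
  have h3 : (1 + 160 / X) * ∑ z ∈ g3_bx q (n + 1) \ g3_bx q n, 1 / g3_dd q z ≤
      (1 + 160 / X) * (2 * Real.pi / X + 8 / X ^ 2) := by gcongr
  refine h3.trans ?_
  have hpi := Real.pi_pos
  have hpi4 := Real.pi_lt_d2
  have h4 : (1 : ℝ) / X ^ 2 ≤ 1 / (n : ℝ) - 1 / ((n : ℝ) + 1) := by
    have e : (1 : ℝ) / (n : ℝ) - 1 / ((n : ℝ) + 1) = 1 / (n * (n + 1)) := by
      field_simp; ring
    rw [e]
    apply one_div_le_one_div_of_le (by positivity)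
    rw [hX]; nlinarith only []
  have h5 : 1 / X ≤ (Real.log ((n : ℝ) + 1) - Real.log n) + 1 / 2 * (1 / (n : ℝ) - 1 / ((n : ℝ) + 1)) := by
    have e1 := Real.one_sub_inv_le_log_of_pos (x := ((n : ℝ) + 1) / n) (by positivity)
    rw [Real.log_div (by positivity) (by positivity)] at e1
    have e2 : 1 - (((n : ℝ) + 1) / n)⁻¹ = 1 / ((n : ℝ) + 1) := by
      field_simp
      ring
    rw [e2] at e1
    have e3 : 1 / X ≤ 1 / ((n : ℝ) + 1) + 1 / 2 * (1 / (n : ℝ) - 1 / ((n : ℝ) + 1)) := by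
      have e4 : 1 / ((n : ℝ) + 1) + 1 / 2 * (1 / (n : ℝ) - 1 / ((n : ℝ) + 1)) =
          X / (n * (n + 1)) := by
        rw [hX]; field_simp; ring
      rw [e4, div_le_div_iff₀ hX0 (by positivity)]
      rw [hX]; nlinarith only []
    linarith only [e1, e3]
  have h6 : (1 + 160 / X) * (2 * Real.pi / X + 8 / X ^ 2) =
      2 * Real.pi * (1 / X) + (8 + 320 * Real.pi) * (1 / X ^ 2) + 1280 * (1 / X ^ 2) * (1 / X) := by
    field_simp
    ring
  have h7 : 1 / X ≤ 2 / 3 := by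
    rw [div_le_div_iff₀ hX0 (by norm_num)]; linarith only [hn1, hX]
  have h8 : 0 ≤ 1 / X ^ 2 := by positivity
  rw [h6]
  nlinarith only [hpi, hpi4, h4, h5, h7, h8]

theorem g3_sum (q : ℤ × ℤ) {k0 : ℕ} (hk : 1 ≤ k0) (n : ℕ) (hn : k0 ≤ n) :
    ∑ z ∈ g3_bx q n \ g3_bx q k0, g3_gg q z ≤
    2 * Real.pi * (Real.log n - Real.log k0) + 2300 * (1 / (k0 : ℝ) - 1 / n) := by
  induction n, hn using Nat.le_induction with
  | base => simp only [sdiff_self, Finset.bot_eq_empty, Finset.sum_empty, sub_self, mul_zero, one_div, add_zero, Std.le_refl]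
  | succ n hn ih =>
    have hsub : g3_bx q (n + 1) \ g3_bx q k0 ⊆ (g3_bx q n \ g3_bx q k0) ∪ (g3_bx q (n + 1) \ g3_bx q n) := by
      intro z hz
      simp only [Finset.mem_sdiff, Finset.mem_union] at hz ⊢
      tauto
    have h1 := Finset.sum_le_sum_of_subset_of_nonneg hsub fun z _ _ => g3_gg_nonneg q z
    have h2 := g3_union (A := g3_bx q n \ g3_bx q k0) (B := g3_bx q (n + 1) \ g3_bx q n) (g3_gg_nonneg q)
    have h3 := g3_ring q (n := n) (hk.trans hn)
    push_cast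
    linarith only [ih, h1, h2, h3]

/-! ### the cutoff -/

theorem g3_kap_nonneg (s : ℝ) : 0 ≤ kap s :=
  mul_nonneg (Real.smoothTransition.nonneg _) (Real.smoothTransition.nonneg _)

theorem g3_kap_le_one (s : ℝ) : kap s ≤ 1 :=
  mul_le_one₀ (Real.smoothTransition.le_one _) (Real.smoothTransition.nonneg _)
    (Real.smoothTransition.le_one _)

theorem g3_kap_one {s : ℝ} (h : |s| ≤ 1 / 4) : kap s = 1 := by
  obtain ⟨h1, h2⟩ := abs_le.1 h
  unfold kap
  rw [Real.smoothTransition.one_of_one_le (by linarith only [h2]),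
    Real.smoothTransition.one_of_one_le (by linarith only [h1]), one_mul]

theorem g3_kap_lip : ∃ C : ℝ, 0 ≤ C ∧ ∀ a b : ℝ, |kap a - kap b| ≤ C * |a - b| := by
  have hc : ContDiff ℝ 1 kap := by
    unfold kap
    have h1 : ContDiff ℝ 1 Real.smoothTransition := Real.smoothTransition.contDiff (n := 1)
    exact (h1.comp (by fun_prop)).mul (h1.comp (by fun_prop))
  have hs : HasCompactSupport kap := by
    refine HasCompactSupport.intro (isCompact_Icc (a := (-1 : ℝ)) (b := 1)) fun s hs => ?_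
    rw [Set.mem_Icc, not_and_or, not_le, not_le] at hs
    unfold kap
    rcases hs with hs | hs
    · rw [Real.smoothTransition.zero_of_nonpos (x := 3 + 8 * s) (by linarith), mul_zero]
    · rw [Real.smoothTransition.zero_of_nonpos (x := 3 - 8 * s) (by linarith), zero_mul]
  obtain ⟨C, hC⟩ := hc.lipschitzWith_of_hasCompactSupport hs (by norm_num)
  refine ⟨C, C.2, fun a b => ?_⟩
  have := hC.dist_le_mul a b
  rwa [Real.dist_eq, Real.dist_eq] at this

theorem g3_kk_nonneg (L : ℕ) (z : ℤ × ℤ) : 0 ≤ kk L z := mul_nonneg (g3_kap_nonneg _) (g3_kap_nonneg _)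

theorem g3_kk_le_one (L : ℕ) (z : ℤ × ℤ) : kk L z ≤ 1 :=
  mul_le_one₀ (g3_kap_le_one _) (g3_kap_nonneg _) (g3_kap_le_one _)

theorem g3_kk_lip {C : ℝ} (hC : 0 ≤ C) (h : ∀ a b : ℝ, |kap a - kap b| ≤ C * |a - b|) {L : ℕ}
    (hL : 1 ≤ L) {u v : ℤ × ℤ} (h1 : |((u.1 : ℝ)) - v.1| ≤ 1) (h2 : |((u.2 : ℝ)) - v.2| ≤ 1) :
    |kk L u - kk L v| ≤ 2 * C / L := by
  have hL0 : (0 : ℝ) < L := by exact_mod_cast hL
  have key : ∀ a b : ℤ, |(a : ℝ) - b| ≤ 1 →
      |kap (((a : ℝ) - ctr L) / L) - kap (((b : ℝ) - ctr L) / L)| ≤ C / L := by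
    intro a b hab
    refine (h _ _).trans ?_
    have e : ((a : ℝ) - ctr L) / L - ((b : ℝ) - ctr L) / L = ((a : ℝ) - b) / L := by ring
    rw [e, abs_div, abs_of_pos hL0, ← mul_div_assoc]
    have : C * |(a : ℝ) - b| ≤ C * 1 := by gcongr
    rw [mul_one] at this
    (clear * - this hL; gcongr)
  have k1 := key _ _ h1
  have k2 := key _ _ h2
  unfold kk
  set a := kap (((u.1 : ℝ) - ctr L) / L)
  set b := kap (((u.2 : ℝ) - ctr L) / L)
  set c := kap (((v.1 : ℝ) - ctr L) / L)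
  set d := kap (((v.2 : ℝ) - ctr L) / L)
  have e : a * b - c * d = (a - c) * b + c * (b - d) := by ring
  rw [e]
  have hb0 : 0 ≤ b := g3_kap_nonneg _
  have hb1 : b ≤ 1 := g3_kap_le_one _
  have hc0 : 0 ≤ c := g3_kap_nonneg _
  have hc1 : c ≤ 1 := g3_kap_le_one _
  calc |(a - c) * b + c * (b - d)| ≤ |(a - c) * b| + |c * (b - d)| := abs_add_le _ _
    _ = |a - c| * b + c * |b - d| := by rw [abs_mul, abs_mul, abs_of_nonneg hb0, abs_of_nonneg hc0]
    _ ≤ |a - c| * 1 + 1 * |b - d| := by (clear * - hb1 hc1; gcongr)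
    _ ≤ 2 * C / L := by
      have : 2 * C / L = C / L + C / (L : ℝ) := by ring
      linarith only [k1, k2, this]

/-- energy of the unit square at `z` -/
noncomputable def g3_G4 (L : ℕ) (P : ℂ) (z : ℤ × ℤ) : ℝ :=
  inc L P z (z + (1, 0)) ^ 2 + inc L P (z + (0, 1)) (z + (0, 1) + (1, 0)) ^ 2 +
    inc L P z (z + (0, 1)) ^ 2 + inc L P (z + (1, 0)) (z + (1, 0) + (0, 1)) ^ 2

theorem g3_G4_nonneg (L : ℕ) (P : ℂ) (z : ℤ × ℤ) : 0 ≤ g3_G4 L P z := by unfold g3_G4; positivity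

theorem g3_sum_cell (l m K M i j : ℕ) (k : ℤ × ℤ) : ∑ e : BI l, ainc l m K M i j k e ^ 2 =
    ∑ x : Fin l × Fin l, g3_G4 (l * m * NN K M) (pos (l * m) K i j)
      (cor l k + (((x.1 : ℕ) : ℤ), ((x.2 : ℕ) : ℤ))) := by
  rw [sum_BI, Fintype.sum_prod_type]
  refine Finset.sum_congr rfl fun a _ => Finset.sum_congr rfl fun b _ => ?_
  have e1 : cor l k + (((a : ℕ) : ℤ), ((b : ℕ) : ℤ)) + (0, 1) =
      cor l k + (((a : ℕ) : ℤ), ((b : ℕ) : ℤ) + 1) := by ext <;> (simp; try ring)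
  have e2 : cor l k + (((a : ℕ) : ℤ), ((b : ℕ) : ℤ)) + (1, 0) =
      cor l k + (((a : ℕ) : ℤ) + 1, ((b : ℕ) : ℤ)) := by ext <;> simp <;> ring
  have e3 : cor l k + (((a : ℕ) : ℤ), ((b : ℕ) : ℤ) + 1) + (1, 0) =
      cor l k + (((a : ℕ) : ℤ) + 1, ((b : ℕ) : ℤ) + 1) := by ext <;> simp <;> ring
  have e4 : cor l k + (((a : ℕ) : ℤ) + 1, ((b : ℕ) : ℤ)) + (0, 1) =
      cor l k + (((a : ℕ) : ℤ) + 1, ((b : ℕ) : ℤ) + 1) := by ext <;> simp <;> ring
  unfold g3_G4
  rw [e1, e2, e3, e4]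
  have f1 : bu (l := l) ((a, b), (false, false)) = (((a : ℕ) : ℤ), ((b : ℕ) : ℤ)) := by
    simp only [bu, Bool.and_self, Bool.false_eq_true, ↓reduceIte, add_zero, Bool.not_false, Bool.and_false]
  have f2 : bv (l := l) ((a, b), (false, false)) = (((a : ℕ) : ℤ) + 1, ((b : ℕ) : ℤ)) := by
    simp only [bv, bu, Bool.and_self, Bool.false_eq_true, ↓reduceIte, add_zero, Bool.not_false, Bool.and_false, Prod.mk_add_mk]
  have f3 : bu (l := l) ((a, b), (false, true)) = (((a : ℕ) : ℤ), ((b : ℕ) : ℤ) + 1) := by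
    simp [bu]
  have f4 : bv (l := l) ((a, b), (false, true)) = (((a : ℕ) : ℤ) + 1, ((b : ℕ) : ℤ) + 1) := by
    simp only [bv, bu, Bool.and_true, Bool.false_eq_true, ↓reduceIte, add_zero, Bool.not_false, Bool.and_self, Prod.mk_add_mk]
  have f5 : bu (l := l) ((a, b), (true, false)) = (((a : ℕ) : ℤ), ((b : ℕ) : ℤ)) := by
    simp only [bu, Bool.and_false, Bool.false_eq_true, ↓reduceIte, add_zero, Bool.not_true, Bool.and_self]
  have f6 : bv (l := l) ((a, b), (true, false)) = (((a : ℕ) : ℤ), ((b : ℕ) : ℤ) + 1) := by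
    simp only [bv, bu, Bool.and_false, Bool.false_eq_true, ↓reduceIte, add_zero, Bool.not_true, Bool.and_self, Prod.mk_add_mk]
  have f7 : bu (l := l) ((a, b), (true, true)) = (((a : ℕ) : ℤ) + 1, ((b : ℕ) : ℤ)) := by
    simp [bu]
  have f8 : bv (l := l) ((a, b), (true, true)) = (((a : ℕ) : ℤ) + 1, ((b : ℕ) : ℤ) + 1) := by
    simp only [bv, bu, Bool.and_self, ↓reduceIte, Bool.not_true, Bool.and_true, Bool.false_eq_true, add_zero, Prod.mk_add_mk]
  unfold ainc
  rw [f1, f2, f3, f4, f5, f6, f7, f8]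

theorem g3_sq_near {L : ℕ} {P : ℂ} {q z : ℤ × ℤ} (hp1 : ctr L + P.re = (q.1 : ℝ) + 1 / 2)
    (hp2 : ctr L + P.im = (q.2 : ℝ) + 1 / 2) (h1 : |(z.1 : ℝ) - ctr L| ≤ L / 4)
    (h2 : |(z.1 : ℝ) + 1 - ctr L| ≤ L / 4) (h3 : |(z.2 : ℝ) - ctr L| ≤ L / 4)
    (h4 : |(z.2 : ℝ) + 1 - ctr L| ≤ L / 4) (hL : 1 ≤ L) (h16 : 16 ≤ g3_dd q z) :
    1 / 2 * g3_G4 L P z ≤ g3_gg q z := by
  have hL0 : (0 : ℝ) < L := by exact_mod_cast hL
  have hone : ∀ x : ℝ, |x - ctr L| ≤ L / 4 → kap ((x - ctr L) / L) = 1 := by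
    intro x hx
    apply g3_kap_one
    rw [abs_div, abs_of_pos hL0, div_le_iff₀ hL0]
    linarith only [hx]
  set w : ℂ := zc z - cc L - P with hw
  have hre : w.re = (z.1 : ℝ) - q.1 - 1 / 2 := by
    rw [hw]; simp only [zc, cc, Complex.sub_re]; linarith only [hp1]
  have him : w.im = (z.2 : ℝ) - q.2 - 1 / 2 := by
    rw [hw]; simp only [zc, cc, Complex.sub_im]; linarith only [hp2]
  have hdd : ‖w‖ ^ 2 = g3_dd q z := by
    rw [Complex.sq_norm, Complex.normSq_apply, hre, him]; unfold g3_dd; ring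
  have hw4 : 4 ≤ ‖w‖ := by
    by_contra hc
    push Not at hc
    nlinarith only [h16, hdd, hc, norm_nonneg w]
  have hw0 : 0 < ‖w‖ := by linarith only [hw4]
  have hwn : w ≠ 0 := norm_pos_iff.1 hw0
  have hk1 : wf L P z = w := by
    unfold wf kk
    rw [hone _ h1, hone _ h3, hw]; simp
  have hk2 : wf L P (z + (1, 0)) = w + 1 := by
    unfold wf kk
    have e1 : (((z + (1, 0)).1 : ℤ) : ℝ) = (z.1 : ℝ) + 1 := by simp only [Prod.fst_add, Int.cast_add, Int.cast_one]
    have e2 : (((z + (1, 0)).2 : ℤ) : ℝ) = (z.2 : ℝ) := by simp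
    rw [e1, e2, hone _ h2, hone _ h3, hw]
    apply Complex.ext <;> simp [zc, cc] <;> ring
  have hk3 : wf L P (z + (0, 1)) = w + Complex.I := by
    unfold wf kk
    have e1 : (((z + (0, 1)).1 : ℤ) : ℝ) = (z.1 : ℝ) := by simp only [Prod.fst_add, add_zero]
    have e2 : (((z + (0, 1)).2 : ℤ) : ℝ) = (z.2 : ℝ) + 1 := by simp only [Prod.snd_add, Int.cast_add, Int.cast_one]
    rw [e1, e2, hone _ h1, hone _ h4, hw]
    apply Complex.ext <;> simp [zc, cc] <;> ring
  have hk4 : wf L P (z + (0, 1) + (1, 0)) = w + Complex.I + 1 := by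
    unfold wf kk
    have e1 : (((z + (0, 1) + (1, 0)).1 : ℤ) : ℝ) = (z.1 : ℝ) + 1 := by simp
    have e2 : (((z + (0, 1) + (1, 0)).2 : ℤ) : ℝ) = (z.2 : ℝ) + 1 := by simp
    rw [e1, e2, hone _ h2, hone _ h4, hw]
    apply Complex.ext <;> simp [zc, cc] <;> ring
  have hk5 : wf L P (z + (1, 0) + (0, 1)) = w + 1 + Complex.I := by
    have e1 : z + (1, 0) + (0, 1) = z + (0, 1) + (1, 0) := by
      rw [add_assoc, add_assoc, add_comm ((1, 0) : ℤ × ℤ)]
    rw [e1, hk4]; ring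
  have nI : ‖Complex.I‖ = 1 := Complex.norm_I
  have hIm1 : ((-1 : ℂ) / w).im ^ 2 = w.im ^ 2 / ‖w‖ ^ 4 := by
    rw [Complex.div_im, ← Complex.sq_norm]
    simp only [Complex.neg_im, Complex.one_im, Complex.neg_re, Complex.one_re]
    field_simp
    ring
  have hIm2 : ((-Complex.I) / w).im ^ 2 = w.re ^ 2 / ‖w‖ ^ 4 := by
    rw [Complex.div_im, ← Complex.sq_norm]
    simp only [Complex.neg_im, Complex.I_im, Complex.neg_re, Complex.I_re]
    field_simp
    ring
  have b1 : inc L P z (z + (1, 0)) ^ 2 ≤ w.im ^ 2 / ‖w‖ ^ 4 + 80 / ‖w‖ ^ 3 := by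
    unfold inc
    rw [hk1, hk2, ← hIm1]
    have e : w - (w + 1) = -1 := by ring
    have := g3_near (w := w) (u := w) (v := w + 1) hw4 (by rw [e]; simp only [norm_neg, norm_one, Nat.one_le_ofNat]) (by rw [e]; simp)
    rwa [e] at this
  have b2 : inc L P (z + (0, 1)) (z + (0, 1) + (1, 0)) ^ 2 ≤
      w.im ^ 2 / ‖w‖ ^ 4 + 80 / ‖w‖ ^ 3 := by
    unfold inc
    rw [hk3, hk4, ← hIm1]
    have e : w + Complex.I - (w + Complex.I + 1) = -1 := by ring
    have e' : w - (w + Complex.I + 1) = -(Complex.I + 1) := by ring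
    have hn : ‖Complex.I + 1‖ ≤ 2 := by
      refine (norm_add_le _ _).trans ?_
      rw [nI, norm_one]; norm_num
    have := g3_near (w := w) (u := w + Complex.I) (v := w + Complex.I + 1) hw4
      (by rw [e', norm_neg]; exact hn) (by rw [e]; simp)
    rwa [e] at this
  have b3 : inc L P z (z + (0, 1)) ^ 2 ≤ w.re ^ 2 / ‖w‖ ^ 4 + 80 / ‖w‖ ^ 3 := by
    unfold inc
    rw [hk1, hk3, ← hIm2]
    have e : w - (w + Complex.I) = -Complex.I := by ring
    have := g3_near (w := w) (u := w) (v := w + Complex.I) hw4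
      (by rw [e, norm_neg, nI]; norm_num) (by rw [e, norm_neg, nI])
    rwa [e] at this
  have b4 : inc L P (z + (1, 0)) (z + (1, 0) + (0, 1)) ^ 2 ≤
      w.re ^ 2 / ‖w‖ ^ 4 + 80 / ‖w‖ ^ 3 := by
    unfold inc
    rw [hk2, hk5, ← hIm2]
    have e : w + 1 - (w + 1 + Complex.I) = -Complex.I := by ring
    have e' : w - (w + 1 + Complex.I) = -(1 + Complex.I) := by ring
    have hn : ‖1 + Complex.I‖ ≤ 2 := by
      refine (norm_add_le _ _).trans ?_
      rw [nI, norm_one]; norm_num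
    have := g3_near (w := w) (u := w + 1) (v := w + 1 + Complex.I) hw4
      (by rw [e', norm_neg]; exact hn) (by rw [e, norm_neg, nI])
    rwa [e] at this
  have hsum : w.im ^ 2 / ‖w‖ ^ 4 + w.re ^ 2 / ‖w‖ ^ 4 = 1 / ‖w‖ ^ 2 := by
    have e : w.im ^ 2 + w.re ^ 2 = ‖w‖ ^ 2 := by
      rw [Complex.sq_norm, Complex.normSq_apply]; ring
    rw [← add_div, e]
    field_simp
  have hgg : g3_gg q z = 1 / ‖w‖ ^ 2 + 160 / ‖w‖ ^ 3 := by
    unfold g3_gg
    rw [← hdd, Real.sqrt_sq hw0.le]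
    congr 2
  rw [hgg]
  unfold g3_G4
  have e160 : 160 / ‖w‖ ^ 3 = 2 * (80 / ‖w‖ ^ 3) := by ring
  linarith only [b1, b2, b3, b4, hsum, e160]

theorem g3_wf_sub {L : ℕ} {P : ℂ} {C : ℝ} (hC0 : 0 ≤ C)
    (hC : ∀ a b : ℝ, |kap a - kap b| ≤ C * |a - b|) (hL : 1 ≤ L) (hP : ‖P‖ ≤ L / 4)
    {u v : ℤ × ℤ} (h1 : |((u.1 : ℝ)) - v.1| ≤ 1) (h2 : |((u.2 : ℝ)) - v.2| ≤ 1)
    (h3 : ‖zc u - zc v‖ ≤ 1) : ‖wf L P u - wf L P v‖ ≤ 1 + C := by
  have hL0 : (0 : ℝ) < L := by exact_mod_cast hL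
  have e : wf L P u - wf L P v = (zc u - zc v) - ((kk L u - kk L v : ℝ) : ℂ) * P := by
    unfold wf
    push_cast
    ring
  rw [e]
  refine (norm_sub_le _ _).trans ?_
  rw [norm_mul, Complex.norm_real, Real.norm_eq_abs]
  have h4 := g3_kk_lip hC0 hC hL h1 h2
  have h5 : |kk L u - kk L v| * ‖P‖ ≤ (2 * C / L) * (L / 4) := by (clear * - h4 hP hC0 hL; gcongr)
  have h6 : (2 * C / L) * (L / 4) = C / 2 := by field_simp; ring
  rw [h6] at h5
  linarith only [hC0, h3, h5]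

theorem g3_wf_low {L : ℕ} {P : ℂ} (hP1 : 0 ≤ P.re) (hP1' : P.re ≤ L / 8) (hP2 : 0 ≤ P.im)
    (hP2' : P.im ≤ L / 8) (hL : 32 ≤ (L : ℝ)) {v : ℤ × ℤ}
    (h : (L : ℝ) / 4 - 2 ≤ |(v.1 : ℝ) - ctr L| ∨ (L : ℝ) / 4 - 2 ≤ |(v.2 : ℝ) - ctr L|) :
    (L : ℝ) / 16 ≤ ‖wf L P v‖ := by
  have hk0 := g3_kk_nonneg L v
  have hk1 := g3_kk_le_one L v
  rcases h with h | h
  · refine le_trans ?_ (Complex.abs_re_le_norm _)
    have e : (wf L P v).re = (v.1 : ℝ) - ctr L - kk L v * P.re := by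
      simp only [wf, zc, cc, Complex.sub_re, Complex.mul_re, Complex.ofReal_re, Complex.ofReal_im, zero_mul, sub_zero]
    rw [e]
    have h5 : |(v.1 : ℝ) - ctr L| ≤ |(v.1 : ℝ) - ctr L - kk L v * P.re| + |kk L v * P.re| := by
      calc |(v.1 : ℝ) - ctr L| = |((v.1 : ℝ) - ctr L - kk L v * P.re) + kk L v * P.re| := by ring_nf
        _ ≤ _ := abs_add_le _ _
    have h6 : |kk L v * P.re| ≤ L / 8 := by
      rw [abs_of_nonneg (by positivity)]
      nlinarith only [hP1, hP1', hk1]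
    linarith only [hL, h, h5, h6]
  · refine le_trans ?_ (Complex.abs_im_le_norm _)
    have e : (wf L P v).im = (v.2 : ℝ) - ctr L - kk L v * P.im := by
      simp only [wf, zc, cc, Complex.sub_im, Complex.mul_im, Complex.ofReal_re, Complex.ofReal_im, zero_mul, add_zero]
    rw [e]
    have h5 : |(v.2 : ℝ) - ctr L| ≤ |(v.2 : ℝ) - ctr L - kk L v * P.im| + |kk L v * P.im| := by
      calc |(v.2 : ℝ) - ctr L| = |((v.2 : ℝ) - ctr L - kk L v * P.im) + kk L v * P.im| := by ring_nf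
        _ ≤ _ := abs_add_le _ _
    have h6 : |kk L v * P.im| ≤ L / 8 := by
      rw [abs_of_nonneg (by (clear * - hk0 hP2; positivity))]
      nlinarith only [hP2', hP2, hk1]
    linarith only [hL, h, h5, h6]

theorem g3_sq_far {L : ℕ} {P : ℂ} {C : ℝ} (hC0 : 0 ≤ C)
    (hC : ∀ a b : ℝ, |kap a - kap b| ≤ C * |a - b|) (hL : 32 * (1 + C) ≤ (L : ℝ))
    (hP1 : 0 ≤ P.re) (hP1' : P.re ≤ L / 8) (hP2 : 0 ≤ P.im) (hP2' : P.im ≤ L / 8) {z : ℤ × ℤ}
    (h : (L : ℝ) / 4 - 1 ≤ |(z.1 : ℝ) - ctr L| ∨ (L : ℝ) / 4 - 1 ≤ |(z.2 : ℝ) - ctr L|) :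
    1 / 2 * g3_G4 L P z ≤ 2048 * (1 + C) ^ 2 / (L : ℝ) ^ 2 := by
  have hL32 : 32 ≤ (L : ℝ) := by nlinarith only [hC0, hL]
  have hL0 : (0 : ℝ) < L := by linarith only [hC0, hL]
  have hL1 : 1 ≤ L := by exact_mod_cast (by linarith only [hC0, hL] : (1 : ℝ) ≤ L)
  have hPn : ‖P‖ ≤ L / 4 := by
    refine (Complex.norm_le_abs_re_add_abs_im P).trans ?_
    rw [abs_of_nonneg hP1, abs_of_nonneg hP2]
    linarith only [hP1', hP2']
  have key : ∀ a b : ℤ, 0 ≤ a → a ≤ 1 → 0 ≤ b → b ≤ 1 →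
      (L : ℝ) / 16 ≤ ‖wf L P (z + (a, b))‖ := by
    intro a b ha ha' hb hb'
    apply g3_wf_low hP1 hP1' hP2 hP2' hL32
    have ra : (0 : ℝ) ≤ a := by exact_mod_cast ha
    have ra' : (a : ℝ) ≤ 1 := by exact_mod_cast ha'
    have rb : (0 : ℝ) ≤ b := by exact_mod_cast hb
    have rb' : (b : ℝ) ≤ 1 := by exact_mod_cast hb'
    rcases h with h | h
    · left
      have e1 : (((z + (a, b)).1 : ℤ) : ℝ) = (z.1 : ℝ) + a := by simp
      rw [e1]
      have h5 : |(z.1 : ℝ) - ctr L| ≤ |(z.1 : ℝ) + a - ctr L| + |(a : ℝ)| := by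
        calc |(z.1 : ℝ) - ctr L| = |((z.1 : ℝ) + a - ctr L) - a| := by ring_nf
          _ ≤ _ := abs_sub _ _
      rw [abs_of_nonneg ra] at h5
      linarith only [ra', h, h5]
    · right
      have e1 : (((z + (a, b)).2 : ℤ) : ℝ) = (z.2 : ℝ) + b := by simp
      rw [e1]
      have h5 : |(z.2 : ℝ) - ctr L| ≤ |(z.2 : ℝ) + b - ctr L| + |(b : ℝ)| := by
        calc |(z.2 : ℝ) - ctr L| = |((z.2 : ℝ) + b - ctr L) - b| := by ring_nf
          _ ≤ _ := abs_sub _ _
      rw [abs_of_nonneg rb] at h5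
      linarith only [rb', h, h5]
  have bond : ∀ u v : ℤ × ℤ, |((u.1 : ℝ)) - v.1| ≤ 1 → |((u.2 : ℝ)) - v.2| ≤ 1 →
      ‖zc u - zc v‖ ≤ 1 → (L : ℝ) / 16 ≤ ‖wf L P v‖ →
      inc L P u v ^ 2 ≤ 1024 * (1 + C) ^ 2 / (L : ℝ) ^ 2 := by
    intro u v h1 h2 h3 h4
    have h5 := g3_far (g3_wf_sub hC0 hC hL1 hPn h1 h2 h3) (r := (L : ℝ) / 16) (by positivity) h4
      (by linarith only [hL])
    unfold inc
    refine h5.trans (le_of_eq ?_)
    field_simp
    norm_num
  have n1 : ∀ v : ℤ × ℤ, ‖zc v - zc (v + (1, 0))‖ ≤ 1 := by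
    intro v
    have e : zc v - zc (v + (1, 0)) = -1 := by apply Complex.ext <;> simp [zc]
    rw [e]; simp
  have n2 : ∀ v : ℤ × ℤ, ‖zc v - zc (v + (0, 1))‖ ≤ 1 := by
    intro v
    have e : zc v - zc (v + (0, 1)) = -Complex.I := by apply Complex.ext <;> simp [zc]
    rw [e]; simp
  have k1 := key 1 0 (by norm_num) (by norm_num) (by norm_num) (by norm_num)
  have k2 := key 0 1 (by norm_num) (by norm_num) (by norm_num) (by norm_num)
  have k3 := key 1 1 (by norm_num) (by norm_num) (by norm_num) (by norm_num)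
  have e3 : z + (0, 1) + (1, 0) = z + (1, 1) := by ext <;> simp
  have e4 : z + (1, 0) + (0, 1) = z + (1, 1) := by ext <;> simp
  have b1 := bond z (z + (1, 0)) (by simp) (by simp only [Prod.snd_add, add_zero, sub_self, abs_zero, zero_le_one]) (n1 _) k1
  have b2 := bond (z + (0, 1)) (z + (0, 1) + (1, 0)) (by simp only [Prod.fst_add, add_zero, Int.cast_add, Int.cast_one, sub_add_cancel_left, abs_neg, abs_one, Std.le_refl]) (by simp only [Prod.snd_add, Int.cast_add, Int.cast_one, add_zero, sub_self, abs_zero, zero_le_one]) (n1 _) (by rw [e3]; exact k3)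
  have b3 := bond z (z + (0, 1)) (by simp only [Prod.fst_add, add_zero, sub_self, abs_zero, zero_le_one]) (by simp only [Prod.snd_add, Int.cast_add, Int.cast_one, sub_add_cancel_left, abs_neg, abs_one, Std.le_refl]) (n2 _) k2
  have b4 := bond (z + (1, 0)) (z + (1, 0) + (0, 1)) (by simp only [Prod.fst_add, Int.cast_add, Int.cast_one, add_zero, sub_self, abs_zero, zero_le_one]) (by simp only [Prod.snd_add, add_zero, Int.cast_add, Int.cast_one, sub_add_cancel_left, abs_neg, abs_one, Std.le_refl]) (n2 _) (by rw [e4]; exact k3)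
  unfold g3_G4
  have e : 2048 * (1 + C) ^ 2 / (L : ℝ) ^ 2 = 2 * (1024 * (1 + C) ^ 2 / (L : ℝ) ^ 2) := by ring
  rw [e]
  linarith only [b1, b2, b3, b4]

theorem geo_energy : ∃ C0 s0 : ℝ, 1 ≤ C0 ∧ 2 ≤ s0 ∧ ∀ l m K M i j : ℕ, 1 ≤ l → 1 ≤ K → i < M →
    j < M → s0 ≤ ((l * m : ℕ) : ℝ) →
      1 / 2 * ∑ k ∈ outer m K M i j, ∑ e : BI l, ainc l m K M i j k e ^ 2 ≤
        2 * Real.pi * Real.log (NN K M) + C0 := by
  obtain ⟨C, hC0, hC⟩ := g3_kap_lip
  have hpi := Real.pi_pos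
  have hlog4 : 0 ≤ Real.log 4 := Real.log_nonneg (by norm_num)
  refine ⟨2 * Real.pi * Real.log 4 + 2300 + 2048 * (1 + C) ^ 2, 64 * (1 + C), ?_, by linarith, ?_⟩
  · have : 0 ≤ 2 * Real.pi * Real.log 4 := by (clear * -; positivity)
    nlinarith only [this]
  intro l m K M i j hl hK hi hj hs
  have hl0 : (0 : ℤ) < l := by exact_mod_cast hl
  set s : ℕ := l * m with hsdef
  have hs64 : 64 ≤ s := by
    have : (64 : ℝ) ≤ s := by linarith only [hC0, hs]
    exact_mod_cast this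
  set N : ℕ := NN K M with hN
  have hN1 : 1 ≤ N := by rw [hN]; unfold NN; omega
  set L : ℕ := s * N with hLdef
  set P : ℂ := pos s K i j with hP
  have hLs : s ≤ L := by rw [hLdef]; exact Nat.le_mul_of_pos_right _ hN1
  have hLs' : (s : ℝ) ≤ L := by exact_mod_cast hLs
  have hL32 : 32 * (1 + C) ≤ (L : ℝ) := by linarith only [hs, hLs']
  have hL0 : (0 : ℝ) < L := by linarith only [hC0, hs, hLs']
  have hL1 : 1 ≤ L := by omega
  -- the position of the core
  have hLhalf : L / 2 = 4 * K * M * s + s / 2 := by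
    rw [hLdef, hN]
    unfold NN
    have e : s * (8 * K * M + 1) = s + (4 * K * M * s) * 2 := by ring
    rw [e, Nat.add_mul_div_right _ _ (by norm_num)]
    ring
  have hKi : 8 * (K * s * i) ≤ L := by
    have h1 : i ≤ M := hi.le
    calc 8 * (K * s * i) ≤ 8 * (K * s * M) := by (clear * - hi; gcongr)
      _ ≤ L := by rw [hLdef, hN]; unfold NN; nlinarith only []
  have hKj : 8 * (K * s * j) ≤ L := by
    have h1 : j ≤ M := hj.le
    calc 8 * (K * s * j) ≤ 8 * (K * s * M) := by (clear * - hj; gcongr)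
      _ ≤ L := by rw [hLdef, hN]; unfold NN; nlinarith only []
  set q : ℤ × ℤ := (((L / 2 + K * s * i : ℕ) : ℤ), ((L / 2 + K * s * j : ℕ) : ℤ)) with hq
  have hPre : P.re = ((K * s * i : ℕ) : ℝ) := by rw [hP]; simp only [pos, Nat.cast_mul]
  have hPim : P.im = ((K * s * j : ℕ) : ℝ) := by rw [hP]; simp only [pos, Nat.cast_mul]
  have hp1 : ctr L + P.re = (q.1 : ℝ) + 1 / 2 := by
    have e : ((q.1 : ℤ) : ℝ) = ((L / 2 : ℕ) : ℝ) + ((K * s * i : ℕ) : ℝ) := by
      show (((L / 2 + K * s * i : ℕ) : ℤ) : ℝ) = _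
      rw [Int.cast_natCast, Nat.cast_add]
    rw [hPre, e]
    unfold ctr
    ring
  have hp2 : ctr L + P.im = (q.2 : ℝ) + 1 / 2 := by
    have e : ((q.2 : ℤ) : ℝ) = ((L / 2 : ℕ) : ℝ) + ((K * s * j : ℕ) : ℝ) := by
      show (((L / 2 + K * s * j : ℕ) : ℤ) : ℝ) = _
      rw [Int.cast_natCast, Nat.cast_add]
    rw [hPim, e]
    unfold ctr
    ring
  have hP1 : 0 ≤ P.re := by rw [hPre]; (clear * -; positivity)
  have hP2 : 0 ≤ P.im := by rw [hPim]; (clear * -; positivity)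
  have hP1' : P.re ≤ L / 8 := by
    rw [hPre]
    have : (8 : ℝ) * ((K * s * i : ℕ) : ℝ) ≤ L := by exact_mod_cast hKi
    linarith only [this]
  have hP2' : P.im ≤ L / 8 := by
    rw [hPim]
    have : (8 : ℝ) * ((K * s * j : ℕ) : ℝ) ≤ L := by exact_mod_cast hKj
    linarith only [this]
  -- the set of unit squares
  set φ : (ℤ × ℤ) × (Fin l × Fin l) → ℤ × ℤ :=
    fun x => cor l x.1 + (((x.2.1 : ℕ) : ℤ), ((x.2.2 : ℕ) : ℤ)) with hφ
  set A : Finset ((ℤ × ℤ) × (Fin l × Fin l)) := outer m K M i j ×ˢ Finset.univ with hA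
  have hinj : Set.InjOn φ A := by
    rintro ⟨k, a, b⟩ _ ⟨k', a', b'⟩ _ h
    simp only [hφ, cor, Prod.mk_add_mk, Prod.mk.injEq] at h
    obtain ⟨h1, h2⟩ := h
    have ha := a.2
    have ha' := a'.2
    have hb := b.2
    have hb' := b'.2
    have d1 : ∀ (k : ℤ) (a : Fin l), ((l : ℤ) * k + (a : ℕ)) / l = k := by
      intro k a
      have := a.2
      rw [Int.mul_add_ediv_left _ _ hl0.ne', Int.ediv_eq_zero_of_lt (by (clear * -; omega)) (by (clear * - this; omega)), add_zero]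
    have d2 : ∀ (k : ℤ) (a : Fin l), ((l : ℤ) * k + (a : ℕ)) % l = (a : ℕ) := by
      intro k a
      have := a.2
      rw [Int.mul_add_emod_self_left, Int.emod_eq_of_lt (by omega) (by (clear * - this; omega))]
    have k1 : k.1 = k'.1 := by rw [← d1 k.1 a, h1, d1]
    have k2 : k.2 = k'.2 := by rw [← d1 k.2 b, h2, d1]
    have a1 : ((a : ℕ) : ℤ) = (a' : ℕ) := by rw [← d2 k.1 a, h1, d2]
    have b1 : ((b : ℕ) : ℤ) = (b' : ℕ) := by rw [← d2 k.2 b, h2, d2]
    have a2 : a = a' := Fin.ext (by exact_mod_cast a1)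
    have b2 : b = b' := Fin.ext (by exact_mod_cast b1)
    rw [Prod.ext k1 k2, a2, b2]
  have hsum : ∑ k ∈ outer m K M i j, ∑ e : BI l, ainc l m K M i j k e ^ 2 =
      ∑ z ∈ A.image φ, g3_G4 L P z := by
    rw [Finset.sum_image hinj, hA, Finset.sum_product]
    exact Finset.sum_congr rfl fun k _ => g3_sum_cell l m K M i j k
  have hmem : ∀ z ∈ A.image φ, (0 ≤ z.1 ∧ z.1 < L ∧ 0 ≤ z.2 ∧ z.2 < L) ∧
      z ∉ g3_bx q (s / 2 - 1) := by
    intro z hz
    rw [Finset.mem_image] at hz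
    obtain ⟨⟨k, a, b⟩, hk, rfl⟩ := hz
    simp only [hA, outer, cells, core, ccell, Finset.mem_product, Finset.mem_sdiff, Finset.mem_Ico, Finset.mem_univ, and_true] at hk
    have ha := a.2
    have hb := b.2
    obtain ⟨⟨⟨k1, k2⟩, k3, k4⟩, hk'⟩ := hk
    rw [← hN] at k2 k4
    simp only [hφ, cor, Prod.mk_add_mk]
    have hLm : (L : ℤ) = l * (m * N : ℕ) := by
      rw [hLdef, hsdef]; push_cast; ring
    have u1 : (0 : ℤ) ≤ l * k.1 := by (clear * - hl k1; positivity)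
    have u2 : (0 : ℤ) ≤ l * k.2 := by (clear * - hl k3; positivity)
    have u3 : (l : ℤ) * k.1 ≤ l * ((m * N : ℕ) - 1) :=
      mul_le_mul_of_nonneg_left (by (clear * - k2; omega)) hl0.le
    have u4 : (l : ℤ) * k.2 ≤ l * ((m * N : ℕ) - 1) :=
      mul_le_mul_of_nonneg_left (by (clear * - k4; omega)) hl0.le
    have u5 : (l : ℤ) * ((m * N : ℕ) - 1) = L - l := by rw [hLm]; ring
    refine ⟨⟨by (clear * - u1; omega), by omega, by (clear * - u2; omega), by (clear * - hb hLm u4 u5; omega)⟩, ?_⟩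
    have q1 : q.1 = (l : ℤ) * (m * (4 * K * M + K * i)) + ((s / 2 : ℕ) : ℤ) := by
      rw [hq]
      simp only
      rw [hLhalf, hsdef]
      push_cast
      ring
    have q2 : q.2 = (l : ℤ) * (m * (4 * K * M + K * j)) + ((s / 2 : ℕ) : ℤ) := by
      rw [hq]
      simp only
      rw [hLhalf, hsdef]
      push_cast
      ring
    set c1 : ℤ := (m : ℤ) * (4 * K * M + K * i) with hc1
    set c2 : ℤ := (m : ℤ) * (4 * K * M + K * j) with hc2
    intro hbx
    simp only [g3_bx, Finset.mem_product, Finset.mem_Icc] at hbx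
    rw [q1, q2] at hbx
    have hsl : (s : ℤ) = l * m := by rw [hsdef]; push_cast; ring
    apply hk'
    obtain ⟨⟨y1, y2⟩, y3, y4⟩ := hbx
    have hs1 : ((s / 2 - 1 : ℕ) : ℤ) = ((s / 2 : ℕ) : ℤ) - 1 := by (clear * - q1 q2 y1 y2; omega)
    rw [hs1] at y1 y2 y3 y4
    refine ⟨⟨?_, ?_⟩, ?_, ?_⟩
    · by_contra hc
      push Not at hc
      have : (l : ℤ) * k.1 ≤ l * (c1 - 1) := mul_le_mul_of_nonneg_left (by omega) hl0.le
      have e : (l : ℤ) * (c1 - 1) = l * c1 - l := by ring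
      omega
    · by_contra hc
      push Not at hc
      have : (l : ℤ) * (c1 + m) ≤ l * k.1 := mul_le_mul_of_nonneg_left hc hl0.le
      have e : (l : ℤ) * (c1 + m) = l * c1 + s := by rw [hsl]; ring
      (clear * - q1 q2 y2 hs1 this e; omega)
    · by_contra hc
      push Not at hc
      have : (l : ℤ) * k.2 ≤ l * (c2 - 1) := mul_le_mul_of_nonneg_left (by omega) hl0.le
      have e : (l : ℤ) * (c2 - 1) = l * c2 - l := by ring
      omega
    · by_contra hc
      push Not at hc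
      have : (l : ℤ) * (c2 + m) ≤ l * k.2 := mul_le_mul_of_nonneg_left hc hl0.le
      have e : (l : ℤ) * (c2 + m) = l * c2 + s := by rw [hsl]; ring
      omega
  have hbound : ∀ z ∈ A.image φ, 1 / 2 * g3_G4 L P z ≤
      g3_gg q z + 2048 * (1 + C) ^ 2 / (L : ℝ) ^ 2 := by
    intro z hz
    obtain ⟨_, hz2⟩ := hmem z hz
    have hF : 0 ≤ 2048 * (1 + C) ^ 2 / (L : ℝ) ^ 2 := by (clear * - hC0 hs64 hN1; positivity)
    have hdd := g3_dd_ring hz2
    have h16 : 16 ≤ g3_dd q z := by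
      refine le_trans ?_ hdd
      have : (4 : ℝ) ≤ ((s / 2 - 1 : ℕ) : ℝ) := by exact_mod_cast (by omega : 4 ≤ s / 2 - 1)
      nlinarith only [this]
    by_cases hfar : (L : ℝ) / 4 - 1 ≤ |(z.1 : ℝ) - ctr L| ∨ (L : ℝ) / 4 - 1 ≤ |(z.2 : ℝ) - ctr L|
    · have := g3_sq_far hC0 hC hL32 hP1 hP1' hP2 hP2' hfar
      have := g3_gg_nonneg q z
      (clear hpi hlog4 hl hK hl0 hsdef hs64 hL0 hL1 hLhalf hq hp1 hp2 φ hφ A hA hinj hsum hmem hz hz2 hF hdd h16; linarith)
    · push Not at hfar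
      obtain ⟨h1, h2⟩ := hfar
      have h3 : |(z.1 : ℝ) + 1 - ctr L| ≤ L / 4 := by
        have e : (z.1 : ℝ) + 1 - ctr L = ((z.1 : ℝ) - ctr L) + 1 := by ring
        rw [e]
        refine (abs_add_le _ _).trans ?_
        rw [abs_one]
        linarith only [h1]
      have h4 : |(z.2 : ℝ) + 1 - ctr L| ≤ L / 4 := by
        have e : (z.2 : ℝ) + 1 - ctr L = ((z.2 : ℝ) - ctr L) + 1 := by ring
        rw [e]
        refine (abs_add_le _ _).trans ?_
        rw [abs_one]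
        linarith only [h2]
      have := g3_sq_near hp1 hp2 (by linarith only [h1]) h3 (by linarith only [h2]) h4 hL1 h16
      linarith only [hF, this]
  have hsub1 : A.image φ ⊆ g3_bx q L \ g3_bx q (s / 2 - 1) := by
    intro z hz
    obtain ⟨⟨z1, z2, z3, z4⟩, hz2⟩ := hmem z hz
    rw [Finset.mem_sdiff]
    refine ⟨?_, hz2⟩
    simp only [g3_bx, Finset.mem_product, Finset.mem_Icc, hq]
    have hLe : L / 2 + K * s * i < L := by omega
    have hLe' : L / 2 + K * s * j < L := by omega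
    refine ⟨⟨?_, ?_⟩, ?_, ?_⟩ <;> omega
  have hsub2 : A.image φ ⊆ Finset.Ico 0 (L : ℤ) ×ˢ Finset.Ico 0 (L : ℤ) := by
    intro z hz
    obtain ⟨⟨z1, z2, z3, z4⟩, _⟩ := hmem z hz
    simp only [Finset.mem_product, Finset.mem_Ico]
    exact ⟨⟨z1, z2⟩, z3, z4⟩
  have hcard : ((A.image φ).card : ℝ) ≤ (L : ℝ) ^ 2 := by
    have h := Finset.card_le_card hsub2
    rw [Finset.card_product, Int.card_Ico] at h
    simp only [sub_zero, Int.toNat_natCast] at h
    have h' : ((A.image φ).card : ℝ) ≤ ((L * L : ℕ) : ℝ) := by exact_mod_cast h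
    rw [Nat.cast_mul, ← pow_two] at h'
    exact h'
  rw [hsum, Finset.mul_sum]
  refine (Finset.sum_le_sum hbound).trans ?_
  rw [Finset.sum_add_distrib, Finset.sum_const, nsmul_eq_mul]
  have t1 : ∑ z ∈ A.image φ, g3_gg q z ≤ ∑ z ∈ g3_bx q L \ g3_bx q (s / 2 - 1), g3_gg q z :=
    Finset.sum_le_sum_of_subset_of_nonneg hsub1 fun z _ _ => g3_gg_nonneg q z
  have t2 := g3_sum q (k0 := s / 2 - 1) (by omega) L (by (clear * - hs64 hLs; omega))
  have t3 : ((A.image φ).card : ℝ) * (2048 * (1 + C) ^ 2 / (L : ℝ) ^ 2) ≤ 2048 * (1 + C) ^ 2 := by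
    calc ((A.image φ).card : ℝ) * (2048 * (1 + C) ^ 2 / (L : ℝ) ^ 2) ≤
        (L : ℝ) ^ 2 * (2048 * (1 + C) ^ 2 / (L : ℝ) ^ 2) := by (clear * - hcard hC0 hs64 hN1; gcongr)
      _ = 2048 * (1 + C) ^ 2 := by (clear * - hL1 hC0; field_simp)
  have hk0 : (s : ℝ) / 4 ≤ ((s / 2 - 1 : ℕ) : ℝ) := by
    have h : s ≤ 4 * (s / 2 - 1) := by omega
    have h' : (s : ℝ) ≤ 4 * ((s / 2 - 1 : ℕ) : ℝ) := by exact_mod_cast h
    linarith only [h']
  have hs0 : (0 : ℝ) < s := by exact_mod_cast (by (clear * - hs64; omega) : 0 < s)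
  have hN0 : (0 : ℝ) < N := by exact_mod_cast hN1
  have t4 : Real.log L - Real.log ((s / 2 - 1 : ℕ) : ℝ) ≤ Real.log N + Real.log 4 := by
    have h1 : Real.log ((s : ℝ) / 4) ≤ Real.log ((s / 2 - 1 : ℕ) : ℝ) :=
      Real.log_le_log (by (clear * - hs64; positivity)) hk0
    rw [Real.log_div hs0.ne' (by norm_num)] at h1
    have h2 : Real.log (L : ℝ) = Real.log s + Real.log N := by
      rw [hLdef]
      push_cast
      exact Real.log_mul hs0.ne' hN0.ne'
    linarith only [h1, h2]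
  have t5 : 2300 * (1 / (((s / 2 - 1 : ℕ) : ℕ) : ℝ) - 1 / (L : ℝ)) ≤ 2300 := by
    have h1 : (1 : ℝ) ≤ ((s / 2 - 1 : ℕ) : ℝ) := by exact_mod_cast (by omega : 1 ≤ s / 2 - 1)
    have h2 : 1 / ((s / 2 - 1 : ℕ) : ℝ) ≤ 1 := by
      rw [div_le_one (by linarith only [hC0, hs, hk0])]; exact h1
    have h3 : 0 ≤ 1 / (L : ℝ) := by (clear * - hs64 hN1; positivity)
    linarith only [h2, h3]
  have t6 : 2 * Real.pi * (Real.log L - Real.log ((s / 2 - 1 : ℕ) : ℝ)) ≤
      2 * Real.pi * (Real.log N + Real.log 4) := by (clear * - t4; gcongr)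
  linarith only [t1, t2, t3, t5, t6]

end UJ

end Vale.Agent.P159
end

section

/-!
Row sums of two displaced vortex configurations differ by `2π` per line between the cores.
-/

open scoped BigOperators

namespace Vale.Agent.P159

namespace UJ

namespace G4

open Complex Real

theorem arg_div_rot {a b c : ℂ} (ha : a ≠ 0) (hb : b ≠ 0) (hc : c ≠ 0)
    (h : |Complex.arg (c * a) - Complex.arg (c * b)| < Real.pi) :
    Complex.arg (a / b) = Complex.arg (c * a) - Complex.arg (c * b) ∧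
      Complex.arg (a / b) ≠ Real.pi := by
  have e : a / b = (c * a) / (c * b) := by field_simp
  have h1 := Complex.arg_div_coe_angle (x := c * a) (y := c * b) (mul_ne_zero hc ha)
    (mul_ne_zero hc hb)
  rw [← Real.Angle.coe_sub] at h1
  have h2 := congrArg Real.Angle.toReal h1
  rw [Complex.arg_coe_angle_toReal_eq_arg] at h2
  rw [abs_lt] at h
  have h3 : Complex.arg (a / b) = Complex.arg (c * a) - Complex.arg (c * b) := by
    rw [e, h2, Real.Angle.toReal_coe_eq_self_iff_mem_Ioc]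
    exact ⟨h.1, h.2.le⟩
  exact ⟨h3, by rw [h3]; exact h.2.ne⟩

theorem arg_up {a b : ℂ} (ha : 0 < a.im) (hb : 0 < b.im) :
    Complex.arg (a / b) = Complex.arg (-Complex.I * a) - Complex.arg (-Complex.I * b) ∧
      Complex.arg (a / b) ≠ Real.pi := by
  apply arg_div_rot
  · rintro rfl; simp at ha
  · rintro rfl; simp at hb
  · simp
  · have h1 : |Complex.arg (-Complex.I * a)| < Real.pi / 2 :=
      Complex.abs_arg_lt_pi_div_two_iff.2 (Or.inl (by simpa only [neg_mul, neg_re, mul_re, I_re, zero_mul, I_im, one_mul, zero_sub, neg_neg] using ha))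
    have h2 : |Complex.arg (-Complex.I * b)| < Real.pi / 2 :=
      Complex.abs_arg_lt_pi_div_two_iff.2 (Or.inl (by simpa only [neg_mul, neg_re, mul_re, I_re, zero_mul, I_im, one_mul, zero_sub, neg_neg] using hb))
    rw [abs_lt] at *
    constructor <;> linarith only [h1.1, h2.2, h1.2, h2.1]

theorem arg_low {a b : ℂ} (h : (a.im < 0 ∧ b.im < 0) ∨ (0 < a.re ∧ 0 < b.re) ∨
    (a.re < 0 ∧ b.re < 0)) :
    Complex.arg (a / b) = Complex.arg (Complex.I * a) - Complex.arg (Complex.I * b) ∧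
      Complex.arg (a / b) ≠ Real.pi := by
  apply arg_div_rot
  · rintro rfl; simp only [zero_im, lt_self_iff_false, false_and, zero_re, or_self] at h
  · rintro rfl; simp only [zero_im, lt_self_iff_false, and_false, zero_re, or_self] at h
  · simp
  · rcases h with ⟨ha, hb⟩ | ⟨ha, hb⟩ | ⟨ha, hb⟩
    · have h1 : |Complex.arg (Complex.I * a)| < Real.pi / 2 :=
        Complex.abs_arg_lt_pi_div_two_iff.2 (Or.inl (by simpa only [mul_re, I_re, zero_mul, I_im, one_mul, zero_sub, Left.neg_pos_iff] using ha))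
      have h2 : |Complex.arg (Complex.I * b)| < Real.pi / 2 :=
        Complex.abs_arg_lt_pi_div_two_iff.2 (Or.inl (by simpa only [mul_re, I_re, zero_mul, I_im, one_mul, zero_sub, Left.neg_pos_iff] using hb))
      rw [abs_lt] at *
      constructor <;> linarith only [h1.1, h2.2, h1.2, h2.1]
    · have h1 : 0 ≤ Complex.arg (Complex.I * a) :=
        Complex.arg_nonneg_iff.2 (by simpa only [mul_im, I_re, zero_mul, I_im, one_mul, zero_add] using ha.le)
      have h2 : 0 ≤ Complex.arg (Complex.I * b) :=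
        Complex.arg_nonneg_iff.2 (by simpa only [mul_im, I_re, zero_mul, I_im, one_mul, zero_add] using hb.le)
      have h3 : Complex.arg (Complex.I * a) < Real.pi :=
        Complex.arg_lt_pi_iff.2 (Or.inr (by simpa using ha.ne'))
      have h4 : Complex.arg (Complex.I * b) < Real.pi :=
        Complex.arg_lt_pi_iff.2 (Or.inr (by simpa using hb.ne'))
      rw [abs_lt]
      constructor <;> linarith only [h1, h4, h2, h3]
    · have h1 : Complex.arg (Complex.I * a) < 0 :=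
        Complex.arg_neg_iff.2 (by simpa only [mul_im, I_re, zero_mul, I_im, one_mul, zero_add] using ha)
      have h2 : Complex.arg (Complex.I * b) < 0 :=
        Complex.arg_neg_iff.2 (by simpa using hb)
      have h3 := Complex.neg_pi_lt_arg (Complex.I * a)
      have h4 := Complex.neg_pi_lt_arg (Complex.I * b)
      rw [abs_lt]
      constructor <;> linarith only [h1, h4, h2, h3]

theorem kap_nonneg (s : ℝ) : 0 ≤ kap s :=
  mul_nonneg (Real.smoothTransition.nonneg _) (Real.smoothTransition.nonneg _)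

theorem kap_le_one (s : ℝ) : kap s ≤ 1 :=
  mul_le_one₀ (Real.smoothTransition.le_one _) (Real.smoothTransition.nonneg _)
    (Real.smoothTransition.le_one _)

theorem kap_one {s : ℝ} (h : |s| ≤ 1 / 4) : kap s = 1 := by
  rw [abs_le] at h
  unfold kap
  rw [Real.smoothTransition.one_of_one_le (by linarith only [h.2]),
    Real.smoothTransition.one_of_one_le (by linarith only [h.1]), mul_one]

theorem kap_zero {s : ℝ} (h : s ≤ -(3 / 8) ∨ 3 / 8 ≤ s) : kap s = 0 := by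
  unfold kap
  rcases h with h | h
  · rw [Real.smoothTransition.zero_of_nonpos (x := 3 + 8 * s) (by linarith), mul_zero]
  · rw [Real.smoothTransition.zero_of_nonpos (x := 3 - 8 * s) (by linarith only [h]), zero_mul]

theorem kk_nonneg (L : ℕ) (z : ℤ × ℤ) : 0 ≤ kk L z := mul_nonneg (kap_nonneg _) (kap_nonneg _)

theorem kk_le_one (L : ℕ) (z : ℤ × ℤ) : kk L z ≤ 1 :=
  mul_le_one₀ (kap_le_one _) (kap_nonneg _) (kap_le_one _)

theorem kk_one {L : ℕ} (hL : 0 < L) {z : ℤ × ℤ} (h1 : |(z.1 : ℝ) - ctr L| ≤ L / 4)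
    (h2 : |(z.2 : ℝ) - ctr L| ≤ L / 4) : kk L z = 1 := by
  have hL' : (0 : ℝ) < L := by exact_mod_cast hL
  unfold kk
  rw [kap_one, kap_one, mul_one]
  · rw [abs_div, abs_of_pos hL', div_le_iff₀ hL']; linarith only [h2]
  · rw [abs_div, abs_of_pos hL', div_le_iff₀ hL']; linarith only [h1]

theorem ctr_bds (L : ℕ) : (L : ℝ) / 2 ≤ ctr L ∧ ctr L ≤ (L : ℝ) / 2 + 1 / 2 := by
  unfold ctr
  have h : L / 2 * 2 ≤ L ∧ L ≤ L / 2 * 2 + 1 := by omega
  have h1 : ((L / 2 : ℕ) : ℝ) * 2 ≤ L := by exact_mod_cast h.1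
  have h2 : (L : ℝ) ≤ ((L / 2 : ℕ) : ℝ) * 2 + 1 := by exact_mod_cast h.2
  constructor <;> linarith only [h1, h2]

theorem kk_zero {L : ℕ} (hL : 4 ≤ L) {z : ℤ × ℤ} (h : z.1 ≤ 0 ∨ (L : ℤ) ≤ z.1) :
    kk L z = 0 := by
  have hL' : (4 : ℝ) ≤ L := by exact_mod_cast hL
  obtain ⟨c1, c2⟩ := ctr_bds L
  unfold kk
  rw [kap_zero, zero_mul]
  rcases h with h | h
  · left
    have h' : (z.1 : ℝ) ≤ 0 := by exact_mod_cast h
    rw [div_le_iff₀ (by linarith only [hL'])]
    linarith only [c1, h']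
  · right
    have h' : (L : ℝ) ≤ z.1 := by exact_mod_cast h
    rw [le_div_iff₀ (by linarith only [hL'])]
    linarith only [hL', c2, h']

theorem wf_re (L : ℕ) (P : ℂ) (z : ℤ × ℤ) :
    (wf L P z).re = (z.1 : ℝ) - ctr L - kk L z * P.re := by
  simp only [wf, zc, cc, sub_re, mul_re, ofReal_re, ofReal_im, zero_mul, sub_zero]

theorem wf_im (L : ℕ) (P : ℂ) (z : ℤ × ℤ) :
    (wf L P z).im = (z.2 : ℝ) - ctr L - kk L z * P.im := by
  simp only [wf, zc, cc, sub_im, mul_im, ofReal_re, ofReal_im, zero_mul, add_zero]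

theorem wf_bdry {L : ℕ} (hL : 4 ≤ L) (P Q : ℂ) {z : ℤ × ℤ} (h : z.1 ≤ 0 ∨ (L : ℤ) ≤ z.1) :
    wf L P z = wf L Q z := by
  unfold wf
  rw [kk_zero hL h]
  simp only [ofReal_zero, zero_mul, sub_zero]

theorem inc_up {L : ℕ} {P : ℂ} (hP : 0 ≤ P.im) {x y : ℤ} (h : ctr L + P.im < y) :
    inc L P (x, y) (x + 1, y) = Complex.arg (-Complex.I * wf L P (x, y)) -
      Complex.arg (-Complex.I * wf L P (x + 1, y)) ∧ inc L P (x, y) (x + 1, y) ≠ Real.pi := by
  have key : ∀ x' : ℤ, 0 < (wf L P (x', y)).im := by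
    intro x'
    rw [wf_im]
    have := mul_le_of_le_one_left hP (kk_le_one L (x', y))
    simp only
    linarith
  exact arg_up (key _) (key _)

theorem inc_low {L : ℕ} {P : ℂ} (hP : 0 ≤ P.im) (hP' : 0 ≤ P.re) (hP1 : 8 * (P.re + 1) ≤ L)
    (hP2 : 8 * (P.im + 1) ≤ L) {x y : ℤ} (h : (y : ℝ) < ctr L + P.im) :
    inc L P (x, y) (x + 1, y) = Complex.arg (Complex.I * wf L P (x, y)) -
      Complex.arg (Complex.I * wf L P (x + 1, y)) ∧ inc L P (x, y) (x + 1, y) ≠ Real.pi := by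
  apply arg_low
  have hk0 := fun z => kk_nonneg L z
  have hk1 := fun z => kk_le_one L z
  have hLpos : 0 < L := by
    have : (0 : ℝ) < L := by linarith only [hP', hP1]
    exact_mod_cast this
  simp only [wf_im, wf_re]
  by_cases hy : (y : ℝ) < ctr L
  · left
    have h1 := mul_nonneg (hk0 (x, y)) hP
    have h2 := mul_nonneg (hk0 (x + 1, y)) hP
    constructor <;> linarith only [hy, h1, h2]
  · push Not at hy
    have hy2 : |(y : ℝ) - ctr L| ≤ L / 4 := by
      rw [abs_le]; constructor <;> linarith only [hP2, h, hy]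
    by_cases hx1 : (x : ℝ) - ctr L < -(L / 4)
    · right; right
      have h1 := mul_nonneg (hk0 (x, y)) hP'
      have h2 := mul_nonneg (hk0 (x + 1, y)) hP'
      push_cast
      constructor <;> linarith only [hP2, h, hy, hx1, h2, h1]
    · by_cases hx2 : (L : ℝ) / 4 < (x : ℝ) + 1 - ctr L
      · right; left
        have h1 := mul_le_of_le_one_left hP' (hk1 (x, y))
        have h2 := mul_le_of_le_one_left hP' (hk1 (x + 1, y))
        push_cast
        constructor <;> linarith only [hP1, hx2, h1, h2]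
      · push Not at hx1 hx2
        left
        have e1 : kk L (x, y) = 1 := by
          apply kk_one hLpos
          · simp only; rw [abs_le]; constructor <;> linarith only [hx1, hx2]
          · exact hy2
        have e2 : kk L (x + 1, y) = 1 := by
          apply kk_one hLpos
          · simp only; push_cast; rw [abs_le]; constructor <;> linarith only [hx1, hx2]
          · exact hy2
        rw [e1, e2]
        constructor <;> linarith only [h]

/-- the potential along the line at height `y` -/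
noncomputable def phi (L : ℕ) (P : ℂ) (y x : ℤ) : ℝ :=
  if ctr L + P.im < (y : ℝ) then Complex.arg (-Complex.I * wf L P (x, y))
  else Complex.arg (Complex.I * wf L P (x, y))

theorem ne_half (L a : ℕ) (y : ℤ) : (y : ℝ) ≠ ctr L + a := by
  intro h
  unfold ctr at h
  generalize L / 2 = q at h
  have h1 : (2 : ℝ) * y = 2 * (q : ℝ) + 1 + 2 * a := by linarith only [h]
  have h2 : (2 : ℤ) * y = 2 * (q : ℤ) + 1 + 2 * a := by exact_mod_cast h1
  omega

theorem inc_eq {L a b : ℕ} (h1 : 8 * (a + 1) ≤ L) (h2 : 8 * (b + 1) ≤ L) {P : ℂ}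
    (hP : P = ⟨(a : ℝ), (b : ℝ)⟩) (x y : ℤ) :
    inc L P (x, y) (x + 1, y) = phi L P y x - phi L P y (x + 1) ∧
      inc L P (x, y) (x + 1, y) ≠ Real.pi := by
  have h1' : (8 : ℝ) * (a + 1) ≤ L := by exact_mod_cast h1
  have h2' : (8 : ℝ) * (b + 1) ≤ L := by exact_mod_cast h2
  have hre : P.re = a := by rw [hP]
  have him : P.im = b := by rw [hP]
  have ha : (0 : ℝ) ≤ a := Nat.cast_nonneg a
  have hb : (0 : ℝ) ≤ b := Nat.cast_nonneg b
  unfold phi
  by_cases h : ctr L + P.im < (y : ℝ)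
  · rw [if_pos h, if_pos h]
    exact inc_up (by rw [him]; exact hb) h
  · rw [if_neg h, if_neg h]
    push Not at h
    have hne := ne_half L b y
    rw [← him] at hne
    apply inc_low (by rw [him]; exact hb) (by rw [hre]; exact ha) (by rw [hre]; exact h1')
      (by rw [him]; exact h2')
    exact lt_of_le_of_ne h hne

theorem phi_abs (L : ℕ) (P : ℂ) (y x : ℤ) : |phi L P y x| ≤ Real.pi := by
  unfold phi
  split_ifs <;> exact Complex.abs_arg_le_pi _

/-- same side -/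
theorem phi_same {L : ℕ} (hL : 4 ≤ L) {P Q : ℂ} {y : ℤ}
    (h : (ctr L + P.im < (y : ℝ)) ↔ (ctr L + Q.im < (y : ℝ))) {x : ℤ}
    (hx : x ≤ 0 ∨ (L : ℤ) ≤ x) : phi L P y x = phi L Q y x := by
  have e : wf L P (x, y) = wf L Q (x, y) := wf_bdry hL P Q hx
  unfold phi
  by_cases h1 : ctr L + P.im < (y : ℝ)
  · rw [if_pos h1, if_pos (h.1 h1), e]
  · rw [if_neg h1, if_neg (fun h2 => h1 (h.2 h2)), e]

theorem phi_diff {L : ℕ} (hL : 4 ≤ L) {P Q : ℂ} {y : ℤ}
    (h1 : ctr L + P.im < (y : ℝ)) (h2 : ¬ ctr L + Q.im < (y : ℝ)) :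
    (phi L P y 0 - phi L Q y 0) - (phi L P y L - phi L Q y L) = 2 * Real.pi := by
  have hL' : (4 : ℝ) ≤ L := by exact_mod_cast hL
  obtain ⟨c1, c2⟩ := ctr_bds L
  have e0 : wf L P (0, y) = wf L Q (0, y) := wf_bdry hL P Q (Or.inl le_rfl)
  have e1 : wf L P ((L : ℤ), y) = wf L Q ((L : ℤ), y) := wf_bdry hL P Q (Or.inr le_rfl)
  have r0 : (Complex.I * wf L Q (0, y)).im < 0 := by
    have : (Complex.I * wf L Q (0, y)).im = (wf L Q (0, y)).re := by simp
    rw [this, wf_re, kk_zero hL (Or.inl le_rfl)]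
    push_cast
    linarith only [hL', c1]
  have r1 : 0 < (Complex.I * wf L Q ((L : ℤ), y)).im := by
    have : (Complex.I * wf L Q ((L : ℤ), y)).im = (wf L Q ((L : ℤ), y)).re := by simp
    rw [this, wf_re, kk_zero hL (Or.inr le_rfl)]
    push_cast
    linarith only [hL', c2]
  unfold phi
  rw [if_pos h1, if_pos h1, if_neg h2, if_neg h2, e0, e1, neg_mul, neg_mul,
    Complex.arg_neg_eq_arg_add_pi_of_im_neg r0, Complex.arg_neg_eq_arg_sub_pi_of_im_pos r1]
  ring

theorem tele_int (g : ℤ → ℝ) (a : ℤ) (n : ℕ) :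
    ∑ k ∈ Finset.Ico a (a + n), (g k - g (k + 1)) = g a - g (a + n) := by
  induction n with
  | zero => simp
  | succ n ih =>
    have e : Finset.Ico a (a + ((n + 1 : ℕ) : ℤ)) = insert (a + (n : ℤ)) (Finset.Ico a (a + n)) := by
      ext x
      simp only [Finset.mem_Ico, Finset.mem_insert]
      push_cast
      omega
    rw [e, Finset.sum_insert (by simp only [Finset.mem_Ico, le_add_iff_nonneg_right, Nat.cast_nonneg, lt_self_iff_false, and_false, not_false_eq_true]), ih]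
    push_cast
    rw [← add_assoc]
    ring

/-- sum over the bonds of a cell -/
theorem cell_h {l : ℕ} (F : ℤ × ℤ → ℝ) (k : ℤ × ℤ) :
    ∑ e : BI l, 1 / 2 * hh e * F (cor l k + bu e) =
      ∑ j ∈ Finset.range l, ∑ i ∈ Finset.range l,
        1 / 2 * (F (l * k.1 + i, l * k.2 + j) + F (l * k.1 + i, l * k.2 + j + 1)) := by
  rw [sum_BI, Finset.sum_comm, Finset.sum_range]
  refine Finset.sum_congr rfl fun j _ => ?_
  rw [Finset.sum_range]
  refine Finset.sum_congr rfl fun i _ => ?_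
  simp only [one_div, hh, Bool.false_eq_true, ↓reduceIte, mul_one, cor, bu, Bool.and_self, add_zero, Bool.not_false, Bool.and_false, Prod.mk_add_mk, Bool.and_true, mul_zero, Bool.not_true, zero_mul]
  ring_nf

/-- sum over a rectangle of cells, summed in columns first -/
theorem rect_sum {l : ℕ} (ψ : ℤ → ℤ → ℝ) (a b : ℤ) (p q : ℕ) :
    ∑ k ∈ Finset.Ico a (a + p) ×ˢ Finset.Ico b (b + q),
      ∑ j ∈ Finset.range l, ∑ i ∈ Finset.range l,
        1 / 2 * ((ψ (l * k.2 + j) (l * k.1 + i) - ψ (l * k.2 + j) (l * k.1 + i + 1)) +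
          (ψ (l * k.2 + j + 1) (l * k.1 + i) - ψ (l * k.2 + j + 1) (l * k.1 + i + 1))) =
    ∑ k2 ∈ Finset.Ico b (b + q), ∑ j ∈ Finset.range l,
      1 / 2 * ((ψ (l * k2 + j) (l * a) - ψ (l * k2 + j) (l * (a + p))) +
        (ψ (l * k2 + j + 1) (l * a) - ψ (l * k2 + j + 1) (l * (a + p)))) := by
  have tele : ∀ (g : ℤ → ℝ) (c : ℤ), ∑ i ∈ Finset.range l, (g (c + i) - g (c + i + 1)) =
      g c - g (c + l) := by
    intro g c
    have := Finset.sum_range_sub' (fun i : ℕ => g (c + i)) l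
    simp only [Nat.cast_zero, add_zero] at this
    rw [← this]
    refine Finset.sum_congr rfl fun i _ => ?_
    push_cast
    rw [add_assoc]
  rw [Finset.sum_product_right]
  refine Finset.sum_congr rfl fun k2 _ => ?_
  simp only
  rw [Finset.sum_comm]
  refine Finset.sum_congr rfl fun j _ => ?_
  simp only [← Finset.mul_sum]
  congr 1
  simp only [Finset.sum_add_distrib, tele]
  have e1 := tele_int (fun x => ψ (l * k2 + j) (l * x)) a p
  have e2 := tele_int (fun x => ψ (l * k2 + j + 1) (l * x)) a p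
  simp only [mul_add, mul_one] at e1 e2 ⊢
  rw [e1, e2]

theorem rows_abs {l m n : ℕ} {a1 b1 a2 b2 : ℤ} (ψ : ℤ → ℤ → ℝ)
    (hb : ∀ y x, |ψ y x| ≤ 2 * Real.pi)
    (h0 : ∀ y : ℤ, y ≤ l * b1 ∨ l * (b2 + m) ≤ y → ψ y 0 - ψ y (l * n) = 0)
    (h1 : ∀ y : ℤ, l * (b1 + m) ≤ y → y ≤ l * b2 → ψ y 0 - ψ y (l * n) = 2 * Real.pi)
    (ra1 : 0 ≤ a1) (ra1' : a1 + m ≤ n) (ra2 : 0 ≤ a2) (ra2' : a2 + m ≤ n)
    (rb1 : 0 ≤ b1) (rb : b1 + m ≤ b2) (rb2 : b2 + m ≤ n) :
    2 * Real.pi * l * ((b2 : ℝ) - b1) - 18 * Real.pi * (l * m) ≤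
      ∑ k ∈ cells n \ ((Finset.Ico a1 (a1 + m) ×ˢ Finset.Ico b1 (b1 + m)) ∪
        (Finset.Ico a2 (a2 + m) ×ˢ Finset.Ico b2 (b2 + m))),
      ∑ j ∈ Finset.range l, ∑ i ∈ Finset.range l,
        1 / 2 * ((ψ (l * k.2 + j) (l * k.1 + i) - ψ (l * k.2 + j) (l * k.1 + i + 1)) +
          (ψ (l * k.2 + j + 1) (l * k.1 + i) - ψ (l * k.2 + j + 1) (l * k.1 + i + 1))) := by
  have hpi := Real.pi_pos
  set G : ℤ × ℤ → ℝ := fun k => ∑ j ∈ Finset.range l, ∑ i ∈ Finset.range l,
        1 / 2 * ((ψ (l * k.2 + j) (l * k.1 + i) - ψ (l * k.2 + j) (l * k.1 + i + 1)) +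
          (ψ (l * k.2 + j + 1) (l * k.1 + i) - ψ (l * k.2 + j + 1) (l * k.1 + i + 1))) with hG
  set C1 : Finset (ℤ × ℤ) := Finset.Ico a1 (a1 + m) ×ˢ Finset.Ico b1 (b1 + m) with hC1
  set C2 : Finset (ℤ × ℤ) := Finset.Ico a2 (a2 + m) ×ˢ Finset.Ico b2 (b2 + m) with hC2
  have hsub : C1 ∪ C2 ⊆ cells n := by
    intro k hk
    simp only [hC1, hC2, cells, Finset.mem_union, Finset.mem_product, Finset.mem_Ico] at hk ⊢
    omega
  have hdisj : Disjoint C1 C2 := by
    rw [Finset.disjoint_left]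
    intro k hk hk'
    simp only [hC1, hC2, Finset.mem_product, Finset.mem_Ico] at hk hk'
    omega
  have hs := Finset.sum_sdiff (f := G) hsub
  rw [Finset.sum_union hdisj] at hs
  -- bound on the cores
  have hcore : ∀ a b : ℤ, ∑ k ∈ Finset.Ico a (a + m) ×ˢ Finset.Ico b (b + m), G k ≤
      4 * Real.pi * (l * m) := by
    intro a b
    have e := rect_sum (l := l) ψ a b m m
    rw [hG, e]
    calc _ ≤ ∑ k2 ∈ Finset.Ico b (b + m), ∑ j ∈ Finset.range l, 4 * Real.pi := by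
          refine Finset.sum_le_sum fun k2 _ => Finset.sum_le_sum fun j _ => ?_
          have t1 := abs_le.1 (hb (l * k2 + j) (l * a))
          have t2 := abs_le.1 (hb (l * k2 + j) (l * (a + m)))
          have t3 := abs_le.1 (hb (l * k2 + j + 1) (l * a))
          have t4 := abs_le.1 (hb (l * k2 + j + 1) (l * (a + m)))
          linarith only [t1.2, t2.1, t3.2, t4.1]
      _ = 4 * Real.pi * (l * m) := by
          simp only [Finset.sum_const, Finset.card_range, nsmul_eq_mul, Int.card_Ico, add_sub_cancel_left, Int.toNat_natCast]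
          ring
  have hc1 := hcore a1 b1
  have hc2 := hcore a2 b2
  -- total
  have htot : 2 * Real.pi * l * ((b2 : ℝ) - b1) - 10 * Real.pi * (l * m) ≤
      ∑ k ∈ cells n, G k := by
    have e := rect_sum (l := l) ψ 0 0 n n
    simp only [zero_add, mul_zero] at e
    rw [hG, cells, e]
    have hpt : ∀ k2 ∈ Finset.Ico (0 : ℤ) n,
        (if k2 ∈ Finset.Ico (b1 + m) b2 then 2 * Real.pi * l else 0) +
        (if k2 ∈ Finset.Ico b1 (b1 + m) then -(4 * Real.pi * l) else 0) +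
        (if k2 ∈ Finset.Ico b2 (b2 + m) then -(4 * Real.pi * l) else 0) ≤
        ∑ j ∈ Finset.range l, 1 / 2 * ((ψ (l * k2 + j) 0 - ψ (l * k2 + j) (l * n)) +
          (ψ (l * k2 + j + 1) 0 - ψ (l * k2 + j + 1) (l * n))) := by
      intro k2 _
      have hl0 : (0 : ℤ) ≤ l := Int.natCast_nonneg l
      by_cases c1 : k2 < b1
      · rw [if_neg (by simp only [Finset.mem_Ico]; (clear * - c1; omega)),
          if_neg (by simp only [Finset.mem_Ico]; omega),
          if_neg (by simp only [Finset.mem_Ico]; omega)]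
        rw [Finset.sum_eq_zero]
        · simp
        · intro j hj
          rw [Finset.mem_range] at hj
          have : (l : ℤ) * (k2 + 1) ≤ l * b1 := mul_le_mul_of_nonneg_left (by omega) hl0
          rw [mul_add] at this
          rw [h0 _ (Or.inl (by omega)), h0 _ (Or.inl (by (clear * - hj this; omega)))]
          simp
      · by_cases c2 : k2 < b1 + m
        · rw [if_neg (by simp only [Finset.mem_Ico]; omega),
            if_pos (by simp only [Finset.mem_Ico]; omega),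
            if_neg (by simp only [Finset.mem_Ico]; omega)]
          calc _ = ∑ j ∈ Finset.range l, (-(4 * Real.pi)) := by simp only [zero_add, add_zero, Finset.sum_neg_distrib, Finset.sum_const, Finset.card_range, nsmul_eq_mul, neg_inj]; ring
            _ ≤ _ := by
              refine Finset.sum_le_sum fun j _ => ?_
              have t1 := abs_le.1 (hb (l * k2 + j) 0)
              have t2 := abs_le.1 (hb (l * k2 + j) (l * n))
              have t3 := abs_le.1 (hb (l * k2 + j + 1) 0)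
              have t4 := abs_le.1 (hb (l * k2 + j + 1) (l * n))
              linarith only [t1.1, t2.2, t3.1, t4.2]
        · by_cases c3 : k2 < b2
          · rw [if_pos (by simp only [Finset.mem_Ico]; omega),
              if_neg (by simp only [Finset.mem_Ico]; (clear * - c2; omega)),
              if_neg (by simp only [Finset.mem_Ico]; (clear * - c3; omega))]
            have e1 : (l : ℤ) * (b1 + m) ≤ l * k2 := mul_le_mul_of_nonneg_left (by omega) hl0
            have e2 : (l : ℤ) * (k2 + 1) ≤ l * b2 := mul_le_mul_of_nonneg_left (by omega) hl0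
            rw [mul_add (l : ℤ) k2 1] at e2
            calc _ = ∑ j ∈ Finset.range l, (2 * Real.pi) := by simp only [add_zero, Finset.sum_const, Finset.card_range, nsmul_eq_mul]; ring
              _ ≤ _ := by
                refine Finset.sum_le_sum fun j hj => ?_
                rw [Finset.mem_range] at hj
                rw [h1 _ (by (clear * - e1; omega)) (by (clear * - e2 hj; omega)), h1 _ (by omega) (by omega)]
                linarith only []
          · by_cases c4 : k2 < b2 + m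
            · rw [if_neg (by simp only [Finset.mem_Ico]; omega),
                if_neg (by simp only [Finset.mem_Ico]; (clear * - c2; omega)),
                if_pos (by simp only [Finset.mem_Ico]; omega)]
              calc _ = ∑ j ∈ Finset.range l, (-(4 * Real.pi)) := by simp only [add_zero, zero_add, Finset.sum_neg_distrib, Finset.sum_const, Finset.card_range, nsmul_eq_mul, neg_inj]; ring
                _ ≤ _ := by
                  refine Finset.sum_le_sum fun j _ => ?_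
                  have t1 := abs_le.1 (hb (l * k2 + j) 0)
                  have t2 := abs_le.1 (hb (l * k2 + j) (l * n))
                  have t3 := abs_le.1 (hb (l * k2 + j + 1) 0)
                  have t4 := abs_le.1 (hb (l * k2 + j + 1) (l * n))
                  linarith only [t1.1, t2.2, t3.1, t4.2]
            · rw [if_neg (by simp only [Finset.mem_Ico]; omega),
                if_neg (by simp only [Finset.mem_Ico]; omega),
                if_neg (by simp only [Finset.mem_Ico]; (clear * - c4; omega))]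
              rw [Finset.sum_eq_zero]
              · simp
              · intro j hj
                rw [Finset.mem_range] at hj
                have : (l : ℤ) * (b2 + m) ≤ l * k2 := mul_le_mul_of_nonneg_left (by omega) hl0
                rw [h0 _ (Or.inr (by omega)), h0 _ (Or.inr (by omega))]
                simp
    refine le_trans ?_ (Finset.sum_le_sum hpt)
    rw [Finset.sum_add_distrib, Finset.sum_add_distrib, Finset.sum_ite_mem, Finset.sum_ite_mem,
      Finset.sum_ite_mem]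
    have i1 : Finset.Ico (0 : ℤ) n ∩ Finset.Ico (b1 + m) b2 = Finset.Ico (b1 + m) b2 := by
      ext x; simp only [Finset.mem_inter, Finset.mem_Ico]; omega
    have i2 : Finset.Ico (0 : ℤ) n ∩ Finset.Ico b1 (b1 + m) = Finset.Ico b1 (b1 + m) := by
      ext x; simp only [Finset.mem_inter, Finset.mem_Ico]; omega
    have i3 : Finset.Ico (0 : ℤ) n ∩ Finset.Ico b2 (b2 + m) = Finset.Ico b2 (b2 + m) := by
      ext x; simp only [Finset.mem_inter, Finset.mem_Ico]; omega
    rw [i1, i2, i3]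
    simp only [Finset.sum_const, Int.card_Ico, nsmul_eq_mul]
    have n1 : (((b2 - (b1 + m)).toNat : ℕ) : ℝ) = (b2 : ℝ) - b1 - m := by
      have : (((b2 - (b1 + m)).toNat : ℕ) : ℤ) = b2 - b1 - m := by
        rw [Int.toNat_of_nonneg (by omega)]; ring
      exact_mod_cast this
    have n2 : (((b1 + m - b1).toNat : ℕ) : ℝ) = m := by
      have : (b1 + m - b1).toNat = m := by omega
      rw [this]
    have n3 : (((b2 + m - b2).toNat : ℕ) : ℝ) = m := by
      have : (b2 + m - b2).toNat = m := by omega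
      rw [this]
    rw [n1, n2, n3]
    apply le_of_eq
    ring
  linarith only [hs, hc1, hc2, htot]

theorem inc_swap {L a b : ℕ} (h1 : 8 * (a + 1) ≤ L) (h2 : 8 * (b + 1) ≤ L) (x y : ℤ) :
    inc L ⟨(a : ℝ), (b : ℝ)⟩ (x, y) (x, y + 1) = -inc L ⟨(b : ℝ), (a : ℝ)⟩ (y, x) (y + 1, x) := by
  have hw : ∀ x y : ℤ, wf L ⟨(a : ℝ), (b : ℝ)⟩ (x, y) =
      Complex.I * (starRingEnd ℂ) (wf L ⟨(b : ℝ), (a : ℝ)⟩ (y, x)) := by
    intro x y
    apply Complex.ext
    · have : (Complex.I * (starRingEnd ℂ) (wf L ⟨(b : ℝ), (a : ℝ)⟩ (y, x))).re =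
        (wf L ⟨(b : ℝ), (a : ℝ)⟩ (y, x)).im := by simp only [mul_re, I_re, conj_re, zero_mul, I_im, conj_im, mul_neg, one_mul, sub_neg_eq_add, zero_add]
      rw [this, wf_re, wf_im]
      simp only [kk]
      ring
    · have : (Complex.I * (starRingEnd ℂ) (wf L ⟨(b : ℝ), (a : ℝ)⟩ (y, x))).im =
        (wf L ⟨(b : ℝ), (a : ℝ)⟩ (y, x)).re := by simp only [mul_im, I_re, conj_im, mul_neg, zero_mul, neg_zero, I_im, conj_re, one_mul, zero_add]
      rw [this, wf_re, wf_im]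
      simp only [kk]
      ring
  have hne := (inc_eq h2 h1 rfl y x).2
  unfold inc at hne ⊢
  rw [hw, hw, mul_div_mul_left _ _ Complex.I_ne_zero, ← map_div₀, Complex.arg_conj, if_neg hne]

/-- difference of two vortex configurations along horizontal bonds -/
noncomputable def Fd (L : ℕ) (P Q : ℂ) (z : ℤ × ℤ) : ℝ :=
  inc L P z (z + (1, 0)) - inc L Q z (z + (1, 0))

/-- block sum -/
noncomputable def bs (l : ℕ) (F : ℤ × ℤ → ℝ) (k : ℤ × ℤ) : ℝ :=
  ∑ j ∈ Finset.range l, ∑ i ∈ Finset.range l,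
        1 / 2 * (F (l * k.1 + i, l * k.2 + j) + F (l * k.1 + i, l * k.2 + j + 1))

theorem sizes {s K M i : ℕ} (hs : 2 ≤ s) (hK : 1 ≤ K) (hi : i < M) :
    8 * (K * s * i + 1) ≤ s * NN K M := by
  unfold NN
  have h1 : K * s * i + K * s ≤ K * s * M := by
    have : K * s * (i + 1) ≤ K * s * M := Nat.mul_le_mul_left _ hi
    linarith only [this]
  have h2 : 1 ≤ K * s := Nat.mul_pos hK (by omega)
  nlinarith only [h1, h2]

theorem main_lt {l m K M i j i' j' : ℕ} (hK : 1 ≤ K) (hi : i < M) (hj : j < M)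
    (hi' : i' < M) (hj' : j' < M) (hs : 2 ≤ l * m) (hlt : j < j') :
    2 * Real.pi * K * ((l * m : ℕ) : ℝ) * ((j' : ℝ) - j) - 18 * Real.pi * ((l * m : ℕ) : ℝ) ≤
      ∑ k ∈ cells (m * NN K M) \ (core m K M i j ∪ core m K M i' j'),
        bs l (Fd (l * m * NN K M) (pos (l * m) K i j) (pos (l * m) K i' j')) k := by
  set L := l * m * NN K M with hL
  set P := pos (l * m) K i j with hP
  set Q := pos (l * m) K i' j' with hQ
  have hP' : P = ⟨((K * (l * m) * i : ℕ) : ℝ), ((K * (l * m) * j : ℕ) : ℝ)⟩ := by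
    rw [hP]; unfold pos; push_cast; rfl
  have hQ' : Q = ⟨((K * (l * m) * i' : ℕ) : ℝ), ((K * (l * m) * j' : ℕ) : ℝ)⟩ := by
    rw [hQ]; unfold pos; push_cast; rfl
  have hL4 : 4 ≤ L := by
    have := sizes hs hK hi
    omega
  have hctr : ctr L = ((l * m : ℕ) : ℝ) * (4 * K * M) + ((l * m / 2 : ℕ) : ℝ) + 1 / 2 := by
    unfold ctr
    have : L / 2 = l * m * (4 * K * M) + l * m / 2 := by
      rw [hL]; unfold NN
      have : l * m * (8 * K * M + 1) = 2 * (l * m * (4 * K * M)) + l * m := by ring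
      rw [this]; omega
    rw [this]; push_cast; ring
  have hhalf1 : ((l * m / 2 : ℕ) : ℝ) + 1 ≤ ((l * m : ℕ) : ℝ) := by
    have : l * m / 2 + 1 ≤ l * m := by (clear * - hs; omega)
    exact_mod_cast this
  have hhalf0 : (0 : ℝ) ≤ ((l * m / 2 : ℕ) : ℝ) := Nat.cast_nonneg _
  have hPim : P.im = (K : ℝ) * ((l * m : ℕ) : ℝ) * j := by rw [hP']; push_cast; ring
  have hQim : Q.im = (K : ℝ) * ((l * m : ℕ) : ℝ) * j' := by rw [hQ']; push_cast; ring
  have hKs : (0 : ℝ) < (K : ℝ) * ((l * m : ℕ) : ℝ) := by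
    have : 0 < K * (l * m) := Nat.mul_pos hK (by omega)
    exact_mod_cast this
  have hPQ : P.im < Q.im := by
    rw [hPim, hQim]
    exact mul_lt_mul_of_pos_left (by exact_mod_cast hlt) hKs
  set b1 : ℤ := (m : ℤ) * (4 * K * M + K * j) with hb1
  set b2 : ℤ := (m : ℤ) * (4 * K * M + K * j') with hb2
  set a1 : ℤ := (m : ℤ) * (4 * K * M + K * i) with ha1
  set a2 : ℤ := (m : ℤ) * (4 * K * M + K * i') with ha2
  -- positions of the lines
  have low : ∀ (jj : ℕ) (y : ℤ), y ≤ l * ((m : ℤ) * (4 * K * M + K * jj)) →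
      ¬ (ctr L + (K : ℝ) * ((l * m : ℕ) : ℝ) * jj < (y : ℝ)) := by
    intro jj y hy
    have hy' : (y : ℝ) ≤ (l : ℝ) * ((m : ℝ) * (4 * K * M + K * jj)) := by exact_mod_cast hy
    rw [hctr]
    push_cast at hhalf1 ⊢
    nlinarith only [hy']
  have up : ∀ (jj : ℕ) (y : ℤ), l * ((m : ℤ) * (4 * K * M + K * jj) + m) ≤ y →
      ctr L + (K : ℝ) * ((l * m : ℕ) : ℝ) * jj < (y : ℝ) := by
    intro jj y hy
    have hy' : (l : ℝ) * ((m : ℝ) * (4 * K * M + K * jj) + m) ≤ (y : ℝ) := by exact_mod_cast hy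
    rw [hctr]
    push_cast at hhalf1 ⊢
    nlinarith only [hy', hhalf1]
  have hln : (l : ℤ) * ((m * NN K M : ℕ) : ℤ) = (L : ℤ) := by
    rw [hL]; push_cast; ring
  have hNN : ((m * NN K M : ℕ) : ℤ) = (m : ℤ) * (8 * K * M + 1) := by
    unfold NN; push_cast; ring
  have hm0 : (0 : ℤ) ≤ m := Int.natCast_nonneg m
  have hbd : ∀ jj : ℕ, jj < M → 0 ≤ (m : ℤ) * (4 * K * M + K * jj) ∧
      (m : ℤ) * (4 * K * M + K * jj) + m ≤ ((m * NN K M : ℕ) : ℤ) := by
    intro jj hjj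
    constructor
    · (clear * - hK; positivity)
    · rw [hNN]
      have h1 : (K : ℤ) * jj ≤ K * M := mul_le_mul_of_nonneg_left (by omega) (by (clear * - hK; omega))
      have h2 : (0 : ℤ) ≤ K * M := by (clear * - hK; positivity)
      have h3 : (4 * K * M + K * jj : ℤ) + 1 ≤ 8 * K * M + 1 := by linarith only [h1, h2]
      calc (m : ℤ) * (4 * K * M + K * jj) + m = m * ((4 * K * M + K * jj : ℤ) + 1) := by ring
        _ ≤ m * (8 * K * M + 1) := mul_le_mul_of_nonneg_left h3 hm0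
  have hb12 : b1 + m ≤ b2 := by
    rw [hb1, hb2]
    have h1 : (K : ℤ) * (j + 1) ≤ K * j' := mul_le_mul_of_nonneg_left (by omega) (by (clear * - hK; omega))
    have h2 : (1 : ℤ) ≤ K := by exact_mod_cast hK
    have h3 : (4 * K * M + K * j : ℤ) + 1 ≤ 4 * K * M + K * j' := by linarith only [hK, h1]
    calc (m : ℤ) * (4 * K * M + K * j) + m = m * ((4 * K * M + K * j : ℤ) + 1) := by ring
      _ ≤ _ := mul_le_mul_of_nonneg_left h3 hm0
  have hl0 : (0 : ℤ) ≤ l := Int.natCast_nonneg l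
  have key := rows_abs (l := l) (m := m) (n := m * NN K M) (a1 := a1) (b1 := b1) (a2 := a2)
    (b2 := b2) (fun y x => phi L P y x - phi L Q y x) ?_ ?_ ?_ (hbd i hi).1 (hbd i hi).2
    (hbd i' hi').1 (hbd i' hi').2 (hbd j hj).1 hb12 (hbd j' hj').2
  · refine le_trans (le_of_eq ?_) (le_trans key (le_of_eq ?_))
    · rw [hb1, hb2]
      push_cast
      ring
    · refine Finset.sum_congr rfl fun k _ => ?_
      unfold bs
      refine Finset.sum_congr rfl fun jj _ => Finset.sum_congr rfl fun ii _ => ?_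
      have hF : ∀ x y : ℤ, Fd L P Q (x, y) = (phi L P y x - phi L Q y x) -
          (phi L P y (x + 1) - phi L Q y (x + 1)) := by
        intro x y
        unfold Fd
        have ez : (x, y) + ((1 : ℤ), (0 : ℤ)) = (x + 1, y) := by simp
        rw [ez, (inc_eq (sizes hs hK hi) (sizes hs hK hj) hP' x y).1,
          (inc_eq (sizes hs hK hi') (sizes hs hK hj') hQ' x y).1]
        ring
      rw [hF, hF]
  · intro y x
    have t1 := abs_le.1 (phi_abs L P y x)
    have t2 := abs_le.1 (phi_abs L Q y x)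
    rw [abs_le]
    constructor <;> linarith only [t1, t2]
  · intro y hy
    rw [hln]
    have hiff : (ctr L + P.im < (y : ℝ)) ↔ (ctr L + Q.im < (y : ℝ)) := by
      rcases hy with hy | hy
      · have n1 := low j y hy
        rw [← hPim] at n1
        constructor
        · intro h; exact absurd h n1
        · intro h; exact absurd (lt_trans (by linarith only [hPQ]) h) n1
      · have n1 := up j' y hy
        rw [← hQim] at n1
        constructor
        · intro _; exact n1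
        · intro _; linarith only [hPQ, n1]
    rw [phi_same hL4 hiff (Or.inl le_rfl), phi_same hL4 hiff (Or.inr le_rfl)]
    ring
  · intro y hy1 hy2
    rw [hln]
    have n1 := up j y hy1
    rw [← hPim] at n1
    have n2 := low j' y hy2
    rw [← hQim] at n2
    exact phi_diff hL4 n1 n2

theorem main_abs {l m K M i j i' j' : ℕ} (hK : 1 ≤ K) (hi : i < M) (hj : j < M)
    (hi' : i' < M) (hj' : j' < M) (hs : 2 ≤ l * m) :
    2 * Real.pi * K * ((l * m : ℕ) : ℝ) * |(j : ℝ) - j'| - 18 * Real.pi * ((l * m : ℕ) : ℝ) ≤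
      |∑ k ∈ cells (m * NN K M) \ (core m K M i j ∪ core m K M i' j'),
        bs l (Fd (l * m * NN K M) (pos (l * m) K i j) (pos (l * m) K i' j')) k| := by
  rcases lt_trichotomy j j' with h | h | h
  · have h' : (j : ℝ) < j' := by exact_mod_cast h
    rw [abs_of_neg (a := (j : ℝ) - j') (by linarith only [h']), neg_sub]
    exact le_trans (main_lt hK hi hj hi' hj' hs h) (le_abs_self _)
  · subst h
    rw [sub_self, abs_zero, mul_zero, zero_sub]
    refine le_trans ?_ (abs_nonneg _)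
    have := Real.pi_pos
    have h0 : (0 : ℝ) ≤ ((l * m : ℕ) : ℝ) := Nat.cast_nonneg _
    have := mul_nonneg (mul_nonneg (by norm_num : (0 : ℝ) ≤ 18) this.le) h0
    linarith only [this]
  · have h' : (j' : ℝ) < j := by exact_mod_cast h
    rw [abs_of_pos (a := (j : ℝ) - j') (by linarith only [h']), ← abs_neg]
    refine le_trans (main_lt hK hi' hj' hi hj hs h) (le_trans (le_of_eq ?_) (le_abs_self _))
    rw [← Finset.sum_neg_distrib, Finset.union_comm]
    refine Finset.sum_congr rfl fun k _ => ?_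
    unfold bs
    rw [← Finset.sum_neg_distrib]
    refine Finset.sum_congr rfl fun jj _ => ?_
    rw [← Finset.sum_neg_distrib]
    refine Finset.sum_congr rfl fun ii _ => ?_
    unfold Fd
    ring

theorem cell_v {l : ℕ} (F : ℤ × ℤ → ℝ) (k : ℤ × ℤ) :
    ∑ e : BI l, 1 / 2 * vv e * F (cor l k + bu e) =
      ∑ i ∈ Finset.range l, ∑ j ∈ Finset.range l,
        1 / 2 * (F (l * k.1 + i, l * k.2 + j) + F (l * k.1 + i + 1, l * k.2 + j)) := by
  rw [sum_BI, Finset.sum_range]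
  refine Finset.sum_congr rfl fun j _ => ?_
  rw [Finset.sum_range]
  refine Finset.sum_congr rfl fun i _ => ?_
  simp only [one_div, vv, Bool.false_eq_true, ↓reduceIte, mul_zero, cor, bu, Bool.and_self, add_zero, Bool.not_false, Bool.and_false, Prod.mk_add_mk, zero_mul, Bool.and_true, mul_one, Bool.not_true, zero_add]
  ring_nf

end G4

open G4

theorem geo_rows_h : ∃ C0 s0 : ℝ, 1 ≤ C0 ∧ 2 ≤ s0 ∧ ∀ l m K M i j i' j' : ℕ, 1 ≤ l → 1 ≤ K →
    i < M → j < M → i' < M → j' < M → s0 ≤ ((l * m : ℕ) : ℝ) →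
      2 * Real.pi * K * ((l * m : ℕ) : ℝ) * |(j : ℝ) - j'| - C0 * ((l * m : ℕ) : ℝ) ≤
      |∑ k ∈ cells (m * NN K M) \ (core m K M i j ∪ core m K M i' j'),
        ∑ e : BI l, 1 / 2 * hh e * (ainc l m K M i j k e - ainc l m K M i' j' k e)| := by
  refine ⟨18 * Real.pi, 2, by linarith only [Real.pi_gt_three], le_rfl, ?_⟩
  intro l m K M i j i' j' _ hK hi hj hi' hj' hs
  have hs' : 2 ≤ l * m := by exact_mod_cast hs
  refine le_trans (main_abs hK hi hj hi' hj' hs') (le_of_eq ?_)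
  congr 1
  refine Finset.sum_congr rfl fun k _ => ?_
  rw [bs, ← cell_h]
  refine Finset.sum_congr rfl fun e _ => ?_
  unfold ainc Fd bv hh
  by_cases h : e.2.1 = true
  · simp only [one_div, h, ↓reduceIte, mul_zero, zero_mul]
  · simp only [Bool.not_eq_true] at h
    simp only [one_div, h, Bool.false_eq_true, ↓reduceIte, mul_one, add_assoc]

theorem geo_rows_v : ∃ C0 s0 : ℝ, 1 ≤ C0 ∧ 2 ≤ s0 ∧ ∀ l m K M i j i' j' : ℕ, 1 ≤ l → 1 ≤ K →
    i < M → j < M → i' < M → j' < M → s0 ≤ ((l * m : ℕ) : ℝ) →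
      2 * Real.pi * K * ((l * m : ℕ) : ℝ) * |(i : ℝ) - i'| - C0 * ((l * m : ℕ) : ℝ) ≤
      |∑ k ∈ cells (m * NN K M) \ (core m K M i j ∪ core m K M i' j'),
        ∑ e : BI l, 1 / 2 * vv e * (ainc l m K M i j k e - ainc l m K M i' j' k e)| := by
  refine ⟨18 * Real.pi, 2, by linarith [Real.pi_gt_three], le_rfl, ?_⟩
  intro l m K M i j i' j' _ hK hi hj hi' hj' hs
  have hs' : 2 ≤ l * m := by exact_mod_cast hs
  refine le_trans (main_abs hK hj hi hj' hi' hs') (le_of_eq ?_)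
  rw [← abs_neg, ← Finset.sum_neg_distrib]
  congr 1
  refine Finset.sum_bij' (fun k _ => k.swap) (fun k _ => k.swap) ?_ ?_ ?_ ?_ ?_
  · intro k hk
    simp only [cells, core, ccell, Finset.mem_sdiff, Finset.mem_product, Finset.mem_union,
      Prod.fst_swap, Prod.snd_swap] at hk ⊢
    tauto
  · intro k hk
    simp only [cells, core, ccell, Finset.mem_sdiff, Finset.mem_product, Finset.mem_union,
      Prod.fst_swap, Prod.snd_swap] at hk ⊢
    (clear * - hk; tauto)
  · intro k _; simp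
  · intro k _; simp
  · intro k _
    have e1 : ∑ e : BI l, 1 / 2 * vv e * (ainc l m K M i j k.swap e - ainc l m K M i' j' k.swap e) =
        ∑ e : BI l, 1 / 2 * vv e * (fun z : ℤ × ℤ =>
          inc (l * m * NN K M) (pos (l * m) K i j) z (z + (0, 1)) -
          inc (l * m * NN K M) (pos (l * m) K i' j') z (z + (0, 1))) (cor l k.swap + bu e) := by
      refine Finset.sum_congr rfl fun e _ => ?_
      unfold ainc bv vv
      by_cases h : e.2.1 = true
      · simp only [one_div, h, ↓reduceIte, mul_one, add_assoc]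
      · simp only [Bool.not_eq_true] at h
        simp [h]
    rw [e1, cell_v (l := l) (fun z : ℤ × ℤ =>
          inc (l * m * NN K M) (pos (l * m) K i j) z (z + (0, 1)) -
          inc (l * m * NN K M) (pos (l * m) K i' j') z (z + (0, 1))) k.swap, bs,
      ← Finset.sum_neg_distrib]
    refine Finset.sum_congr rfl fun a _ => ?_
    rw [← Finset.sum_neg_distrib]
    refine Finset.sum_congr rfl fun b _ => ?_
    have hsw : ∀ x y : ℤ, Fd (l * m * NN K M) (pos (l * m) K j i) (pos (l * m) K j' i') (x, y) =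
        -(inc (l * m * NN K M) (pos (l * m) K i j) (y, x) (y, x + 1) -
          inc (l * m * NN K M) (pos (l * m) K i' j') (y, x) (y, x + 1)) := by
      intro x y
      have q1 := inc_swap (sizes hs' hK hi) (sizes hs' hK hj) y x
      have q2 := inc_swap (sizes hs' hK hi') (sizes hs' hK hj') y x
      push_cast at q1 q2
      unfold Fd pos
      have ez : (x, y) + ((1 : ℤ), (0 : ℤ)) = (x + 1, y) := by simp
      push_cast
      rw [ez, q1, q2]
      ring
    rw [hsw, hsw]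
    simp only [Prod.fst_swap, Prod.snd_swap, Prod.mk_add_mk, add_zero]
    ring

end UJ

end Vale.Agent.P159
end

section

/-!
The densities of the vortex configurations and the change of measure.
-/

open MeasureTheory Filter Topology
open scoped BigOperators

namespace Vale.Agent.P159

namespace UJ

/-! ### positions of the blocks -/

theorem hel1_mem_inB {s : ℕ} {c z : ℤ × ℤ} : z ∈ inB s c ↔
    (c.1 + 1 ≤ z.1 ∧ z.1 ≤ c.1 + s - 1) ∧ c.2 + 1 ≤ z.2 ∧ z.2 ≤ c.2 + s - 1 := by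
  simp only [inB, Set.mem_ofPred_eq, inner, Finset.coe_Icc, Set.mem_Icc, Prod.le_def,
    Prod.fst_sub, Prod.snd_sub]
  constructor
  · rintro ⟨⟨h1, h2⟩, h3, h4⟩
    exact ⟨⟨by omega, by omega⟩, by omega, by omega⟩
  · rintro ⟨⟨h1, h2⟩, h3, h4⟩
    exact ⟨⟨by omega, by omega⟩, by omega, by omega⟩

theorem hel1_mem_clB {s : ℕ} {c z : ℤ × ℤ} : z ∈ clB s c ↔
    (c.1 ≤ z.1 ∧ z.1 ≤ c.1 + s) ∧ c.2 ≤ z.2 ∧ z.2 ≤ c.2 + s := by
  simp only [clB, Set.mem_ofPred_eq, Prod.fst_sub, Prod.snd_sub]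
  constructor
  · rintro ⟨h1, h2, h3, h4⟩
    exact ⟨⟨by omega, by omega⟩, by omega, by omega⟩
  · rintro ⟨⟨h1, h2⟩, h3, h4⟩
    exact ⟨by omega, by omega, by omega, by omega⟩

/-- side of the block number `κ`; `none` is the core -/
def hel1_side (l m : ℕ) : Option (ℤ × ℤ) → ℕ
  | none => l * m
  | some _ => l

/-- corner of the block number `κ` -/
def hel1_cor (l m K M i j : ℕ) : Option (ℤ × ℤ) → ℤ × ℤ
  | none => cnr l m K M i j
  | some k => cor l k

/-- the blocks -/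
noncomputable def hel1_blocks (m K M i j : ℕ) : Finset (Option (ℤ × ℤ)) :=
  Finset.insertNone (outer m K M i j)

theorem hel1_mul_le {l : ℕ} {a b : ℤ} (h : a ≤ b) : (l : ℤ) * a ≤ (l : ℤ) * b :=
  mul_le_mul_of_nonneg_left h (by positivity)

theorem hel1_cells {n : ℕ} {k : ℤ × ℤ} : k ∈ cells n ↔
    (0 ≤ k.1 ∧ k.1 < n) ∧ 0 ≤ k.2 ∧ k.2 < n := by
  simp only [cells, Finset.mem_product, Finset.mem_Ico]

theorem hel1_core {m K M i j : ℕ} {k : ℤ × ℤ} : k ∈ core m K M i j ↔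
    ((ccell m K M i j).1 ≤ k.1 ∧ k.1 < (ccell m K M i j).1 + m) ∧
      (ccell m K M i j).2 ≤ k.2 ∧ k.2 < (ccell m K M i j).2 + m := by
  simp only [core, Finset.mem_product, Finset.mem_Ico]

theorem hel1_ccell {m K M i j : ℕ} (hi : i < M) (hj : j < M) :
    (0 ≤ (ccell m K M i j).1 ∧ (ccell m K M i j).1 + m ≤ (m * NN K M : ℕ)) ∧
      0 ≤ (ccell m K M i j).2 ∧ (ccell m K M i j).2 + m ≤ (m * NN K M : ℕ) := by
  have key : ∀ i : ℕ, i < M → (0 : ℤ) ≤ (m : ℤ) * (4 * K * M + K * i) ∧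
      (m : ℤ) * (4 * K * M + K * i) + m ≤ (m * NN K M : ℕ) := by
    intro i hi
    refine ⟨by (clear * -; positivity), ?_⟩
    unfold NN
    push_cast
    have h1 : (m : ℤ) * (4 * K * M + K * i) + m = m * (4 * K * M + K * i + 1) := by ring
    rw [h1]
    apply hel1_mul_le
    have h2 : (K : ℤ) * i ≤ K * M := hel1_mul_le (by omega)
    have h3 : (0 : ℤ) ≤ K * M := by (clear * -; positivity)
    linarith only [h2, h3]
  exact ⟨key i hi, key j hj⟩

theorem hel1_cells_disj {l : ℕ} {k k' z : ℤ × ℤ} (hne : k ≠ k') (hz : z ∈ inB l (cor l k)) :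
    z ∉ clB l (cor l k') := by
  rw [hel1_mem_inB] at hz
  rw [hel1_mem_clB]
  simp only [cor] at hz ⊢
  rintro ⟨⟨h1, h2⟩, h3, h4⟩
  apply hne
  have key : ∀ a a' x : ℤ, (l : ℤ) * a + 1 ≤ x → x ≤ l * a + l - 1 → (l : ℤ) * a' ≤ x →
      x ≤ l * a' + l → a = a' := by
    intro a a' x g1 g2 g3 g4
    rcases lt_trichotomy a a' with h | h | h
    · have := hel1_mul_le (l := l) (show a + 1 ≤ a' by omega)
      linarith only [g2, g3, this]
    · exact h
    · have := hel1_mul_le (l := l) (show a' + 1 ≤ a by omega)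
      linarith only [g1, g4, this]
  exact Prod.ext (key _ _ _ hz.1.1 hz.1.2 h1 h2) (key _ _ _ hz.2.1 hz.2.2 h3 h4)

theorem hel1_core_aux {l m : ℕ} {a c x : ℤ} (h : a < c ∨ c + m ≤ a) :
    ¬ (((l : ℤ) * c + 1 ≤ x ∧ x ≤ l * c + (l * m : ℕ) - 1) ∧ ((l : ℤ) * a ≤ x ∧ x ≤ l * a + l)) ∧
    ¬ (((l : ℤ) * c ≤ x ∧ x ≤ l * c + (l * m : ℕ)) ∧
      ((l : ℤ) * a + 1 ≤ x ∧ x ≤ l * a + l - 1)) := by
  push_cast
  rcases h with h | h
  · have := hel1_mul_le (l := l) (show a + 1 ≤ c by omega)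
    constructor
    · rintro ⟨⟨g1, g2⟩, g3, g4⟩
      linarith only [this, g1, g4]
    · rintro ⟨⟨g1, g2⟩, g3, g4⟩
      linarith only [this, g1, g4]
  · have := hel1_mul_le (l := l) h
    constructor
    · rintro ⟨⟨g1, g2⟩, g3, g4⟩
      linarith
    · rintro ⟨⟨g1, g2⟩, g3, g4⟩
      linarith

theorem hel1_outer_out {m K M i j : ℕ} {k : ℤ × ℤ} (hk : k ∈ outer m K M i j) :
    (k.1 < (ccell m K M i j).1 ∨ (ccell m K M i j).1 + m ≤ k.1) ∨
      (k.2 < (ccell m K M i j).2 ∨ (ccell m K M i j).2 + m ≤ k.2) := by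
  have h := (Finset.mem_sdiff.1 hk).2
  rw [hel1_core] at h
  by_contra hc
  push Not at hc
  exact h ⟨⟨by omega, by omega⟩, by omega, by omega⟩

/-- the interior of a block does not meet the other closed blocks -/
theorem hel1_disj {l m K M i j : ℕ} {κ κ' : Option (ℤ × ℤ)} (hκ : κ ∈ hel1_blocks m K M i j)
    (hκ' : κ' ∈ hel1_blocks m K M i j) (hne : κ ≠ κ') {z : ℤ × ℤ}
    (hz : z ∈ inB (hel1_side l m κ) (hel1_cor l m K M i j κ)) :
    z ∉ clB (hel1_side l m κ') (hel1_cor l m K M i j κ') := by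
  cases κ with
  | none =>
    cases κ' with
    | none => exact absurd rfl hne
    | some k =>
      have hk : k ∈ outer m K M i j := Finset.mem_insertNone.1 hκ' k rfl
      intro hz2
      rw [hel1_mem_clB] at hz2
      rw [hel1_mem_inB] at hz
      simp only [hel1_cor, cnr, cor, hel1_side] at hz hz2
      rcases hel1_outer_out hk with h | h
      · exact (hel1_core_aux (l := l) h).1 ⟨hz.1, hz2.1⟩
      · exact (hel1_core_aux (l := l) h).1 ⟨hz.2, hz2.2⟩
  | some k =>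
    have hk : k ∈ outer m K M i j := Finset.mem_insertNone.1 hκ k rfl
    cases κ' with
    | none =>
      intro hz2
      rw [hel1_mem_clB] at hz2
      rw [hel1_mem_inB] at hz
      simp only [hel1_side, hel1_cor, cnr, cor] at hz hz2
      rcases hel1_outer_out hk with h | h
      · exact (hel1_core_aux (l := l) h).2 ⟨hz2.1, hz.1⟩
      · exact (hel1_core_aux (l := l) h).2 ⟨hz2.2, hz.2⟩
    | some k' =>
      exact hel1_cells_disj (fun h => hne (by rw [h])) hz

theorem hel1_sub {l m K M i j : ℕ} (hi : i < M) (hj : j < M) {κ : Option (ℤ × ℤ)}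
    (hκ : κ ∈ hel1_blocks m K M i j) :
    inB (hel1_side l m κ) (hel1_cor l m K M i j κ) ⊆ inB (l * m * NN K M) 0 := by
  intro z hz
  rw [hel1_mem_inB] at hz ⊢
  have aux : ∀ (a x : ℤ) (n : ℕ), 0 ≤ a → a + n ≤ (m * NN K M : ℕ) →
      (l : ℤ) * a + 1 ≤ x → x ≤ (l : ℤ) * a + (l * n : ℕ) - 1 →
      (0 : ℤ) + 1 ≤ x ∧ x ≤ 0 + (l * m * NN K M : ℕ) - 1 := by
    intro a x n h0 h1 h2 h3
    have h4 := hel1_mul_le (l := l) h0
    have h5 := hel1_mul_le (l := l) h1
    push_cast at h3 h5 ⊢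
    constructor
    · linarith only [h2, h4]
    · have : (l : ℤ) * (m * NN K M) = l * m * NN K M := by ring
      linarith only [h3, h5]
  cases κ with
  | none =>
    simp only [hel1_side, hel1_cor, cnr, cor] at hz
    obtain ⟨h1, h2⟩ := hel1_ccell (m := m) (K := K) hi hj
    exact ⟨aux _ _ m h1.1 h1.2 hz.1.1 hz.1.2, aux _ _ m h2.1 h2.2 hz.2.1 hz.2.2⟩
  | some k =>
    have hk : k ∈ outer m K M i j := Finset.mem_insertNone.1 hκ k rfl
    have hc := (Finset.mem_sdiff.1 hk).1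
    rw [hel1_cells] at hc
    simp only [hel1_side, hel1_cor, cor] at hz
    exact ⟨aux _ _ 1 hc.1.1 (by omega) hz.1.1 (by rw [mul_one]; exact hz.1.2),
      aux _ _ 1 hc.2.1 (by omega) hz.2.1 (by rw [mul_one]; exact hz.2.2)⟩

/-- splitting of the energy of the big block -/
theorem hel1_split (b : ℝ) {l m K M i j : ℕ} (hl : 1 ≤ l) (hi : i < M) (hj : j < M) (θ : Ginf) :
    EB b (l * m * NN K M) 0 θ = ∑ κ ∈ hel1_blocks m K M i j,
      EB b (hel1_side l m κ) (hel1_cor l m K M i j κ) θ := by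
  classical
  have h1 : EB b (l * m * NN K M) 0 θ = ∑ k ∈ cells (m * NN K M), EB b l (cor l k) θ := by
    rw [mul_assoc, EB_split b hl (m * NN K M) 0 θ]
    exact Finset.sum_congr rfl fun k _ => by rw [zero_add]
  have hsub : core m K M i j ⊆ cells (m * NN K M) := by
    intro k hk
    rw [hel1_core] at hk
    rw [hel1_cells]
    obtain ⟨h1, h2⟩ := hel1_ccell (m := m) (K := K) hi hj
    exact ⟨⟨by omega, by (clear * - hk h1; omega)⟩, by omega, by omega⟩
  have h2 : ∑ k ∈ core m K M i j, EB b l (cor l k) θ = EB b (l * m) (cnr l m K M i j) θ := by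
    rw [EB_split b hl m (cnr l m K M i j) θ]
    symm
    refine Finset.sum_bij (fun k _ => ccell m K M i j + k) ?_ ?_ ?_ ?_
    · intro k hk
      rw [hel1_cells] at hk
      rw [hel1_core, Prod.fst_add, Prod.snd_add]
      exact ⟨⟨by omega, by omega⟩, by omega, by omega⟩
    · intro k _ k' _ h
      exact add_left_cancel h
    · intro k hk
      rw [hel1_core] at hk
      refine ⟨k - ccell m K M i j, ?_, by abel⟩
      rw [hel1_cells, Prod.fst_sub, Prod.snd_sub]
      exact ⟨⟨by omega, by omega⟩, by omega, by omega⟩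
    · intro k _
      congr 1
      unfold cnr cor
      ext
      · simp only [Prod.fst_add]
        ring
      · simp only [Prod.snd_add]
        ring
  rw [h1, hel1_blocks, Finset.sum_insertNone]
  simp only [hel1_side, hel1_cor]
  rw [← h2, outer, add_comm, Finset.sum_sdiff hsub]

/-! ### the density -/

theorem Dn_pos (b : ℝ) (l m K M i j : ℕ) (θ : Ginf) : 0 < Dn b l m K M i j θ := by
  unfold Dn
  refine mul_pos (Finset.prod_pos fun k _ => ?_) ?_
  · exact div_pos (WB_pos _ _ _ _) (WB_pos _ _ _ _)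
  · exact div_pos (WB_pos _ _ _ _) (WB_pos _ _ _ _)

theorem Dn_cont (b : ℝ) (l m K M i j : ℕ) : Continuous (Dn b l m K M i j) := by
  unfold Dn
  refine Continuous.mul (continuous_finsetProd _ fun k _ => ?_) ?_
  · exact ((WB_cont _ _ _).comp (continuous_id.sub continuous_const)).div (WB_cont _ _ _)
      fun θ => (WB_pos _ _ _ _).ne'
  · exact ((WB_cont _ _ _).comp (continuous_id.sub continuous_const)).div (WB_cont _ _ _)
      fun θ => (WB_pos _ _ _ _).ne'

theorem hel1_Dn (b : ℝ) (l m K M i j : ℕ) (θ : Ginf) :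
    Dn b l m K M i j θ * ∏ κ ∈ hel1_blocks m K M i j,
      WB b (hel1_side l m κ) (hel1_cor l m K M i j κ) θ =
    ∏ κ ∈ hel1_blocks m K M i j,
      WB b (hel1_side l m κ) (hel1_cor l m K M i j κ) (θ - alp l m K M i j) := by
  unfold Dn hel1_blocks
  rw [Finset.prod_insertNone, Finset.prod_insertNone, Finset.prod_div_distrib]
  simp only [hel1_side, hel1_cor]
  have h1 : ∏ k ∈ outer m K M i j, WB b l (cor l k) θ ≠ 0 :=
    Finset.prod_ne_zero_iff.2 fun k _ => (WB_pos _ _ _ _).ne'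
  have h2 : WB b (l * m) (cnr l m K M i j) θ ≠ 0 := (WB_pos _ _ _ _).ne'
  (clear * - h1 h2; field_simp)

/-- a shift of the interior of one block does not change another block -/
theorem hel1_PB_cl {l m K M i j : ℕ} {κ κ' : Option (ℤ × ℤ)} (hκ : κ ∈ hel1_blocks m K M i j)
    (hκ' : κ' ∈ hel1_blocks m K M i j) (hne : κ ≠ κ') (x y : Ginf) {z : ℤ × ℤ}
    (hz : z ∈ clB (hel1_side l m κ') (hel1_cor l m K M i j κ')) :
    (x + PB (hel1_side l m κ) (hel1_cor l m K M i j κ) y) z = x z := by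
  have h1 : z ∉ inB (hel1_side l m κ) (hel1_cor l m K M i j κ) := fun h =>
    hel1_disj hκ hκ' hne h hz
  show x z + PB (hel1_side l m κ) (hel1_cor l m K M i j κ) y z = x z
  rw [PB, proj_of_notMem h1, add_zero]

theorem hel1_EB_inv {b : ℝ} {l m K M i j : ℕ} {κ κ' : Option (ℤ × ℤ)}
    (hκ : κ ∈ hel1_blocks m K M i j) (hκ' : κ' ∈ hel1_blocks m K M i j) (hne : κ ≠ κ')
    (x y α : Ginf) :
    EB b (hel1_side l m κ') (hel1_cor l m K M i j κ')
      (x + PB (hel1_side l m κ) (hel1_cor l m K M i j κ) y - α) =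
    EB b (hel1_side l m κ') (hel1_cor l m K M i j κ') (x - α) := by
  refine EB_congr fun z hz => ?_
  have := hel1_PB_cl hκ hκ' hne x y hz
  show (x + PB (hel1_side l m κ) (hel1_cor l m K M i j κ) y) z - α z = x z - α z
  rw [this]

theorem hel1_WB_inv {b : ℝ} {l m K M i j : ℕ} {κ κ' : Option (ℤ × ℤ)}
    (hκ : κ ∈ hel1_blocks m K M i j) (hκ' : κ' ∈ hel1_blocks m K M i j)
    (x y α : Ginf) :
    WB b (hel1_side l m κ') (hel1_cor l m K M i j κ')
      (x + PB (hel1_side l m κ) (hel1_cor l m K M i j κ) y - α) =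
    WB b (hel1_side l m κ') (hel1_cor l m K M i j κ') (x - α) := by
  refine WB_congr fun z hz hz2 => ?_
  show (x + PB (hel1_side l m κ) (hel1_cor l m K M i j κ) y) z - α z = x z - α z
  by_cases hne : κ = κ'
  · subst hne
    show x z + PB (hel1_side l m κ) (hel1_cor l m K M i j κ) y z - α z = x z - α z
    rw [PB, proj_of_notMem hz2, add_zero]
  · rw [hel1_PB_cl hκ hκ' hne x y hz]

theorem hel1_Dn_inv {b : ℝ} {l m K M i j : ℕ} {κ : Option (ℤ × ℤ)}
    (hκ : κ ∈ hel1_blocks m K M i j) (x y : Ginf) :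
    Dn b l m K M i j (x + PB (hel1_side l m κ) (hel1_cor l m K M i j κ) y) =
      Dn b l m K M i j x := by
  have h0 : ∀ (κ' : Option (ℤ × ℤ)), κ' ∈ hel1_blocks m K M i j →
      WB b (hel1_side l m κ') (hel1_cor l m K M i j κ')
        (x + PB (hel1_side l m κ) (hel1_cor l m K M i j κ) y) =
      WB b (hel1_side l m κ') (hel1_cor l m K M i j κ') x := by
    intro κ' hκ'
    have := hel1_WB_inv (b := b) (l := l) hκ hκ' x y 0
    simpa only [sub_zero] using this
  have hn : none ∈ hel1_blocks m K M i j := Finset.none_mem_insertNone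
  have hs : ∀ k ∈ outer m K M i j, some k ∈ hel1_blocks m K M i j := fun k hk =>
    Finset.some_mem_insertNone.2 hk
  unfold Dn
  congr 1
  · refine Finset.prod_congr rfl fun k hk => ?_
    have e1 := hel1_WB_inv (b := b) (l := l) hκ (hs k hk) x y (alp l m K M i j)
    have e2 := h0 (some k) (hs k hk)
    simp only [hel1_side, hel1_cor] at e1 e2 ⊢
    rw [e1, e2]
  · have e1 := hel1_WB_inv (b := b) (l := l) hκ hn x y (alp l m K M i j)
    have e2 := h0 none hn
    simp only [hel1_side, hel1_cor] at e1 e2 ⊢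
    rw [e1, e2]

theorem hel1_av (b : ℝ) (s : ℕ) (c : ℤ × ℤ) (α x : Ginf) :
    av muInf (PB s c) (fun z => Real.exp (EB b s c (z - α))) x = WB b s c (x - α) := by
  unfold WB av
  simp only [add_sub_right_comm]

/-- the vortex configuration has the boundary values of the undisplaced vortex -/
theorem hel1_alp {l m K M : ℕ} (i j : ℕ) (hL : 4 ≤ l * m * NN K M) :
    PB (l * m * NN K M) 0 (alp l m K M i j - ang (l * m * NN K M) 0) =
      alp l m K M i j - ang (l * m * NN K M) 0 := by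
  funext z
  by_cases hz : z ∈ inB (l * m * NN K M) 0
  · rw [PB, proj_of_mem hz]
  · rw [PB, proj_of_notMem hz]
    have h1 : z.1 ≤ 0 ∨ ((l * m * NN K M : ℕ) : ℤ) ≤ z.1 ∨ z.2 ≤ 0 ∨
        ((l * m * NN K M : ℕ) : ℤ) ≤ z.2 := by
      by_contra hc
      push Not at hc
      apply hz
      rw [hel1_mem_inB]
      simp only [Prod.fst_zero, Prod.snd_zero]
      exact ⟨⟨by omega, by omega⟩, by omega, by omega⟩
    have h2 : alp l m K M i j z = ang (l * m * NN K M) 0 z := by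
      unfold alp ang
      rw [geo_bdry hL _ h1]
    show 0 = alp l m K M i j z - ang (l * m * NN K M) 0 z
    rw [h2, sub_self]

/-- change of measure -/
theorem change {b : ℝ} {l m K M i j : ℕ} (hl : 1 ≤ l) (hs : 4 ≤ l * m) (_hK : 1 ≤ K)
    (hi : i < M) (hj : j < M) {f : Ginf → ℝ} (hf : Continuous f)
    (hf1 : ∀ k ∈ outer m K M i j, ∀ x y, f (x + PB l (cor l k) y) = f x)
    (hf2 : ∀ x y, f (x + PB (l * m) (cnr l m K M i j) y) = f x) :
    Ev b (l * m * NN K M) (ang (l * m * NN K M) 0) (fun θ => Dn b l m K M i j θ * f θ) =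
      Ev b (l * m * NN K M) 0 (fun x => f (x + alp l m K M i j)) := by
  have hL : 4 ≤ l * m * NN K M := by
    have : 1 ≤ NN K M := by unfold NN; omega
    calc 4 ≤ l * m := hs
      _ = l * m * 1 := by ring
      _ ≤ l * m * NN K M := Nat.mul_le_mul_left _ this
  have hfinv : ∀ κ ∈ hel1_blocks m K M i j, ∀ x y,
      f (x + PB (hel1_side l m κ) (hel1_cor l m K M i j κ) y) = f x := by
    intro κ hκ x y
    cases κ with
    | none => exact hf2 x y
    | some k => exact hf1 k (Finset.mem_insertNone.1 hκ k rfl) x y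
  have hPc : ∀ κ : Option (ℤ × ℤ),
      Continuous (PB (hel1_side l m κ) (hel1_cor l m K M i j κ)) := fun κ => proj_cont _
  have hsplit : ∀ θ α : Ginf, Real.exp (EB b (l * m * NN K M) 0 (θ - α)) =
      ∏ κ ∈ hel1_blocks m K M i j,
        Real.exp (EB b (hel1_side l m κ) (hel1_cor l m K M i j κ) (θ - α)) := by
    intro θ α
    rw [hel1_split b hl hi hj, Real.exp_sum]
  have hEc : ∀ (s : ℕ) (c : ℤ × ℤ) (α : Ginf),
      Continuous fun z : Ginf => Real.exp (EB b s c (z - α)) := fun s c α =>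
    Real.continuous_exp.comp ((EB_cont b s c).comp (continuous_id.sub continuous_const))
  have hprod : ∀ (g : Ginf → ℝ) (α : Ginf), Continuous g →
      (∀ κ ∈ hel1_blocks m K M i j, ∀ x y,
        g (x + PB (hel1_side l m κ) (hel1_cor l m K M i j κ) y) = g x) →
      ∫ x, g x * Real.exp (EB b (l * m * NN K M) 0 (x - α))
          ∂(nu (l * m * NN K M) (ang (l * m * NN K M) 0)) =
        ∫ x, g x * ∏ κ ∈ hel1_blocks m K M i j,
          WB b (hel1_side l m κ) (hel1_cor l m K M i j κ) (x - α)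
          ∂(nu (l * m * NN K M) (ang (l * m * NN K M) 0)) := by
    intro g α hg hginv
    have h := int_prod muInf (ν := nu (l * m * NN K M) (ang (l * m * NN K M) 0))
      (fun κ => (PB (hel1_side l m κ) (hel1_cor l m K M i j κ) : Ginf → Ginf)) hPc
      (fun κ z => Real.exp (EB b (hel1_side l m κ) (hel1_cor l m K M i j κ) (z - α)))
      (fun κ => hEc _ _ α) (hel1_blocks m K M i j)
      (fun κ hκ => nu_inv (hel1_sub hi hj hκ) _)
      (fun κ hκ κ' hκ' hne x y => by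
        show Real.exp _ = Real.exp _
        rw [hel1_EB_inv hκ hκ' hne x y α]) g hg hginv
    simp only [hel1_av] at h
    rw [← h]
    simp only [hsplit]
  unfold Ev
  congr 1
  calc ∫ x, Dn b l m K M i j x * f x * Real.exp (EB b (l * m * NN K M) 0 x)
        ∂(nu (l * m * NN K M) (ang (l * m * NN K M) 0))
      = ∫ x, (Dn b l m K M i j x * f x) * Real.exp (EB b (l * m * NN K M) 0 (x - 0))
        ∂(nu (l * m * NN K M) (ang (l * m * NN K M) 0)) := by simp only [sub_zero]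
    _ = ∫ x, (Dn b l m K M i j x * f x) * ∏ κ ∈ hel1_blocks m K M i j,
          WB b (hel1_side l m κ) (hel1_cor l m K M i j κ) (x - 0)
        ∂(nu (l * m * NN K M) (ang (l * m * NN K M) 0)) :=
        hprod _ 0 ((Dn_cont b l m K M i j).mul hf) fun κ hκ x y => by
          show Dn b l m K M i j _ * f _ = Dn b l m K M i j x * f x
          rw [hel1_Dn_inv hκ, hfinv κ hκ]
    _ = ∫ x, f x * ∏ κ ∈ hel1_blocks m K M i j,
          WB b (hel1_side l m κ) (hel1_cor l m K M i j κ) (x - alp l m K M i j)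
        ∂(nu (l * m * NN K M) (ang (l * m * NN K M) 0)) := by
        refine integral_congr_ae (Filter.Eventually.of_forall fun x => ?_)
        have h := hel1_Dn b l m K M i j x
        simp only [sub_zero]
        rw [← h]
        ring
    _ = ∫ x, f x * Real.exp (EB b (l * m * NN K M) 0 (x - alp l m K M i j))
        ∂(nu (l * m * NN K M) (ang (l * m * NN K M) 0)) := (hprod f _ hf hfinv).symm
    _ = ∫ x, f (ang (l * m * NN K M) 0 + PB (l * m * NN K M) 0 x) *
          Real.exp (EB b (l * m * NN K M) 0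
            (ang (l * m * NN K M) 0 + PB (l * m * NN K M) 0 x - alp l m K M i j)) ∂muInf :=
        int_nu _ _ (hf.mul (hEc _ _ _))
    _ = ∫ x, f (ang (l * m * NN K M) 0 + PB (l * m * NN K M) 0
            (x + (alp l m K M i j - ang (l * m * NN K M) 0))) *
          Real.exp (EB b (l * m * NN K M) 0
            (ang (l * m * NN K M) 0 + PB (l * m * NN K M) 0
            (x + (alp l m K M i j - ang (l * m * NN K M) 0)) - alp l m K M i j)) ∂muInf :=
        (integral_add_right_eq_self (μ := muInf) (fun x => f (ang (l * m * NN K M) 0 +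
          PB (l * m * NN K M) 0 x) * Real.exp (EB b (l * m * NN K M) 0
            (ang (l * m * NN K M) 0 + PB (l * m * NN K M) 0 x - alp l m K M i j)))
          (alp l m K M i j - ang (l * m * NN K M) 0)).symm
    _ = ∫ x, f ((0 + PB (l * m * NN K M) 0 x) + alp l m K M i j) *
          Real.exp (EB b (l * m * NN K M) 0 (0 + PB (l * m * NN K M) 0 x)) ∂muInf := by
        refine integral_congr_ae (Filter.Eventually.of_forall fun x => ?_)
        have e1 : ang (l * m * NN K M) 0 + PB (l * m * NN K M) 0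
            (x + (alp l m K M i j - ang (l * m * NN K M) 0)) =
            PB (l * m * NN K M) 0 x + alp l m K M i j := by
          rw [map_add, hel1_alp i j hL]
          abel
        simp only [e1, add_sub_cancel_right, zero_add]
    _ = ∫ x, f (x + alp l m K M i j) * Real.exp (EB b (l * m * NN K M) 0 x)
        ∂(nu (l * m * NN K M) 0) :=
        (int_nu _ _ ((hf.comp (continuous_id.add continuous_const)).mul
          (Real.continuous_exp.comp (EB_cont b _ _)))).symm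

end UJ

end Vale.Agent.P159
end

section

/-! Collects the proved parts. -/
end
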