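import Vale.Agent.P159.Bdl.B6
import Vale.Agent.P159.Bdl.B2
import Vale.Agent.P159.Bdl.B5
import Vale.Agent.P159.Bdl.B4

set_option linter.all false

section

/-!
Elementary properties of the Gibbs functionals `Ev`.
-/

open MeasureTheory Filter Topology
open scoped BigOperators

namespace Vale.Agent.P159

namespace UJ

theorem cont_expE (b : ℝ) (L : ℕ) : Continuous (fun x : Ginf => Real.exp (EB b L 0 x)) :=
  Real.continuous_exp.comp (EB_cont b L 0)

theorem Ev_mono {b : ℝ} {L : ℕ} {v : Ginf} {F G : Ginf → ℝ} (hF : Continuous F)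
    (hG : Continuous G) (h : ∀ x, F x ≤ G x) : Ev b L v F ≤ Ev b L v G := by
  unfold Ev
  refine div_le_div_of_nonneg_right ?_ (WB_pos b L 0 0).le
  exact integral_mono (cint (hF.mul (cont_expE b L))) (cint (hG.mul (cont_expE b L)))
    fun x => mul_le_mul_of_nonneg_right (h x) (Real.exp_pos _).le

theorem Ev_nonneg {b : ℝ} {L : ℕ} {v : Ginf} {F : Ginf → ℝ} (h : ∀ x, 0 ≤ F x) :
    0 ≤ Ev b L v F :=
  div_nonneg (integral_nonneg fun x => mul_nonneg (h x) (Real.exp_pos _).le)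
    (WB_pos b L 0 0).le

theorem Ev_add {b : ℝ} {L : ℕ} {v : Ginf} {F G : Ginf → ℝ} (hF : Continuous F)
    (hG : Continuous G) : Ev b L v (fun x => F x + G x) = Ev b L v F + Ev b L v G := by
  unfold Ev
  have h := integral_add (μ := nu L v) (f := fun x => F x * Real.exp (EB b L 0 x))
    (g := fun x => G x * Real.exp (EB b L 0 x))
    (cint (hF.mul (cont_expE b L))) (cint (hG.mul (cont_expE b L)))
  rw [← add_div, ← h]
  congr 2
  ext x
  ring

theorem Ev_const_mul (b : ℝ) (L : ℕ) (v : Ginf) (a : ℝ) (F : Ginf → ℝ) :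
    Ev b L v (fun x => a * F x) = a * Ev b L v F := by
  unfold Ev
  rw [← mul_div_assoc, ← integral_const_mul]
  congr 2
  ext x
  ring

theorem Ev_sum {b : ℝ} {L : ℕ} {v : Ginf} {ι : Type*} (S : Finset ι) (F : ι → Ginf → ℝ)
    (hF : ∀ i ∈ S, Continuous (F i)) :
    Ev b L v (fun x => ∑ i ∈ S, F i x) = ∑ i ∈ S, Ev b L v (F i) := by
  classical
  induction S using Finset.induction_on with
  | empty =>
    simp only [Finset.sum_empty]
    have := Ev_const_mul b L v 0 (fun _ => 0)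
    simpa using this
  | insert a S ha ih =>
    rw [Finset.sum_insert ha, ← ih fun i hi => hF i (Finset.mem_insert_of_mem hi)]
    have h1 : (fun x => ∑ i ∈ insert a S, F i x) = fun x => F a x + ∑ i ∈ S, F i x := by
      ext x; rw [Finset.sum_insert ha]
    rw [h1]
    exact Ev_add (hF a (Finset.mem_insert_self _ _))
      (continuous_finsetSum _ fun i hi => hF i (Finset.mem_insert_of_mem hi))

theorem Ev_one (b : ℝ) (L : ℕ) (v : Ginf) :
    Ev b L v (fun _ => 1) = WB b L 0 v / WB b L 0 0 := by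
  unfold Ev
  simp only [one_mul]
  rw [int_nu L v (cont_expE b L)]
  rfl

theorem Ev_zero_const (b : ℝ) (L : ℕ) (a : ℝ) : Ev b L 0 (fun _ => a) = a := by
  have h := Ev_const_mul b L 0 a (fun _ => 1)
  simp only [mul_one] at h
  rw [h, Ev_one, div_self (WB_pos b L 0 0).ne', mul_one]

/-- Cauchy-Schwarz inequality -/
theorem Ev_cs {b : ℝ} {L : ℕ} {v : Ginf} {F G : Ginf → ℝ} (hF : Continuous F)
    (hG : Continuous G) : Ev b L v (fun x => F x * G x) ^ 2 ≤
      Ev b L v (fun x => F x ^ 2) * Ev b L v (fun x => G x ^ 2) := by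
  have key : ∀ r : ℝ, 0 ≤ Ev b L v (fun x => G x ^ 2) * (r * r) +
      (-2 * Ev b L v (fun x => F x * G x)) * r + Ev b L v (fun x => F x ^ 2) := by
    intro r
    have h1 : 0 ≤ Ev b L v (fun x => (r * G x - F x) ^ 2) := Ev_nonneg fun x => sq_nonneg _
    have h2 : (fun x => (r * G x - F x) ^ 2) = fun x => ((r * r) * (G x ^ 2) +
        (-2 * r) * (F x * G x)) + F x ^ 2 := by
      ext x; ring
    have c1 : Continuous (fun x => (r * r) * (G x ^ 2)) := continuous_const.mul (hG.pow 2)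
    have c2 : Continuous (fun x => (-2 * r) * (F x * G x)) := continuous_const.mul (hF.mul hG)
    have c3 : Continuous (fun x => F x ^ 2) := hF.pow 2
    have c4 : Continuous (fun x => (r * r) * (G x ^ 2) + (-2 * r) * (F x * G x)) := c1.add c2
    rw [h2, Ev_add c4 c3, Ev_add c1 c2, Ev_const_mul, Ev_const_mul] at h1
    linarith
  have h := discrim_le_zero (fun r => key r)
  unfold discrim at h
  nlinarith

theorem Ev_cs_sqrt {b : ℝ} {L : ℕ} {v : Ginf} {F G : Ginf → ℝ} (hF : Continuous F)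
    (hG : Continuous G) : Ev b L v (fun x => F x * G x) ≤
      Real.sqrt (Ev b L v (fun x => F x ^ 2)) * Real.sqrt (Ev b L v (fun x => G x ^ 2)) := by
  rw [← Real.sqrt_mul (Ev_nonneg fun x => sq_nonneg _)]
  exact Real.le_sqrt_of_sq_le (Ev_cs hF hG)

end UJ

end Vale.Agent.P159
end

section

/-!
Tail bound for the total current.
-/

open MeasureTheory Filter Topology
open scoped BigOperators

namespace Vale.Agent.P159

namespace UJ

/-- continuous cutoff: `0` for `|u| ≤ d/2`, `1` for `|u| ≥ d` -/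
noncomputable def psi (d u : ℝ) : ℝ := max 0 (min 1 (2 * |u| / d - 1))

theorem psi_cont (d : ℝ) : Continuous (psi d) := by
  unfold psi
  fun_prop

theorem psi_nonneg (d u : ℝ) : 0 ≤ psi d u := le_max_left _ _

theorem psi_le_one (d u : ℝ) : psi d u ≤ 1 := max_le zero_le_one (min_le_left _ _)

theorem psi_one {d u : ℝ} (hd : 0 < d) (hu : d ≤ |u|) : psi d u = 1 := by
  unfold psi
  have h : 1 ≤ 2 * |u| / d - 1 := by
    rw [le_sub_iff_add_le, le_div_iff₀ hd]; linarith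
  rw [min_eq_left h, max_eq_right zero_le_one]

theorem psi_zero {d u : ℝ} (hd : 0 < d) (hu : |u| ≤ d / 2) : psi d u = 0 := by
  unfold psi
  have h : 2 * |u| / d - 1 ≤ 0 := by
    rw [sub_nonpos, div_le_one hd]; linarith
  rw [max_eq_left]
  exact (min_le_right _ _).trans h

theorem psi_bound {d X1 X2 X3 r : ℝ} (hd : 0 < d) (hr : 0 ≤ r) :
    psi d (X1 + X2 + X3) ≤ (36 / d ^ 2) * X1 ^ 2 + (Real.exp (-(r * d / 6)) * Real.exp (r * X2) +
      Real.exp (-(r * d / 6)) * Real.exp (-r * X2)) + (6 / d) * |X3| := by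
  have p1 : 0 ≤ (36 / d ^ 2) * X1 ^ 2 := by positivity
  have p2 : 0 ≤ Real.exp (-(r * d / 6)) * Real.exp (r * X2) := by positivity
  have p3 : 0 ≤ Real.exp (-(r * d / 6)) * Real.exp (-r * X2) := by positivity
  have p4 : 0 ≤ (6 / d) * |X3| := by positivity
  by_cases h1 : d / 6 ≤ |X1|
  · have : 1 ≤ (36 / d ^ 2) * X1 ^ 2 := by
      rw [← sq_abs X1, div_mul_eq_mul_div, le_div_iff₀ (by positivity)]
      nlinarith only [hd, h1]
    linarith only [p2, p3, p4, this, psi_le_one d (X1 + X2 + X3)]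
  by_cases h3 : d / 6 ≤ |X3|
  · have : 1 ≤ (6 / d) * |X3| := by
      rw [div_mul_eq_mul_div, le_div_iff₀ hd]
      linarith only [h3]
    linarith only [p1, p2, p3, this, psi_le_one d (X1 + X2 + X3)]
  by_cases h2 : d / 6 ≤ |X2|
  · rcases le_total 0 X2 with h | h
    · rw [abs_of_nonneg h] at h2
      have : 1 ≤ Real.exp (-(r * d / 6)) * Real.exp (r * X2) := by
        rw [← Real.exp_add]
        apply Real.one_le_exp
        nlinarith only [hr, h2]
      linarith only [p1, p3, p4, this, psi_le_one d (X1 + X2 + X3)]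
    · rw [abs_of_nonpos h] at h2
      have : 1 ≤ Real.exp (-(r * d / 6)) * Real.exp (-r * X2) := by
        rw [← Real.exp_add]
        apply Real.one_le_exp
        nlinarith only [hr, h2]
      linarith only [p1, p2, p4, this, psi_le_one d (X1 + X2 + X3)]
  · push Not at h1 h2 h3
    have a1 := abs_add_le (X1 + X2) X3
    have a2 := abs_add_le X1 X2
    rw [psi_zero hd (by linarith only [h1, h2, h3, a1, a2])]
    linarith only [p1, p2, p3, p4]

theorem sum_hh_sq (b : ℝ) (l : ℕ) : ∑ e : BI l, b / 2 * hh e ^ 2 = b * (l : ℝ) ^ 2 := by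
  rw [sum_BI]
  simp [hh]
  ring

theorem sum_vv_sq (b : ℝ) (l : ℕ) : ∑ e : BI l, b / 2 * vv e ^ 2 = b * (l : ℝ) ^ 2 := by
  rw [sum_BI]
  simp [vv]
  ring

/-- the tail bound -/
theorem tail_bound {b : ℝ} (hb : 0 < b) {l : ℕ} (hl : 1 ≤ l) : ∃ C Y0 : ℝ, 0 ≤ C ∧ 0 < Y0 ∧
    ∀ (n : ℕ), 1 ≤ n → ∀ (S : Finset (ℤ × ℤ)), S ⊆ cells n → ∀ (α : Ginf)
      (a : ℤ × ℤ → BI l → ℝ) (Y R : ℝ), 0 ≤ Y → Y ≤ Y0 → 0 ≤ R →
      (∀ k ∈ cells n \ S, ∀ e, ((a k e : ℝ) : T) = α (cor l k + bu e) - α (cor l k + bv e)) →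
      (∀ k ∈ cells n \ S, ∀ e, |a k e| ≤ Y) →
      (∀ k ∈ cells n \ S, ∀ e e', hh e = hh e' → |a k e - a k e'| ≤ R) →
      ∀ (h : BI l → ℝ), (h = hh ∨ h = vv) → ∀ d r : ℝ, 0 < d → 0 ≤ r →
      Ev b (l * n) 0 (fun x => psi d (∑ k ∈ cells n \ S, jc b l (cor l k) h (x + α) -
        stiff l b * ∑ k ∈ cells n \ S, ∑ e, 1 / 2 * h e * a k e)) ≤
      36 / d ^ 2 * (((l * n : ℕ) : ℝ) ^ 2 * (stiff l b - stiff (l * n) b)) +
      2 * (Real.exp (-(r * d / 6)) * Real.exp (r ^ 2 / 2 * (S.card * (b * (l : ℝ) ^ 2)))) +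
      6 / d * (4 * Y * (((l * n : ℕ) : ℝ) ^ 2 * (stiff l b - stiff (l * n) b)) +
        (n : ℝ) ^ 2 * (C * (R + Y ^ 2))) := by
  obtain ⟨C, Y0, hC, hY0, hcell⟩ := cell_current hb hl
  refine ⟨C, Y0, hC, hY0, ?_⟩
  intro n hn S hS α a Y R hY hYY hR ha haY haR h hh' d r hd hr
  obtain ⟨δ, hδ⟩ : ∃ δ, δ = ((l * n : ℕ) : ℝ) ^ 2 * (stiff l b - stiff (l * n) b) := ⟨_, rfl⟩
  rw [← hδ]
  set j : ℤ × ℤ → Ginf → ℝ := fun k => jc b l (cor l k) h with hj
  have cj : ∀ k, Continuous (j k) := fun k => jc_cont b l (cor l k) h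
  set Dh : ℤ × ℤ → Ginf → ℝ := fun k x => (l : ℝ) ^ 2 * stiff l b - qc b l (cor l k) hh x
    with hDh
  set Dv : ℤ × ℤ → Ginf → ℝ := fun k x => (l : ℝ) ^ 2 * stiff l b - qc b l (cor l k) vv x
    with hDv
  have cDh : ∀ k, Continuous (Dh k) := fun k => continuous_const.sub (qc_cont b l _ _)
  have cDv : ∀ k, Continuous (Dv k) := fun k => continuous_const.sub (qc_cont b l _ _)
  have pDh : ∀ k x, 0 ≤ Dh k x := fun k x => by
    have := (qc_le hb.le hl (cor l k) x).1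
    simp only [hDh]; linarith
  have pDv : ∀ k x, 0 ≤ Dv k x := fun k x => by
    have := (qc_le hb.le hl (cor l k) x).2
    simp only [hDv]; linarith
  -- second moment of the total current
  have v1 := var_h hb.le hl hn
  have v2 := var_v hb.le hl hn
  rw [← hδ] at v1 v2
  have n1 : 0 ≤ ∑ k ∈ cells n, Ev b (l * n) 0 (Dh k) :=
    Finset.sum_nonneg fun k _ => Ev_nonneg (pDh k)
  have n2 : 0 ≤ ∑ k ∈ cells n, Ev b (l * n) 0 (Dv k) :=
    Finset.sum_nonneg fun k _ => Ev_nonneg (pDv k)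
  have n3 : 0 ≤ Ev b (l * n) 0 (fun θ => (∑ k ∈ cells n, jc b l (cor l k) hh θ) ^ 2) :=
    Ev_nonneg fun _ => sq_nonneg _
  have n4 : 0 ≤ Ev b (l * n) 0 (fun θ => (∑ k ∈ cells n, jc b l (cor l k) vv θ) ^ 2) :=
    Ev_nonneg fun _ => sq_nonneg _
  have w1 : ∑ k ∈ cells n, Ev b (l * n) 0 (Dh k) ≤ δ := by
    have : ∑ k ∈ cells n, Ev b (l * n) 0 (Dh k) = ∑ k ∈ cells n, Ev b (l * n) 0
      (fun θ => (l : ℝ) ^ 2 * stiff l b - qc b l (cor l k) hh θ) := rfl
    rw [this]; linarith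
  have w2 : ∑ k ∈ cells n, Ev b (l * n) 0 (Dv k) ≤ δ := by
    have : ∑ k ∈ cells n, Ev b (l * n) 0 (Dv k) = ∑ k ∈ cells n, Ev b (l * n) 0
      (fun θ => (l : ℝ) ^ 2 * stiff l b - qc b l (cor l k) vv θ) := rfl
    rw [this]; linarith
  have w3 : Ev b (l * n) 0 (fun x => (∑ k ∈ cells n, j k x) ^ 2) ≤ δ := by
    rcases hh' with rfl | rfl
    · have : Ev b (l * n) 0 (fun x => (∑ k ∈ cells n, j k x) ^ 2) =
        Ev b (l * n) 0 (fun θ => (∑ k ∈ cells n, jc b l (cor l k) hh θ) ^ 2) := rfl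
      rw [this]
      have e1 : ∑ k ∈ cells n, Ev b (l * n) 0 (Dh k) = ∑ k ∈ cells n, Ev b (l * n) 0
        (fun θ => (l : ℝ) ^ 2 * stiff l b - qc b l (cor l k) hh θ) := rfl
      rw [e1] at n1
      linarith
    · have : Ev b (l * n) 0 (fun x => (∑ k ∈ cells n, j k x) ^ 2) =
        Ev b (l * n) 0 (fun θ => (∑ k ∈ cells n, jc b l (cor l k) vv θ) ^ 2) := rfl
      rw [this]
      have e1 : ∑ k ∈ cells n, Ev b (l * n) 0 (Dv k) = ∑ k ∈ cells n, Ev b (l * n) 0
        (fun θ => (l : ℝ) ^ 2 * stiff l b - qc b l (cor l k) vv θ) := rfl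
      rw [e1] at n2
      linarith
  -- cell expansion
  have hX : ∀ k ∈ cells n \ S, ∀ x, |j k (x + α) - j k x -
      stiff l b * ∑ e, 1 / 2 * h e * a k e| ≤ 2 * Y * (Dh k x + Dv k x) + C * (R + Y ^ 2) := by
    intro k hk x
    have := hcell (cor l k) x α (a k) Y R hY hYY hR (ha k hk) (haY k hk) (haR k hk)
    rcases hh' with rfl | rfl
    · exact this.1
    · exact this.2
  -- the third term
  set E3 : Ginf → ℝ := fun x => ∑ k ∈ cells n, (2 * Y * (Dh k x + Dv k x) + C * (R + Y ^ 2))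
    with hE3
  have cE3 : Continuous E3 := continuous_finsetSum _ fun k _ =>
    (continuous_const.mul ((cDh k).add (cDv k))).add continuous_const
  have hsplit : ∀ x, ∑ k ∈ cells n \ S, j k (x + α) -
      stiff l b * ∑ k ∈ cells n \ S, ∑ e, 1 / 2 * h e * a k e =
      ∑ k ∈ cells n, j k x + (-∑ k ∈ S, j k x) +
        ∑ k ∈ cells n \ S, (j k (x + α) - j k x - stiff l b * ∑ e, 1 / 2 * h e * a k e) := by
    intro x
    rw [Finset.sum_sub_distrib, Finset.sum_sub_distrib, ← Finset.mul_sum]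
    have := Finset.sum_sdiff (f := fun k => j k x) hS
    linarith only [this]
  have h3 : ∀ x, |∑ k ∈ cells n \ S, (j k (x + α) - j k x -
      stiff l b * ∑ e, 1 / 2 * h e * a k e)| ≤ E3 x := by
    intro x
    refine (Finset.abs_sum_le_sum_abs _ _).trans ?_
    refine (Finset.sum_le_sum fun k hk => hX k hk x).trans ?_
    simp only [hE3]
    refine Finset.sum_le_sum_of_subset_of_nonneg Finset.sdiff_subset fun k _ _ => ?_
    have := pDh k x
    have := pDv k x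
    positivity
  have hpt : ∀ x, psi d (∑ k ∈ cells n \ S, jc b l (cor l k) h (x + α) -
        stiff l b * ∑ k ∈ cells n \ S, ∑ e, 1 / 2 * h e * a k e) ≤
      (36 / d ^ 2) * (∑ k ∈ cells n, j k x) ^ 2 +
      (Real.exp (-(r * d / 6)) * Real.exp (-r * ∑ k ∈ S, j k x) +
      Real.exp (-(r * d / 6)) * Real.exp (r * ∑ k ∈ S, j k x)) + (6 / d) * E3 x := by
    intro x
    have := psi_bound (d := d) (X1 := ∑ k ∈ cells n, j k x) (X2 := -∑ k ∈ S, j k x)
      (X3 := ∑ k ∈ cells n \ S, (j k (x + α) - j k x - stiff l b * ∑ e, 1 / 2 * h e * a k e))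
      (r := r) hd hr
    rw [← hsplit] at this
    refine this.trans ?_
    have e1 : r * -∑ k ∈ S, j k x = -r * ∑ k ∈ S, j k x := by ring
    have e2 : -r * -∑ k ∈ S, j k x = r * ∑ k ∈ S, j k x := by ring
    rw [e1, e2]
    have h6 : 0 ≤ 6 / d := by positivity
    have := mul_le_mul_of_nonneg_left (h3 x) h6
    linarith only [this]
  have cA : Continuous (fun x : Ginf => (36 / d ^ 2) * (∑ k ∈ cells n, j k x) ^ 2) :=
    continuous_const.mul ((continuous_finsetSum _ fun k _ => cj k).pow 2)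
  have cS : Continuous (fun x : Ginf => ∑ k ∈ S, j k x) := continuous_finsetSum _ fun k _ => cj k
  have cB1 : Continuous (fun x : Ginf => Real.exp (-(r * d / 6)) *
      Real.exp (-r * ∑ k ∈ S, j k x)) :=
    continuous_const.mul (Real.continuous_exp.comp (continuous_const.mul cS))
  have cB2 : Continuous (fun x : Ginf => Real.exp (-(r * d / 6)) *
      Real.exp (r * ∑ k ∈ S, j k x)) :=
    continuous_const.mul (Real.continuous_exp.comp (continuous_const.mul cS))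
  have cB : Continuous (fun x : Ginf => Real.exp (-(r * d / 6)) *
      Real.exp (-r * ∑ k ∈ S, j k x) + Real.exp (-(r * d / 6)) *
      Real.exp (r * ∑ k ∈ S, j k x)) := cB1.add cB2
  have cC : Continuous (fun x : Ginf => (6 / d) * E3 x) := continuous_const.mul cE3
  have cAB : Continuous (fun x : Ginf => (36 / d ^ 2) * (∑ k ∈ cells n, j k x) ^ 2 +
      (Real.exp (-(r * d / 6)) * Real.exp (-r * ∑ k ∈ S, j k x) +
      Real.exp (-(r * d / 6)) * Real.exp (r * ∑ k ∈ S, j k x))) := cA.add cB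
  have cL : Continuous (fun x : Ginf => psi d (∑ k ∈ cells n \ S, jc b l (cor l k) h (x + α) -
        stiff l b * ∑ k ∈ cells n \ S, ∑ e, 1 / 2 * h e * a k e)) := by
    refine (psi_cont d).comp (Continuous.sub ?_ continuous_const)
    exact continuous_finsetSum _ fun k _ =>
      (jc_cont b l (cor l k) h).comp (continuous_id.add continuous_const)
  have cABC : Continuous (fun x : Ginf => (36 / d ^ 2) * (∑ k ∈ cells n, j k x) ^ 2 +
      (Real.exp (-(r * d / 6)) * Real.exp (-r * ∑ k ∈ S, j k x) +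
      Real.exp (-(r * d / 6)) * Real.exp (r * ∑ k ∈ S, j k x)) + (6 / d) * E3 x) := cAB.add cC
  refine (Ev_mono cL cABC hpt).trans ?_
  rw [Ev_add cAB cC, Ev_add cA cB, Ev_add cB1 cB2, Ev_const_mul, Ev_const_mul, Ev_const_mul,
    Ev_const_mul]
  -- exponential moments
  have hsum : ∑ _k ∈ S, ∑ e : BI l, b / 2 * h e ^ 2 = S.card * (b * (l : ℝ) ^ 2) := by
    have : ∑ e : BI l, b / 2 * h e ^ 2 = b * (l : ℝ) ^ 2 := by
      rcases hh' with rfl | rfl
      · exact sum_hh_sq b l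
      · exact sum_vv_sq b l
    rw [this, Finset.sum_const, nsmul_eq_mul]
  have x1 := exp_bound hb.le hl S hS h (-r)
  have x2 := exp_bound hb.le hl S hS h r
  rw [hsum] at x1 x2
  have e0 : (-r) ^ 2 = r ^ 2 := by ring
  rw [e0] at x1
  have hE3b : Ev b (l * n) 0 E3 ≤ 4 * Y * δ + (n : ℝ) ^ 2 * (C * (R + Y ^ 2)) := by
    have f1 : Ev b (l * n) 0 E3 = ∑ k ∈ cells n, Ev b (l * n) 0 (fun x =>
        2 * Y * (Dh k x + Dv k x) + C * (R + Y ^ 2)) :=
      Ev_sum _ _ fun k _ => (continuous_const.mul ((cDh k).add (cDv k))).add continuous_const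
    have f2 : ∀ k, Ev b (l * n) 0 (fun x => 2 * Y * (Dh k x + Dv k x) + C * (R + Y ^ 2)) =
        2 * Y * (Ev b (l * n) 0 (Dh k) + Ev b (l * n) 0 (Dv k)) + C * (R + Y ^ 2) := by
      intro k
      have c1 : Continuous (fun x => Dh k x + Dv k x) := (cDh k).add (cDv k)
      have c2 : Continuous (fun x => 2 * Y * (Dh k x + Dv k x)) := continuous_const.mul c1
      rw [Ev_add c2 continuous_const, Ev_const_mul, Ev_add (cDh k) (cDv k), Ev_zero_const]
    rw [f1]
    simp_rw [f2]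
    rw [Finset.sum_add_distrib, ← Finset.mul_sum, Finset.sum_add_distrib, Finset.sum_const,
      nsmul_eq_mul]
    have hcard : ((cells n).card : ℝ) = (n : ℝ) ^ 2 := by
      unfold cells
      rw [Finset.card_product, Int.card_Ico]
      simp
      ring
    rw [hcard]
    have := mul_le_mul_of_nonneg_left (add_le_add w1 w2) (by positivity : 0 ≤ 2 * Y)
    linarith only [this]
  have g1 := mul_le_mul_of_nonneg_left w3 (by positivity : 0 ≤ 36 / d ^ 2)
  have g2 := mul_le_mul_of_nonneg_left x1 (Real.exp_pos (-(r * d / 6))).le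
  have g3 := mul_le_mul_of_nonneg_left x2 (Real.exp_pos (-(r * d / 6))).le
  have g4 := mul_le_mul_of_nonneg_left hE3b (by positivity : 0 ≤ 6 / d)
  linarith

end UJ

end Vale.Agent.P159
end

section

/-!
Affinities of different vortices.
-/

open MeasureTheory Filter Topology
open scoped BigOperators

namespace Vale.Agent.P159

namespace UJ

theorem mem_inB {s : ℕ} {c z : ℤ × ℤ} : z ∈ inB s c ↔
    (c.1 + 1 ≤ z.1 ∧ z.1 ≤ c.1 + s - 1) ∧ (c.2 + 1 ≤ z.2 ∧ z.2 ≤ c.2 + s - 1) := by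
  simp only [inB, inner, Set.mem_ofPred_eq, Finset.coe_Icc, Set.mem_Icc, Prod.le_def,
    Prod.fst_sub, Prod.snd_sub]
  constructor
  · rintro ⟨⟨h1, h2⟩, h3, h4⟩
    refine ⟨⟨?_, ?_⟩, ?_, ?_⟩ <;> linarith
  · rintro ⟨⟨h1, h2⟩, h3, h4⟩
    refine ⟨⟨?_, ?_⟩, ?_, ?_⟩ <;> linarith

theorem mem_clB {s : ℕ} {c z : ℤ × ℤ} : z ∈ clB s c ↔
    (c.1 ≤ z.1 ∧ z.1 ≤ c.1 + s) ∧ (c.2 ≤ z.2 ∧ z.2 ≤ c.2 + s) := by
  simp only [clB, Set.mem_ofPred_eq, Prod.fst_sub, Prod.snd_sub]
  constructor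
  · rintro ⟨h1, h2, h3, h4⟩
    refine ⟨⟨?_, ?_⟩, ?_, ?_⟩ <;> linarith
  · rintro ⟨⟨h1, h2⟩, h3, h4⟩
    refine ⟨?_, ?_, ?_, ?_⟩ <;> linarith

theorem lt_of_mul_lt_aux {l a b : ℤ} (hl : 0 < l) (h : l * a < l * b) : a < b :=
  lt_of_mul_lt_mul_left h hl.le

theorem disj_cells {l : ℕ} {k k' : ℤ × ℤ} (hk : k ≠ k') {z : ℤ × ℤ}
    (hz : z ∈ clB l (cor l k)) : z ∉ inB l (cor l k') := by
  intro hz'
  rw [mem_clB] at hz
  rw [mem_inB] at hz'
  simp only [cor] at hz hz'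
  have hl0 : (0 : ℤ) < l := by linarith [hz'.1.1, hz'.1.2, hz.1.1]
  apply hk
  ext
  · have h1 : k.1 < k'.1 + 1 := lt_of_mul_lt_aux hl0 (by linarith [hz.1.1, hz'.1.2])
    have h2 : k'.1 < k.1 + 1 := lt_of_mul_lt_aux hl0 (by linarith [hz.1.2, hz'.1.1])
    omega
  · have h1 : k.2 < k'.2 + 1 := lt_of_mul_lt_aux hl0 (by linarith [hz.2.1, hz'.2.2])
    have h2 : k'.2 < k.2 + 1 := lt_of_mul_lt_aux hl0 (by linarith [hz.2.2, hz'.2.1])
    omega

theorem mem_core {m K M i j : ℕ} {k : ℤ × ℤ} : k ∈ core m K M i j ↔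
    ((ccell m K M i j).1 ≤ k.1 ∧ k.1 < (ccell m K M i j).1 + m) ∧
      ((ccell m K M i j).2 ≤ k.2 ∧ k.2 < (ccell m K M i j).2 + m) := by
  simp [core]

theorem disj_core {l m K M i j : ℕ} {k : ℤ × ℤ} (hl : 1 ≤ l) (hk : k ∉ core m K M i j)
    {z : ℤ × ℤ} (hz : z ∈ clB l (cor l k)) : z ∉ inB (l * m) (cnr l m K M i j) := by
  intro hz'
  rw [mem_clB] at hz
  rw [mem_inB] at hz'
  simp only [cor, cnr] at hz hz'
  push_cast at hz'
  have hl0 : (0 : ℤ) < l := by exact_mod_cast hl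
  apply hk
  rw [mem_core]
  obtain ⟨⟨a1, a2⟩, a3, a4⟩ := hz
  obtain ⟨⟨b1, b2⟩, b3, b4⟩ := hz'
  have h1 : k.1 < (ccell m K M i j).1 + m := lt_of_mul_lt_aux hl0 (by linarith)
  have h2 : (ccell m K M i j).1 < k.1 + 1 := lt_of_mul_lt_aux hl0 (by linarith)
  have h3 : k.2 < (ccell m K M i j).2 + m := lt_of_mul_lt_aux hl0 (by linarith)
  have h4 : (ccell m K M i j).2 < k.2 + 1 := lt_of_mul_lt_aux hl0 (by linarith)
  refine ⟨⟨?_, h1⟩, ?_, h3⟩ <;> omega

/-- the sum of the currents of the cells of `X` -/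
noncomputable def TT (b : ℝ) (l : ℕ) (h : BI l → ℝ) (X : Finset (ℤ × ℤ)) (θ : Ginf) : ℝ :=
  ∑ k ∈ X, jc b l (cor l k) h θ

theorem TT_cont (b : ℝ) (l : ℕ) (h : BI l → ℝ) (X : Finset (ℤ × ℤ)) : Continuous (TT b l h X) :=
  continuous_finsetSum _ fun k _ => jc_cont b l (cor l k) h

theorem TT_inv1 (b : ℝ) (l : ℕ) (h : BI l → ℝ) (X : Finset (ℤ × ℤ)) (k' : ℤ × ℤ) (x y : Ginf) :
    TT b l h X (x + PB l (cor l k') y) = TT b l h X x := by
  unfold TT
  refine Finset.sum_congr rfl fun k _ => jc_congr fun z hz hz' => ?_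
  show x z + PB l (cor l k') y z = x z
  have hn : z ∉ inB l (cor l k') := by
    by_cases hkk : k = k'
    · rw [← hkk]; exact hz'
    · exact disj_cells hkk hz
  unfold PB
  rw [proj_of_notMem hn, add_zero]

theorem TT_inv2 (b : ℝ) {l m K M i j : ℕ} (hl : 1 ≤ l) (h : BI l → ℝ) {X : Finset (ℤ × ℤ)}
    (hX : ∀ k ∈ X, k ∉ core m K M i j) (x y : Ginf) :
    TT b l h X (x + PB (l * m) (cnr l m K M i j) y) = TT b l h X x := by
  unfold TT
  refine Finset.sum_congr rfl fun k hk => jc_congr fun z hz hz' => ?_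
  show x z + PB (l * m) (cnr l m K M i j) y z = x z
  have hn := disj_core hl (hX k hk) hz
  unfold PB
  rw [proj_of_notMem hn, add_zero]

theorem Ev_Dn_psi {b : ℝ} {l m K M i j : ℕ} (hl : 1 ≤ l) (hs : 4 ≤ l * m) (hK : 1 ≤ K)
    (hi : i < M) (hj : j < M) (h : BI l → ℝ) {X : Finset (ℤ × ℤ)}
    (hX : ∀ k ∈ X, k ∉ core m K M i j) (d mp : ℝ) :
    Ev b (l * m * NN K M) (ang (l * m * NN K M) 0)
      (fun θ => Dn b l m K M i j θ * psi d (TT b l h X θ - mp)) =
    Ev b (l * m * NN K M) 0 (fun x => psi d (TT b l h X (x + alp l m K M i j) - mp)) := by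
  refine change hl hs hK hi hj (f := fun θ => psi d (TT b l h X θ - mp)) ?_ ?_ ?_
  · exact (psi_cont d).comp ((TT_cont b l h X).sub continuous_const)
  · intro k _ x y
    rw [TT_inv1]
  · intro x y
    rw [TT_inv2 b hl h hX]

theorem Ev_Dn_one {b : ℝ} {l m K M i j : ℕ} (hl : 1 ≤ l) (hs : 4 ≤ l * m) (hK : 1 ≤ K)
    (hi : i < M) (hj : j < M) :
    Ev b (l * m * NN K M) (ang (l * m * NN K M) 0) (fun θ => Dn b l m K M i j θ) = 1 := by
  have h := change (b := b) hl hs hK hi hj (f := fun _ => (1 : ℝ)) continuous_const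
    (fun _ _ _ _ => rfl) (fun _ _ => rfl)
  simp only [mul_one] at h
  rw [h, Ev_zero_const]

theorem psi_cover {d u v : ℝ} (hd : 0 < d) (h : 2 * d ≤ |u - v|) (T : ℝ) :
    1 ≤ Real.sqrt (psi d (T - u)) + Real.sqrt (psi d (T - v)) := by
  by_cases h1 : d ≤ |T - u|
  · rw [psi_one hd h1, Real.sqrt_one]
    linarith [Real.sqrt_nonneg (psi d (T - v))]
  · have h2 : d ≤ |T - v| := by
      by_contra h3
      push Not at h1 h3
      have h4 : |u - v| ≤ |T - v| + |T - u| := by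
        have := abs_sub (T - v) (T - u)
        have e1 : T - v - (T - u) = u - v := by ring
        rw [e1] at this
        exact this
      linarith
    rw [psi_one hd h2, Real.sqrt_one]
    linarith [Real.sqrt_nonneg (psi d (T - u))]

/-- bound of the affinity of two vortices -/
theorem affinity {b : ℝ} {l m K M i j i' j' : ℕ} (hl : 1 ≤ l) (hs : 4 ≤ l * m)
    (hK : 1 ≤ K) (hi : i < M) (hj : j < M) (hi' : i' < M) (hj' : j' < M) (h : BI l → ℝ)
    {d mp mq : ℝ} (hd : 0 < d) (hm : 2 * d ≤ |mp - mq|) {X : Finset (ℤ × ℤ)}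
    (hX : ∀ k ∈ X, k ∉ core m K M i j) (hX' : ∀ k ∈ X, k ∉ core m K M i' j') :
    Ev b (l * m * NN K M) (ang (l * m * NN K M) 0)
      (fun θ => Real.sqrt (Dn b l m K M i j θ) * Real.sqrt (Dn b l m K M i' j' θ)) ≤
    Real.sqrt (Ev b (l * m * NN K M) 0
      (fun x => psi d (TT b l h X (x + alp l m K M i j) - mp))) +
    Real.sqrt (Ev b (l * m * NN K M) 0
      (fun x => psi d (TT b l h X (x + alp l m K M i' j') - mq))) := by
  set v := ang (l * m * NN K M) 0 with hv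
  set L := l * m * NN K M with hL
  set D1 := Dn b l m K M i j with hD1
  set D2 := Dn b l m K M i' j' with hD2
  have c1 : Continuous D1 := Dn_cont b l m K M i j
  have c2 : Continuous D2 := Dn_cont b l m K M i' j'
  have p1 : ∀ θ, 0 < D1 θ := Dn_pos b l m K M i j
  have p2 : ∀ θ, 0 < D2 θ := Dn_pos b l m K M i' j'
  set f1 : Ginf → ℝ := fun θ => psi d (TT b l h X θ - mp) with hf1
  set f2 : Ginf → ℝ := fun θ => psi d (TT b l h X θ - mq) with hf2
  have cf1 : Continuous f1 := (psi_cont d).comp ((TT_cont b l h X).sub continuous_const)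
  have cf2 : Continuous f2 := (psi_cont d).comp ((TT_cont b l h X).sub continuous_const)
  have s1 : Continuous (fun θ => Real.sqrt (D1 θ)) := Real.continuous_sqrt.comp c1
  have s2 : Continuous (fun θ => Real.sqrt (D2 θ)) := Real.continuous_sqrt.comp c2
  have g1 : Continuous (fun θ => Real.sqrt (D1 θ) * Real.sqrt (f1 θ)) :=
    s1.mul (Real.continuous_sqrt.comp cf1)
  have g2 : Continuous (fun θ => Real.sqrt (D2 θ) * Real.sqrt (f2 θ)) :=
    s2.mul (Real.continuous_sqrt.comp cf2)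
  have k1 : Continuous (fun θ => (Real.sqrt (D1 θ) * Real.sqrt (f1 θ)) * Real.sqrt (D2 θ)) :=
    g1.mul s2
  have k2 : Continuous (fun θ => (Real.sqrt (D2 θ) * Real.sqrt (f2 θ)) * Real.sqrt (D1 θ)) :=
    g2.mul s1
  have hstep : Ev b L v (fun θ => Real.sqrt (D1 θ) * Real.sqrt (D2 θ)) ≤
      Ev b L v (fun θ => (Real.sqrt (D1 θ) * Real.sqrt (f1 θ)) * Real.sqrt (D2 θ) +
        (Real.sqrt (D2 θ) * Real.sqrt (f2 θ)) * Real.sqrt (D1 θ)) := by
    refine Ev_mono (s1.mul s2) (k1.add k2) fun θ => ?_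
    have hc := psi_cover hd hm (TT b l h X θ)
    have h0 : 0 ≤ Real.sqrt (D1 θ) * Real.sqrt (D2 θ) := by positivity
    have := mul_le_mul_of_nonneg_left hc h0
    simp only [hf1, hf2] at this ⊢
    linarith only [this]
  refine hstep.trans ?_
  rw [Ev_add k1 k2]
  refine add_le_add ?_ ?_
  · refine (Ev_cs_sqrt g1 s2).trans ?_
    have e1 : (fun θ => (Real.sqrt (D1 θ) * Real.sqrt (f1 θ)) ^ 2) = fun θ => D1 θ * f1 θ := by
      ext θ
      rw [mul_pow, Real.sq_sqrt (p1 θ).le, Real.sq_sqrt (psi_nonneg _ _)]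
    have e2 : (fun θ => Real.sqrt (D2 θ) ^ 2) = fun θ => D2 θ := by
      ext θ
      rw [Real.sq_sqrt (p2 θ).le]
    rw [e1, e2, hD2, hL, hv, Ev_Dn_one hl hs hK hi' hj', Real.sqrt_one, mul_one]
    rw [hf1, hD1, Ev_Dn_psi hl hs hK hi hj h hX]
  · refine (Ev_cs_sqrt g2 s1).trans ?_
    have e1 : (fun θ => (Real.sqrt (D2 θ) * Real.sqrt (f2 θ)) ^ 2) = fun θ => D2 θ * f2 θ := by
      ext θ
      rw [mul_pow, Real.sq_sqrt (p2 θ).le, Real.sq_sqrt (psi_nonneg _ _)]
    have e2 : (fun θ => Real.sqrt (D1 θ) ^ 2) = fun θ => D1 θ := by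
      ext θ
      rw [Real.sq_sqrt (p1 θ).le]
    rw [e1, e2, hD1, hL, hv, Ev_Dn_one hl hs hK hi hj, Real.sqrt_one, mul_one]
    rw [hf2, hD2, Ev_Dn_psi hl hs hK hi' hj' h hX']

end UJ

end Vale.Agent.P159
end

section

/-!
One step of the recursion.
-/

open MeasureTheory Filter Topology
open scoped BigOperators

namespace Vale.Agent.P159

namespace UJ

theorem bu_mem_clB {l : ℕ} (c : ℤ × ℤ) (e : BI l) : c + bu e ∈ clB l c := by
  obtain ⟨a1, a2, a3, a4⟩ := bu_range e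
  rw [mem_clB]
  simp only [Prod.fst_add, Prod.snd_add]
  refine ⟨⟨?_, ?_⟩, ?_, ?_⟩ <;> linarith

theorem bv_mem_clB {l : ℕ} (c : ℤ × ℤ) (e : BI l) : c + bv e ∈ clB l c := by
  obtain ⟨a1, a2, a3, a4⟩ := bv_range e
  rw [mem_clB]
  simp only [Prod.fst_add, Prod.snd_add]
  refine ⟨⟨?_, ?_⟩, ?_, ?_⟩ <;> linarith

theorem wf_ne {l m K M i j : ℕ} (hl : 1 ≤ l) (hs : 2 ≤ l * m) (hK : 1 ≤ K) (hi : i < M)
    (hj : j < M) {k : ℤ × ℤ} (hk : k ∉ core m K M i j) {z : ℤ × ℤ} (hz : z ∈ clB l (cor l k)) :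
    wf (l * m * NN K M) (pos (l * m) K i j) z ≠ 0 := by
  have h1 := disj_core hl hk hz
  rw [mem_inB] at h1
  have h2 : z.1 ≤ (cor l (ccell m K M i j)).1 ∨
      (cor l (ccell m K M i j)).1 + (l * m : ℕ) ≤ z.1 ∨
      z.2 ≤ (cor l (ccell m K M i j)).2 ∨
      (cor l (ccell m K M i j)).2 + (l * m : ℕ) ≤ z.2 := by
    by_contra hcon
    push Not at hcon
    obtain ⟨b1, b2, b3, b4⟩ := hcon
    apply h1
    unfold cnr
    refine ⟨⟨?_, ?_⟩, ?_, ?_⟩ <;> omega
  have h3 := geo_nz hs hK hi hj h2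
  intro h4
  rw [h4, norm_zero] at h3
  have : (2 : ℝ) ≤ ((l * m : ℕ) : ℝ) := by exact_mod_cast hs
  linarith only [h3, this]

theorem ainc_coe {l m K M i j : ℕ} (hl : 1 ≤ l) (hs : 2 ≤ l * m) (hK : 1 ≤ K) (hi : i < M)
    (hj : j < M) {k : ℤ × ℤ} (hk : k ∉ core m K M i j) (e : BI l) :
    ((ainc l m K M i j k e : ℝ) : T) = alp l m K M i j (cor l k + bu e) -
      alp l m K M i j (cor l k + bv e) := by
  unfold ainc inc alp ang
  exact Complex.arg_div_coe_angle (wf_ne hl hs hK hi hj hk (bu_mem_clB _ e))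
    (wf_ne hl hs hK hi hj hk (bv_mem_clB _ e))

theorem core_sub {m K M i j : ℕ} (hK : 1 ≤ K) (hi : i < M) (hj : j < M) :
    core m K M i j ⊆ cells (m * NN K M) := by
  intro k hk
  rw [mem_core] at hk
  obtain ⟨⟨a1, a2⟩, a3, a4⟩ := hk
  simp only [ccell] at a1 a2 a3 a4
  unfold cells NN
  rw [Finset.mem_product, Finset.mem_Ico, Finset.mem_Ico]
  have hb : ∀ i : ℕ, i < M → 0 ≤ (m : ℤ) * (4 * K * M + K * i) ∧
      (m : ℤ) * (4 * K * M + K * i) + m ≤ (m : ℤ) * (8 * K * M + 1) := by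
    intro i hi
    constructor
    · positivity
    · have h1 : (4 : ℤ) * K * M + K * i + 1 ≤ 8 * K * M + 1 := by
        have : (i : ℤ) ≤ M := by exact_mod_cast hi.le
        have : (K : ℤ) * i ≤ K * M := mul_le_mul_of_nonneg_left this (by positivity)
        nlinarith only [this]
      have h2 := mul_le_mul_of_nonneg_left h1 (Int.natCast_nonneg m)
      linarith
  obtain ⟨b1, b2⟩ := hb i hi
  obtain ⟨b3, b4⟩ := hb j hj
  push_cast
  refine ⟨⟨?_, ?_⟩, ?_, ?_⟩ <;> linarith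

theorem core_card (m K M i j : ℕ) : (core m K M i j).card = m ^ 2 := by
  unfold core
  rw [Finset.card_product, Int.card_Ico, Int.card_Ico]
  simp
  ring

/-- numerical part of the tail bound -/
theorem tail_numeric {s N K ν C0 C l m n L δ b card : ℝ} (hs : 0 < s) (hK : 1 ≤ K)
    (hν : 1 ≤ ν) (hC0 : 0 ≤ C0) (hC : 0 ≤ C) (hl : 1 ≤ l) (hm : 0 ≤ m) (hslm : s = l * m)
    (hn : n = m * N) (hL : L = l * n) (hδ : 0 ≤ δ) (hb : 0 ≤ b) (hcard : card ≤ 2 * m ^ 2) :
    36 / (K * s * ν / 4) ^ 2 * (L ^ 2 * δ) +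
      2 * (Real.exp (-(1 / s * (K * s * ν / 4) / 6)) *
        Real.exp ((1 / s) ^ 2 / 2 * (card * (b * l ^ 2)))) +
      6 / (K * s * ν / 4) * (4 * (C0 / s) * (L ^ 2 * δ) +
        n ^ 2 * (C * (C0 * l / s ^ 2 + (C0 / s) ^ 2))) ≤
    (576 + 96 * C0) * N ^ 2 * δ + 24 * N ^ 2 * (C * (C0 * l + C0 ^ 2)) / s +
      2 * Real.exp b * Real.exp (-(K * ν) / 24) := by
  have hm0 : 0 < m := by
    rcases hm.lt_or_eq with h | h
    · exact h
    · rw [← h, mul_zero] at hslm; linarith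
  have hKν : 1 ≤ K * ν := by nlinarith only [hK, hν]
  have hLs : L = s * N := by rw [hL, hn, hslm]; ring
  have t1 : 36 / (K * s * ν / 4) ^ 2 * (L ^ 2 * δ) ≤ 576 * N ^ 2 * δ := by
    have e1 : 36 / (K * s * ν / 4) ^ 2 * (L ^ 2 * δ) = 576 * N ^ 2 * δ / (K * ν) ^ 2 := by
      rw [hLs]; field_simp; ring
    rw [e1]
    exact div_le_self (by positivity) (by nlinarith only [hKν])
  have t2 : Real.exp (-(1 / s * (K * s * ν / 4) / 6)) *
        Real.exp ((1 / s) ^ 2 / 2 * (card * (b * l ^ 2))) ≤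
      Real.exp b * Real.exp (-(K * ν) / 24) := by
    rw [mul_comm]
    refine mul_le_mul ?_ ?_ (Real.exp_pos _).le (Real.exp_pos _).le
    · rw [Real.exp_le_exp]
      have e1 : (1 / s) ^ 2 / 2 * (2 * m ^ 2 * (b * l ^ 2)) = b := by
        rw [hslm]; field_simp
      have e2 : card * (b * l ^ 2) ≤ 2 * m ^ 2 * (b * l ^ 2) :=
        mul_le_mul_of_nonneg_right hcard (by positivity)
      calc (1 / s) ^ 2 / 2 * (card * (b * l ^ 2)) ≤ (1 / s) ^ 2 / 2 * (2 * m ^ 2 * (b * l ^ 2)) :=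
            mul_le_mul_of_nonneg_left e2 (by positivity)
        _ = b := e1
    · rw [Real.exp_le_exp]
      apply le_of_eq
      field_simp
      ring
  have t3 : 6 / (K * s * ν / 4) * (4 * (C0 / s) * (L ^ 2 * δ)) ≤ 96 * C0 * N ^ 2 * δ := by
    have e1 : 6 / (K * s * ν / 4) * (4 * (C0 / s) * (L ^ 2 * δ)) =
        96 * C0 * N ^ 2 * δ / (K * ν) := by
      rw [hLs]; field_simp; ring
    rw [e1]
    exact div_le_self (by positivity) hKν
  have t4 : 6 / (K * s * ν / 4) * (n ^ 2 * (C * (C0 * l / s ^ 2 + (C0 / s) ^ 2))) ≤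
      24 * N ^ 2 * (C * (C0 * l + C0 ^ 2)) / s := by
    have e1 : 6 / (K * s * ν / 4) * (n ^ 2 * (C * (C0 * l / s ^ 2 + (C0 / s) ^ 2))) =
        24 * N ^ 2 * (C * (C0 * l + C0 ^ 2)) / s * (1 / (K * ν * l ^ 2)) := by
      rw [hn, hslm]; field_simp; ring
    rw [e1]
    refine mul_le_of_le_one_right (by positivity) ?_
    rw [div_le_one (by positivity)]
    nlinarith only [hl, mul_nonneg (by linarith : (0:ℝ) ≤ K * ν - 1) (sq_nonneg l)]
  rw [mul_add (6 / (K * s * ν / 4))]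
  linarith

theorem sqrt_add_le' {x y : ℝ} (hx : 0 ≤ x) (hy : 0 ≤ y) :
    Real.sqrt (x + y) ≤ Real.sqrt x + Real.sqrt y := by
  rw [Real.sqrt_le_left (by positivity)]
  nlinarith only [Real.sq_sqrt hx, Real.sq_sqrt hy, mul_nonneg (Real.sqrt_nonneg x) (Real.sqrt_nonneg y)]

/-- monotonicity of the stiffness along multiples -/
theorem stiff_mono {b : ℝ} (hb : 0 ≤ b) {l n : ℕ} (hl : 1 ≤ l) (hn : 1 ≤ n) :
    stiff (l * n) b ≤ stiff l b := by
  have h := var_h hb hl hn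
  have h1 : 0 ≤ Ev b (l * n) 0 (fun θ => (∑ k ∈ cells n, jc b l (cor l k) hh θ) ^ 2) :=
    Ev_nonneg fun _ => sq_nonneg _
  have h2 : 0 ≤ ∑ k ∈ cells n, Ev b (l * n) 0 (fun θ => (l : ℝ) ^ 2 * stiff l b -
        qc b l (cor l k) hh θ) :=
    Finset.sum_nonneg fun k _ => Ev_nonneg fun x => by
      have := (qc_le hb hl (cor l k) x).1
      linarith
  have h3 : 0 < ((l * n : ℕ) : ℝ) ^ 2 := by
    have : 0 < l * n := Nat.mul_pos hl hn
    positivity
  by_contra hcon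
  push Not at hcon
  nlinarith only [h, h1, h2, h3, hcon]

/-- tail bound at one vortex -/
theorem one_tail {b : ℝ} (hb : 0 < b) {C0 s1 : ℝ} (hC0 : 1 ≤ C0)
    (hinc : ∀ l m K M i j : ℕ, 1 ≤ l → 1 ≤ K → i < M →
    j < M → s1 ≤ ((l * m : ℕ) : ℝ) → ∀ k ∈ outer m K M i j, ∀ e : BI l,
      |ainc l m K M i j k e| ≤ C0 / ((l * m : ℕ) : ℝ) ∧
      ∀ e' : BI l, hh e = hh e' → |ainc l m K M i j k e - ainc l m K M i j k e'| ≤
        C0 * l / ((l * m : ℕ) : ℝ) ^ 2) {l : ℕ} (hl : 1 ≤ l) :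
    ∃ C Sl : ℝ, 0 ≤ C ∧ 4 ≤ Sl ∧ s1 ≤ Sl ∧ ∀ K M m : ℕ, 1 ≤ K → 1 ≤ m →
      Sl ≤ ((l * m : ℕ) : ℝ) → ∀ δ : ℝ, stiff l b - stiff (l * (m * NN K M)) b ≤ δ →
      ∀ S ⊆ cells (m * NN K M), ((S.card : ℕ) : ℝ) ≤ 2 * (m : ℝ) ^ 2 →
      ∀ i j : ℕ, i < M → j < M → core m K M i j ⊆ S → ∀ (h : BI l → ℝ), (h = hh ∨ h = vv) →
      ∀ ν : ℝ, 1 ≤ ν →
      Real.sqrt (Ev b (l * (m * NN K M)) 0 (fun x => psi (K * ((l * m : ℕ) : ℝ) * ν / 4)
        (TT b l h (cells (m * NN K M) \ S) (x + alp l m K M i j) -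
          stiff l b * ∑ k ∈ cells (m * NN K M) \ S, ∑ e, 1 / 2 * h e *
            ainc l m K M i j k e))) ≤
      Real.sqrt ((576 + 96 * C0) * (NN K M : ℝ) ^ 2 * δ +
        24 * (NN K M : ℝ) ^ 2 * (C * (C0 * l + C0 ^ 2)) / ((l * m : ℕ) : ℝ)) +
      Real.sqrt (2 * Real.exp b) * Real.exp (-(K * ν) / 48) := by
  obtain ⟨C, Y0, hC, hY0, htail⟩ := tail_bound hb hl
  refine ⟨C, max s1 (max 4 (C0 / Y0)), hC, (le_max_left _ _).trans (le_max_right _ _),
    le_max_left _ _, ?_⟩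
  intro K M m hK hm1 hSl δ hδ1 S hSsub hcard i j hi hj hcS h hh' ν hν1
  obtain ⟨s, hs⟩ : ∃ s : ℝ, s = ((l * m : ℕ) : ℝ) := ⟨_, rfl⟩
  rw [← hs] at hSl ⊢
  have hs1' : s1 ≤ s := (le_max_left _ _).trans hSl
  have hs4 : 4 ≤ s := ((le_max_left _ _).trans (le_max_right _ _)).trans hSl
  have hs5 : C0 / Y0 ≤ s := ((le_max_right _ _).trans (le_max_right _ _)).trans hSl
  have hs0 : 0 < s := by linarith only [hs4]
  have hs4n : 4 ≤ l * m := by
    rw [hs] at hs4
    exact_mod_cast hs4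
  have hC00 : 0 < C0 := by linarith only [hC0]
  have hNN : 1 ≤ NN K M := by unfold NN; omega
  have hlR : (1 : ℝ) ≤ l := by exact_mod_cast hl
  have hKR : (1 : ℝ) ≤ K := by exact_mod_cast hK
  have hd : 0 < K * s * ν / 4 := by positivity
  have hYY : C0 / s ≤ Y0 := by
    rw [div_le_iff₀ hY0] at hs5
    rw [div_le_iff₀ hs0]
    linarith only [hs5]
  have hn1 : 1 ≤ m * NN K M := Nat.mul_pos hm1 hNN
  have hδ0 : 0 ≤ stiff l b - stiff (l * (m * NN K M)) b := by
    linarith only [stiff_mono hb.le hl hn1]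
  have hXc : ∀ k ∈ cells (m * NN K M) \ S, k ∉ core m K M i j := fun k hk hk' =>
    (Finset.mem_sdiff.1 hk).2 (hcS hk')
  have hXou : ∀ k ∈ cells (m * NN K M) \ S, k ∈ outer m K M i j := fun k hk =>
    Finset.mem_sdiff.2 ⟨(Finset.mem_sdiff.1 hk).1, hXc k hk⟩
  have h1 := htail (m * NN K M) hn1 S hSsub (alp l m K M i j) (ainc l m K M i j)
    (C0 / s) (C0 * l / s ^ 2) (by positivity) hYY (by positivity)
    (fun k hk e => ainc_coe hl (by omega) hK hi hj (hXc k hk) e)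
    (fun k hk e => by
      have := (hinc l m K M i j hl hK hi hj (by rw [← hs]; exact hs1') k (hXou k hk) e).1
      rw [← hs] at this
      exact this)
    (fun k hk e e' hee => by
      have := (hinc l m K M i j hl hK hi hj (by rw [← hs]; exact hs1') k (hXou k hk) e).2
        e' hee
      rw [← hs] at this
      exact this)
    h hh' (K * s * ν / 4) (1 / s) hd (by positivity)
  have h2 := tail_numeric (s := s) (N := (NN K M : ℝ)) (K := (K : ℝ)) (ν := ν) (C0 := C0)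
    (C := C) (l := (l : ℝ)) (m := (m : ℝ)) (n := ((m * NN K M : ℕ) : ℝ))
    (L := ((l * (m * NN K M) : ℕ) : ℝ)) (δ := stiff l b - stiff (l * (m * NN K M)) b)
    (b := b) (card := (S.card : ℝ)) hs0 hKR hν1 hC00.le hC hlR
    (by positivity) (by rw [hs]; push_cast; ring) (by push_cast; ring) (by push_cast; ring)
    hδ0 hb.le hcard
  have h3 := h1.trans h2
  have h4 : Ev b (l * (m * NN K M)) 0 (fun x => psi (K * s * ν / 4)
      (TT b l h (cells (m * NN K M) \ S) (x + alp l m K M i j) -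
        stiff l b * ∑ k ∈ cells (m * NN K M) \ S, ∑ e, 1 / 2 * h e *
          ainc l m K M i j k e)) ≤
      ((576 + 96 * C0) * (NN K M : ℝ) ^ 2 * δ +
      24 * (NN K M : ℝ) ^ 2 * (C * (C0 * l + C0 ^ 2)) / s) +
      2 * Real.exp b * Real.exp (-(K * ν) / 24) := by
    refine h3.trans ?_
    have : (576 + 96 * C0) * (NN K M : ℝ) ^ 2 * (stiff l b - stiff (l * (m * NN K M)) b) ≤
        (576 + 96 * C0) * (NN K M : ℝ) ^ 2 * δ :=
      mul_le_mul_of_nonneg_left hδ1 (by positivity)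
    linarith only [this]
  refine (Real.sqrt_le_sqrt h4).trans ?_
  have hδ' : 0 ≤ δ := hδ0.trans hδ1
  refine (sqrt_add_le' (by positivity) (by positivity)).trans ?_
  refine add_le_add le_rfl (le_of_eq ?_)
  rw [Real.sqrt_mul (by positivity)]
  congr 1
  have e1 : Real.exp (-(K * ν) / 24) = Real.exp (-(K * ν) / 48) ^ 2 := by
    rw [← Real.exp_nat_mul]
    congr 1
    push_cast
    ring
  rw [e1, Real.sqrt_sq (Real.exp_pos _).le]

/-- the mean currents of different vortices differ -/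
theorem mean_diff {t K s ν C0 A mp mq : ℝ} (ht : 1 / (2 * Real.pi) ≤ t) (hK : 0 ≤ K)
    (hs : 0 < s) (hν : 1 ≤ ν) (hKC : C0 ≤ Real.pi * K) (hm : mp - mq = t * A)
    (hA : 2 * Real.pi * K * s * ν - C0 * s ≤ |A|) : 2 * (K * s * ν / 4) ≤ |mp - mq| := by
  have hpi := Real.pi_pos
  have ht0 : 0 ≤ t := le_trans (by positivity) ht
  rw [hm, abs_mul, abs_of_nonneg ht0]
  have h1 : Real.pi * K * s * ν ≤ |A| := by
    refine le_trans ?_ hA
    have h2 : C0 * s ≤ Real.pi * K * s * ν := by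
      calc C0 * s ≤ Real.pi * K * s := mul_le_mul_of_nonneg_right hKC hs.le
        _ ≤ Real.pi * K * s * ν := le_mul_of_one_le_right (by positivity) hν
    linarith
  calc 2 * (K * s * ν / 4) = 1 / (2 * Real.pi) * (Real.pi * K * s * ν) := by
        field_simp; ring
    _ ≤ t * |A| := mul_le_mul ht h1 (by positivity) ht0

theorem mean_sub {l : ℕ} (t : ℝ) (X : Finset (ℤ × ℤ)) (h : BI l → ℝ)
    (a a' : ℤ × ℤ → BI l → ℝ) :
    t * ∑ k ∈ X, ∑ e, 1 / 2 * h e * a k e - t * ∑ k ∈ X, ∑ e, 1 / 2 * h e * a' k e =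
      t * ∑ k ∈ X, ∑ e, 1 / 2 * h e * (a k e - a' k e) := by
  rw [← mul_sub, ← Finset.sum_sub_distrib]
  congr 1
  refine Finset.sum_congr rfl fun k _ => ?_
  rw [← Finset.sum_sub_distrib]
  exact Finset.sum_congr rfl fun e _ => by ring

/-- affinity of two vortices, quantitative -/
theorem aff_dir {b : ℝ} (hb : 0 < b) (hst : ∀ l : ℕ, 1 ≤ l → 1 / (2 * Real.pi) ≤ stiff l b) :
    ∃ C0 : ℝ, 1 ≤ C0 ∧ ∀ l : ℕ, 1 ≤ l → ∃ Cl Sl : ℝ, 0 ≤ Cl ∧ 4 ≤ Sl ∧ ∀ K M m : ℕ, 1 ≤ K →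
      C0 ≤ Real.pi * K → Sl ≤ ((l * m : ℕ) : ℝ) → ∀ δ : ℝ,
      stiff l b - stiff (l * m * NN K M) b ≤ δ → ∀ i j i' j' : ℕ, i < M → j < M → i' < M →
      j' < M → ∀ (h : BI l → ℝ) (ν : ℝ), (h = hh ∧ ν = |(j : ℝ) - j'| ∨ h = vv ∧
      ν = |(i : ℝ) - i'|) → 1 ≤ ν →
      Ev b (l * m * NN K M) (ang (l * m * NN K M) 0)
        (fun θ => Real.sqrt (Dn b l m K M i j θ) * Real.sqrt (Dn b l m K M i' j' θ)) ≤
      2 * Real.sqrt ((576 + 96 * C0) * (NN K M : ℝ) ^ 2 * δ +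
        24 * (NN K M : ℝ) ^ 2 * Cl / ((l * m : ℕ) : ℝ)) +
      2 * Real.sqrt (2 * Real.exp b) * Real.exp (-(K * ν) / 48) := by
  obtain ⟨C1, s1, hC1, hs1, hinc⟩ := geo_inc
  obtain ⟨C2, s2, hC2, hs2, hrh⟩ := geo_rows_h
  obtain ⟨C3, s3, hC3, hs3, hrv⟩ := geo_rows_v
  obtain ⟨C0, hC0⟩ : ∃ C0, C0 = C1 + C2 + C3 := ⟨_, rfl⟩
  have hC01 : 1 ≤ C0 := by linarith
  refine ⟨C0, hC01, ?_⟩
  intro l hl
  have hinc' : ∀ l m K M i j : ℕ, 1 ≤ l → 1 ≤ K → i < M →
    j < M → s1 ≤ ((l * m : ℕ) : ℝ) → ∀ k ∈ outer m K M i j, ∀ e : BI l,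
      |ainc l m K M i j k e| ≤ C0 / ((l * m : ℕ) : ℝ) ∧
      ∀ e' : BI l, hh e = hh e' → |ainc l m K M i j k e - ainc l m K M i j k e'| ≤
        C0 * l / ((l * m : ℕ) : ℝ) ^ 2 := by
    intro l m K M i j hl hK hi hj hs k hk e
    obtain ⟨a1, a2⟩ := hinc l m K M i j hl hK hi hj hs k hk e
    refine ⟨a1.trans (div_le_div_of_nonneg_right (by linarith only [hC2, hC3, hC0]) (by positivity)), ?_⟩
    intro e' hee
    refine (a2 e' hee).trans (div_le_div_of_nonneg_right ?_ (by positivity))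
    exact mul_le_mul_of_nonneg_right (by linarith) (by positivity)
  obtain ⟨C, Sl, hC, hSl4, hSl1, htail⟩ := one_tail hb hC01 hinc' hl
  refine ⟨C * (C0 * l + C0 ^ 2), max Sl (max s2 s3), by positivity,
    hSl4.trans (le_max_left _ _), ?_⟩
  intro K M m hK hKC hSl δ hδ i j i' j' hi hj hi' hj' h ν hν hν1
  have hs2' : s2 ≤ ((l * m : ℕ) : ℝ) :=
    ((le_max_left _ _).trans (le_max_right _ _)).trans hSl
  have hs3' : s3 ≤ ((l * m : ℕ) : ℝ) :=
    ((le_max_right _ _).trans (le_max_right _ _)).trans hSl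
  have hSl' : Sl ≤ ((l * m : ℕ) : ℝ) := (le_max_left _ _).trans hSl
  have hs0 : (0 : ℝ) < ((l * m : ℕ) : ℝ) := by linarith
  have hs4n : 4 ≤ l * m := by
    have : (4 : ℝ) ≤ ((l * m : ℕ) : ℝ) := hSl4.trans hSl'
    exact_mod_cast this
  have hm1 : 1 ≤ m := by
    rcases Nat.eq_zero_or_pos m with h0 | h0
    · rw [h0, mul_zero] at hs4n; omega
    · exact h0
  have hLn : l * m * NN K M = l * (m * NN K M) := Nat.mul_assoc _ _ _
  have hSsub : core m K M i j ∪ core m K M i' j' ⊆ cells (m * NN K M) :=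
    Finset.union_subset (core_sub hK hi hj) (core_sub hK hi' hj')
  have hcard : (((core m K M i j ∪ core m K M i' j').card : ℕ) : ℝ) ≤ 2 * (m : ℝ) ^ 2 := by
    have h1 : (core m K M i j ∪ core m K M i' j').card ≤ m ^ 2 + m ^ 2 := by
      refine (Finset.card_union_le _ _).trans ?_
      rw [core_card, core_card]
    have h2 : (((core m K M i j ∪ core m K M i' j').card : ℕ) : ℝ) ≤
      ((m ^ 2 + m ^ 2 : ℕ) : ℝ) := by exact_mod_cast h1
    refine h2.trans (le_of_eq ?_)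
    push_cast
    ring
  have hh'' : h = hh ∨ h = vv := by
    rcases hν with ⟨h1, _⟩ | ⟨h1, _⟩
    · exact Or.inl h1
    · exact Or.inr h1
  have hrow : 2 * Real.pi * K * ((l * m : ℕ) : ℝ) * ν - C0 * ((l * m : ℕ) : ℝ) ≤
      |∑ k ∈ cells (m * NN K M) \ (core m K M i j ∪ core m K M i' j'), ∑ e, 1 / 2 * h e *
      (ainc l m K M i j k e - ainc l m K M i' j' k e)| := by
    rcases hν with ⟨hh', hν'⟩ | ⟨hh', hν'⟩
    · rw [hh', hν']
      refine le_trans ?_ (hrh l m K M i j i' j' hl hK hi hj hi' hj' hs2')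
      have : C2 * ((l * m : ℕ) : ℝ) ≤ C0 * ((l * m : ℕ) : ℝ) :=
        mul_le_mul_of_nonneg_right (by linarith only [hC1, hC3, hC0]) hs0.le
      linarith only [this]
    · rw [hh', hν']
      refine le_trans ?_ (hrv l m K M i j i' j' hl hK hi hj hi' hj' hs3')
      have : C3 * ((l * m : ℕ) : ℝ) ≤ C0 * ((l * m : ℕ) : ℝ) :=
        mul_le_mul_of_nonneg_right (by linarith only [hC1, hC2, hC0]) hs0.le
      linarith only [this]
  have hd2 := mean_diff (hst l hl) (Nat.cast_nonneg K) hs0 hν1 hKC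
    (mean_sub (stiff l b) (cells (m * NN K M) \ (core m K M i j ∪ core m K M i' j')) h
      (ainc l m K M i j) (ainc l m K M i' j')) hrow
  have hd : 0 < (K : ℝ) * ((l * m : ℕ) : ℝ) * ν / 4 := by
    have : (0 : ℝ) < K := by exact_mod_cast hK
    positivity
  refine (affinity (b := b)
    (X := cells (m * NN K M) \ (core m K M i j ∪ core m K M i' j'))
    hl hs4n hK hi hj hi' hj' h hd hd2
    (fun k hk hk' => (Finset.mem_sdiff.1 hk).2 (Finset.mem_union_left _ hk'))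
    (fun k hk hk' => (Finset.mem_sdiff.1 hk).2 (Finset.mem_union_right _ hk'))).trans ?_
  rw [hLn] at hδ
  have a1 := htail K M m hK hm1 hSl' δ hδ _ hSsub hcard i j hi hj Finset.subset_union_left
    h hh'' ν hν1
  have a2 := htail K M m hK hm1 hSl' δ hδ _ hSsub hcard i' j' hi' hj' Finset.subset_union_right
    h hh'' ν hν1
  rw [← hLn] at a1 a2
  linarith only [a1, a2]

end UJ

end Vale.Agent.P159
end

section

/-!
Lower bound of the affinities of the vortex densities.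
-/

open MeasureTheory Filter Topology
open scoped BigOperators

namespace Vale.Agent.P159

namespace UJ

/-! ### Geometry of the cells -/

theorem h2_mem_inB {s : ℕ} {c z : ℤ × ℤ} : z ∈ inB s c ↔
    (1 ≤ z.1 - c.1 ∧ 1 ≤ z.2 - c.2) ∧ z.1 - c.1 ≤ s - 1 ∧ z.2 - c.2 ≤ s - 1 := by
  unfold inB inner
  simp only [Set.mem_ofPred_eq, Finset.coe_Icc, Set.mem_Icc, Prod.le_def, Prod.fst_sub,
    Prod.snd_sub]

theorem h2_mem_clB {s : ℕ} {c z : ℤ × ℤ} : z ∈ clB s c ↔
    0 ≤ z.1 - c.1 ∧ z.1 - c.1 ≤ s ∧ 0 ≤ z.2 - c.2 ∧ z.2 - c.2 ≤ s := by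
  unfold clB
  simp only [Set.mem_ofPred_eq, Prod.fst_sub, Prod.snd_sub]

theorem h2_cells {l : ℕ} {k k' z : ℤ × ℤ} (hne : k ≠ k') (hz : z ∈ clB l (cor l k')) :
    z ∉ inB l (cor l k) := by
  rw [h2_mem_clB] at hz
  rw [h2_mem_inB]
  rintro ⟨⟨h1, h2⟩, h3, h4⟩
  simp only [cor] at hz h1 h2 h3 h4
  obtain ⟨a1, a2, a3, a4⟩ := hz
  have hl : (0 : ℤ) ≤ l := by positivity
  have key : ∀ a b t : ℤ, a < b → (l : ℤ) * b ≤ t → t ≤ (l : ℤ) * a + l - 1 → False := by
    intro a b t hab h5 h6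
    have := mul_le_mul_of_nonneg_left (show a + 1 ≤ b by omega) hl
    linarith
  have key2 : ∀ a b t : ℤ, b < a → (l : ℤ) * a + 1 ≤ t → t ≤ (l : ℤ) * b + l → False := by
    intro a b t hab h5 h6
    have := mul_le_mul_of_nonneg_left (show b + 1 ≤ a by omega) hl
    linarith
  by_cases e1 : k.1 = k'.1
  · have e2 : k.2 ≠ k'.2 := fun e2 => hne (Prod.ext e1 e2)
    rcases lt_or_gt_of_ne e2 with h | h
    · exact key _ _ z.2 h (by linarith) (by linarith)
    · exact key2 _ _ z.2 h (by linarith) (by linarith)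
  · rcases lt_or_gt_of_ne e1 with h | h
    · exact key _ _ z.1 h (by linarith) (by linarith)
    · exact key2 _ _ z.1 h (by linarith) (by linarith)

theorem h2_outer_core {l m K M i j : ℕ} {k z : ℤ × ℤ} (hk : k ∈ outer m K M i j)
    (hz : z ∈ clB l (cor l k)) : z ∉ inB (l * m) (cnr l m K M i j) := by
  rw [h2_mem_clB] at hz
  obtain ⟨a1, a2, a3, a4⟩ := hz
  have h := g2_outer (l := l) hk (y := z - cor l k) a1 a2 a3 a4
  rw [add_sub_cancel] at h
  rw [h2_mem_inB]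
  unfold cnr
  rintro ⟨⟨h1, h2⟩, h3, h4⟩
  rcases h with h | h | h | h <;> linarith

theorem h2_core_outer {l m K M i j : ℕ} {k z : ℤ × ℤ} (hk : k ∈ outer m K M i j)
    (hz : z ∈ clB (l * m) (cnr l m K M i j)) : z ∉ inB l (cor l k) := by
  rw [h2_mem_clB] at hz
  rw [h2_mem_inB]
  rintro ⟨⟨h1, h2⟩, h3, h4⟩
  unfold cnr at hz
  have hk' : k ∉ core m K M i j := (Finset.mem_sdiff.mp hk).2
  unfold core at hk'
  rw [Finset.mem_product, Finset.mem_Ico, Finset.mem_Ico] at hk'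
  set c := ccell m K M i j
  simp only [cor] at hz h1 h2 h3 h4
  push_cast at hz
  obtain ⟨a1, a2, a3, a4⟩ := hz
  have hl : (0 : ℤ) ≤ l := by positivity
  have key : ∀ a b t : ℤ, (l : ℤ) * a + 1 ≤ t → t ≤ (l : ℤ) * a + l - 1 → (l : ℤ) * b ≤ t →
      t ≤ (l : ℤ) * b + l * m → b ≤ a ∧ a < b + m := by
    intro a b t e1 e2 e3 e4
    constructor
    · by_contra hcon
      push Not at hcon
      have := mul_le_mul_of_nonneg_left (show a + 1 ≤ b by omega) hl
      linarith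
    · by_contra hcon
      push Not at hcon
      have := mul_le_mul_of_nonneg_left (show b + m ≤ a by omega) hl
      linarith
  apply hk'
  have b1 := key k.1 c.1 z.1 (by linarith) (by linarith) (by linarith) (by linarith)
  have b2 := key k.2 c.2 z.2 (by linarith) (by linarith) (by linarith) (by linarith)
  exact ⟨b1, b2⟩

/-! ### Invariance of the weights -/

theorem h2_WB_inv {b : ℝ} {s s' : ℕ} {c c' : ℤ × ℤ}
    (h : ∀ z ∈ clB s c, z ∉ inB s c → z ∉ inB s' c') (θ y a : Ginf) :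
    WB b s c (θ + PB s' c' y + a) = WB b s c (θ + a) := by
  apply WB_congr
  intro z hz hz'
  have h1 : PB s' c' y z = 0 := proj_of_notMem (h z hz hz') y
  simp only [Pi.add_apply, h1, add_zero]

/-- the ratio of the weights of `x + a` and `x` -/
noncomputable def Rp (b : ℝ) (l m K M i j : ℕ) (a x : Ginf) : ℝ :=
  (∏ k ∈ outer m K M i j, WB b l (cor l k) (x + a) / WB b l (cor l k) x) *
    (WB b (l * m) (cnr l m K M i j) (x + a) / WB b (l * m) (cnr l m K M i j) x)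

theorem h2_Rp_pos (b : ℝ) (l m K M i j : ℕ) (a x : Ginf) : 0 < Rp b l m K M i j a x := by
  unfold Rp
  apply mul_pos
  · exact Finset.prod_pos fun k _ => div_pos (WB_pos _ _ _ _) (WB_pos _ _ _ _)
  · exact div_pos (WB_pos _ _ _ _) (WB_pos _ _ _ _)

theorem h2_Rp_cont (b : ℝ) (l m K M i j : ℕ) (a : Ginf) : Continuous (Rp b l m K M i j a) := by
  unfold Rp
  apply Continuous.mul
  · apply continuous_finsetProd
    intro k _
    exact ((WB_cont b l _).comp (continuous_id.add continuous_const)).div (WB_cont b l _)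
      fun x => (WB_pos _ _ _ _).ne'
  · exact ((WB_cont b _ _).comp (continuous_id.add continuous_const)).div (WB_cont b _ _)
      fun x => (WB_pos _ _ _ _).ne'

theorem h2_Dn_inv {b : ℝ} {l m K M i j : ℕ} {s' : ℕ} {c' : ℤ × ℤ}
    (h1 : ∀ k ∈ outer m K M i j, ∀ z ∈ clB l (cor l k), z ∉ inB l (cor l k) → z ∉ inB s' c')
    (h2 : ∀ z ∈ clB (l * m) (cnr l m K M i j), z ∉ inB (l * m) (cnr l m K M i j) →
      z ∉ inB s' c') (x y : Ginf) :
    Dn b l m K M i j (x + PB s' c' y) = Dn b l m K M i j x := by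
  unfold Dn
  congr 1
  · apply Finset.prod_congr rfl
    intro k hk
    have e1 := h2_WB_inv (b := b) (h1 k hk) x y (-alp l m K M i j)
    have e2 := h2_WB_inv (b := b) (h1 k hk) x y 0
    rw [add_zero, add_zero] at e2
    rw [sub_eq_add_neg, sub_eq_add_neg, e1, e2]
  · have e1 := h2_WB_inv (b := b) h2 x y (-alp l m K M i j)
    have e2 := h2_WB_inv (b := b) h2 x y 0
    rw [add_zero, add_zero] at e2
    rw [sub_eq_add_neg, sub_eq_add_neg, e1, e2]

theorem h2_Dn_add (b : ℝ) (l m K M i j : ℕ) (x : Ginf) :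
    Dn b l m K M i j (x + alp l m K M i j) = (Rp b l m K M i j (alp l m K M i j) x)⁻¹ := by
  unfold Dn Rp
  rw [mul_inv, ← Finset.prod_inv_distrib]
  congr 1
  · apply Finset.prod_congr rfl
    intro k _
    rw [add_sub_cancel_right, inv_div]
  · rw [add_sub_cancel_right, inv_div]

theorem h2_Rp_neg (b : ℝ) (l m K M i j : ℕ) (a x : Ginf) :
    Rp b l m K M i j a (-x) = Rp b l m K M i j (-a) x := by
  unfold Rp
  have e : -x + a = -(x + -a) := by abel
  congr 1
  · apply Finset.prod_congr rfl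
    intro k _
    rw [e, WB_neg, WB_neg]
  · rw [e, WB_neg, WB_neg]

theorem h2_four {b : ℝ} (hb : 0 ≤ b) (s : ℕ) (c : ℤ × ℤ) (x a : Ginf) :
    (WB b s c a / WB b s c 0) ^ 2 ≤
      (WB b s c (x + a) / WB b s c x) * (WB b s c (x + -a) / WB b s c x) := by
  have h := WB_four hb s c x a
  have h0 := WB_pos b s c 0
  have hx := WB_pos b s c x
  rw [sub_eq_add_neg] at h
  rw [div_pow, div_mul_div_comm, div_le_div_iff₀ (by positivity) (by positivity)]
  nlinarith only [h]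

theorem h2_Rp_mul {b : ℝ} (hb : 0 ≤ b) (l m K M i j : ℕ) (a x : Ginf) :
    Rp b l m K M i j a 0 ^ 2 ≤ Rp b l m K M i j a x * Rp b l m K M i j (-a) x := by
  unfold Rp
  rw [mul_pow, ← Finset.prod_pow, mul_mul_mul_comm, ← Finset.prod_mul_distrib, zero_add]
  apply mul_le_mul
  · apply Finset.prod_le_prod
    · intro k _
      positivity
    · intro k _
      exact h2_four hb l _ x a
  · exact h2_four hb _ _ x a
  · positivity
  · apply Finset.prod_nonneg
    intro k _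
    exact mul_nonneg (div_pos (WB_pos _ _ _ _) (WB_pos _ _ _ _)).le
      (div_pos (WB_pos _ _ _ _) (WB_pos _ _ _ _)).le

theorem h2_sqrt_add {a c g : ℝ} (ha : 0 ≤ a) (hg : 0 ≤ g) (h : g ^ 2 ≤ a * c) :
    2 * Real.sqrt g ≤ Real.sqrt a + Real.sqrt c := by
  have h1 : g ≤ Real.sqrt a * Real.sqrt c := by
    rw [← Real.sqrt_mul ha]
    exact Real.le_sqrt_of_sq_le h
  have h2 := Real.sqrt_nonneg a
  have h3 := Real.sqrt_nonneg c
  have h4 : (2 * Real.sqrt g) ^ 2 ≤ (Real.sqrt a + Real.sqrt c) ^ 2 := by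
    rw [mul_pow, Real.sq_sqrt hg]
    nlinarith only [h1, sq_nonneg (Real.sqrt a - Real.sqrt c)]
  exact le_of_sq_le_sq h4 (by positivity)

/-! ### The Gibbs functional -/

theorem h2_EB_neg (b : ℝ) (s : ℕ) (c : ℤ × ℤ) (θ : Ginf) : EB b s c (-θ) = EB b s c θ := by
  unfold EB
  apply Finset.sum_congr rfl
  intro e _
  have h : (-θ) (c + bu e) - (-θ) (c + bv e) = -(θ (c + bu e) - θ (c + bv e)) := by
    simp only [Pi.neg_apply]
    abel
  rw [h, cosT_neg]

theorem h2_cont_exp (b : ℝ) (s : ℕ) (c : ℤ × ℤ) : Continuous fun x => Real.exp (EB b s c x) :=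
  Real.continuous_exp.comp (EB_cont b s c)

theorem h2_Ev_neg (b : ℝ) (L : ℕ) {F : Ginf → ℝ} (hF : Continuous F) :
    Ev b L 0 (fun x => F (-x)) = Ev b L 0 F := by
  unfold Ev
  congr 1
  have hc := h2_cont_exp b L 0
  rw [int_nu L 0 (f := fun x => F (-x) * Real.exp (EB b L 0 x))
    ((hF.comp continuous_neg).mul hc),
    int_nu L 0 (f := fun x => F x * Real.exp (EB b L 0 x)) (hF.mul hc)]
  rw [← integral_neg_eq_self]
  apply integral_congr_ae
  apply Eventually.of_forall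
  intro x
  simp only [zero_add, map_neg, neg_neg, h2_EB_neg]

theorem h2_int (b : ℝ) (L : ℕ) (v : Ginf) {F : Ginf → ℝ} (hF : Continuous F) :
    Integrable (fun x => F x * Real.exp (EB b L 0 x)) (nu L v) := by
  apply Continuous.integrable_of_hasCompactSupport
  · exact hF.mul (h2_cont_exp b L 0)
  · exact HasCompactSupport.of_compactSpace _

theorem h2_Ev_mono (b : ℝ) (L : ℕ) (v : Ginf) {F F' : Ginf → ℝ} (hF : Continuous F)
    (hF' : Continuous F') (h : ∀ x, F x ≤ F' x) : Ev b L v F ≤ Ev b L v F' := by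
  unfold Ev
  apply div_le_div_of_nonneg_right _ (WB_pos _ _ _ _).le
  apply integral_mono (h2_int b L v hF) (h2_int b L v hF')
  intro x
  exact mul_le_mul_of_nonneg_right (h x) (Real.exp_pos _).le

theorem h2_Ev_const (b : ℝ) (L : ℕ) (a : ℝ) : Ev b L 0 (fun _ => a) = a := by
  unfold Ev
  have h0 : ∫ x, Real.exp (EB b L 0 x) ∂(nu L 0) = WB b L 0 0 := by
    rw [int_nu L 0 (h2_cont_exp b L 0)]
    rfl
  rw [integral_const_mul, h0, mul_div_assoc, div_self (WB_pos _ _ _ _).ne', mul_one]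

theorem h2_Ev_add (b : ℝ) (L : ℕ) (v : Ginf) {F F' : Ginf → ℝ} (hF : Continuous F)
    (hF' : Continuous F') : Ev b L v (fun x => F x + F' x) = Ev b L v F + Ev b L v F' := by
  unfold Ev
  rw [← add_div, ← integral_add (h2_int b L v hF) (h2_int b L v hF')]
  congr 2
  funext x
  ring

/-- lower bound of the affinities -/
theorem sqrt_lower {b : ℝ} (hb : 0 ≤ b) {l m K M i j : ℕ} (hl : 1 ≤ l) (hs : 4 ≤ l * m)
    (hK : 1 ≤ K) (hi : i < M) (hj : j < M) :
    Real.sqrt ((∏ k ∈ outer m K M i j, WB b l (cor l k) (alp l m K M i j) / WB b l (cor l k) 0) *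
      (WB b (l * m) (cnr l m K M i j) (alp l m K M i j) / WB b (l * m) (cnr l m K M i j) 0)) ≤
    Ev b (l * m * NN K M) (ang (l * m * NN K M) 0)
      (fun θ => Real.sqrt (Dn b l m K M i j θ)) := by
  set α := alp l m K M i j with hα
  have hg : (∏ k ∈ outer m K M i j, WB b l (cor l k) α / WB b l (cor l k) 0) *
      (WB b (l * m) (cnr l m K M i j) α / WB b (l * m) (cnr l m K M i j) 0) =
      Rp b l m K M i j α 0 := by
    unfold Rp
    rw [zero_add]
  rw [hg]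
  have hDc := Dn_cont b l m K M i j
  have hDp := Dn_pos b l m K M i j
  -- change of measure
  have hfc : Continuous fun θ => (Real.sqrt (Dn b l m K M i j θ))⁻¹ :=
    (Real.continuous_sqrt.comp hDc).inv₀ fun θ => (Real.sqrt_pos.2 (hDp θ)).ne'
  have hch := change (b := b) hl hs hK hi hj hfc
    (by
      intro k hk x y
      rw [h2_Dn_inv (b := b) (l := l) (m := m) (K := K) (M := M) (i := i) (j := j)
        (s' := l) (c' := cor l k)]
      · intro k' hk' z hz hz'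
        by_cases hkk : k = k'
        · rw [hkk]; exact hz'
        · exact h2_cells hkk hz
      · intro z hz _
        exact h2_core_outer hk hz)
    (by
      intro x y
      rw [h2_Dn_inv (b := b) (l := l) (m := m) (K := K) (M := M) (i := i) (j := j)
        (s' := l * m) (c' := cnr l m K M i j)]
      · intro k' hk' z hz _
        exact h2_outer_core hk' hz
      · intro z _ hz'
        exact hz')
  have e1 : (fun θ => Dn b l m K M i j θ * (Real.sqrt (Dn b l m K M i j θ))⁻¹) =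
      fun θ => Real.sqrt (Dn b l m K M i j θ) := by
    funext θ
    have h1 := Real.sqrt_pos.2 (hDp θ)
    have h2 := Real.mul_self_sqrt (hDp θ).le
    rw [← div_eq_mul_inv, div_eq_iff h1.ne', h2]
  have e2 : (fun x => (Real.sqrt (Dn b l m K M i j (x + α)))⁻¹) =
      fun x => Real.sqrt (Rp b l m K M i j α x) := by
    funext x
    rw [hα, h2_Dn_add, Real.sqrt_inv, inv_inv]
  rw [e1, e2] at hch
  rw [hch]
  -- symmetrisation
  have hR : Continuous fun x => Real.sqrt (Rp b l m K M i j α x) :=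
    Real.continuous_sqrt.comp (h2_Rp_cont b l m K M i j α)
  have hR' : Continuous fun x => Real.sqrt (Rp b l m K M i j (-α) x) :=
    Real.continuous_sqrt.comp (h2_Rp_cont b l m K M i j (-α))
  have e3 := h2_Ev_neg b (l * m * NN K M) hR
  have e4 : (fun x => Real.sqrt (Rp b l m K M i j α (-x))) =
      fun x => Real.sqrt (Rp b l m K M i j (-α) x) := by
    funext x
    rw [h2_Rp_neg]
  rw [e4] at e3
  have e5 := h2_Ev_add b (l * m * NN K M) 0 hR hR'
  have e6 := h2_Ev_mono b (l * m * NN K M) 0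
    (F := fun _ => 2 * Real.sqrt (Rp b l m K M i j α 0))
    (F' := fun x => Real.sqrt (Rp b l m K M i j α x) + Real.sqrt (Rp b l m K M i j (-α) x))
    continuous_const (hR.add hR')
    (fun x => h2_sqrt_add (h2_Rp_pos _ _ _ _ _ _ _ _ _).le
      (h2_Rp_pos _ _ _ _ _ _ _ _ _).le (h2_Rp_mul hb l m K M i j α x))
  rw [h2_Ev_const, e5, e3] at e6
  linarith only [e6]

end UJ

end Vale.Agent.P159
end

section

/-!
Comparison with the box and the final block bound.
-/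

open MeasureTheory Filter Topology
open scoped BigOperators

namespace Vale.Agent.P159

/-- integer interval of block numbers -/
noncomputable def ivl (N : ℕ) : Finset ℤ := Finset.Ico (-(N : ℤ)) N

theorem tile1 {l : ℕ} (hl : 1 ≤ l) (N : ℕ) (f : ℤ → ℝ) :
    ∑ k ∈ ivl N, ∑ i : Fin l, f ((l : ℤ) * k + (i : ℕ)) = ∑ z ∈ ivl (N * l), f z := by
  have hl0 : (0 : ℤ) < l := by exact_mod_cast hl
  rw [← Finset.sum_product' (ivl N) Finset.univ (fun k (i : Fin l) => f ((l : ℤ) * k + (i : ℕ)))]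
  refine Finset.sum_bij' (fun p _ => (l : ℤ) * p.1 + (p.2 : ℕ))
    (fun z _ => (z / l, ⟨(z % l).toNat, ?_⟩)) ?_ ?_ ?_ ?_ ?_
  · have h1 := Int.emod_nonneg z hl0.ne'
    have h2 := Int.emod_lt_of_pos z hl0
    omega
  · rintro ⟨k, i⟩ hk
    simp only [ivl, Finset.mem_product, Finset.mem_Ico, Finset.mem_univ, and_true] at hk ⊢
    have hi := i.2
    obtain ⟨h1, h2⟩ := hk
    push_cast
    constructor
    · nlinarith only [h1]
    · nlinarith only [hi, h2]
  · intro z hz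
    simp only [ivl, Finset.mem_product, Finset.mem_Ico, Finset.mem_univ, and_true] at hz ⊢
    obtain ⟨h1, h2⟩ := hz
    push_cast at h1 h2
    constructor
    · rw [Int.le_ediv_iff_mul_le hl0]; linarith
    · rw [Int.ediv_lt_iff_lt_mul hl0]; linarith
  · rintro ⟨k, i⟩ hk
    have hi := i.2
    ext
    · simp only
      rw [Int.mul_add_ediv_left _ _ hl0.ne', Int.ediv_eq_zero_of_lt (by omega) (by omega), add_zero]
    · simp only
      rw [Int.mul_add_emod_self_left, Int.emod_eq_of_lt (by omega) (by omega)]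
      simp
  · intro z hz
    simp only
    have h1 := Int.emod_nonneg z hl0.ne'
    rw [Int.toNat_of_nonneg h1]
    have := Int.mul_ediv_add_emod z l
    linarith only [this]
  · rintro ⟨k, i⟩ hk
    rfl

theorem tile2 {l : ℕ} (hl : 1 ≤ l) (N : ℕ) (f : ℤ × ℤ → ℝ) :
    ∑ k ∈ ivl N ×ˢ ivl N, ∑ i : Fin l, ∑ j : Fin l, f (cor l k + (((i : ℕ) : ℤ), ((j : ℕ) : ℤ)))
      = ∑ z ∈ ivl (N * l) ×ˢ ivl (N * l), f z := by
  rw [Finset.sum_product, Finset.sum_product]
  have h1 : ∀ z1 : ℤ, ∑ z2 ∈ ivl (N * l), f (z1, z2) =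
      ∑ k2 ∈ ivl N, ∑ j : Fin l, f (z1, (l : ℤ) * k2 + (j : ℕ)) := fun z1 =>
    (tile1 hl N (fun z2 => f (z1, z2))).symm
  simp_rw [h1]
  rw [← tile1 hl N (fun z1 => ∑ k2 ∈ ivl N, ∑ j : Fin l, f (z1, (l : ℤ) * k2 + (j : ℕ)))]
  refine Finset.sum_congr rfl fun k1 _ => ?_
  rw [Finset.sum_comm]
  refine Finset.sum_congr rfl fun i _ => ?_
  refine Finset.sum_congr rfl fun k2 _ => ?_
  refine Finset.sum_congr rfl fun j _ => ?_
  unfold cor
  simp

/-- cosine of the increment over the horizontal bond at `z` -/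
noncomputable def Fh (θ : Ginf) (z : ℤ × ℤ) : ℝ := cosT (θ z - θ (z + (1, 0)))

/-- cosine of the increment over the vertical bond at `z` -/
noncomputable def Fv (θ : Ginf) (z : ℤ × ℤ) : ℝ := cosT (θ z - θ (z + (0, 1)))

theorem Fh_cone (z : ℤ × ℤ) : InCone (fun θ : Ginf => Fh θ z) := InCone.chr (grad z (z + (1, 0)))
theorem Fv_cone (z : ℤ × ℤ) : InCone (fun θ : Ginf => Fv θ z) := InCone.chr (grad z (z + (0, 1)))

/-- total energy of the blocks -/
theorem block_total {l : ℕ} (hl : 1 ≤ l) (N : ℕ) (b : ℝ) (θ : Ginf) :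
    ∑ k ∈ ivl N ×ˢ ivl N, ∑ e : BI l, b / 2 * (chiAt l k e).c θ =
      ∑ z ∈ ivl (N * l) ×ˢ ivl (N * l),
        b / 2 * (Fh θ z + Fh θ (z + (0, 1)) + Fv θ z + Fv θ (z + (1, 0))) := by
  rw [← tile2 hl N]
  refine Finset.sum_congr rfl fun k _ => ?_
  rw [sum_BI]
  refine Finset.sum_congr rfl fun i _ => Finset.sum_congr rfl fun j _ => ?_
  have e1 : cor l k + (((i : ℕ) : ℤ), ((j : ℕ) : ℤ)) + (0, 1) =
      cor l k + (((i : ℕ) : ℤ), ((j : ℕ) : ℤ) + 1) := by ext <;> simp <;> ring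
  have e2 : cor l k + (((i : ℕ) : ℤ), ((j : ℕ) : ℤ)) + (1, 0) =
      cor l k + (((i : ℕ) : ℤ) + 1, ((j : ℕ) : ℤ)) := by ext <;> simp <;> ring
  have e3 : cor l k + (((i : ℕ) : ℤ), ((j : ℕ) : ℤ) + 1) + (1, 0) =
      cor l k + (((i : ℕ) : ℤ) + 1, ((j : ℕ) : ℤ) + 1) := by ext <;> simp <;> ring
  have e4 : cor l k + (((i : ℕ) : ℤ) + 1, ((j : ℕ) : ℤ)) + (0, 1) =
      cor l k + (((i : ℕ) : ℤ) + 1, ((j : ℕ) : ℤ) + 1) := by ext <;> simp <;> ring
  unfold Fh Fv
  rw [e1, e2, e3, e4]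
  have f1 : bu (l := l) ((i, j), (false, false)) = (((i : ℕ) : ℤ), ((j : ℕ) : ℤ)) := by
    simp [bu]
  have f2 : bv (l := l) ((i, j), (false, false)) = (((i : ℕ) : ℤ) + 1, ((j : ℕ) : ℤ)) := by
    simp [bv, bu]
  have f3 : bu (l := l) ((i, j), (false, true)) = (((i : ℕ) : ℤ), ((j : ℕ) : ℤ) + 1) := by
    simp [bu]
  have f4 : bv (l := l) ((i, j), (false, true)) = (((i : ℕ) : ℤ) + 1, ((j : ℕ) : ℤ) + 1) := by
    simp [bv, bu]
  have f5 : bu (l := l) ((i, j), (true, false)) = (((i : ℕ) : ℤ), ((j : ℕ) : ℤ)) := by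
    simp [bu]
  have f6 : bv (l := l) ((i, j), (true, false)) = (((i : ℕ) : ℤ), ((j : ℕ) : ℤ) + 1) := by
    simp [bv, bu]
  have f7 : bu (l := l) ((i, j), (true, true)) = (((i : ℕ) : ℤ) + 1, ((j : ℕ) : ℤ)) := by
    simp [bu]
  have f8 : bv (l := l) ((i, j), (true, true)) = (((i : ℕ) : ℤ) + 1, ((j : ℕ) : ℤ) + 1) := by
    simp [bv, bu]
  unfold chiAt grad
  simp only
  rw [f1, f2, f3, f4, f5, f6, f7, f8]
  ring

/-- energy of the box on configurations of the whole lattice -/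
noncomputable def boxE (R : ℕ) (b : ℝ) (θ : Ginf) : ℝ :=
  ∑ u ∈ (box R).filter (fun u => u + (1, 0) ∈ box R), b * Fh θ u +
    ∑ u ∈ (box R).filter (fun u => u + (0, 1) ∈ box R), b * Fv θ u

theorem boxE_cone (R : ℕ) {b : ℝ} (hb : 0 ≤ b) : InCone (boxE R b) := by
  unfold boxE
  exact (InCone.sum _ _ fun u _ => (Fh_cone u).const_mul hb).add
    (InCone.sum _ _ fun u _ => (Fv_cone u).const_mul hb)

theorem mem_box {R : ℕ} {x : ℤ × ℤ} : x ∈ box R ↔ |x.1| ≤ R ∧ |x.2| ≤ R := by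
  unfold box
  rw [Finset.mem_Icc, Prod.le_def, Prod.le_def, abs_le, abs_le]
  constructor <;> intro h <;> simp only at h ⊢ <;> omega

theorem boxEnergy_eq (R : ℕ) (b : ℝ) (θ : box R → T) : boxEnergy R b θ = boxE R b (ext θ) := by
  unfold boxEnergy boxE
  have hext : ∀ u : box R, ext θ (u : ℤ × ℤ) = θ u := by
    intro u
    simp [ext, u.2]
  have h1 : ∀ u : box R, ∑ v : box R, nn b u v * Real.Angle.cos (θ u - θ v) =
      (if ((u : ℤ × ℤ) + (1, 0)) ∈ box R then b * Fh (ext θ) u else 0) +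
      (if ((u : ℤ × ℤ) + (0, 1)) ∈ box R then b * Fv (ext θ) u else 0) := by
    intro u
    have h2 : ∀ v : box R, nn b u v * Real.Angle.cos (θ u - θ v) =
        (if (v : ℤ × ℤ) = (u : ℤ × ℤ) + (1, 0) then b * Fh (ext θ) u else 0) +
        (if (v : ℤ × ℤ) = (u : ℤ × ℤ) + (0, 1) then b * Fv (ext θ) u else 0) := by
      intro v
      unfold nn
      by_cases hv1 : (v : ℤ × ℤ) = (u : ℤ × ℤ) + (1, 0)
      · have hv2 : ¬ ((v : ℤ × ℤ) = (u : ℤ × ℤ) + (0, 1)) := by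
          intro h
          rw [hv1] at h
          have := add_left_cancel h
          simp at this
        rw [if_pos (Or.inl hv1), if_pos hv1, if_neg hv2, add_zero]
        unfold Fh cosT
        rw [← hv1, hext, hext]
      · by_cases hv2 : (v : ℤ × ℤ) = (u : ℤ × ℤ) + (0, 1)
        · rw [if_pos (Or.inr hv2), if_neg hv1, if_pos hv2, zero_add]
          unfold Fv cosT
          rw [← hv2, hext, hext]
        · rw [if_neg (by tauto), if_neg hv1, if_neg hv2]
          ring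
    simp_rw [h2]
    rw [Finset.sum_add_distrib]
    have h3 : ∀ (w : ℤ × ℤ) (a : ℝ), ∑ v : box R, (if (v : ℤ × ℤ) = w then a else 0) =
        if w ∈ box R then a else 0 := by
      intro w a
      rw [Finset.sum_coe_sort (box R) (fun v => if v = w then a else 0)]
      rw [Finset.sum_ite_eq' (box R) w (fun _ => a)]
    rw [h3, h3]
  simp_rw [h1]
  rw [Finset.sum_coe_sort (box R) (fun u => (if (u + (1, 0)) ∈ box R then b * Fh (ext θ) u else 0) +
      (if (u + (0, 1)) ∈ box R then b * Fv (ext θ) u else 0)), Finset.sum_add_distrib,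
      Finset.sum_filter, Finset.sum_filter]

theorem boxE_proj (R : ℕ) (b : ℝ) (θ : Ginf) :
    boxE R b (proj (box R : Set (ℤ × ℤ)) θ) = boxE R b θ := by
  unfold boxE
  congr 1
  · refine Finset.sum_congr rfl fun u hu => ?_
    obtain ⟨h1, h2⟩ := Finset.mem_filter.1 hu
    unfold Fh
    rw [proj_of_mem (by simpa using h1), proj_of_mem (by simpa using h2)]
  · refine Finset.sum_congr rfl fun u hu => ?_
    obtain ⟨h1, h2⟩ := Finset.mem_filter.1 hu
    unfold Fv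
    rw [proj_of_mem (by simpa using h1), proj_of_mem (by simpa using h2)]

theorem boxE_cont (R : ℕ) (b : ℝ) : Continuous (boxE R b) := by
  unfold boxE Fh Fv
  refine (continuous_finsetSum _ fun u _ => continuous_const.mul ?_).add
    (continuous_finsetSum _ fun u _ => continuous_const.mul ?_)
  · exact (grad u (u + (1, 0))).cont_c
  · exact (grad u (u + (0, 1))).cont_c

/-- the finite volume two-point function as an integral over all configurations -/
theorem corr_eq (R : ℕ) (b : ℝ) {x : ℤ × ℤ} (hx : x ∈ box R) :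
    corr R b x = (∫ θ, (grad 0 x).c θ * Real.exp (boxE R b θ) ∂muInf) /
      ∫ θ, Real.exp (boxE R b θ) ∂muInf := by
  unfold corr expect
  have h0 : (0 : ℤ × ℤ) ∈ box R := by rw [mem_box]; simp
  have c1 : Continuous (fun θ : Ginf => (grad 0 x).c θ * Real.exp (boxE R b θ)) :=
    (grad 0 x).cont_c.mul (Real.continuous_exp.comp (boxE_cont R b))
  have c2 : Continuous (fun θ : Ginf => Real.exp (boxE R b θ)) :=
    Real.continuous_exp.comp (boxE_cont R b)
  have h1 := integral_ext (box R) c1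
  have h2 := integral_ext (box R) c2
  simp only [boxE_proj] at h1 h2
  have h3 : ∀ θ : Ginf, (grad 0 x).c (proj (box R : Set (ℤ × ℤ)) θ) = (grad 0 x).c θ := by
    intro θ
    unfold grad
    simp only
    rw [proj_of_mem (by simpa using h0), proj_of_mem (by simpa using hx)]
  simp only [h3] at h1
  rw [← h1, ← h2]
  congr 1
  · congr 1
    ext θ
    rw [boxEnergy_eq]
    rfl
  · congr 1
    ext θ
    rw [boxEnergy_eq]

end Vale.Agent.P159
end

section

/-!
The power law bound with the exponent given by the stiffness of a block.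
-/

open MeasureTheory Filter Topology
open scoped BigOperators

namespace Vale.Agent.P159

/-- energy of all blocks -/
noncomputable def gridE (l N : ℕ) (b : ℝ) (θ : Ginf) : ℝ :=
  ∑ k ∈ ivl N ×ˢ ivl N, ∑ e : BI l, b / 2 * (chiAt l k e).c θ

theorem sum_split_shift (S B : Finset (ℤ × ℤ)) (w : ℤ × ℤ) (F : ℤ × ℤ → ℝ)
    (h : ∀ u ∈ B, u - w ∈ S) :
    ∑ z ∈ S, F (z + w) = ∑ u ∈ B, F u + ∑ z ∈ S.filter (fun z => z + w ∉ B), F (z + w) := by
  rw [← Finset.sum_filter_add_sum_filter_not S (fun z => z + w ∈ B)]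
  congr 1
  refine Finset.sum_bij' (fun z _ => z + w) (fun u _ => u - w) ?_ ?_ ?_ ?_ ?_
  · intro z hz
    exact (Finset.mem_filter.1 hz).2
  · intro u hu
    rw [Finset.mem_filter]
    exact ⟨h u hu, by simpa using hu⟩
  · intro z _; simp
  · intro u _; simp
  · intro z _; rfl

theorem grid_sub_box {l : ℕ} (hl : 1 ≤ l) {N R : ℕ} (hN : R + 1 ≤ N) {b : ℝ} (hb : 0 ≤ b) :
    ∃ D : Ginf → ℝ, InCone D ∧ ∀ θ, gridE l N b θ = boxE R b θ + D θ := by
  set S := ivl (N * l) ×ˢ ivl (N * l) with hS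
  set BH := (box R).filter (fun u => u + (1, 0) ∈ box R) with hBH
  set BV := (box R).filter (fun u => u + (0, 1) ∈ box R) with hBV
  have hNl : R + 1 ≤ N * l := hN.trans (Nat.le_mul_of_pos_right N hl)
  have hmem : ∀ u : ℤ × ℤ, |u.1| ≤ R → |u.2| ≤ R → u ∈ S ∧ u - (1, 0) ∈ S ∧ u - (0, 1) ∈ S := by
    intro u h1 h2
    rw [abs_le] at h1 h2
    have h3 : (R : ℤ) + 1 ≤ ((N * l : ℕ) : ℤ) := by exact_mod_cast hNl
    simp only [hS, ivl, Finset.mem_product, Finset.mem_Ico, Prod.fst_sub, Prod.snd_sub]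
    refine ⟨⟨?_, ?_⟩, ⟨?_, ?_⟩, ?_, ?_⟩ <;> omega
  have hBHm : ∀ u ∈ BH, |u.1| ≤ R ∧ |u.2| ≤ R := fun u hu =>
    mem_box.1 (Finset.mem_filter.1 hu).1
  have hBVm : ∀ u ∈ BV, |u.1| ≤ R ∧ |u.2| ≤ R := fun u hu =>
    mem_box.1 (Finset.mem_filter.1 hu).1
  have s1 : ∀ θ, ∑ z ∈ S, Fh θ z = ∑ u ∈ BH, Fh θ u +
      ∑ z ∈ S.filter (fun z => z + 0 ∉ BH), Fh θ (z + 0) := by
    intro θ
    have := sum_split_shift S BH 0 (Fh θ) (fun u hu => by
      rw [sub_zero]; exact (hmem u (hBHm u hu).1 (hBHm u hu).2).1)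
    simpa using this
  have s2 : ∀ θ, ∑ z ∈ S, Fh θ (z + (0, 1)) = ∑ u ∈ BH, Fh θ u +
      ∑ z ∈ S.filter (fun z => z + (0, 1) ∉ BH), Fh θ (z + (0, 1)) := fun θ =>
    sum_split_shift S BH (0, 1) (Fh θ) (fun u hu => (hmem u (hBHm u hu).1 (hBHm u hu).2).2.2)
  have s3 : ∀ θ, ∑ z ∈ S, Fv θ z = ∑ u ∈ BV, Fv θ u +
      ∑ z ∈ S.filter (fun z => z + 0 ∉ BV), Fv θ (z + 0) := by
    intro θ
    have := sum_split_shift S BV 0 (Fv θ) (fun u hu => by
      rw [sub_zero]; exact (hmem u (hBVm u hu).1 (hBVm u hu).2).1)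
    simpa using this
  have s4 : ∀ θ, ∑ z ∈ S, Fv θ (z + (1, 0)) = ∑ u ∈ BV, Fv θ u +
      ∑ z ∈ S.filter (fun z => z + (1, 0) ∉ BV), Fv θ (z + (1, 0)) := fun θ =>
    sum_split_shift S BV (1, 0) (Fv θ) (fun u hu => (hmem u (hBVm u hu).1 (hBVm u hu).2).2.1)
  refine ⟨fun θ => b / 2 * ((∑ z ∈ S.filter (fun z => z + 0 ∉ BH), Fh θ (z + 0) +
    ∑ z ∈ S.filter (fun z => z + (0, 1) ∉ BH), Fh θ (z + (0, 1))) +
    (∑ z ∈ S.filter (fun z => z + 0 ∉ BV), Fv θ (z + 0) +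
    ∑ z ∈ S.filter (fun z => z + (1, 0) ∉ BV), Fv θ (z + (1, 0)))), ?_, ?_⟩
  · refine InCone.const_mul ?_ (by positivity)
    exact ((InCone.sum _ _ fun z _ => Fh_cone _).add (InCone.sum _ _ fun z _ => Fh_cone _)).add
      ((InCone.sum _ _ fun z _ => Fv_cone _).add (InCone.sum _ _ fun z _ => Fv_cone _))
  · intro θ
    unfold gridE
    rw [block_total hl]
    rw [← hS, ← Finset.mul_sum, Finset.sum_add_distrib, Finset.sum_add_distrib,
      Finset.sum_add_distrib, s1, s2, s3, s4]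
    unfold boxE
    rw [← hBH, ← hBV, ← Finset.mul_sum, ← Finset.mul_sum]
    ring

theorem gridE_cont (l N : ℕ) (b : ℝ) : Continuous (gridE l N b) :=
  continuous_finsetSum _ fun k _ => continuous_finsetSum _ fun e _ =>
    continuous_const.mul (chiAt l k e).cont_c

theorem corr_le_grid {l : ℕ} (hl : 1 ≤ l) {N R : ℕ} (hN : R + 1 ≤ N) {b : ℝ} (hb : 0 ≤ b)
    {x : ℤ × ℤ} (hx : x ∈ box R) {B : ℝ}
    (hB : |∫ θ, (grad 0 x).c θ * Real.exp (gridE l N b θ) ∂muInf| ≤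
      B * ∫ θ, Real.exp (gridE l N b θ) ∂muInf) : corr R b x ≤ B := by
  obtain ⟨D, hD, hE⟩ := grid_sub_box hl hN hb
  rw [corr_eq R b hx]
  have h := ginibre_mono muInf pi_div2 (boxE_cone R hb) hD (grad 0 x)
  simp_rw [← hE] at h
  have p1 : 0 < ∫ θ, Real.exp (boxE R b θ) ∂muInf :=
    integral_exp_pos (cint (Real.continuous_exp.comp (boxE_cont R b)))
  have p2 : 0 < ∫ θ, Real.exp (gridE l N b θ) ∂muInf :=
    integral_exp_pos (cint (Real.continuous_exp.comp (gridE_cont l N b)))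
  rw [div_le_iff₀ p1]
  have h1 := (le_abs_self _).trans hB
  have h2 : (∫ θ, (grad 0 x).c θ * Real.exp (boxE R b θ) ∂muInf) *
      (∫ θ, Real.exp (gridE l N b θ) ∂muInf) ≤
      (B * ∫ θ, Real.exp (boxE R b θ) ∂muInf) * (∫ θ, Real.exp (gridE l N b θ) ∂muInf) := by
    refine h.trans ?_
    calc (∫ θ, (grad 0 x).c θ * Real.exp (gridE l N b θ) ∂muInf) *
        (∫ θ, Real.exp (boxE R b θ) ∂muInf)
        ≤ (B * ∫ θ, Real.exp (gridE l N b θ) ∂muInf) * (∫ θ, Real.exp (boxE R b θ) ∂muInf) :=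
          mul_le_mul_of_nonneg_right h1 p1.le
      _ = _ := by ring
  exact le_of_mul_le_mul_right h2 p2

theorem corr_le_one (R : ℕ) {b : ℝ} {x : ℤ × ℤ} (hx : x ∈ box R) : corr R b x ≤ 1 := by
  rw [corr_eq R b hx]
  have p1 : 0 < ∫ θ, Real.exp (boxE R b θ) ∂muInf :=
    integral_exp_pos (cint (Real.continuous_exp.comp (boxE_cont R b)))
  rw [div_le_one p1]
  refine integral_mono (cint ((grad 0 x).cont_c.mul (Real.continuous_exp.comp (boxE_cont R b))))
    (cint (Real.continuous_exp.comp (boxE_cont R b))) fun θ => ?_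
  exact mul_le_of_le_one_left (Real.exp_pos _).le ((le_abs_self _).trans ((grad 0 x).abs_c_le θ))

/-- block bound for a coarse profile -/
theorem grid_bound {l : ℕ} (hl : 1 ≤ l) (N : ℕ) {b : ℝ} (hb : 0 ≤ b) (a : ℤ × ℤ → ℝ)
    (x : ℤ × ℤ) :
    |∫ θ, (grad 0 (cor l x)).c θ * Real.exp (gridE l N b θ) ∂muInf| ≤
      (Real.exp (-(a 0 - a x)) * ∏ k ∈ ivl N ×ˢ ivl N, rho muInf (fun _ : BI l => b / 2) (chi0 l)
        (fun e => (-(cp a k / l)) * hh e + (-(cq a k / l)) * vv e + (-(ck a k / l)) * ww e)) *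
      ∫ θ, Real.exp (gridE l N b θ) ∂muInf := by
  have hcor0 : cor l 0 = 0 := by unfold cor; ext <;> simp
  have hg : ∀ (u v : ℤ × ℤ) (s : ℝ), (grad u v).c (fun w => ((s * interp l a w : ℝ) : T)) =
      Real.cos (s * (interp l a u - interp l a v)) ∧
      (grad u v).s (fun w => ((s * interp l a w : ℝ) : T)) =
      Real.sin (s * (interp l a u - interp l a v)) := by
    intro u v s
    unfold grad
    simp only
    rw [← AddCircle.coe_sub, cosT_coe, sinT_coe, mul_sub]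
    exact ⟨rfl, rfl⟩
  have h := block_bound muInf (K := ↥(ivl N ×ˢ ivl N)) (κ := BI l) pi_div2 (fun _ => b / 2)
    (fun _ => by positivity) (fun k e => chiAt l k e) (grad 0 (cor l x))
    (fun k => proj (innerAt l k)) (fun k => proj_cont _)
    (by
      intro j k hjk e θ
      have hne : (j : ℤ × ℤ) ≠ (k : ℤ × ℤ) := fun h => hjk (Subtype.ext h)
      obtain ⟨a1, a2, a3, a4⟩ := bu_range e
      obtain ⟨b1, b2, b3, b4⟩ := bv_range e
      unfold chiAt grad
      simp only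
      rw [proj_of_notMem (notMem_innerAt hne a1 a2 a3 a4),
        proj_of_notMem (notMem_innerAt hne b1 b2 b3 b4), sub_zero, cosT_zero, sinT_zero]
      exact ⟨rfl, rfl⟩)
    (by
      intro k θ
      unfold grad
      simp only
      rw [← hcor0, proj_of_notMem (cor_notMem _ _), proj_of_notMem (cor_notMem _ _), sub_zero,
        cosT_zero, sinT_zero]
      exact ⟨rfl, rfl⟩)
    (fun k e => interp l a (cor l k + bu e) - interp l a (cor l k + bv e))
    (interp l a 0 - interp l a (cor l x))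
    (fun s => fun w => ((s * interp l a w : ℝ) : T))
    (fun k e s => hg _ _ s)
    (fun s => hg _ _ s)
  have e1 : ∀ θ : Ginf, ∑ k : ↥(ivl N ×ˢ ivl N), ∑ e : BI l, b / 2 * (chiAt l k e).c θ =
      gridE l N b θ := by
    intro θ
    unfold gridE
    exact Finset.sum_coe_sort (ivl N ×ˢ ivl N) (fun k => ∑ e : BI l, b / 2 * (chiAt l k e).c θ)
  simp_rw [e1] at h
  have e2 : interp l a 0 = a 0 := by
    have := interp_cor hl a 0
    rwa [hcor0] at this
  rw [e2, interp_cor hl] at h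
  simp_rw [rho_translate, interp_bond hl] at h
  rw [Finset.prod_coe_sort (ivl N ×ˢ ivl N) (fun k => rho muInf (fun _ : BI l => b / 2) (chi0 l)
        (fun e => (-(cp a k / l)) * hh e + (-(cq a k / l)) * vv e + (-(ck a k / l)) * ww e))] at h
  exact h

theorem hh_abs {l : ℕ} (e : BI l) : |hh e| ≤ 1 := by
  unfold hh; split_ifs <;> norm_num

theorem vv_abs {l : ℕ} (e : BI l) : |vv e| ≤ 1 := by
  unfold vv; split_ifs <;> norm_num

theorem hh_mul_vv {l : ℕ} (e : BI l) : hh e * vv e = 0 := by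
  unfold hh vv; split_ifs <;> norm_num

theorem ww_abs {l : ℕ} (hl : 1 ≤ l) (e : BI l) : |ww e| ≤ 1 := by
  have hl0 : (0 : ℝ) < l := by exact_mod_cast hl
  obtain ⟨a1, a2, a3, a4⟩ := bu_range e
  have b1 : (0 : ℝ) ≤ ((bu e).1 : ℝ) := by exact_mod_cast a1
  have b2 : ((bu e).1 : ℝ) ≤ l := by exact_mod_cast a2
  have b3 : (0 : ℝ) ≤ ((bu e).2 : ℝ) := by exact_mod_cast a3
  have b4 : ((bu e).2 : ℝ) ≤ l := by exact_mod_cast a4
  have c1 : ((bu e).1 : ℝ) / l ≤ 1 := by rw [div_le_one hl0]; exact b2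
  have c2 : 0 ≤ ((bu e).1 : ℝ) / l := by positivity
  have c3 : ((bu e).2 : ℝ) / l ≤ 1 := by rw [div_le_one hl0]; exact b4
  have c4 : 0 ≤ ((bu e).2 : ℝ) / l := by positivity
  unfold ww
  split_ifs <;> rw [abs_le] <;> constructor <;> linarith

/-- bound of one block factor -/
theorem rho_block {l : ℕ} (hl : 1 ≤ l) {b U : ℝ} (hb : 0 ≤ b) (hU : stiff l b ≤ U) :
    ∃ C δ : ℝ, 0 < C ∧ 0 < δ ∧ ∀ (a : ℤ × ℤ → ℝ) (k : ℤ × ℤ), cY a k ≤ δ →
      rho muInf (fun _ : BI l => b / 2) (chi0 l)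
        (fun e => (-(cp a k / l)) * hh e + (-(cq a k / l)) * vv e + (-(ck a k / l)) * ww e) ≤
        Real.exp (U / 2 * (cp a k ^ 2 + cq a k ^ 2) + C * (|ck a k| * cY a k + cY a k ^ 4)) := by
  obtain ⟨C, δ, hC, hδ, h⟩ := rho_expand muInf (fun _ : BI l => b / 2) (chi0 l)
    (fun _ => by positivity) hh vv ww hh_abs vv_abs hh_mul_vv (ww_abs hl) (cross_zero l b)
  refine ⟨C, δ, hC, hδ, fun a k hY => ?_⟩
  have hl1 : (1 : ℝ) ≤ l := by exact_mod_cast hl
  have hl0 : (0 : ℝ) < l := by linarith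
  have hY0 : 0 ≤ cY a k := by unfold cY; positivity
  have e1 : |(-(cp a k / l))| + |(-(cq a k / l))| + |(-(ck a k / l))| = cY a k / l := by
    unfold cY
    rw [abs_neg, abs_neg, abs_neg, abs_div, abs_div, abs_div, abs_of_pos hl0]
    ring
  have e2 : cY a k / l ≤ cY a k := div_le_self hY0 hl1
  have h1 := h (-(cp a k / l)) (-(cq a k / l)) (-(ck a k / l)) (by rw [e1]; linarith)
  refine h1.trans (Real.exp_le_exp.2 ?_)
  rw [e1, Q_h l b hl, Q_v l b hl]
  have e3 : ((-(cp a k / l)) ^ 2 * ((l : ℝ) ^ 2 * stiff l b) +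
      (-(cq a k / l)) ^ 2 * ((l : ℝ) ^ 2 * stiff l b)) / 2 =
      stiff l b / 2 * (cp a k ^ 2 + cq a k ^ 2) := by
    field_simp
  rw [e3]
  have e4 : |(-(ck a k / l))| ≤ |ck a k| := by
    rw [abs_neg, abs_div, abs_of_pos hl0]
    exact div_le_self (abs_nonneg _) hl1
  have e5 : 0 ≤ cY a k / l := by positivity
  gcongr

theorem shift_lin (f : ℤ × ℤ → ℝ) (t : ℝ) (x z : ℤ × ℤ) :
    cp (fun z => t * (f z - f (z - x))) z = t * (cp f z - cp f (z - x)) ∧
    cq (fun z => t * (f z - f (z - x))) z = t * (cq f z - cq f (z - x)) ∧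
    ck (fun z => t * (f z - f (z - x))) z = t * (ck f z - ck f (z - x)) := by
  have h : ∀ w : ℤ × ℤ, z + w - x = z - x + w := fun w => by abel
  have h' : ∀ w w' : ℤ × ℤ, z + w + w' - x = z - x + w + w' := fun w w' => by abel
  refine ⟨?_, ?_, ?_⟩
  · unfold cp; simp only [h, h']; ring
  · unfold cq; simp only [h, h']; ring
  · unfold ck; simp only [h, h']; ring

/-- cell quantities of the two-centre profile -/
theorem two_centre {M : ℝ} (hM : 9 ≤ M) {n : ℕ} {t : ℝ} (ht : 0 < t) {x : ℤ × ℤ}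
    (hx : 2 * (n : ℤ) < max |x.1| |x.2|) (z : ℤ × ℤ) :
    let a : ℤ × ℤ → ℝ := fun z => t * (psi M n z - psi M n (z - x))
    cp a z ^ 2 + cq a z ^ 2 = t ^ 2 * ((cp (psi M n) z ^ 2 + cq (psi M n) z ^ 2) +
      (cp (psi M n) (z - x) ^ 2 + cq (psi M n) (z - x) ^ 2)) ∧
    cY a z ≤ t * max (cY (psi M n) z) (cY (psi M n) (z - x)) ∧
    |ck a z| * cY a z + cY a z ^ 4 ≤ (t ^ 2 + t ^ 4) *
      ((|ck (psi M n) z| * cY (psi M n) z + cY (psi M n) z ^ 4) +
      (|ck (psi M n) (z - x)| * cY (psi M n) (z - x) + cY (psi M n) (z - x) ^ 4)) := by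
  intro a
  obtain ⟨h1, h2, h3⟩ := shift_lin (psi M n) t x z
  have hdis : z ∉ sq n ∨ z - x ∉ sq n := by
    by_contra hcon
    push Not at hcon
    obtain ⟨c1, c2⟩ := hcon
    rw [mem_sq_iff] at c1 c2
    obtain ⟨c3, c4⟩ := c1
    obtain ⟨c5, c6⟩ := c2
    simp only [Prod.fst_sub, Prod.snd_sub] at c5 c6
    rw [abs_le] at c3 c4 c5 c6
    have d1 : |x.1| ≤ 2 * n := by rw [abs_le]; omega
    have d2 : |x.2| ≤ 2 * n := by rw [abs_le]; omega
    have := max_le d1 d2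
    omega
  have hYa : cY a z = t * (|cp (psi M n) z - cp (psi M n) (z - x)| +
      |cq (psi M n) z - cq (psi M n) (z - x)| + |ck (psi M n) z - ck (psi M n) (z - x)|) := by
    unfold cY
    rw [h1, h2, h3, abs_mul, abs_mul, abs_mul, abs_of_pos ht]
    ring
  have g : ∀ {k Y : ℝ}, 0 ≤ k → 0 ≤ Y → (t * k) * (t * Y) + (t * Y) ^ 4 ≤
      (t ^ 2 + t ^ 4) * (k * Y + Y ^ 4) := by
    intro k Y hk hY
    have e1 : (t ^ 2 + t ^ 4) * (k * Y + Y ^ 4) - ((t * k) * (t * Y) + (t * Y) ^ 4) =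
      t ^ 2 * Y ^ 4 + t ^ 4 * (k * Y) := by ring
    have e2 : 0 ≤ t ^ 2 * Y ^ 4 + t ^ 4 * (k * Y) := by positivity
    linarith
  rcases hdis with hz | hz
  · obtain ⟨i1, i2, i3⟩ := psi_inactive hM hz
    have hY1 : cY (psi M n) z = 0 := by unfold cY; rw [i1, i2, i3]; simp
    have hY2 : cY a z = t * cY (psi M n) (z - x) := by
      rw [hYa, i1, i2, i3, zero_sub, zero_sub, zero_sub, abs_neg, abs_neg, abs_neg]
      rfl
    have hk : |ck a z| = t * |ck (psi M n) (z - x)| := by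
      rw [h3, i3, zero_sub, mul_neg, abs_neg, abs_mul, abs_of_pos ht]
    refine ⟨?_, ?_, ?_⟩
    · rw [h1, h2, i1, i2]; ring
    · rw [hY2]
      exact mul_le_mul_of_nonneg_left (le_max_right _ _) ht.le
    · rw [hY2, hk, hY1, i3, abs_zero]
      have := g (abs_nonneg (ck (psi M n) (z - x)))
        (show 0 ≤ cY (psi M n) (z - x) by unfold cY; positivity)
      simpa using this
  · obtain ⟨i1, i2, i3⟩ := psi_inactive hM hz
    have hY1 : cY (psi M n) (z - x) = 0 := by unfold cY; rw [i1, i2, i3]; simp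
    have hY2 : cY a z = t * cY (psi M n) z := by
      rw [hYa, i1, i2, i3, sub_zero, sub_zero, sub_zero]
      rfl
    have hk : |ck a z| = t * |ck (psi M n) z| := by
      rw [h3, i3, sub_zero, abs_mul, abs_of_pos ht]
    refine ⟨?_, ?_, ?_⟩
    · rw [h1, h2, i1, i2]; ring
    · rw [hY2]
      exact mul_le_mul_of_nonneg_left (le_max_left _ _) ht.le
    · rw [hY2, hk, hY1, i3, abs_zero]
      have := g (abs_nonneg (ck (psi M n) z))
        (show 0 ≤ cY (psi M n) z by unfold cY; positivity)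
      simpa using this

/-- power law bound at the corners of the blocks -/
theorem ms_coarse {l : ℕ} (hl : 1 ≤ l) {b : ℝ} (hb : 0 ≤ b) {U : ℝ} (hU0 : 0 ≤ U)
    (hU : stiff l b ≤ U) {t : ℝ} (ht : 0 < t) :
    ∃ K : ℝ, 0 < K ∧ ∀ (R : ℕ) (x : ℤ × ℤ), x ≠ 0 → cor l x ∈ box R →
      corr R b (cor l x) ≤ K * ((max |x.1| |x.2| : ℤ) : ℝ) ^ (-(2 * t - 2 * Real.pi * U * t ^ 2)) := by
  obtain ⟨C, δ, hC, hδ, hrho⟩ := rho_block hl hb hU
  set s := 2 * t - 2 * Real.pi * U * t ^ 2 with hs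
  set M := 9 + 16 * t / δ with hMdef
  have hM : 9 ≤ M := by
    have : 0 ≤ 16 * t / δ := by positivity
    linarith
  set c0 := 2 * t * Real.log M + U * t ^ 2 * 4600 + C * (t ^ 2 + t ^ 4) * 420000 with hc0
  refine ⟨Real.exp c0 * (4 : ℝ) ^ |s| + (4 : ℝ) ^ |s|, by positivity, ?_⟩
  intro R x hx0 hxR
  obtain ⟨X, hX⟩ : ∃ X : ℕ, (X : ℤ) = max |x.1| |x.2| :=
    ⟨(max |x.1| |x.2|).toNat, Int.toNat_of_nonneg (le_max_of_le_left (abs_nonneg _))⟩
  have hX1 : 1 ≤ X := by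
    by_contra h
    have h0 : X = 0 := by omega
    rw [h0] at hX
    apply hx0
    have h1 : |x.1| ≤ 0 := by
      have := le_max_left |x.1| |x.2|
      omega
    have h2 : |x.2| ≤ 0 := by
      have := le_max_right |x.1| |x.2|
      omega
    ext
    · exact abs_eq_zero.1 (le_antisymm h1 (abs_nonneg _))
    · exact abs_eq_zero.1 (le_antisymm h2 (abs_nonneg _))
  rw [← hX]
  have hXr : (1 : ℝ) ≤ ((X : ℤ) : ℝ) := by exact_mod_cast hX1
  have hXpos : (0 : ℝ) < ((X : ℤ) : ℝ) := by linarith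
  have h4s : (0 : ℝ) < (4 : ℝ) ^ |s| := by positivity
  by_cases hsmall : X ≤ 4
  · -- small distances
    have h1 : (1 : ℝ) ≤ (4 : ℝ) ^ |s| * ((X : ℤ) : ℝ) ^ (-s) := by
      have hX4 : ((X : ℤ) : ℝ) ≤ 4 := by exact_mod_cast hsmall
      have h2 : ((X : ℤ) : ℝ) ^ s ≤ (4 : ℝ) ^ |s| := by
        calc ((X : ℤ) : ℝ) ^ s ≤ ((X : ℤ) : ℝ) ^ |s| :=
              Real.rpow_le_rpow_of_exponent_le hXr (le_abs_self s)
          _ ≤ (4 : ℝ) ^ |s| := Real.rpow_le_rpow hXpos.le hX4 (abs_nonneg s)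
      rw [Real.rpow_neg hXpos.le, ← div_eq_mul_inv, le_div_iff₀ (Real.rpow_pos_of_pos hXpos s),
        one_mul]
      exact h2
    have h2 := corr_le_one R (b := b) hxR
    have h3 : 0 ≤ Real.exp c0 * (4 : ℝ) ^ |s| * ((X : ℤ) : ℝ) ^ (-s) := by positivity
    rw [add_mul]
    linarith only [h1, h2, h3]
  · push Not at hsmall
    obtain ⟨n, hn⟩ : ∃ n : ℕ, n = (X - 1) / 2 := ⟨_, rfl⟩
    have hn1 : 1 ≤ n := by omega
    have hn2 : 2 * n < X := by omega
    have hn3 : X ≤ 4 * n := by omega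
    have hnr : (1 : ℝ) ≤ (n : ℝ) := by exact_mod_cast hn1
    have hx2 : 2 * (n : ℤ) < max |x.1| |x.2| := by rw [← hX]; exact_mod_cast hn2
    set a : ℤ × ℤ → ℝ := fun z => t * (psi M n z - psi M n (z - x)) with ha
    have hgrid := grid_bound hl (R + 1) hb a x
    refine (corr_le_grid hl (le_refl _) hb hxR hgrid).trans ?_
    -- smallness
    have hYsmall : ∀ k, cY a k ≤ δ := by
      intro k
      refine (two_centre hM ht hx2 k).2.1.trans ?_
      have h1 : ∀ z, cY (psi M n) z ≤ 16 / M := by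
        intro z
        refine (cY_le hM n z).trans ?_
        have h2 : M ≤ Real.sqrt (qq M z) := by
          apply Real.le_sqrt_of_sq_le
          unfold qq
          nlinarith only []
        have hM0 : 0 < M := by linarith only [hM]
        gcongr
      have h2 : t * max (cY (psi M n) k) (cY (psi M n) (k - x)) ≤ t * (16 / M) :=
        mul_le_mul_of_nonneg_left (max_le (h1 _) (h1 _)) ht.le
      refine h2.trans ?_
      rw [mul_div_assoc', div_le_iff₀ (by linarith only [hM]), hMdef]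
      have h3 : δ * (9 + 16 * t / δ) = 9 * δ + 16 * t := by field_simp
      rw [h3]
      linarith only [hδ]
    have hprod : ∏ k ∈ ivl (R + 1) ×ˢ ivl (R + 1), rho muInf (fun _ : BI l => b / 2) (chi0 l)
        (fun e => (-(cp a k / l)) * hh e + (-(cq a k / l)) * vv e + (-(ck a k / l)) * ww e) ≤
        Real.exp (U * t ^ 2 * (2 * Real.pi * Real.log n + 4600) +
          C * (t ^ 2 + t ^ 4) * 420000) := by
      have h1 : ∏ k ∈ ivl (R + 1) ×ˢ ivl (R + 1), rho muInf (fun _ : BI l => b / 2) (chi0 l)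
        (fun e => (-(cp a k / l)) * hh e + (-(cq a k / l)) * vv e + (-(ck a k / l)) * ww e) ≤
        ∏ k ∈ ivl (R + 1) ×ˢ ivl (R + 1), Real.exp (U / 2 * (cp a k ^ 2 + cq a k ^ 2) +
          C * (|ck a k| * cY a k + cY a k ^ 4)) :=
        Finset.prod_le_prod (fun k _ => div_nonneg (norm_nonneg _) (norm_nonneg _))
          (fun k _ => hrho a k (hYsmall k))
      refine h1.trans ?_
      rw [← Real.exp_sum]
      apply Real.exp_le_exp.2
      set S := ivl (R + 1) ×ˢ ivl (R + 1) with hS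
      have h2 : ∀ k ∈ S, U / 2 * (cp a k ^ 2 + cq a k ^ 2) +
          C * (|ck a k| * cY a k + cY a k ^ 4) ≤
          U / 2 * t ^ 2 * ((cp (psi M n) (k - 0) ^ 2 + cq (psi M n) (k - 0) ^ 2) +
            (cp (psi M n) (k - x) ^ 2 + cq (psi M n) (k - x) ^ 2)) +
          C * (t ^ 2 + t ^ 4) * ((|ck (psi M n) (k - 0)| * cY (psi M n) (k - 0) +
            cY (psi M n) (k - 0) ^ 4) +
            (|ck (psi M n) (k - x)| * cY (psi M n) (k - x) + cY (psi M n) (k - x) ^ 4)) := by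
        intro k _
        obtain ⟨g1, _, g3⟩ := two_centre hM ht hx2 k
        rw [sub_zero]
        have g4 := mul_le_mul_of_nonneg_left g3 hC.le
        rw [g1]
        linarith only [g4]
      refine (Finset.sum_le_sum h2).trans ?_
      rw [Finset.sum_add_distrib, ← Finset.mul_sum, ← Finset.mul_sum]
      have k1 : ∑ k ∈ S, ((cp (psi M n) (k - 0) ^ 2 + cq (psi M n) (k - 0) ^ 2) +
            (cp (psi M n) (k - x) ^ 2 + cq (psi M n) (k - x) ^ 2)) =
          ∑ k ∈ S, (cp (psi M n) (k - 0) ^ 2 + cq (psi M n) (k - 0) ^ 2) +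
          ∑ k ∈ S, (cp (psi M n) (k - x) ^ 2 + cq (psi M n) (k - x) ^ 2) :=
        Finset.sum_add_distrib
      have k2 : ∑ k ∈ S, ((|ck (psi M n) (k - 0)| * cY (psi M n) (k - 0) +
            cY (psi M n) (k - 0) ^ 4) +
            (|ck (psi M n) (k - x)| * cY (psi M n) (k - x) + cY (psi M n) (k - x) ^ 4)) =
          ∑ k ∈ S, (|ck (psi M n) (k - 0)| * cY (psi M n) (k - 0) +
            cY (psi M n) (k - 0) ^ 4) + ∑ k ∈ S, (|ck (psi M n) (k - x)| * cY (psi M n) (k - x) +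
            cY (psi M n) (k - x) ^ 4) := Finset.sum_add_distrib
      rw [k1, k2]
      have p0 := sum_P_le hM hn1 S 0
      have p1 := sum_P_le hM hn1 S x
      have q0 := sum_E_le hM hn1 S 0
      have q1 := sum_E_le hM hn1 S x
      have r1 : U / 2 * t ^ 2 * (∑ k ∈ S, (cp (psi M n) (k - 0) ^ 2 + cq (psi M n) (k - 0) ^ 2) +
          ∑ k ∈ S, (cp (psi M n) (k - x) ^ 2 + cq (psi M n) (k - x) ^ 2)) ≤
          U / 2 * t ^ 2 * ((2 * Real.pi * Real.log n + 4600) +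
            (2 * Real.pi * Real.log n + 4600)) :=
        mul_le_mul_of_nonneg_left (add_le_add p0 p1) (by positivity)
      have r2 : C * (t ^ 2 + t ^ 4) * (∑ k ∈ S, (|ck (psi M n) (k - 0)| * cY (psi M n) (k - 0) +
            cY (psi M n) (k - 0) ^ 4) + ∑ k ∈ S, (|ck (psi M n) (k - x)| * cY (psi M n) (k - x) +
            cY (psi M n) (k - x) ^ 4)) ≤ C * (t ^ 2 + t ^ 4) * (210000 + 210000) :=
        mul_le_mul_of_nonneg_left (add_le_add q0 q1) (by positivity)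
      linarith only [r1, r2]
    have hdiff : 2 * t * Real.log n - 2 * t * Real.log M ≤ a 0 - a x := by
      have hzero : ∀ w : ℤ × ℤ, (n : ℤ) < max |w.1| |w.2| → psi M n w = 0 := by
        intro w hw
        by_contra hne
        obtain ⟨h1, h2⟩ := psi_support hM hne
        have := max_lt h1 h2
        omega
      have e1 : psi M n (0 - x) = 0 := by
        apply hzero
        simp only [zero_sub, Prod.fst_neg, Prod.snd_neg, abs_neg]
        omega
      have e2 : psi M n x = 0 := by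
        apply hzero
        omega
      simp only [ha]
      rw [e1, e2, sub_self]
      have hM0 : 0 < M := by linarith only [hM]
      have e3 : Real.log n - Real.log M ≤ psi M n 0 := by
        unfold psi phi qq
        refine le_trans ?_ (le_max_right _ _)
        have h1 : Real.log ((n : ℝ) ^ 2) ≤ Real.log (M ^ 2 + (n : ℝ) ^ 2) := by
          apply Real.log_le_log (by positivity)
          nlinarith only []
        rw [Real.log_pow] at h1
        have h2 : M ^ 2 + (((0 : ℤ × ℤ).1 : ℤ) : ℝ) ^ 2 + (((0 : ℤ × ℤ).2 : ℤ) : ℝ) ^ 2 = M ^ 2 := by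
          simp
        rw [h2, Real.log_pow]
        push_cast at h1 ⊢
        linarith only [h1]
      have e4 : t * (psi M n 0 - 0) - t * (0 - psi M n 0) = 2 * t * psi M n 0 := by ring
      rw [e4]
      have := mul_le_mul_of_nonneg_left e3 (show 0 ≤ 2 * t by positivity)
      linarith only [this]
    have htot : Real.exp (-(a 0 - a x)) * ∏ k ∈ ivl (R + 1) ×ˢ ivl (R + 1),
        rho muInf (fun _ : BI l => b / 2) (chi0 l)
        (fun e => (-(cp a k / l)) * hh e + (-(cq a k / l)) * vv e + (-(ck a k / l)) * ww e) ≤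
        Real.exp c0 * (n : ℝ) ^ (-s) := by
      calc _ ≤ Real.exp (-(2 * t * Real.log n - 2 * t * Real.log M)) *
            Real.exp (U * t ^ 2 * (2 * Real.pi * Real.log n + 4600) +
          C * (t ^ 2 + t ^ 4) * 420000) := by
            apply mul_le_mul _ hprod _ (Real.exp_pos _).le
            · exact Real.exp_le_exp.2 (by linarith only [hdiff])
            · exact Finset.prod_nonneg fun k _ => div_nonneg (norm_nonneg _) (norm_nonneg _)
        _ = Real.exp c0 * (n : ℝ) ^ (-s) := by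
            rw [Real.rpow_def_of_pos (by linarith only [hnr]), ← Real.exp_add, ← Real.exp_add]
            congr 1
            rw [hc0, hs]
            ring
    refine htot.trans ?_
    have hns : (n : ℝ) ^ (-s) ≤ (4 : ℝ) ^ |s| * ((X : ℤ) : ℝ) ^ (-s) := by
      have hn0 : (0 : ℝ) < n := by linarith only [hnr]
      have hXn : ((X : ℤ) : ℝ) ≤ 4 * n := by exact_mod_cast hn3
      have hnX : (n : ℝ) ≤ ((X : ℤ) : ℝ) := by
        have : n ≤ X := by omega
        exact_mod_cast this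
      rcases le_or_gt 0 s with h | h
      · rw [abs_of_nonneg h, Real.rpow_neg hn0.le, Real.rpow_neg hXpos.le, ← div_eq_mul_inv,
          le_div_iff₀ (Real.rpow_pos_of_pos hXpos s), ← div_eq_inv_mul,
          div_le_iff₀ (Real.rpow_pos_of_pos hn0 s), ← Real.mul_rpow (by norm_num) hn0.le]
        exact Real.rpow_le_rpow hXpos.le hXn h
      · calc (n : ℝ) ^ (-s) ≤ ((X : ℤ) : ℝ) ^ (-s) := Real.rpow_le_rpow hn0.le hnX (by linarith only [h])
          _ ≤ (4 : ℝ) ^ |s| * ((X : ℤ) : ℝ) ^ (-s) := by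
            have : (1 : ℝ) ≤ (4 : ℝ) ^ |s| := Real.one_le_rpow (by norm_num) (abs_nonneg s)
            have h0 : 0 ≤ ((X : ℤ) : ℝ) ^ (-s) := by positivity
            nlinarith only [this, h0]
    have h5 : Real.exp c0 * (n : ℝ) ^ (-s) ≤ Real.exp c0 * ((4 : ℝ) ^ |s| * ((X : ℤ) : ℝ) ^ (-s)) :=
      mul_le_mul_of_nonneg_left hns (Real.exp_pos _).le
    have h6 : 0 ≤ (4 : ℝ) ^ |s| * ((X : ℤ) : ℝ) ^ (-s) := by positivity
    rw [add_mul]
    linarith only [h5, h6]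

end Vale.Agent.P159
end
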