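import Vale.Agent.P159.Bdl.B3
import Vale.Agent.P159.Defs
import Vale.Agent.P159.Bdl.B7

set_option linter.all false

section

/-!
# The model on finite subsets of the square lattice; infinite volume limit
-/

open MeasureTheory Filter Topology

set_option linter.unusedSectionVars false

namespace Vale.Agent.P159.XY

open Vale.Agent.P159 (box nn)

/-- symmetric nearest neighbour couplings, one half for each ordered pair -/
noncomputable def A (u v : ℤ × ℤ) : ℝ := (nn 1 u v + nn 1 v u) / 2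

theorem nn_nonneg {b : ℝ} (hb : 0 ≤ b) (u v : ℤ × ℤ) : 0 ≤ nn b u v := by
  unfold nn; split_ifs <;> simp [hb]

theorem nn_eq (b : ℝ) (u v : ℤ × ℤ) : nn b u v = b * nn 1 u v := by
  unfold nn; split_ifs <;> simp

theorem A_nonneg (u v : ℤ × ℤ) : 0 ≤ A u v := by
  have h1 := nn_nonneg zero_le_one u v
  have h2 := nn_nonneg zero_le_one v u
  unfold A; positivity

theorem A_symm (u v : ℤ × ℤ) : A u v = A v u := by
  unfold A; ring

/-- two point function in the finite set `S` -/
noncomputable def KS (S : Finset (ℤ × ℤ)) (b : ℝ) (x y : ℤ × ℤ) : ℝ :=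
  if h : x ∈ S ∧ y ∈ S then corr (fun u v : S => b * A u v) ⟨x, h.1⟩ ⟨y, h.2⟩ else 0

theorem KS_of_mem {S : Finset (ℤ × ℤ)} (b : ℝ) {x y : ℤ × ℤ} (hx : x ∈ S) (hy : y ∈ S) :
    KS S b x y = corr (fun u v : S => b * A u v) ⟨x, hx⟩ ⟨y, hy⟩ := by
  unfold KS; rw [dif_pos ⟨hx, hy⟩]

theorem KS_nonneg (S : Finset (ℤ × ℤ)) {b : ℝ} (hb : 0 ≤ b) (x y : ℤ × ℤ) : 0 ≤ KS S b x y := by
  unfold KS
  split_ifs with h
  · exact corr_nonneg _ (fun u v => mul_nonneg hb (A_nonneg _ _)) _ _
  · exact le_rfl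

theorem KS_le_one (S : Finset (ℤ × ℤ)) (b : ℝ) (x y : ℤ × ℤ) : KS S b x y ≤ 1 := by
  unfold KS
  split_ifs with h
  · exact corr_le_one _ _ _
  · exact zero_le_one

theorem KS_comm (S : Finset (ℤ × ℤ)) (b : ℝ) (x y : ℤ × ℤ) : KS S b x y = KS S b y x := by
  unfold KS
  by_cases h : x ∈ S ∧ y ∈ S
  · rw [dif_pos h, dif_pos h.symm, corr_comm]
  · rw [dif_neg h, dif_neg fun h' => h h'.symm]

theorem KS_self {S : Finset (ℤ × ℤ)} (b : ℝ) {x : ℤ × ℤ} (hx : x ∈ S) : KS S b x x = 1 := by
  rw [KS_of_mem b hx hx, corr_self]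

theorem KS_supermul (S : Finset (ℤ × ℤ)) {b : ℝ} (hb : 0 ≤ b) (x y z : ℤ × ℤ) :
    KS S b x y * KS S b y z ≤ KS S b x z := by
  by_cases hx : x ∈ S
  · by_cases hy : y ∈ S
    · by_cases hz : z ∈ S
      · rw [KS_of_mem b hx hy, KS_of_mem b hy hz, KS_of_mem b hx hz]
        exact corr_supermul _ (fun u v => mul_nonneg hb (A_nonneg _ _)) _ _ _
      · have : KS S b y z = 0 := by unfold KS; rw [dif_neg fun h => hz h.2]
        rw [this, mul_zero]; exact KS_nonneg S hb _ _
    · have : KS S b y z = 0 := by unfold KS; rw [dif_neg fun h => hy h.1]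
      rw [this, mul_zero]; exact KS_nonneg S hb _ _
  · have : KS S b x y = 0 := by unfold KS; rw [dif_neg fun h => hx h.1]
    rw [this, zero_mul]; exact KS_nonneg S hb _ _

theorem KS_map {S S' : Finset (ℤ × ℤ)} (g : ℤ × ℤ → ℤ × ℤ) (hg : Function.Injective g)
    (hA : ∀ u v, A u v ≤ A (g u) (g v)) (hS : ∀ u ∈ S, g u ∈ S') {b : ℝ} (hb : 0 ≤ b)
    (x y : ℤ × ℤ) : KS S b x y ≤ KS S' b (g x) (g y) := by
  by_cases h : x ∈ S ∧ y ∈ S
  · rw [KS_of_mem b h.1 h.2, KS_of_mem b (hS x h.1) (hS y h.2)]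
    exact corr_embed (fun u : S => (⟨g u, hS u u.2⟩ : S'))
      (fun u v huv => Subtype.ext (hg (by simpa only [Subtype.mk.injEq] using huv)))
      (fun u v => mul_nonneg hb (A_nonneg _ _)) (fun u v => mul_nonneg hb (A_nonneg _ _))
      (fun u v => mul_le_mul_of_nonneg_left (hA u v) hb) _ _
  · have : KS S b x y = 0 := by unfold KS; rw [dif_neg h]
    rw [this]; exact KS_nonneg S' hb _ _

theorem KS_mono {S S' : Finset (ℤ × ℤ)} (hS : S ⊆ S') {b : ℝ} (hb : 0 ≤ b) (x y : ℤ × ℤ) :
    KS S b x y ≤ KS S' b x y :=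
  KS_map id Function.injective_id (fun _ _ => le_rfl) (fun _ hu => hS hu) hb x y

theorem KS_mono_b (S : Finset (ℤ × ℤ)) {b b' : ℝ} (hb : 0 ≤ b) (hbb : b ≤ b') (x y : ℤ × ℤ) :
    KS S b x y ≤ KS S b' x y := by
  unfold KS
  split_ifs with h
  · exact corr_mono (fun u v => mul_nonneg hb (A_nonneg _ _))
      (fun u v => mul_le_mul_of_nonneg_right hbb (A_nonneg _ _)) _ _
  · exact le_rfl

theorem A_eq (u v : ℤ × ℤ) :
    A u v = if (u.1 - v.1).natAbs + (u.2 - v.2).natAbs = 1 then 1 / 2 else 0 := by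
  unfold A nn
  simp only [Prod.ext_iff, Prod.fst_add, Prod.snd_add]
  split_ifs <;> first | (exfalso; omega) | norm_num

theorem A_congr {u v u' v' : ℤ × ℤ}
    (h : (u.1 - v.1).natAbs + (u.2 - v.2).natAbs = (u'.1 - v'.1).natAbs + (u'.2 - v'.2).natAbs) :
    A u v = A u' v' := by
  rw [A_eq, A_eq, h]

theorem A_add (t u v : ℤ × ℤ) : A (u + t) (v + t) = A u v := by
  apply A_congr
  simp only [Prod.fst_add, Prod.snd_add]
  omega

theorem A_swap (u v : ℤ × ℤ) : A u.swap v.swap = A u v := by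
  apply A_congr
  simp only [Prod.fst_swap, Prod.snd_swap]
  omega

/-- reflection of the first coordinate -/
def refl1 (u : ℤ × ℤ) : ℤ × ℤ := (-u.1, u.2)

theorem A_refl1 (u v : ℤ × ℤ) : A (refl1 u) (refl1 v) = A u v := by
  apply A_congr
  simp only [refl1]
  omega

theorem mem_box {R : ℕ} {x : ℤ × ℤ} : x ∈ box R ↔ x.1.natAbs ≤ R ∧ x.2.natAbs ≤ R := by
  unfold box
  rw [Finset.mem_Icc, Prod.le_def, Prod.le_def]
  simp only
  (clear * -; omega)

/-- sup norm on the lattice -/
def nm (x : ℤ × ℤ) : ℕ := max x.1.natAbs x.2.natAbs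

theorem mem_box_iff_nm {R : ℕ} {x : ℤ × ℤ} : x ∈ box R ↔ nm x ≤ R := by
  rw [mem_box]; unfold nm; omega

theorem nm_add_le (x y : ℤ × ℤ) : nm (x + y) ≤ nm x + nm y := by
  exact max_le ((Int.natAbs_add_le _ _).trans (add_le_add (le_max_left _ _) (le_max_left _ _)))
    ((Int.natAbs_add_le _ _).trans (add_le_add (le_max_right _ _) (le_max_right _ _)))

theorem nm_neg (x : ℤ × ℤ) : nm (-x) = nm x := by
  unfold nm
  simp only [Prod.fst_neg, Prod.snd_neg]
  omega

theorem nm_zero : nm 0 = 0 := rfl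

theorem exists_box (S : Finset (ℤ × ℤ)) : ∃ R, S ⊆ box R := by
  refine ⟨S.sup nm, fun x hx => ?_⟩
  rw [mem_box_iff_nm]
  exact Finset.le_sup hx

theorem box_mono {R R' : ℕ} (h : R ≤ R') : box R ⊆ box R' := fun x hx => by
  rw [mem_box_iff_nm] at *; omega

/-- infinite volume two-point function -/
noncomputable def CI (b : ℝ) (x y : ℤ × ℤ) : ℝ := ⨆ R : ℕ, KS (box R) b x y

theorem bddAbove_KS (b : ℝ) (x y : ℤ × ℤ) :
    BddAbove (Set.range fun R : ℕ => KS (box R) b x y) :=
  ⟨1, by rintro _ ⟨R, rfl⟩; exact KS_le_one _ _ _ _⟩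

theorem tendsto_KS {b : ℝ} (hb : 0 ≤ b) (x y : ℤ × ℤ) :
    Tendsto (fun R : ℕ => KS (box R) b x y) atTop (𝓝 (CI b x y)) :=
  tendsto_atTop_ciSup (fun _ _ h => KS_mono (box_mono h) hb x y) (bddAbove_KS b x y)

theorem KS_box_le_CI (b : ℝ) (R : ℕ) (x y : ℤ × ℤ) : KS (box R) b x y ≤ CI b x y :=
  le_ciSup (bddAbove_KS b x y) R

theorem KS_le_CI (S : Finset (ℤ × ℤ)) {b : ℝ} (hb : 0 ≤ b) (x y : ℤ × ℤ) :
    KS S b x y ≤ CI b x y := by
  obtain ⟨R, hR⟩ := exists_box S
  exact (KS_mono hR hb x y).trans (KS_box_le_CI b R x y)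

theorem CI_nonneg {b : ℝ} (hb : 0 ≤ b) (x y : ℤ × ℤ) : 0 ≤ CI b x y :=
  (KS_nonneg (box 0) hb x y).trans (KS_box_le_CI b 0 x y)

theorem CI_le_one (b : ℝ) (x y : ℤ × ℤ) : CI b x y ≤ 1 :=
  ciSup_le fun _ => KS_le_one _ _ _ _

theorem CI_comm (b : ℝ) (x y : ℤ × ℤ) : CI b x y = CI b y x := by
  unfold CI; simp_rw [KS_comm _ b x y]

theorem CI_self (b : ℝ) (x : ℤ × ℤ) : CI b x x = 1 := by
  apply le_antisymm (CI_le_one b x x)
  rw [← KS_self (S := box (nm x)) b (mem_box_iff_nm.2 le_rfl)]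
  exact KS_box_le_CI b _ x x

theorem CI_supermul {b : ℝ} (hb : 0 ≤ b) (x y z : ℤ × ℤ) :
    CI b x y * CI b y z ≤ CI b x z :=
  le_of_tendsto_of_tendsto' ((tendsto_KS hb x y).mul (tendsto_KS hb y z)) (tendsto_KS hb x z)
    fun _ => KS_supermul _ hb x y z

theorem CI_mono_b {b b' : ℝ} (hb : 0 ≤ b) (hbb : b ≤ b') (x y : ℤ × ℤ) :
    CI b x y ≤ CI b' x y :=
  le_of_tendsto_of_tendsto' (tendsto_KS hb x y) (tendsto_KS (hb.trans hbb) x y)
    fun _ => KS_mono_b _ hb hbb x y

theorem CI_map (g : ℤ × ℤ → ℤ × ℤ) (hg : Function.Injective g)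
    (hA : ∀ u v, A u v ≤ A (g u) (g v)) {b : ℝ} (hb : 0 ≤ b) (x y : ℤ × ℤ) :
    CI b x y ≤ CI b (g x) (g y) := by
  refine ciSup_le fun R => ?_
  exact (KS_map (S' := (box R).image g) g hg hA (fun u hu => Finset.mem_image_of_mem g hu)
    hb x y).trans (KS_le_CI _ hb _ _)

theorem CI_add {b : ℝ} (hb : 0 ≤ b) (t x y : ℤ × ℤ) : CI b (x + t) (y + t) = CI b x y := by
  apply le_antisymm
  · have := CI_map (fun u => u + (-t)) (add_left_injective _)
      (fun u v => (A_add (-t) u v).ge) hb (x + t) (y + t)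
    simpa only [ge_iff_le, add_neg_cancel_right] using this
  · exact CI_map (fun u => u + t) (add_left_injective _) (fun u v => (A_add t u v).ge) hb x y

/-- infinite volume two-point function between `0` and `x` -/
noncomputable def C (b : ℝ) (x : ℤ × ℤ) : ℝ := CI b 0 x

theorem CI_eq {b : ℝ} (hb : 0 ≤ b) (x y : ℤ × ℤ) : CI b x y = C b (y - x) := by
  unfold C
  have := CI_add hb (-x) x y
  rw [← this, add_neg_cancel, sub_eq_add_neg]

theorem C_neg {b : ℝ} (hb : 0 ≤ b) (x : ℤ × ℤ) : C b (-x) = C b x := by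
  rw [← zero_sub x, ← CI_eq hb, CI_comm]; rfl

theorem C_swap {b : ℝ} (hb : 0 ≤ b) (x : ℤ × ℤ) : C b x.swap = C b x := by
  unfold C
  apply le_antisymm
  · have := CI_map Prod.swap Prod.swap_injective (fun u v => (A_swap u v).ge) hb 0 x.swap
    simpa only [ge_iff_le, Prod.swap_zero, Prod.swap_swap] using this
  · have := CI_map Prod.swap Prod.swap_injective (fun u v => (A_swap u v).ge) hb 0 x
    simpa only [ge_iff_le, Prod.swap_zero] using this

theorem refl1_injective : Function.Injective refl1 := by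
  intro u v h
  unfold refl1 at h
  simp only [Prod.ext_iff] at h ⊢
  omega

theorem C_refl1 {b : ℝ} (hb : 0 ≤ b) (x : ℤ × ℤ) : C b (refl1 x) = C b x := by
  unfold C
  have h0 : refl1 0 = 0 := rfl
  have hx : refl1 (refl1 x) = x := by simp [refl1]
  apply le_antisymm
  · have := CI_map refl1 refl1_injective (fun u v => (A_refl1 u v).ge) hb 0 (refl1 x)
    rwa [h0, hx] at this
  · have := CI_map refl1 refl1_injective (fun u v => (A_refl1 u v).ge) hb 0 x
    rwa [h0] at this

theorem C_nonneg {b : ℝ} (hb : 0 ≤ b) (x : ℤ × ℤ) : 0 ≤ C b x := CI_nonneg hb 0 x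
theorem C_le_one (b : ℝ) (x : ℤ × ℤ) : C b x ≤ 1 := CI_le_one b 0 x
theorem C_zero (b : ℝ) : C b 0 = 1 := CI_self b 0

theorem C_supermul {b : ℝ} (hb : 0 ≤ b) (x y : ℤ × ℤ) : C b x * C b y ≤ C b (x + y) := by
  have h := CI_supermul hb 0 x (x + y)
  rw [CI_eq hb x (x + y), add_sub_cancel_left] at h
  exact h

theorem C_mono_b {b b' : ℝ} (hb : 0 ≤ b) (hbb : b ≤ b') (x : ℤ × ℤ) : C b x ≤ C b' x :=
  CI_mono_b hb hbb 0 x

/-- `C(x)² ≤ C(2‖x‖ e₁)` -/
theorem C_sq_le {b : ℝ} (hb : 0 ≤ b) (x : ℤ × ℤ) : C b x ^ 2 ≤ C b (2 * (nm x : ℤ), 0) := by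
  have key : ∀ y : ℤ × ℤ, y.2.natAbs ≤ y.1.natAbs → C b y ^ 2 ≤ C b (2 * (nm y : ℤ), 0) := by
    intro y hy
    have hn : nm y = y.1.natAbs := by unfold nm; omega
    have h1 : C b (refl1 (-y)) = C b y := by rw [C_refl1 hb, C_neg hb]
    have h2 : y + refl1 (-y) = (2 * y.1, 0) := by
      unfold refl1
      ext
      · simp only [Prod.fst_neg, neg_neg, Prod.snd_neg, Prod.fst_add]; ring
      · simp only [Prod.fst_neg, neg_neg, Prod.snd_neg, Prod.snd_add, add_neg_cancel]
    have h3 := C_supermul hb y (refl1 (-y))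
    rw [h1, h2] at h3
    have h4 : C b (2 * y.1, 0) = C b (2 * (nm y : ℤ), 0) := by
      rw [hn]
      rcases Int.natAbs_eq y.1 with h | h
      · rw [← h]
      · have : ((2 * y.1, 0) : ℤ × ℤ) = -(2 * (y.1.natAbs : ℤ), 0) := by
          rw [Prod.neg_mk]
          ext
          · simp only; omega
          · simp
        rw [this, C_neg hb]
    rw [← h4, pow_two]
    exact h3
  rcases le_total x.2.natAbs x.1.natAbs with h | h
  · exact key x h
  · have h1 := key x.swap (by simpa only [Prod.snd_swap, Prod.fst_swap] using h)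
    rw [C_swap hb] at h1
    have h2 : nm x.swap = nm x := by unfold nm; simp only [Prod.fst_swap, Prod.snd_swap]; omega
    rwa [h2] at h1

end Vale.Agent.P159.XY
end

section

/-!
# Link with the definitions of the statement
-/

open MeasureTheory Filter Topology

set_option linter.unusedSectionVars false

namespace Vale.Agent.P159.XY

open Vale.Agent.P159 (box nn)

theorem energy_symm {V : Type*} [Fintype V] (J : V → V → ℝ) (θ : V → T) :
    energy (fun u v => (J u v + J v u) / 2) θ = energy J θ := by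
  unfold energy
  have h1 : ∑ u, ∑ v, (J u v + J v u) / 2 * ct (θ u - θ v)
      = (1 / 2) * ∑ u, ∑ v, J u v * ct (θ u - θ v)
        + (1 / 2) * ∑ u, ∑ v, J v u * ct (θ u - θ v) := by
    rw [Finset.mul_sum, Finset.mul_sum, ← Finset.sum_add_distrib]
    refine Finset.sum_congr rfl fun u _ => ?_
    rw [Finset.mul_sum, Finset.mul_sum, ← Finset.sum_add_distrib]
    refine Finset.sum_congr rfl fun v _ => ?_
    ring
  have h2 : ∑ u, ∑ v, J v u * ct (θ u - θ v) = ∑ u, ∑ v, J u v * ct (θ u - θ v) := by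
    rw [Finset.sum_comm]
    refine Finset.sum_congr rfl fun u _ => Finset.sum_congr rfl fun v _ => ?_
    rw [← neg_sub (θ u) (θ v), ct_neg]
  rw [h1, h2]
  ring

theorem boxEnergy_eq (R : ℕ) (b : ℝ) (θ : box R → T) :
    Vale.Agent.P159.boxEnergy R b θ = energy (fun u v : box R => b * A u v) θ := by
  have h : (fun u v : box R => b * A u v)
      = fun u v : box R => (nn b u v + nn b v u) / 2 := by
    funext u v
    rw [nn_eq b u v, nn_eq b v u]
    unfold A
    ring
  rw [h, energy_symm (fun u v : box R => nn b u v) θ]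
  rfl

theorem zero_mem_box (R : ℕ) : (0 : ℤ × ℤ) ∈ box R := by
  rw [mem_box_iff_nm, nm_zero]; exact Nat.zero_le R

theorem corr_box_eq (R : ℕ) (b : ℝ) {x : ℤ × ℤ} (hx : x ∈ box R) :
    Vale.Agent.P159.corr R b x = KS (box R) b 0 x := by
  rw [KS_of_mem b (zero_mem_box R) hx]
  unfold Vale.Agent.P159.corr Vale.Agent.P159.expect corr ev un part
  simp_rw [boxEnergy_eq]
  have h0 : ∀ θ : box R → T, Vale.Agent.P159.ext θ 0 = θ ⟨0, zero_mem_box R⟩ := fun θ => by
    unfold Vale.Agent.P159.ext; rw [dif_pos (zero_mem_box R)]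
  have h1 : ∀ θ : box R → T, Vale.Agent.P159.ext θ x = θ ⟨x, hx⟩ := fun θ => by
    unfold Vale.Agent.P159.ext; rw [dif_pos hx]
  simp_rw [h0, h1]
  rfl

theorem tendsto_corr {b : ℝ} (hb : 0 ≤ b) (x : ℤ × ℤ) :
    Tendsto (fun R : ℕ => Vale.Agent.P159.corr R b x) atTop (𝓝 (C b x)) := by
  refine (tendsto_KS hb 0 x).congr' ?_
  filter_upwards [eventually_ge_atTop (nm x)] with R hR
  exact (corr_box_eq R b (mem_box_iff_nm.2 hR)).symm

theorem corrInf_eq {b : ℝ} (hb : 0 ≤ b) (x : ℤ × ℤ) : Vale.Agent.P159.corrInf b x = C b x :=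
  (tendsto_corr hb x).limUnder_eq

end Vale.Agent.P159.XY
end

section

/-!
# Positivity of correlations and the inverse correlation length
-/

open MeasureTheory Filter Topology

set_option linter.unusedSectionVars false

namespace Vale.Agent.P159.XY

open Vale.Agent.P159 (box nn mass bCrit corrInf)

theorem corr_pos {V : Type*} [Fintype V] {J : V → V → ℝ} (hJ : ∀ u v, 0 ≤ J u v) {x y : V}
    (hxy : 0 < J x y) : 0 < corr J x y := by
  classical
  set c := J x y with hc
  let J0 : V → V → ℝ := fun u v => if u = x ∧ v = y then c else 0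
  have hJ0 : ∀ u v, 0 ≤ J0 u v := by
    intro u v; simp only [J0]; split_ifs
    · exact hxy.le
    · exact le_rfl
  have hle : ∀ u v, J0 u v ≤ J u v := by
    intro u v; simp only [J0]; split_ifs with h
    · rw [h.1, h.2]
    · exact hJ u v
  refine lt_of_lt_of_le ?_ (corr_mono hJ0 hle x y)
  have hE : ∀ θ : V → T, energy J0 θ = c * ct (θ x - θ y) := by
    intro θ
    unfold energy
    rw [Finset.sum_eq_single x]
    · rw [Finset.sum_eq_single y]
      · simp [J0]
      · intro v _ hv; simp [J0, hv]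
      · intro h; exact absurd (Finset.mem_univ _) h
    · intro u _ hu; simp only [hu, false_and, ↓reduceIte, zero_mul, Finset.sum_const_zero, J0]
    · intro h; exact absurd (Finset.mem_univ _) h
  unfold corr ev
  refine div_pos ?_ (part_pos _)
  unfold un
  simp_rw [hE]
  have e : ∀ θ : V → T, ct (θ x - θ y) * Real.exp (c * ct (θ x - θ y))
      = ct (θ x - θ y) + ct (θ x - θ y) * (Real.exp (c * ct (θ x - θ y)) - 1) := fun θ => by ring
  simp_rw [e]
  rw [integral_add (integrable_of_continuous (by fun_prop))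
    (integrable_of_continuous (by fun_prop))]
  refine add_pos_of_nonneg_of_pos (integral_ct_char_nonneg (isChar_diff x y)) ?_
  refine integral_pos_of_integrable_nonneg_nonzero (x := 0) (by fun_prop)
    (integrable_of_continuous (by fun_prop)) ?_ ?_
  · intro θ
    change 0 ≤ ct (θ x - θ y) * (Real.exp (c * ct (θ x - θ y)) - 1)
    rcases le_total 0 (ct (θ x - θ y)) with h | h
    · refine mul_nonneg h (sub_nonneg.2 (Real.one_le_exp (mul_nonneg hxy.le h)))
    · refine mul_nonneg_of_nonpos_of_nonpos h (sub_nonpos.2 ?_)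
      exact Real.exp_le_one_iff.2 (mul_nonpos_of_nonneg_of_nonpos hxy.le h)
  · simp only [Pi.zero_apply, sub_zero, ct_zero, mul_one, one_mul]
    have := Real.add_one_lt_exp hxy.ne'
    intro h
    linarith only [hxy, this, h]

theorem C_e1_pos {b : ℝ} (hb : 0 < b) : 0 < C b (1, 0) := by
  have h0 : (0 : ℤ × ℤ) ∈ box 1 := zero_mem_box 1
  have h1 : ((1, 0) : ℤ × ℤ) ∈ box 1 := by rw [mem_box]; simp only [isUnit_one, Int.natAbs_of_isUnit, Std.le_refl, Int.natAbs_zero, zero_le, and_self]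
  refine lt_of_lt_of_le ?_ (KS_box_le_CI b 1 0 (1, 0))
  rw [KS_of_mem b h0 h1]
  refine corr_pos (fun u v => mul_nonneg hb.le (A_nonneg _ _)) (mul_pos hb ?_)
  rw [A_eq]
  (clear * - h0 h1; norm_num)

theorem C_axis_pos {b : ℝ} (hb : 0 < b) (n : ℕ) : 0 < C b ((n : ℤ), 0) := by
  induction n with
  | zero =>
    have : (((0 : ℕ) : ℤ), (0 : ℤ)) = (0 : ℤ × ℤ) := rfl
    rw [this, C_zero]; exact one_pos
  | succ n ih =>
    have h := C_supermul hb.le ((n : ℤ), 0) (1, 0)
    have e : (((n : ℤ), (0 : ℤ)) + ((1, 0) : ℤ × ℤ)) = (((n + 1 : ℕ) : ℤ), (0 : ℤ)) := by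
      ext <;> simp
    rw [e] at h
    exact lt_of_lt_of_le (mul_pos ih (C_e1_pos hb)) h

theorem C_pos {b : ℝ} (hb : 0 < b) (x : ℤ × ℤ) : 0 < C b x := by
  have haxis : ∀ k : ℤ, 0 < C b (k, 0) := by
    intro k
    rcases Int.natAbs_eq k with h | h
    · rw [h]; exact C_axis_pos hb _
    · have : ((k, 0) : ℤ × ℤ) = -((k.natAbs : ℤ), 0) := by
        ext
        · simpa only [Nat.cast_natAbs, Int.cast_abs, Int.cast_eq, Prod.neg_mk, neg_zero] using h
        · simp only [Nat.cast_natAbs, Int.cast_abs, Int.cast_eq, Prod.neg_mk, neg_zero]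
      rw [this, C_neg hb.le]; exact C_axis_pos hb _
  have h2 : 0 < C b (0, x.2) := by
    have := C_swap hb.le (x.2, 0)
    rw [show ((x.2, 0) : ℤ × ℤ).swap = (0, x.2) from rfl] at this
    rw [this]; exact haxis _
  have h := C_supermul hb.le (x.1, 0) (0, x.2)
  have e : (((x.1, 0) : ℤ × ℤ) + (0, x.2)) = x := by ext <;> simp
  rw [e] at h
  exact lt_of_lt_of_le (mul_pos (haxis _) h2) h

/-- minus the logarithm of the two-point function along the axis -/
noncomputable def ulog (b : ℝ) (n : ℕ) : ℝ := -Real.log (C b ((n : ℤ), 0))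

theorem ulog_nonneg {b : ℝ} (hb : 0 < b) (n : ℕ) : 0 ≤ ulog b n := by
  unfold ulog
  have := Real.log_nonpos (C_axis_pos hb n).le (C_le_one b _)
  linarith

theorem ulog_subadditive {b : ℝ} (hb : 0 < b) : Subadditive (ulog b) := by
  intro m n
  unfold ulog
  have h := C_supermul hb.le ((m : ℤ), 0) ((n : ℤ), 0)
  have e : (((m : ℤ), (0 : ℤ)) + ((n : ℤ), (0 : ℤ))) = (((m + n : ℕ) : ℤ), (0 : ℤ)) := by
    ext <;> simp
  rw [e] at h
  have hm := C_axis_pos hb m
  have hn := C_axis_pos hb n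
  have := Real.log_le_log (mul_pos hm hn) h
  rw [Real.log_mul hm.ne' hn.ne'] at this
  linarith only [this]

theorem ulog_bddBelow {b : ℝ} (hb : 0 < b) :
    BddBelow (Set.range fun n : ℕ => ulog b n / n) :=
  ⟨0, by rintro _ ⟨n, rfl⟩; exact div_nonneg (ulog_nonneg hb n) (Nat.cast_nonneg n)⟩

theorem tendsto_mass {b : ℝ} (hb : 0 < b) :
    Tendsto (fun r : ℕ => -(1 / (r : ℝ)) * Real.log (corrInf b ((r : ℤ), 0))) atTop
      (𝓝 (mass b)) := by
  have h := (ulog_subadditive hb).tendsto_lim (ulog_bddBelow hb)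
  have e : (fun r : ℕ => -(1 / (r : ℝ)) * Real.log (corrInf b ((r : ℤ), 0)))
      = fun n : ℕ => ulog b n / n := by
    funext r
    rw [corrInf_eq hb.le]
    unfold ulog
    ring
  have h2 : Tendsto (fun r : ℕ => -(1 / (r : ℝ)) * Real.log (corrInf b ((r : ℤ), 0))) atTop
      (𝓝 (ulog_subadditive hb).lim) := by rw [e]; exact h
  have h3 : mass b = (ulog_subadditive hb).lim := h2.limUnder_eq
  rw [h3]; exact h2

theorem tendsto_ulog {b : ℝ} (hb : 0 < b) :
    Tendsto (fun n : ℕ => ulog b n / n) atTop (𝓝 (mass b)) := by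
  refine (tendsto_mass hb).congr fun r => ?_
  rw [corrInf_eq hb.le]
  unfold ulog
  ring

theorem mass_nonneg {b : ℝ} (hb : 0 < b) : 0 ≤ mass b :=
  ge_of_tendsto' (tendsto_ulog hb) fun n => div_nonneg (ulog_nonneg hb n) (Nat.cast_nonneg n)

theorem mass_le_ulog {b : ℝ} (hb : 0 < b) {n : ℕ} (hn : n ≠ 0) : mass b ≤ ulog b n / n := by
  have h := (ulog_subadditive hb).tendsto_lim (ulog_bddBelow hb)
  have h3 : mass b = (ulog_subadditive hb).lim := tendsto_nhds_unique (tendsto_ulog hb) h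
  rw [h3]
  exact (ulog_subadditive hb).lim_le_div (ulog_bddBelow hb) hn

theorem C_axis_le {b : ℝ} (hb : 0 < b) (n : ℕ) :
    C b ((n : ℤ), 0) ≤ Real.exp (-(mass b * n)) := by
  rcases Nat.eq_zero_or_pos n with rfl | hn
  · have : (((0 : ℕ) : ℤ), (0 : ℤ)) = (0 : ℤ × ℤ) := rfl
    rw [this, C_zero]; simp
  · have h := mass_le_ulog hb hn.ne'
    have hn' : (0 : ℝ) < n := Nat.cast_pos.2 hn
    rw [le_div_iff₀ hn'] at h
    unfold ulog at h
    rw [← Real.log_le_iff_le_exp (C_axis_pos hb n)]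
    linarith only [h]

theorem C_le_exp {b : ℝ} (hb : 0 < b) (x : ℤ × ℤ) :
    C b x ≤ Real.exp (-(mass b * nm x)) := by
  have h1 := C_sq_le hb.le x
  have h2 := C_axis_le hb (2 * nm x)
  push_cast at h2
  have h3 : C b x ^ 2 ≤ Real.exp (-(mass b * nm x)) ^ 2 := by
    refine h1.trans (h2.trans (le_of_eq ?_))
    rw [← Real.exp_nat_mul]
    congr 1
    push_cast
    ring
  exact le_of_sq_le_sq h3 (Real.exp_pos _).le

/-- an exponential upper bound gives a lower bound on the mass -/
theorem le_mass_of_bound {b : ℝ} (hb : 0 < b) {a K : ℝ} (hK : 0 < K)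
    (h : ∀ᶠ n : ℕ in atTop, C b ((n : ℤ), 0) ≤ K * Real.exp (-(a * n))) : a ≤ mass b := by
  have h1 : Tendsto (fun n : ℕ => a - Real.log K / n) atTop (𝓝 a) := by
    have : Tendsto (fun n : ℕ => Real.log K / (n : ℝ)) atTop (𝓝 0) :=
      tendsto_const_div_atTop_nhds_zero_nat _
    simpa only [sub_zero] using this.const_sub a
  refine le_of_tendsto_of_tendsto h1 (tendsto_ulog hb) ?_
  filter_upwards [h, eventually_gt_atTop 0] with n hn hn0
  have hn' : (0 : ℝ) < n := Nat.cast_pos.2 hn0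
  have h2 := Real.log_le_log (C_axis_pos hb n) hn
  rw [Real.log_mul hK.ne' (Real.exp_pos _).ne', Real.log_exp] at h2
  unfold ulog
  rw [le_div_iff₀ hn', sub_mul, div_mul_cancel₀ _ hn'.ne']
  linarith only [h2]

theorem mass_anti {b b' : ℝ} (hb : 0 < b) (hbb : b ≤ b') : mass b' ≤ mass b := by
  have hb' : 0 < b' := lt_of_lt_of_le hb hbb
  refine le_of_tendsto_of_tendsto' (tendsto_ulog hb') (tendsto_ulog hb) fun n => ?_
  refine div_le_div_of_nonneg_right ?_ (Nat.cast_nonneg n)
  unfold ulog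
  have := Real.log_le_log (C_axis_pos hb n) (C_mono_b hb.le hbb _)
  linarith only [this]

end Vale.Agent.P159.XY
end

section

/-!
# Lattice sums
-/

open MeasureTheory Filter Topology

set_option linter.unusedSectionVars false

namespace Vale.Agent.P159.XY

open Vale.Agent.P159 (box nn mass bCrit corrInf)

theorem card_box (R : ℕ) : (box R).card = (2 * R + 1) ^ 2 := by
  unfold box
  rw [Finset.Icc_prod_def, Finset.card_product, Int.card_Icc]
  have : ((R : ℤ) + 1 - -(R : ℤ)).toNat = 2 * R + 1 := by omega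
  rw [this, pow_two]

theorem card_shell (R : ℕ) : (box (R + 1) \ box R).card = 8 * (R + 1) := by
  rw [Finset.card_sdiff_of_subset (box_mono (Nat.le_succ R)), card_box, card_box]
  have : (2 * (R + 1) + 1) ^ 2 = 8 * (R + 1) + (2 * R + 1) ^ 2 := by ring
  rw [Nat.succ_eq_add_one, this, Nat.add_sub_cancel]

theorem nm_of_mem_shell {R : ℕ} {x : ℤ × ℤ} (hx : x ∈ box (R + 1) \ box R) : nm x = R + 1 := by
  rw [Finset.mem_sdiff, mem_box_iff_nm, mem_box_iff_nm] at hx
  omega

/-- radial sums over boxes -/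
theorem sum_box_radial (g : ℕ → ℝ) (R : ℕ) :
    ∑ y ∈ box R, g (nm y) = g 0 + ∑ n ∈ Finset.range R, 8 * ((n : ℝ) + 1) * g (n + 1) := by
  induction R with
  | zero =>
    have : box 0 = {0} := by
      ext x
      rw [mem_box, Finset.mem_singleton, Prod.ext_iff]
      simp only [nonpos_iff_eq_zero, Int.natAbs_eq_zero, Prod.fst_zero, Prod.snd_zero]
    rw [this]
    simp only [Finset.sum_singleton, nm_zero, Finset.range_zero, Finset.sum_empty, add_zero]
  | succ R ih =>
    rw [Finset.sum_range_succ, ← add_assoc, ← ih,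
      ← Finset.sum_sdiff (box_mono (Nat.le_succ R)), add_comm]
    congr 1
    rw [Finset.sum_congr rfl (fun x hx => by rw [nm_of_mem_shell hx])]
    rw [Finset.sum_const, card_shell, nsmul_eq_mul]
    push_cast
    ring

theorem summable_of_box {f : ℤ × ℤ → ℝ} (hf : ∀ x, 0 ≤ f x) {c : ℝ}
    (h : ∀ R : ℕ, ∑ y ∈ box R, f y ≤ c) : Summable f ∧ ∑' y, f y ≤ c := by
  have h1 : ∀ s : Finset (ℤ × ℤ), ∑ y ∈ s, f y ≤ c := by
    intro s
    obtain ⟨R, hR⟩ := exists_box s
    exact (Finset.sum_le_sum_of_subset_of_nonneg hR fun _ _ _ => hf _).trans (h R)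
  have hs : Summable f := summable_of_sum_le hf h1
  exact ⟨hs, hs.tsum_le_of_sum_le h1⟩

/-- `∑_{n ≥ 1} e^{-λ n} ≤ 1/λ` (partial sums) -/
theorem sum_exp_le {lam : ℝ} (hl : 0 < lam) (R : ℕ) :
    ∑ n ∈ Finset.range R, Real.exp (-(lam * ((n : ℝ) + 1))) ≤ 1 / lam := by
  have hq : Real.exp (-lam) < 1 := by rw [Real.exp_lt_one_iff]; linarith
  have hq0 := Real.exp_pos (-lam)
  have e : ∀ n : ℕ, Real.exp (-(lam * ((n : ℝ) + 1))) = Real.exp (-lam) * Real.exp (-lam) ^ n := by
    intro n
    rw [← Real.exp_nat_mul, ← Real.exp_add]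
    congr 1; ring
  simp_rw [e]
  rw [← Finset.mul_sum]
  have h1 : ∑ n ∈ Finset.range R, Real.exp (-lam) ^ n ≤ (1 - Real.exp (-lam))⁻¹ := by
    have hs := summable_geometric_of_lt_one hq0.le hq
    rw [← tsum_geometric_of_lt_one hq0.le hq]
    exact hs.sum_le_tsum _ fun _ _ => pow_nonneg hq0.le _
  calc Real.exp (-lam) * ∑ n ∈ Finset.range R, Real.exp (-lam) ^ n
      ≤ Real.exp (-lam) * (1 - Real.exp (-lam))⁻¹ := mul_le_mul_of_nonneg_left h1 hq0.le
    _ ≤ 1 / lam := by
      have h2 : 0 < 1 - Real.exp (-lam) := by linarith only [hq]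
      rw [← div_eq_mul_inv, div_le_div_iff₀ h2 hl]
      have h3 := Real.add_one_le_exp lam
      have h4 : Real.exp (-lam) * Real.exp lam = 1 := by rw [← Real.exp_add]; simp
      nlinarith only [hq0, h3, h4]

/-- `∑_{n ≥ 1} n e^{-λ n} ≤ 1/λ²` (partial sums) -/
theorem sum_n_exp_le {lam : ℝ} (hl : 0 < lam) (R : ℕ) :
    ∑ n ∈ Finset.range R, ((n : ℝ) + 1) * Real.exp (-(lam * ((n : ℝ) + 1))) ≤ 1 / lam ^ 2 := by
  set q := Real.exp (-lam) with hqdef
  have hq : q < 1 := by rw [Real.exp_lt_one_iff]; linarith only [hl]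
  have hq0 : 0 < q := Real.exp_pos (-lam)
  have e : ∀ n : ℕ, ((n : ℝ) + 1) * Real.exp (-(lam * ((n : ℝ) + 1)))
      = q * (((n : ℝ) + 1) * q ^ n) := by
    intro n
    have : Real.exp (-(lam * ((n : ℝ) + 1))) = q * q ^ n := by
      rw [hqdef, ← Real.exp_nat_mul, ← Real.exp_add]
      congr 1; ring
    rw [this]; ring
  simp_rw [e]
  rw [← Finset.mul_sum]
  -- closed form bound for the arithmetico-geometric sum
  have h1 : ∀ R : ℕ, (1 - q) ^ 2 * ∑ n ∈ Finset.range R, ((n : ℝ) + 1) * q ^ n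
      = 1 - ((R : ℝ) + 1) * q ^ R + (R : ℝ) * q ^ (R + 1) := by
    intro R
    induction R with
    | zero => simp
    | succ R ih =>
      rw [Finset.sum_range_succ, mul_add, ih]
      push_cast
      ring
  have h2 : (1 - q) ^ 2 * ∑ n ∈ Finset.range R, ((n : ℝ) + 1) * q ^ n ≤ 1 := by
    rw [h1]
    have h3 : 0 ≤ q ^ R := pow_nonneg hq0.le R
    have h4 : q ^ (R + 1) ≤ q ^ R := by
      rw [pow_succ]; nlinarith only [hq, h3]
    have h5 : (0 : ℝ) ≤ R := Nat.cast_nonneg R
    nlinarith only [h3, h4]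
  have hS0 : 0 ≤ ∑ n ∈ Finset.range R, ((n : ℝ) + 1) * q ^ n :=
    Finset.sum_nonneg fun n _ => by (clear * -; positivity)
  rw [le_div_iff₀ (by positivity)]
  -- q λ² ≤ (1-q)²
  have h6 : q * lam ^ 2 ≤ (1 - q) ^ 2 := by
    have hs : lam * Real.exp (-(lam / 2)) ≤ 1 - q := by
      have h7 : q = Real.exp (-(lam / 2)) ^ 2 := by
        rw [hqdef, ← Real.exp_nat_mul]; congr 1; push_cast; ring
      have h8 : Real.exp (-(lam / 2)) * Real.exp (lam / 2) = 1 := by
        rw [← Real.exp_add]; simp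
      have h9 : lam ≤ Real.exp (lam / 2) - Real.exp (-(lam / 2)) := by
        have hsinh : lam / 2 ≤ Real.sinh (lam / 2) := Real.self_le_sinh_iff.2 (by linarith only [hl])
        rw [Real.sinh_eq] at hsinh
        linarith
      have h10 := Real.exp_pos (-(lam / 2))
      calc lam * Real.exp (-(lam / 2))
          ≤ (Real.exp (lam / 2) - Real.exp (-(lam / 2))) * Real.exp (-(lam / 2)) :=
            mul_le_mul_of_nonneg_right h9 h10.le
        _ = 1 - q := by rw [h7]; nlinarith only [h8]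
    have h7 : q = Real.exp (-(lam / 2)) ^ 2 := by
      rw [hqdef, ← Real.exp_nat_mul]; congr 1; push_cast; ring
    calc q * lam ^ 2 = (lam * Real.exp (-(lam / 2))) ^ 2 := by rw [h7]; ring
      _ ≤ (1 - q) ^ 2 := pow_le_pow_left₀ (by positivity) hs 2
  calc (q * ∑ n ∈ Finset.range R, ((n : ℝ) + 1) * q ^ n) * lam ^ 2
      = (q * lam ^ 2) * ∑ n ∈ Finset.range R, ((n : ℝ) + 1) * q ^ n := by
        ring
    _ ≤ (1 - q) ^ 2 * ∑ n ∈ Finset.range R, ((n : ℝ) + 1) * q ^ n :=
        mul_le_mul_of_nonneg_right h6 hS0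
    _ ≤ 1 := h2

end Vale.Agent.P159.XY
end

section

/-!
# The susceptibility and the critical point
-/

open MeasureTheory Filter Topology

set_option linter.unusedSectionVars false

namespace Vale.Agent.P159.XY

open Vale.Agent.P159 (box nn mass bCrit corrInf)

/-- exponentially weighted susceptibility -/
noncomputable def chiw (a b : ℝ) : ℝ := ∑' y : ℤ × ℤ, Real.exp (a * y.1) * C b y

/-- susceptibility -/
noncomputable def chi (b : ℝ) : ℝ := ∑' y : ℤ × ℤ, C b y

theorem abs_fst_le_nm (y : ℤ × ℤ) : |(y.1 : ℝ)| ≤ nm y := by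
  have h : y.1.natAbs ≤ nm y := le_max_left _ _
  have h2 : |(y.1 : ℝ)| = (y.1.natAbs : ℝ) := by
    rw [← Int.cast_abs, Int.abs_eq_natAbs]; simp only [Nat.cast_natAbs, Int.cast_abs, Int.cast_eq]
  rw [h2]
  exact_mod_cast h

theorem summable_exp_nm {lam : ℝ} (hl : 0 < lam) :
    Summable fun y : ℤ × ℤ => Real.exp (-(lam * nm y)) := by
  refine (summable_of_box (fun _ => (Real.exp_pos _).le) (c := 1 + 8 * (1 / lam ^ 2)) ?_).1
  intro R
  have h := sum_box_radial (fun n => Real.exp (-(lam * n))) R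
  rw [h]
  have h2 := sum_n_exp_le hl R
  have e : ∑ n ∈ Finset.range R, 8 * ((n : ℝ) + 1) * Real.exp (-(lam * ((n + 1 : ℕ) : ℝ)))
      = 8 * ∑ n ∈ Finset.range R, ((n : ℝ) + 1) * Real.exp (-(lam * ((n : ℝ) + 1))) := by
    rw [Finset.mul_sum]
    refine Finset.sum_congr rfl fun n _ => ?_
    push_cast
    ring
  rw [e]
  simp only [Nat.cast_zero, mul_zero, neg_zero, Real.exp_zero]
  linarith only [h2]

theorem weight_C_le {b : ℝ} (hb : 0 < b) {a a0 : ℝ} (ha : |a| ≤ a0) (y : ℤ × ℤ) :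
    Real.exp (a * y.1) * C b y ≤ Real.exp (-((mass b - a0) * nm y)) := by
  have h1 : Real.exp (a * y.1) ≤ Real.exp (a0 * nm y) := by
    apply Real.exp_le_exp.2
    calc a * y.1 ≤ |a * y.1| := le_abs_self _
      _ = |a| * |(y.1 : ℝ)| := abs_mul _ _
      _ ≤ a0 * nm y := mul_le_mul ha (abs_fst_le_nm y) (abs_nonneg _) ((abs_nonneg _).trans ha)
  calc Real.exp (a * y.1) * C b y
      ≤ Real.exp (a0 * nm y) * Real.exp (-(mass b * nm y)) :=
        mul_le_mul h1 (C_le_exp hb y) (C_nonneg hb.le y) (Real.exp_pos _).le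
    _ = Real.exp (-((mass b - a0) * nm y)) := by
        rw [← Real.exp_add]; congr 1; ring

theorem summable_weight {b : ℝ} (hb : 0 < b) {a : ℝ} (ha : |a| < mass b) :
    Summable fun y : ℤ × ℤ => Real.exp (a * y.1) * C b y := by
  refine Summable.of_nonneg_of_le (fun y => mul_nonneg (Real.exp_pos _).le (C_nonneg hb.le y))
    (fun y => weight_C_le hb le_rfl y) (summable_exp_nm (sub_pos.2 ha))

theorem summable_C {b : ℝ} (hb : 0 < b) (hm : 0 < mass b) : Summable (C b) := by
  have := summable_weight hb (a := 0) (by simpa only [abs_zero] using hm)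
  simpa using this

theorem one_le_chiw {b : ℝ} (hb : 0 < b) {a : ℝ} (ha : |a| < mass b) : 1 ≤ chiw a b := by
  have h := (summable_weight hb ha).le_tsum 0
    (fun y _ => mul_nonneg (Real.exp_pos _).le (C_nonneg hb.le y))
  simpa only [chiw, ge_iff_le, Prod.fst_zero, Int.cast_zero, mul_zero, Real.exp_zero, C_zero, mul_one] using h

theorem one_le_chi {b : ℝ} (hb : 0 < b) (hm : 0 < mass b) : 1 ≤ chi b := by
  have h := (summable_C hb hm).le_tsum 0 (fun y _ => C_nonneg hb.le y)
  simpa only [chi, ge_iff_le, C_zero] using h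

/-- weights are almost eigenvectors -/
theorem sum_A_weight (R : ℕ) (a : ℝ) (u : box R) :
    ∑ v : box R, A u v * Real.exp (a * (v : ℤ × ℤ).1)
      ≤ (1 + Real.cosh a) * Real.exp (a * (u : ℤ × ℤ).1) := by
  have key : ∀ (w : ℤ × ℤ) (f : ℤ × ℤ → ℝ), (∀ x, 0 ≤ f x) →
      ∑ v ∈ box R, (if v = w then f v else 0) ≤ f w := by
    intro w f hf
    rw [Finset.sum_ite_eq']
    split_ifs
    · exact le_rfl
    · exact hf w
  set f : ℤ × ℤ → ℝ := fun v => Real.exp (a * v.1) with hf
  have hf0 : ∀ x, 0 ≤ f x := fun x => (Real.exp_pos _).le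
  obtain ⟨u, hu⟩ := u
  have h1 : ∑ v : box R, A u v * Real.exp (a * (v : ℤ × ℤ).1)
      = ∑ v ∈ box R, A u v * f v :=
    Finset.sum_coe_sort (box R) (fun v => A u v * f v)
  simp only
  rw [h1]
  have h2 : ∀ v, A u v * f v ≤ (1 / 2) * ((if v = u + (1, 0) then f v else 0)
      + (if v = u + (0, 1) then f v else 0) + (if v = u + (-1, 0) then f v else 0)
      + (if v = u + (0, -1) then f v else 0)) := by
    intro v
    rw [A_eq]
    have hv := hf0 v
    have e1 : v = u + (1, 0) ↔ v.1 = u.1 + 1 ∧ v.2 = u.2 := by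
      rw [Prod.ext_iff]; simp
    have e2 : v = u + (0, 1) ↔ v.1 = u.1 ∧ v.2 = u.2 + 1 := by
      rw [Prod.ext_iff]; simp
    have e3 : v = u + (-1, 0) ↔ v.1 = u.1 + -1 ∧ v.2 = u.2 := by
      rw [Prod.ext_iff]; simp only [Int.reduceNeg, Prod.fst_add, Prod.snd_add, add_zero]
    have e4 : v = u + (0, -1) ↔ v.1 = u.1 ∧ v.2 = u.2 + -1 := by
      rw [Prod.ext_iff]; simp only [Int.reduceNeg, Prod.fst_add, add_zero, Prod.snd_add]
    simp only [e1, e2, e3, e4]
    split_ifs <;> first | (exfalso; omega) | linarith only []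
  refine (Finset.sum_le_sum fun v _ => h2 v).trans ?_
  rw [← Finset.mul_sum, Finset.sum_add_distrib, Finset.sum_add_distrib, Finset.sum_add_distrib]
  have k1 := key (u + (1, 0)) f hf0
  have k2 := key (u + (0, 1)) f hf0
  have k3 := key (u + (-1, 0)) f hf0
  have k4 := key (u + (0, -1)) f hf0
  have g1 : f (u + (1, 0)) = Real.exp a * Real.exp (a * u.1) := by
    simp only [hf, Prod.fst_add]; rw [← Real.exp_add]; congr 1; push_cast; ring
  have g2 : f (u + (0, 1)) = Real.exp (a * u.1) := by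
    simp only [hf, Prod.fst_add, add_zero]
  have g3 : f (u + (-1, 0)) = Real.exp (-a) * Real.exp (a * u.1) := by
    simp only [hf, Prod.fst_add]; rw [← Real.exp_add]; congr 1; push_cast; ring
  have g4 : f (u + (0, -1)) = Real.exp (a * u.1) := by
    simp only [hf, Prod.fst_add, add_zero]
  rw [g1] at k1
  rw [g2] at k2
  rw [g3] at k3
  rw [g4] at k4
  rw [Real.cosh_eq]
  nlinarith only [k1, k2, k3, k4]

theorem rowsum_le_chiw {b : ℝ} (hb : 0 < b) {a : ℝ} (ha : |a| < mass b) (R : ℕ) (x : box R) :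
    rowsum (fun u v : box R => A u v) (fun v : box R => Real.exp (a * (v : ℤ × ℤ).1)) b x
      ≤ chiw a b := by
  set g : ℤ × ℤ → ℝ := fun y => Real.exp (a * y.1) * C b y with hg
  have hs : Summable g := summable_weight hb ha
  have hg0 : ∀ y, 0 ≤ g y := fun y => mul_nonneg (Real.exp_pos _).le (C_nonneg hb.le y)
  obtain ⟨x, hx⟩ := x
  have h1 : rowsum (fun u v : box R => A u v) (fun v : box R => Real.exp (a * (v : ℤ × ℤ).1)) b
      ⟨x, hx⟩ ≤ ∑ z : box R, g ((z : ℤ × ℤ) - x) := by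
    unfold rowsum
    refine Finset.sum_le_sum fun z _ => ?_
    have e1 : Real.exp (a * (z : ℤ × ℤ).1) / Real.exp (a * x.1)
        = Real.exp (a * ((z : ℤ × ℤ) - x).1) := by
      rw [← Real.exp_sub, Prod.fst_sub]; congr 1; push_cast; ring
    simp only
    rw [e1]
    refine mul_le_mul_of_nonneg_left ?_ (Real.exp_pos _).le
    rw [← CI_eq hb.le, ← KS_of_mem b hx z.2]
    exact KS_box_le_CI b R x z
  refine h1.trans ?_
  rw [Finset.sum_coe_sort (box R) (fun z => g (z - x))]
  have hs' : Summable fun z => g (z - x) := by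
    clear_value g
    exact (Equiv.subRight x).summable_iff.2 hs
  refine (hs'.sum_le_tsum (box R) fun z _ => hg0 _).trans (le_of_eq ?_)
  exact (Equiv.subRight x).tsum_eq g

/-- Main step: the massive phase is open, quantitatively. -/
theorem le_mass_of_chiw {b0 b a : ℝ} (hb0 : 0 < b0) (ha0 : 0 < a) (ha : a < mass b0)
    (hb : b0 ≤ b) (h : (1 + Real.cosh a) * chiw a b0 * (b - b0) < 1) : a ≤ mass b := by
  have hbpos : 0 < b := lt_of_lt_of_le hb0 hb
  have haabs : |a| < mass b0 := by rwa [abs_of_pos ha0]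
  set M := chiw a b0 with hM
  have hM1 : 1 ≤ M := one_le_chiw hb0 haabs
  have hM0 : 0 < M := by linarith only [hM1]
  set c := 1 + Real.cosh a with hc
  have hc0 : 0 ≤ c := by have := Real.cosh_pos a; positivity
  set M' := M / (1 - c * M * (b - b0)) with hM'
  have hM'0 : 0 < M' := div_pos hM0 (by linarith only [h])
  have hbound : ∀ R : ℕ, ∀ n : ℕ, n ≤ R →
      KS (box R) b 0 ((n : ℤ), 0) ≤ M' * Real.exp (-(a * n)) := by
    intro R n hn
    have hx : ((n : ℤ), (0 : ℤ)) ∈ box R := by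
      rw [mem_box]; simp only [Int.natAbs_natCast, Int.natAbs_zero]; omega
    have h1 := rowsum_bound (fun u v : box R => A u v) (fun _ _ => A_nonneg _ _)
      (fun _ _ => A_symm _ _) (fun v : box R => Real.exp (a * (v : ℤ × ℤ).1))
      (fun _ => Real.exp_pos _) c (fun u => sum_A_weight R a u) hc0 b0 b hb0.le hb M hM0
      (fun x => rowsum_le_chiw hb0 haabs R x) h ⟨0, zero_mem_box R⟩
    have h2 : Real.exp (a * n) * KS (box R) b 0 ((n : ℤ), 0)
        ≤ rowsum (fun u v : box R => A u v) (fun v : box R => Real.exp (a * (v : ℤ × ℤ).1)) b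
          ⟨0, zero_mem_box R⟩ := by
      unfold rowsum
      have h3 := Finset.single_le_sum (f := fun z : box R =>
        Real.exp (a * (z : ℤ × ℤ).1) / Real.exp (a * ((0 : ℤ × ℤ)).1)
          * corr (fun u v : box R => b * A u v) ⟨0, zero_mem_box R⟩ z)
        (fun z _ => mul_nonneg (div_nonneg (Real.exp_pos _).le (Real.exp_pos _).le)
          (corr_nonneg _ (fun _ _ => mul_nonneg hbpos.le (A_nonneg _ _)) _ _))
        (Finset.mem_univ (⟨((n : ℤ), 0), hx⟩ : box R))
      refine le_trans (le_of_eq ?_) h3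
      rw [KS_of_mem b (zero_mem_box R) hx]
      simp only [Int.cast_natCast, Prod.fst_zero, Int.cast_zero, mul_zero, Real.exp_zero, div_one]
    rw [Real.exp_neg, ← div_eq_mul_inv, le_div_iff₀ (Real.exp_pos _), mul_comm]
    exact h2.trans h1
  refine le_mass_of_bound hbpos hM'0 (Eventually.of_forall fun n => ?_)
  refine le_of_tendsto (tendsto_KS hbpos.le 0 ((n : ℤ), 0)) ?_
  filter_upwards [eventually_ge_atTop n] with R hR
  exact hbound R n hR

theorem tendsto_chiw {b : ℝ} (hb : 0 < b) (hm : 0 < mass b) :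
    Tendsto (fun a => chiw a b) (𝓝 0) (𝓝 (chi b)) := by
  unfold chiw chi
  have hm2 : 0 < mass b / 2 := by positivity
  refine tendsto_tsum_of_dominated_convergence
    (bound := fun y : ℤ × ℤ => Real.exp (-((mass b - mass b / 2) * nm y)))
    (summable_exp_nm (by linarith only [hm])) ?_ ?_
  · intro y
    have h1 : Continuous fun a : ℝ => Real.exp (a * y.1) * C b y := by fun_prop
    have h2 := h1.tendsto 0
    simpa only [zero_mul, Real.exp_zero, one_mul] using h2
  · have : ∀ᶠ a : ℝ in 𝓝 0, |a| < mass b / 2 := by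
      have h1 : Continuous fun a : ℝ => |a| := by fun_prop
      have h2 := h1.tendsto 0
      rw [abs_zero] at h2
      exact h2.eventually (gt_mem_nhds hm2)
    filter_upwards [this] with a ha y
    rw [Real.norm_eq_abs, abs_of_nonneg (mul_nonneg (Real.exp_pos _).le (C_nonneg hb.le y))]
    exact weight_C_le hb ha.le y

/-- If `2 χ(b₀) (b - b₀) < 1` then the model is massive at `b`. -/
theorem mass_pos_of_chi {b0 b : ℝ} (hb0 : 0 < b0) (hm : 0 < mass b0) (hb : b0 ≤ b)
    (h : 2 * chi b0 * (b - b0) < 1) : 0 < mass b := by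
  have h1 : Tendsto (fun a => (1 + Real.cosh a) * chiw a b0 * (b - b0)) (𝓝 0)
      (𝓝 (2 * chi b0 * (b - b0))) := by
    have hc : Tendsto (fun a => 1 + Real.cosh a) (𝓝 0) (𝓝 2) := by
      have : Continuous fun a : ℝ => 1 + Real.cosh a := by
        have := Real.continuous_cosh; fun_prop
      have h2 := this.tendsto 0
      rw [Real.cosh_zero] at h2
      norm_num at h2
      exact h2
    exact (hc.mul (tendsto_chiw hb0 hm)).mul_const _
  have h2 : ∀ᶠ a in 𝓝[>] (0 : ℝ), (1 + Real.cosh a) * chiw a b0 * (b - b0) < 1 :=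
    nhdsWithin_le_nhds (h1.eventually (gt_mem_nhds h))
  have h3 : ∀ᶠ a in 𝓝[>] (0 : ℝ), a < mass b0 :=
    nhdsWithin_le_nhds (gt_mem_nhds hm)
  obtain ⟨a, ⟨ha1, ha2⟩, ha3⟩ := ((h2.and h3).and self_mem_nhdsWithin).exists
  exact lt_of_lt_of_le ha3 (le_mass_of_chiw hb0 ha3 ha2 hb ha1)

theorem mass_pos_of_lt_bCrit {b : ℝ} (hb : 0 < b) (h : b < bCrit) : 0 < mass b := by
  rcases (mass_nonneg hb).lt_or_eq with h1 | h1
  · exact h1
  · exfalso
    have : bCrit ≤ b := by
      unfold bCrit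
      exact csInf_le ⟨0, fun x hx => hx.1.le⟩ ⟨hb, h1.symm⟩
    linarith only [h, this]

/-- Mean-field lower bound for the susceptibility. -/
theorem chi_lower {b : ℝ} (hb : 0 < b) (h : b < bCrit) : 1 / (2 * (bCrit - b)) ≤ chi b := by
  have hm := mass_pos_of_lt_bCrit hb h
  have hchi := one_le_chi hb hm
  by_contra hcon
  push Not at hcon
  have hpos : 0 < bCrit - b := sub_pos.2 h
  have h1 : 2 * chi b * (bCrit - b) < 1 := by
    rw [lt_div_iff₀ (by positivity)] at hcon
    linarith only [hcon]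
  -- a slightly larger parameter
  obtain ⟨b', hb', hb'2⟩ : ∃ b', bCrit < b' ∧ 2 * chi b * (b' - b) < 1 := by
    have h2 : Tendsto (fun t => 2 * chi b * (t - b)) (𝓝 bCrit) (𝓝 (2 * chi b * (bCrit - b))) := by
      have : Continuous fun t => 2 * chi b * (t - b) := by fun_prop
      exact this.tendsto _
    have h3 : ∀ᶠ t in 𝓝[>] bCrit, 2 * chi b * (t - b) < 1 :=
      nhdsWithin_le_nhds (h2.eventually (gt_mem_nhds h1))
    obtain ⟨t, ht1, ht2⟩ := (h3.and self_mem_nhdsWithin).exists
    exact ⟨t, ht2, ht1⟩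
  have hne : {b : ℝ | 0 < b ∧ mass b = 0}.Nonempty := by
    by_contra hempty
    rw [Set.not_nonempty_iff_eq_empty] at hempty
    have : bCrit = 0 := by unfold bCrit; rw [hempty, Real.sInf_empty]
    linarith only [hb, h, this]
  have : b' ≤ bCrit := by
    unfold bCrit
    refine le_csInf hne ?_
    rintro t ⟨ht0, ht⟩
    by_contra hlt
    push Not at hlt
    rcases le_total t b with h4 | h4
    · have := mass_anti ht0 h4
      linarith only [hm, ht, this]
    · have h5 : 2 * chi b * (t - b) < 1 := by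
        have : 2 * chi b * (t - b) ≤ 2 * chi b * (b' - b) :=
          mul_le_mul_of_nonneg_left (by linarith only [hlt]) (by linarith only [hchi])
        linarith only [hb'2, this]
      have := mass_pos_of_chi hb hm h4 h5
      linarith only [ht, this]
  linarith only [hb', this]

end Vale.Agent.P159.XY
end

section

/-!
# Lower bounds for the correlation length
-/

open MeasureTheory Filter Topology

set_option linter.unusedSectionVars false

namespace Vale.Agent.P159.XY

open Vale.Agent.P159 (box nn mass bCrit corrInf corrLength)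

theorem chi_upper {b : ℝ} (hb : 0 < b) (hm : 0 < mass b) : chi b ≤ 1 + 8 / mass b ^ 2 := by
  refine (summable_of_box (fun y => C_nonneg hb.le y) (c := 1 + 8 / mass b ^ 2) ?_).2
  intro R
  refine (Finset.sum_le_sum fun y _ => C_le_exp hb y).trans ?_
  have h := sum_box_radial (fun n => Real.exp (-(mass b * n))) R
  rw [h]
  have h2 := sum_n_exp_le hm R
  have e : ∑ n ∈ Finset.range R, 8 * ((n : ℝ) + 1) * Real.exp (-(mass b * ((n + 1 : ℕ) : ℝ)))
      = 8 * ∑ n ∈ Finset.range R, ((n : ℝ) + 1) * Real.exp (-(mass b * ((n : ℝ) + 1))) := by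
    rw [Finset.mul_sum]
    refine Finset.sum_congr rfl fun n _ => ?_
    push_cast
    ring
  rw [e]
  simp only [Nat.cast_zero, mul_zero, neg_zero, Real.exp_zero]
  have : 8 / mass b ^ 2 = 8 * (1 / mass b ^ 2) := by ring
  rw [this]
  linarith

/-- Mean-field lower bound on the correlation length. -/
theorem xi_lower {b : ℝ} (hb : 0 < b) (h : b < bCrit) :
    1 / 4 * Real.sqrt (1 / (bCrit - b) - 2) ≤ corrLength b := by
  have hm := mass_pos_of_lt_bCrit hb h
  have h1 := chi_lower hb h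
  have h2 := chi_upper hb hm
  have hpos : 0 < bCrit - b := sub_pos.2 h
  unfold Vale.Agent.P159.corrLength
  rw [← Real.sqrt_sq (by (clear * - hm; positivity) : (0 : ℝ) ≤ 1 / mass b),
    show (1 : ℝ) / 4 = Real.sqrt ((1 / 4) ^ 2) from (Real.sqrt_sq (by norm_num)).symm,
    ← Real.sqrt_mul (by positivity)]
  apply Real.sqrt_le_sqrt
  have h3 : 1 / (2 * (bCrit - b)) ≤ 1 + 8 / mass b ^ 2 := h1.trans h2
  have e1 : 1 / (2 * (bCrit - b)) = (1 / 2) * (1 / (bCrit - b)) := by
    (clear * - hpos; field_simp)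
  have e2 : (8 : ℝ) / mass b ^ 2 = 8 * (1 / mass b) ^ 2 := by
    field_simp
  rw [e1, e2] at h3
  nlinarith only [h3]

/-- `∑_{n ≥ 1} n^p e^{-λ n} ≤ 2 λ^{-(p+1)}` for `0 ≤ p ≤ 1` (partial sums) -/
theorem sum_rpow_exp_le {p lam : ℝ} (hp0 : 0 ≤ p) (hp1 : p ≤ 1) (hl : 0 < lam) (R : ℕ) :
    ∑ n ∈ Finset.range R, ((n : ℝ) + 1) ^ p * Real.exp (-(lam * ((n : ℝ) + 1)))
      ≤ 2 * lam ^ (-(p + 1)) := by
  have h1 : ∀ n : ℕ, ((n : ℝ) + 1) ^ p ≤ lam ^ (-p) * (1 + lam * ((n : ℝ) + 1)) := by
    intro n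
    have hn : (0 : ℝ) < (n : ℝ) + 1 := by (clear * -; positivity)
    have h2 : (lam * ((n : ℝ) + 1)) ^ p ≤ 1 + lam * ((n : ℝ) + 1) := by
      have hx : 0 < lam * ((n : ℝ) + 1) := by (clear * - hl; positivity)
      rcases le_total (lam * ((n : ℝ) + 1)) 1 with h | h
      · have := Real.rpow_le_one hx.le h hp0
        linarith only [hx, this]
      · have := Real.rpow_le_rpow_of_exponent_le h hp1
        rw [Real.rpow_one] at this
        linarith only [this]
    rw [Real.mul_rpow hl.le hn.le] at h2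
    have h3 : lam ^ (-p) * lam ^ p = 1 := by
      rw [← Real.rpow_add hl]; simp
    calc ((n : ℝ) + 1) ^ p = lam ^ (-p) * (lam ^ p * ((n : ℝ) + 1) ^ p) := by
          rw [← mul_assoc, h3, one_mul]
      _ ≤ lam ^ (-p) * (1 + lam * ((n : ℝ) + 1)) :=
          mul_le_mul_of_nonneg_left h2 (Real.rpow_nonneg hl.le _)
  have h4 := sum_exp_le hl R
  have h5 := sum_n_exp_le hl R
  have hlp := Real.rpow_nonneg hl.le (-p)
  calc ∑ n ∈ Finset.range R, ((n : ℝ) + 1) ^ p * Real.exp (-(lam * ((n : ℝ) + 1)))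
      ≤ ∑ n ∈ Finset.range R, lam ^ (-p) * (1 + lam * ((n : ℝ) + 1))
          * Real.exp (-(lam * ((n : ℝ) + 1))) :=
        Finset.sum_le_sum fun n _ => mul_le_mul_of_nonneg_right (h1 n) (Real.exp_pos _).le
    _ = lam ^ (-p) * (∑ n ∈ Finset.range R, Real.exp (-(lam * ((n : ℝ) + 1)))
          + lam * ∑ n ∈ Finset.range R, ((n : ℝ) + 1) * Real.exp (-(lam * ((n : ℝ) + 1)))) := by
        rw [Finset.mul_sum, ← Finset.sum_add_distrib, Finset.mul_sum]
        refine Finset.sum_congr rfl fun n _ => ?_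
        ring
    _ ≤ lam ^ (-p) * (1 / lam + lam * (1 / lam ^ 2)) := by
        gcongr
    _ = 2 * lam ^ (-(p + 1)) := by
        have e1 : lam * (1 / lam ^ 2) = 1 / lam := by field_simp
        have e2 : lam ^ (-(p + 1)) = lam ^ (-p) * (1 / lam) := by
          rw [neg_add, Real.rpow_add hl, Real.rpow_neg_one, one_div]
        rw [e1, e2]
        ring

/-- Upper bound for the susceptibility from a polynomial bound with an exponential cutoff. -/
theorem chi_upper_of_decay {b : ℝ} (hb : 0 < b) {K s lam : ℝ} (hK : 0 ≤ K) (hs0 : 0 ≤ s)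
    (hs1 : s ≤ 1) (hl : 0 < lam)
    (h : ∀ x : ℤ × ℤ, x ≠ 0 → C b x ≤ K * (nm x : ℝ) ^ (-s) * Real.exp (-(lam * nm x))) :
    chi b ≤ 1 + 16 * K * lam ^ (-(2 - s)) := by
  refine (summable_of_box (fun y => C_nonneg hb.le y) ?_).2
  intro R
  have h0 : ∀ y : ℤ × ℤ, C b y ≤ (fun n : ℕ => if n = 0 then (1 : ℝ)
      else K * (n : ℝ) ^ (-s) * Real.exp (-(lam * n))) (nm y) := by
    intro y
    by_cases hy : y = 0
    · subst hy; simp [nm_zero, C_zero]
    · have : nm y ≠ 0 := by
        intro h0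
        apply hy
        unfold nm at h0
        rw [Prod.ext_iff]
        simp only [Prod.fst_zero, Prod.snd_zero]
        (clear * - h0; omega)
      simp only [this, if_false]
      exact h y hy
  refine (Finset.sum_le_sum fun y _ => h0 y).trans ?_
  rw [sum_box_radial (fun n : ℕ => if n = 0 then (1 : ℝ)
      else K * (n : ℝ) ^ (-s) * Real.exp (-(lam * n)))]
  have h2 := sum_rpow_exp_le (p := 1 - s) (by linarith) (by linarith only [hs0]) hl R
  have e : ∑ n ∈ Finset.range R, 8 * ((n : ℝ) + 1) * (if n + 1 = 0 then (1 : ℝ)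
        else K * ((n + 1 : ℕ) : ℝ) ^ (-s) * Real.exp (-(lam * ((n + 1 : ℕ) : ℝ))))
      = 8 * K * ∑ n ∈ Finset.range R, ((n : ℝ) + 1) ^ (1 - s)
          * Real.exp (-(lam * ((n : ℝ) + 1))) := by
    rw [Finset.mul_sum]
    refine Finset.sum_congr rfl fun n _ => ?_
    have hn : (0 : ℝ) < (n : ℝ) + 1 := by (clear * -; positivity)
    rw [if_neg (Nat.succ_ne_zero n), sub_eq_add_neg, Real.rpow_add hn, Real.rpow_one]
    push_cast
    ring
  simp only [if_true]
  rw [e]
  have e3 : lam ^ (-(1 - s + 1)) = lam ^ (-(2 - s)) := by congr 1; ring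
  rw [e3] at h2
  nlinarith only [mul_le_mul_of_nonneg_left h2 (by positivity : (0 : ℝ) ≤ 8 * K)]

/-- A power law upper bound at the critical point improves the lower bound on the correlation
length. -/
theorem xi_lower_of_decay {K eta t : ℝ} (hK : 0 < K) (he0 : 0 ≤ eta) (he1 : eta ≤ 1)
    (ht0 : 0 < t) (ht1 : t < 1) (hbc : 0 < bCrit)
    (h : ∀ x : ℤ × ℤ, x ≠ 0 → C bCrit x ≤ K * (nm x : ℝ) ^ (-eta)) :
    ∃ c : ℝ, 0 < c ∧ ∀ᶠ b in 𝓝[<] bCrit,
      c * (bCrit - b) ^ (-(1 / (2 - eta * (1 - t)))) ≤ corrLength b := by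
  set s := eta * (1 - t) with hs
  have hs0 : 0 ≤ s := mul_nonneg he0 (by linarith only [ht1])
  have hs1 : s ≤ 1 := by
    have : eta * (1 - t) ≤ 1 * 1 := mul_le_mul he1 (by linarith only [ht0]) (by linarith only [ht1]) (by norm_num)
    linarith only [this]
  have h2s : 0 < 2 - s := by linarith
  set K' := K ^ (1 - t) with hK'
  have hK'0 : 0 < K' := Real.rpow_pos_of_pos hK _
  have hchi : ∀ b : ℝ, 0 < b → b < bCrit →
      1 / (2 * (bCrit - b)) ≤ 1 + 16 * K' * (mass b * t) ^ (-(2 - s)) := by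
    intro b hb hbb
    have hm := mass_pos_of_lt_bCrit hb hbb
    refine (chi_lower hb hbb).trans ?_
    refine chi_upper_of_decay hb hK'0.le hs0 hs1 (mul_pos hm ht0) ?_
    intro x hx
    have hC := C_pos hb x
    have hn : (0 : ℝ) < nm x := by
      have : nm x ≠ 0 := by
        intro h0
        apply hx
        unfold nm at h0
        rw [Prod.ext_iff]
        simp only [Prod.fst_zero, Prod.snd_zero]
        omega
      exact_mod_cast Nat.pos_of_ne_zero this
    have h1 : C b x ^ (1 - t) ≤ (K * (nm x : ℝ) ^ (-eta)) ^ (1 - t) :=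
      Real.rpow_le_rpow hC.le ((C_mono_b hb.le hbb.le x).trans (h x hx)) (by linarith only [ht1])
    have h2 : C b x ^ t ≤ (Real.exp (-(mass b * nm x))) ^ t :=
      Real.rpow_le_rpow hC.le (C_le_exp hb x) ht0.le
    calc C b x = C b x ^ (1 - t) * C b x ^ t := by
          rw [← Real.rpow_add hC]; simp
      _ ≤ (K * (nm x : ℝ) ^ (-eta)) ^ (1 - t) * (Real.exp (-(mass b * nm x))) ^ t :=
          mul_le_mul h1 h2 (Real.rpow_nonneg hC.le _)
            (Real.rpow_nonneg (mul_nonneg hK.le (Real.rpow_nonneg hn.le _)) _)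
      _ = K' * (nm x : ℝ) ^ (-s) * Real.exp (-(mass b * t * nm x)) := by
          rw [Real.mul_rpow hK.le (Real.rpow_nonneg hn.le _), ← Real.rpow_mul hn.le,
            ← Real.exp_mul]
          congr 2
          · rw [hs]; ring_nf
          · ring
  refine ⟨t * (64 * K') ^ (-(1 / (2 - s))), by (clear * - ht0 hK; positivity), ?_⟩
  have hev : ∀ᶠ b in 𝓝[<] bCrit, max 0 (bCrit - 1 / 4) < b :=
    nhdsWithin_le_nhds (lt_mem_nhds (by rw [max_lt_iff]; constructor <;> linarith only [hbc]))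
  filter_upwards [hev, self_mem_nhdsWithin] with b hb1 hb2
  rw [max_lt_iff] at hb1
  have hb0 : 0 < b := hb1.1
  have hbb : b < bCrit := hb2
  have hd : 0 < bCrit - b := sub_pos.2 hbb
  have hm := mass_pos_of_lt_bCrit hb0 hbb
  have h1 := hchi b hb0 hbb
  -- `1 ≤ 1/(4 (bc - b))`
  have h2 : 1 ≤ 1 / (4 * (bCrit - b)) := by
    rw [le_div_iff₀ (by positivity)]; linarith only [hb1]
  have h3 : 1 / (2 * (bCrit - b)) = 1 / (4 * (bCrit - b)) + 1 / (4 * (bCrit - b)) := by
    field_simp; ring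
  have h4 : 1 / (4 * (bCrit - b)) ≤ 16 * K' * (mass b * t) ^ (-(2 - s)) := by linarith
  have hmt : 0 < mass b * t := mul_pos hm ht0
  have h5 : (mass b * t) ^ (2 - s) ≤ 64 * K' * (bCrit - b) := by
    rw [Real.rpow_neg hmt.le, ← div_eq_mul_inv,
      div_le_div_iff₀ (by (clear * - hbb; positivity)) (Real.rpow_pos_of_pos hmt _)] at h4
    linarith only [h4]
  have h6 : mass b * t ≤ (64 * K' * (bCrit - b)) ^ (1 / (2 - s)) := by
    have := Real.rpow_le_rpow (Real.rpow_nonneg hmt.le _) h5 (by (clear * - h2s; positivity) : 0 ≤ 1 / (2 - s))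
    rwa [← Real.rpow_mul hmt.le, mul_one_div_cancel h2s.ne', Real.rpow_one] at this
  unfold Vale.Agent.P159.corrLength
  rw [Real.mul_rpow (by positivity) hd.le] at h6
  rw [Real.rpow_neg (by positivity), Real.rpow_neg hd.le, le_div_iff₀ hm]
  have h7 : 0 < (64 * K') ^ (1 / (2 - s)) := Real.rpow_pos_of_pos (by positivity) _
  have h8 : 0 < (bCrit - b) ^ (1 / (2 - s)) := Real.rpow_pos_of_pos hd _
  calc t * ((64 * K') ^ (1 / (2 - s)))⁻¹ * ((bCrit - b) ^ (1 / (2 - s)))⁻¹ * mass b
      = (mass b * t) * (((64 * K') ^ (1 / (2 - s))) * ((bCrit - b) ^ (1 / (2 - s))))⁻¹ := by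
        rw [mul_inv]; ring
    _ ≤ (((64 * K') ^ (1 / (2 - s))) * ((bCrit - b) ^ (1 / (2 - s))))
        * (((64 * K') ^ (1 / (2 - s))) * ((bCrit - b) ^ (1 / (2 - s))))⁻¹ :=
        mul_le_mul_of_nonneg_right h6 (by positivity)
    _ = 1 := mul_inv_cancel₀ (by positivity)

end Vale.Agent.P159.XY
end

section

/-!
# A finite volume criterion for exponential decay
-/

open MeasureTheory Filter Topology

set_option linter.unusedSectionVars false

namespace Vale.Agent.P159.XY

open Vale.Agent.P159 (box nn mass bCrit corrInf)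

section General

variable {V : Type*} [Fintype V]

theorem corr_eq_zero_of_disconnected (J : V → V → ℝ) (p : V → Prop) [DecidablePred p]
    (hJ : ∀ u v, ¬ (p u ↔ p v) → J u v = 0) {x z : V} (hx : p x) (hz : ¬ p z) :
    corr J x z = 0 := by
  let γ : V → T := fun v => if p v then ((Real.pi : ℝ) : T) else 0
  have hE : ∀ θ : V → T, energy J (θ + γ) = energy J θ := by
    intro θ
    unfold energy
    refine Finset.sum_congr rfl fun u _ => Finset.sum_congr rfl fun v _ => ?_
    by_cases h : p u ↔ p v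
    · have : γ u = γ v := by
        simp only [γ]
        by_cases hv : p v
        · rw [if_pos hv, if_pos (h.2 hv)]
        · rw [if_neg hv, if_neg fun hu => hv (h.1 hu)]
      rw [Pi.add_apply, Pi.add_apply, this, add_sub_add_right_eq_sub]
    · rw [hJ u v h, zero_mul, zero_mul]
  have h1 : un J (fun θ => ct (θ x - θ z)) = - un J (fun θ => ct (θ x - θ z)) := by
    have h2 : ∫ θ, ct ((θ + γ) x - (θ + γ) z) * Real.exp (energy J (θ + γ)) ∂haarV V
        = ∫ θ, ct (θ x - θ z) * Real.exp (energy J θ) ∂haarV V :=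
      integral_add_right_eq_self (μ := haarV V)
        (fun θ => ct (θ x - θ z) * Real.exp (energy J θ)) γ
    have h3 : ∀ θ : V → T, ct ((θ + γ) x - (θ + γ) z) * Real.exp (energy J (θ + γ))
        = -(ct (θ x - θ z) * Real.exp (energy J θ)) := by
      intro θ
      rw [hE, Pi.add_apply, Pi.add_apply]
      have e1 : γ x = ((Real.pi : ℝ) : T) := by simp only [γ]; rw [if_pos hx]
      have e2 : γ z = 0 := by simp only [γ]; rw [if_neg hz]
      rw [e1, e2, add_zero, show θ x + ((Real.pi : ℝ) : T) - θ z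
        = (θ x - θ z) + ((Real.pi : ℝ) : T) by abel, ct_add_pi]
      ring
    simp_rw [h3] at h2
    rw [integral_neg] at h2
    unfold un
    linarith only [h2]
  unfold corr ev
  rw [show un J (fun θ => ct (θ x - θ z)) = 0 by linarith only [h1], zero_div]

/-- Simon type inequality obtained by switching on the couplings crossing a surface. -/
theorem crossing_ineq (J : V → V → ℝ) (hJ : ∀ u v, 0 ≤ J u v) (hsym : ∀ u v, J u v = J v u)
    (p : V → Prop) [DecidablePred p] {x z : V} (hx : p x) (hz : ¬ p z) :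
    corr J x z ≤ ∑ u, ∑ v, (if p u ↔ p v then 0 else J u v) * (corr J x u * corr J v z) := by
  let J0 : V → V → ℝ := fun u v => if p u ↔ p v then J u v else 0
  let B : V → V → ℝ := fun u v => if p u ↔ p v then 0 else J u v
  have hJ0 : ∀ u v, 0 ≤ J0 u v := by
    intro u v; simp only [J0]; split_ifs
    · exact hJ u v
    · exact le_rfl
  have hB : ∀ u v, 0 ≤ B u v := by
    intro u v; simp only [B]; split_ifs
    · exact le_rfl
    · exact hJ u v
  have hBs : ∀ u v, B u v = B v u := by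
    intro u v
    simp only [B]
    by_cases h : p u ↔ p v
    · rw [if_pos h, if_pos h.symm]
    · rw [if_neg h, if_neg fun h' => h h'.symm, hsym]
  have hsum : ∀ u v, J0 u v + 1 * B u v = J u v := by
    intro u v; simp only [J0, B]; split_ifs <;> simp
  let g : ℝ → ℝ := fun t => corr (fun u v => J0 u v + t * B u v) x z
  have hg : ∀ t, HasDerivAt g (dcorr (fun u v => J0 u v + t * B u v) B x z) t :=
    fun t => hasDerivAt_corr J0 B x z t
  have h01 := Convex.image_sub_le_mul_sub_of_deriv_le (convex_Icc (0 : ℝ) 1) (f := g)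
    (fun t _ => (hg t).continuousAt.continuousWithinAt)
    (fun t _ => (hg t).differentiableAt.differentiableWithinAt)
    (C := ∑ u, ∑ v, B u v * (corr J x u * corr J v z)) (by
      intro t ht
      rw [interior_Icc] at ht
      rw [(hg t).deriv]
      have hJt : ∀ u v, 0 ≤ J0 u v + t * B u v := fun u v =>
        add_nonneg (hJ0 u v) (mul_nonneg ht.1.le (hB u v))
      have hle : ∀ u v, J0 u v + t * B u v ≤ J u v := by
        intro u v
        rw [← hsum u v]
        have := mul_le_mul_of_nonneg_right ht.2.le (hB u v)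
        linarith only [this]
      refine (dcorr_le _ B hJt hB hBs x z).trans ?_
      refine Finset.sum_le_sum fun u _ => Finset.sum_le_sum fun v _ =>
        mul_le_mul_of_nonneg_left ?_ (hB u v)
      exact mul_le_mul (corr_mono hJt hle x u) (corr_mono hJt hle v z)
        (corr_nonneg _ hJt _ _) (corr_nonneg _ hJ _ _))
    0 (Set.left_mem_Icc.2 zero_le_one) 1 (Set.right_mem_Icc.2 zero_le_one) zero_le_one
  have g0 : g 0 = 0 := by
    simp only [g, zero_mul, add_zero]
    exact corr_eq_zero_of_disconnected J0 p (fun u v h => by simp only [J0]; rw [if_neg h]) hx hz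
  have g1 : g 1 = corr J x z := by
    simp only [g]
    congr 1
    funext u v
    exact hsum u v
  rw [g0, g1, sub_zero, sub_zero, mul_one] at h01
  exact h01

end General

/-- couplings crossing the boundary of the box of radius `n` -/
noncomputable def cross (n : ℕ) (u v : ℤ × ℤ) : ℝ :=
  if (u ∈ box n ↔ v ∈ box n) then 0 else A u v

theorem cross_nonneg (n : ℕ) (u v : ℤ × ℤ) : 0 ≤ cross n u v := by
  unfold cross; split_ifs
  · exact le_rfl
  · exact A_nonneg u v

theorem cross_support {n : ℕ} {u v : ℤ × ℤ} (h : cross n u v ≠ 0) :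
    n ≤ nm u ∧ nm u ≤ n + 1 ∧ n ≤ nm v ∧ nm v ≤ n + 1 := by
  unfold cross at h
  split_ifs at h with h1
  · exact absurd rfl h
  · rw [A_eq] at h
    split_ifs at h with h2
    · rw [mem_box_iff_nm, mem_box_iff_nm] at h1
      have k1 : nm u ≤ nm v + 1 := by
        clear h h1
        exact max_le ((show u.1.natAbs ≤ v.1.natAbs + 1 by omega).trans
          (Nat.add_le_add_right (le_max_left _ _) 1)) ((show u.2.natAbs ≤ v.2.natAbs + 1 by
          omega).trans (Nat.add_le_add_right (le_max_right _ _) 1))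
      have k2 : nm v ≤ nm u + 1 := by
        clear h h1 k1
        exact max_le ((show v.1.natAbs ≤ u.1.natAbs + 1 by (clear * - h2; omega)).trans
          (Nat.add_le_add_right (le_max_left _ _) 1)) ((show v.2.natAbs ≤ u.2.natAbs + 1 by
          omega).trans (Nat.add_le_add_right (le_max_right _ _) 1))
      clear h2 h
      omega
    · exact absurd rfl h

/-- Simon type inequality in infinite volume -/
theorem C_le_cross {b : ℝ} (hb : 0 ≤ b) (n : ℕ) {x : ℤ × ℤ} (hx : x ∉ box n) :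
    C b x ≤ ∑ u ∈ box (n + 1), ∑ v ∈ box (n + 1), b * cross n u v * (C b u * C b (x - v)) := by
  refine le_of_tendsto (tendsto_KS hb 0 x) ?_
  filter_upwards [eventually_ge_atTop (nm x), eventually_ge_atTop (n + 1)] with R hR hR1
  have hxR : x ∈ box R := mem_box_iff_nm.2 hR
  rw [KS_of_mem b (zero_mem_box R) hxR]
  have h1 := crossing_ineq (fun u v : box R => b * A u v)
    (fun u v => mul_nonneg hb (A_nonneg _ _)) (fun u v => by rw [A_symm])
    (fun u : box R => (u : ℤ × ℤ) ∈ box n) (x := ⟨0, zero_mem_box R⟩) (z := ⟨x, hxR⟩)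
    (zero_mem_box n) hx
  refine h1.trans ?_
  have h2 : ∀ u v : box R, (if ((u : ℤ × ℤ) ∈ box n ↔ (v : ℤ × ℤ) ∈ box n) then 0
        else b * A u v) * (corr (fun u v : box R => b * A u v) ⟨0, zero_mem_box R⟩ u
          * corr (fun u v : box R => b * A u v) v ⟨x, hxR⟩)
      ≤ b * cross n u v * (C b u * C b (x - v)) := by
    intro u v
    have e1 : (if ((u : ℤ × ℤ) ∈ box n ↔ (v : ℤ × ℤ) ∈ box n) then 0
        else b * A u v) = b * cross n u v := by
      unfold cross; split_ifs <;> simp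
    rw [e1]
    refine mul_le_mul_of_nonneg_left ?_ (mul_nonneg hb (cross_nonneg _ _ _))
    have e2 : corr (fun u v : box R => b * A u v) ⟨0, zero_mem_box R⟩ u ≤ C b u := by
      rw [← KS_of_mem b (zero_mem_box R) u.2]; exact KS_box_le_CI b R 0 u
    have e3 : corr (fun u v : box R => b * A u v) v ⟨x, hxR⟩ ≤ C b (x - v) := by
      rw [← KS_of_mem b v.2 hxR, ← CI_eq hb]; exact KS_box_le_CI b R v x
    exact mul_le_mul e2 e3 (corr_nonneg _ (fun u v => mul_nonneg hb (A_nonneg _ _)) _ _)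
      (C_nonneg hb _)
  refine (Finset.sum_le_sum fun u _ => Finset.sum_le_sum fun v _ => h2 u v).trans (le_of_eq ?_)
  have h3 : ∀ u : ℤ × ℤ, ∑ v : box R, b * cross n u v * (C b u * C b (x - v))
      = ∑ v ∈ box (n + 1), b * cross n u v * (C b u * C b (x - v)) := by
    intro u
    rw [Finset.sum_coe_sort (box R) (fun v => b * cross n u v * (C b u * C b (x - v)))]
    symm
    refine Finset.sum_subset (box_mono hR1) fun v _ hv => ?_
    have : cross n u v = 0 := by
      by_contra hne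
      exact hv (mem_box_iff_nm.2 (cross_support hne).2.2.2)
    rw [this]; ring
  simp_rw [h3]
  rw [Finset.sum_coe_sort (box R)
    (fun u => ∑ v ∈ box (n + 1), b * cross n u v * (C b u * C b (x - v)))]
  symm
  refine Finset.sum_subset (box_mono hR1) fun u _ hu => ?_
  refine Finset.sum_eq_zero fun v _ => ?_
  have : cross n u v = 0 := by
    by_contra hne
    exact hu (mem_box_iff_nm.2 (cross_support hne).2.1)
  rw [this]; ring

/-- boundary sum -/
noncomputable def phi (b : ℝ) (n : ℕ) : ℝ :=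
  ∑ u ∈ box (n + 1), ∑ v ∈ box (n + 1), b * cross n u v * C b u

theorem phi_nonneg {b : ℝ} (hb : 0 ≤ b) (n : ℕ) : 0 ≤ phi b n :=
  Finset.sum_nonneg fun _ _ => Finset.sum_nonneg fun _ _ =>
    mul_nonneg (mul_nonneg hb (cross_nonneg _ _ _)) (C_nonneg hb _)

theorem C_le_phi_pow {b : ℝ} (hb : 0 ≤ b) (n k : ℕ) :
    ∀ x : ℤ × ℤ, k * (n + 1) ≤ nm x → C b x ≤ phi b n ^ k := by
  induction k with
  | zero => intro x _; simpa only [pow_zero] using C_le_one b x
  | succ k ih =>
    intro x hx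
    have hxn : x ∉ box n := by
      rw [mem_box_iff_nm]
      have : (k + 1) * (n + 1) = k * (n + 1) + (n + 1) := by ring
      omega
    refine (C_le_cross hb n hxn).trans ?_
    rw [pow_succ', phi, Finset.sum_mul]
    refine Finset.sum_le_sum fun u _ => ?_
    rw [Finset.sum_mul]
    refine Finset.sum_le_sum fun v hv => ?_
    rw [mul_assoc (b * cross n u v)]
    refine mul_le_mul_of_nonneg_left ?_ (mul_nonneg hb (cross_nonneg _ _ _))
    refine mul_le_mul_of_nonneg_left ?_ (C_nonneg hb _)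
    apply ih
    have h1 := nm_add_le (x - v) v
    rw [sub_add_cancel] at h1
    rw [mem_box_iff_nm] at hv
    have : (k + 1) * (n + 1) = k * (n + 1) + (n + 1) := by ring
    omega

/-- Finite size criterion for exponential decay. -/
theorem mass_pos_of_phi {b : ℝ} (hb : 0 < b) {n : ℕ} (h : phi b n < 1) : 0 < mass b := by
  obtain ⟨q, hq0, hq1, hq⟩ : ∃ q : ℝ, 0 < q ∧ q < 1 ∧ phi b n ≤ q :=
    ⟨max (phi b n) (1 / 2), lt_of_lt_of_le (by norm_num) (le_max_right _ _),
      max_lt h (by norm_num), le_max_left _ _⟩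
  have hlog : 0 < -Real.log q := by
    have := Real.log_neg hq0 hq1
    linarith
  have hn : (0 : ℝ) < (n : ℝ) + 1 := by (clear * -; positivity)
  refine lt_of_lt_of_le (div_pos hlog hn) ?_
  -- limit along multiples of `n + 1`
  have h1 : Tendsto (fun k : ℕ => (k + 1) * (n + 1)) atTop atTop :=
    Tendsto.atTop_mul_const' (Nat.succ_pos n) (tendsto_add_atTop_nat 1)
  have h2 := (tendsto_ulog hb).comp h1
  refine ge_of_tendsto' h2 fun k => ?_
  simp only [Function.comp]
  set N : ℕ := (k + 1) * (n + 1) with hN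
  have hNm : nm ((N : ℤ), 0) = N := by unfold nm; simp only [Int.natAbs_natCast, Int.natAbs_zero, zero_le, sup_of_le_left]
  have h3 : C b ((N : ℤ), 0) ≤ q ^ (k + 1) :=
    (C_le_phi_pow hb.le n (k + 1) _ (by rw [hNm])).trans
      (pow_le_pow_left₀ (phi_nonneg hb.le n) hq _)
  have h4 := Real.log_le_log (C_axis_pos hb N) h3
  rw [Real.log_pow] at h4
  have hk : (0 : ℝ) < (k : ℝ) + 1 := by (clear * -; positivity)
  have hNr : (N : ℝ) = ((k : ℝ) + 1) * ((n : ℝ) + 1) := by rw [hN]; push_cast; ring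
  unfold ulog
  rw [hNr, div_le_div_iff₀ hn (by (clear * -; positivity))]
  push_cast at h4
  nlinarith only [h4]

/-- If correlations decay faster than `1/|x|` then they decay exponentially. -/
theorem mass_pos_of_decay {b : ℝ} (hb : 0 < b) {K eta : ℝ} (hK : 0 ≤ K) (he : 1 < eta)
    (h : ∀ x : ℤ × ℤ, x ≠ 0 → C b x ≤ K * (nm x : ℝ) ^ (-eta)) : 0 < mass b := by
  have hphi : ∀ n : ℕ, 1 ≤ n → phi b n ≤ b * K * 48 * (n : ℝ) ^ (1 - eta) := by
    intro n hn
    have hn0 : (0 : ℝ) < n := by exact_mod_cast hn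
    have h1 : ∀ u ∈ box (n + 1), ∑ v ∈ box (n + 1), b * cross n u v * C b u
        ≤ if u ∈ box (n + 1) \ box (n - 1) then b * 2 * (K * (n : ℝ) ^ (-eta)) else 0 := by
      intro u hu
      split_ifs with h2
      · have hnu : n ≤ nm u := by
          rw [Finset.mem_sdiff, mem_box_iff_nm, mem_box_iff_nm] at h2
          omega
        have hu0 : u ≠ 0 := by
          rintro rfl
          rw [nm_zero] at hnu
          omega
        have hCu : C b u ≤ K * (n : ℝ) ^ (-eta) := by
          refine (h u hu0).trans (mul_le_mul_of_nonneg_left ?_ hK)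
          exact Real.rpow_le_rpow_of_nonpos hn0 (by exact_mod_cast hnu) (by linarith only [he])
        have hA : ∑ v ∈ box (n + 1), A u v ≤ 2 := by
          have := sum_A_weight (n + 1) 0 ⟨u, hu⟩
          simp only [zero_mul, Real.exp_zero, mul_one, Real.cosh_zero] at this
          rw [Finset.sum_coe_sort (box (n + 1)) (fun v => A u v)] at this
          linarith only [this]
        calc ∑ v ∈ box (n + 1), b * cross n u v * C b u
            ≤ ∑ v ∈ box (n + 1), b * A u v * (K * (n : ℝ) ^ (-eta)) := by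
              refine Finset.sum_le_sum fun v _ => ?_
              have hc : cross n u v ≤ A u v := by
                unfold cross; split_ifs
                · exact A_nonneg u v
                · exact le_rfl
              exact mul_le_mul (mul_le_mul_of_nonneg_left hc hb.le) hCu (C_nonneg hb.le _)
                (mul_nonneg hb.le (A_nonneg _ _))
          _ = b * (∑ v ∈ box (n + 1), A u v) * (K * (n : ℝ) ^ (-eta)) := by
              rw [Finset.mul_sum, Finset.sum_mul]
          _ ≤ b * 2 * (K * (n : ℝ) ^ (-eta)) := by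
              refine mul_le_mul_of_nonneg_right (mul_le_mul_of_nonneg_left hA hb.le)
                (mul_nonneg hK (Real.rpow_nonneg hn0.le _))
      · refine le_of_eq (Finset.sum_eq_zero fun v _ => ?_)
        have : cross n u v = 0 := by
          by_contra hne
          apply h2
          rw [Finset.mem_sdiff, mem_box_iff_nm, mem_box_iff_nm]
          have := cross_support hne
          omega
        rw [this]; ring
    have hcard : ((box (n + 1) \ box (n - 1)).card : ℝ) ≤ 24 * n := by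
      have h3 : (box (n + 1) \ box (n - 1)).card = (2 * (n + 1) + 1) ^ 2 - (2 * (n - 1) + 1) ^ 2 := by
        rw [Finset.card_sdiff_of_subset (box_mono (by omega)), card_box, card_box]
      obtain ⟨m, rfl⟩ : ∃ m, n = m + 1 := ⟨n - 1, by omega⟩
      have h4 : (2 * (m + 1 + 1) + 1) ^ 2 - (2 * (m + 1 - 1) + 1) ^ 2 ≤ 24 * (m + 1) := by
        rw [Nat.add_sub_cancel]
        apply Nat.sub_le_of_le_add
        nlinarith only []
      rw [h3]
      exact_mod_cast h4
    calc phi b n ≤ ∑ u ∈ box (n + 1), (if u ∈ box (n + 1) \ box (n - 1)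
            then b * 2 * (K * (n : ℝ) ^ (-eta)) else 0) := Finset.sum_le_sum h1
      _ = ((box (n + 1) \ box (n - 1)).card : ℝ) * (b * 2 * (K * (n : ℝ) ^ (-eta))) := by
          rw [← Finset.sum_filter, Finset.sum_const, nsmul_eq_mul]
          congr 2
          congr 1
          ext u
          simp only [Finset.mem_filter, Finset.mem_sdiff]
          (clear * -; tauto)
      _ ≤ (24 * n) * (b * 2 * (K * (n : ℝ) ^ (-eta))) := by
          refine mul_le_mul_of_nonneg_right hcard ?_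
          have := Real.rpow_nonneg hn0.le (-eta)
          positivity
      _ = b * K * 48 * (n : ℝ) ^ (1 - eta) := by
          rw [sub_eq_add_neg, Real.rpow_add hn0, Real.rpow_one]; ring
  have hlim : Tendsto (fun n : ℕ => b * K * 48 * (n : ℝ) ^ (1 - eta)) atTop (𝓝 0) := by
    have h1 : Tendsto (fun n : ℕ => (n : ℝ) ^ (-(eta - 1))) atTop (𝓝 0) :=
      (tendsto_rpow_neg_atTop (by linarith)).comp tendsto_natCast_atTop_atTop
    have h2 := h1.const_mul (b * K * 48)
    rw [mul_zero] at h2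
    refine h2.congr fun n => ?_
    rw [neg_sub]
  have hev := hlim.eventually (gt_mem_nhds one_pos)
  obtain ⟨n, hn1, hn2⟩ := (hev.and (eventually_ge_atTop 1)).exists
  exact mass_pos_of_phi hb (lt_of_le_of_lt (hphi n hn2) hn1)

end Vale.Agent.P159.XY
end

section

/-!
# Passing from a sublattice to the whole lattice; the critical point
-/

open MeasureTheory Filter Topology

set_option linter.unusedSectionVars false

namespace Vale.Agent.P159.XY

open Vale.Agent.P159 (box nn mass bCrit corrInf corrLength)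

theorem nm_ne_zero {x : ℤ × ℤ} (hx : x ≠ 0) : nm x ≠ 0 := by
  intro h0
  apply hx
  unfold nm at h0
  rw [Prod.ext_iff]
  simp only [Prod.fst_zero, Prod.snd_zero]
  omega

theorem nm_cast (x : ℤ × ℤ) : (nm x : ℝ) = max |(x.1 : ℝ)| |(x.2 : ℝ)| := by
  unfold nm
  have h1 : |(x.1 : ℝ)| = (x.1.natAbs : ℝ) := by
    rw [← Int.cast_abs, Int.abs_eq_natAbs]; simp only [Nat.cast_natAbs, Int.cast_abs, Int.cast_eq]
  have h2 : |(x.2 : ℝ)| = (x.2.natAbs : ℝ) := by
    rw [← Int.cast_abs, Int.abs_eq_natAbs]; simp only [Nat.cast_natAbs, Int.cast_abs, Int.cast_eq]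
  rw [h1, h2]
  exact Nat.cast_max _ _

/-- A power law upper bound on a sublattice extends to all of `ℤ²`. -/
theorem decay_all {b : ℝ} (hb : 0 < b) {l : ℕ} (hl : 1 ≤ l) {K eta : ℝ} (hK : 0 < K)
    (heta : 0 ≤ eta)
    (h : ∀ x : ℤ × ℤ, (l : ℤ) ∣ x.1 → (l : ℤ) ∣ x.2 → x ≠ 0 → C b x ≤ K * (nm x : ℝ) ^ (-eta)) :
    ∃ K' : ℝ, 0 < K' ∧ ∀ x : ℤ × ℤ, x ≠ 0 → C b x ≤ K' * (nm x : ℝ) ^ (-eta) := by
  obtain ⟨y0, _, hy0⟩ := Finset.exists_min_image (box l) (C b) ⟨0, zero_mem_box l⟩
  set c := C b y0 with hc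
  have hc0 : 0 < c := C_pos hb y0
  have hl0 : (0 : ℝ) < l := by exact_mod_cast hl
  refine ⟨K * 2 ^ eta / c + (2 * l) ^ eta, by positivity, ?_⟩
  intro x hx
  have hn0 : (0 : ℝ) < nm x := by exact_mod_cast Nat.pos_of_ne_zero (nm_ne_zero hx)
  have hpow := Real.rpow_nonneg hn0.le (-eta)
  rcases lt_or_ge (nm x) (2 * l) with hlt | hge
  · -- small distances
    have h1 : (nm x : ℝ) ≤ 2 * l := by exact_mod_cast hlt.le
    have h2 : 1 ≤ (2 * (l : ℝ)) ^ eta * (nm x : ℝ) ^ (-eta) := by
      rw [Real.rpow_neg hn0.le, ← div_eq_mul_inv, one_le_div (Real.rpow_pos_of_pos hn0 _)]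
      exact Real.rpow_le_rpow hn0.le h1 heta
    calc C b x ≤ 1 := C_le_one b x
      _ ≤ (2 * (l : ℝ)) ^ eta * (nm x : ℝ) ^ (-eta) := h2
      _ ≤ (K * 2 ^ eta / c + (2 * l) ^ eta) * (nm x : ℝ) ^ (-eta) := by
          refine mul_le_mul_of_nonneg_right ?_ hpow
          have : 0 ≤ K * 2 ^ eta / c := by positivity
          (clear * - this; linarith)
  · -- large distances
    have hlz : (0 : ℤ) < l := by exact_mod_cast hl
    set z : ℤ × ℤ := (x.1 % l, x.2 % l) with hz
    set x'' : ℤ × ℤ := ((l : ℤ) * (x.1 / l), (l : ℤ) * (x.2 / l)) with hx''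
    have hsum : x'' + z = x := by
      rw [hx'', hz]
      ext
      · exact Int.mul_ediv_add_emod _ _
      · exact Int.mul_ediv_add_emod _ _
    have hzl : nm z ≤ l := by
      have h1 := Int.emod_nonneg x.1 hlz.ne'
      have h2 := Int.emod_lt_of_pos x.1 hlz
      have h3 := Int.emod_nonneg x.2 hlz.ne'
      have h4 := Int.emod_lt_of_pos x.2 hlz
      unfold nm
      rw [hz]
      simp only
      omega
    have hnm : nm x ≤ nm x'' + l := by
      have := nm_add_le x'' z
      rw [hsum] at this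
      omega
    have hx''0 : x'' ≠ 0 := by
      intro h0
      rw [h0, nm_zero] at hnm
      (clear * - hl hge hnm; omega)
    have hC1 : C b x * c ≤ C b x'' := by
      have h1 := C_supermul hb.le x (-z)
      rw [C_neg hb.le] at h1
      have e : x + -z = x'' := by rw [← hsum]; abel
      rw [e] at h1
      refine (mul_le_mul_of_nonneg_left ?_ (C_nonneg hb.le x)).trans h1
      exact hy0 z (mem_box_iff_nm.2 hzl)
    have hC2 := h x'' (Dvd.intro _ rfl) (Dvd.intro _ rfl) hx''0
    have hhalf : (nm x : ℝ) / 2 ≤ nm x'' := by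
      have h1 : (nm x : ℝ) ≤ nm x'' + l := by exact_mod_cast hnm
      have h2 : 2 * (l : ℝ) ≤ nm x := by exact_mod_cast hge
      linarith only [h1, h2]
    have h3 : (nm x'' : ℝ) ^ (-eta) ≤ 2 ^ eta * (nm x : ℝ) ^ (-eta) := by
      have h4 : (nm x'' : ℝ) ^ (-eta) ≤ ((nm x : ℝ) / 2) ^ (-eta) :=
        Real.rpow_le_rpow_of_nonpos (by (clear * - hn0; positivity)) hhalf (by linarith only [heta])
      refine h4.trans (le_of_eq ?_)
      rw [Real.div_rpow hn0.le (by norm_num), Real.rpow_neg (by norm_num : (0 : ℝ) ≤ 2)]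
      rw [div_inv_eq_mul, mul_comm]
    calc C b x = C b x * c / c := by (clear * - hc0; field_simp)
      _ ≤ K * (2 ^ eta * (nm x : ℝ) ^ (-eta)) / c := by
          refine div_le_div_of_nonneg_right ?_ hc0.le
          exact hC1.trans (hC2.trans (mul_le_mul_of_nonneg_left h3 hK.le))
      _ = K * 2 ^ eta / c * (nm x : ℝ) ^ (-eta) := by ring
      _ ≤ (K * 2 ^ eta / c + (2 * l) ^ eta) * (nm x : ℝ) ^ (-eta) := by
          refine mul_le_mul_of_nonneg_right ?_ hpow
          have : (0 : ℝ) ≤ (2 * (l : ℝ)) ^ eta := by positivity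
          linarith only [this]

/-- from finite volume bounds to infinite volume bounds -/
theorem C_le_of_corr_le {b : ℝ} (hb : 0 ≤ b) (x : ℤ × ℤ) {c : ℝ}
    (h : ∀ R : ℕ, x ∈ box R → Vale.Agent.P159.corr R b x ≤ c) : C b x ≤ c := by
  refine le_of_tendsto (tendsto_corr hb x) ?_
  filter_upwards [eventually_ge_atTop (nm x)] with R hR
  exact h R (mem_box_iff_nm.2 hR)

/-- The mass vanishes at the critical point. -/
theorem mass_bCrit (h : 0 < bCrit) : mass bCrit = 0 := by
  by_contra hne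
  have hm : 0 < mass bCrit := lt_of_le_of_ne (mass_nonneg h) (Ne.symm hne)
  have hchi := one_le_chi h hm
  obtain ⟨b', hb', hb'2⟩ : ∃ b', bCrit < b' ∧ 2 * chi bCrit * (b' - bCrit) < 1 := by
    have h2 : Tendsto (fun t => 2 * chi bCrit * (t - bCrit)) (𝓝 bCrit) (𝓝 0) := by
      have : Continuous fun t => 2 * chi bCrit * (t - bCrit) := by fun_prop
      have h3 := this.tendsto bCrit
      simpa only [sub_self, mul_zero] using h3
    have h3 : ∀ᶠ t in 𝓝[>] bCrit, 2 * chi bCrit * (t - bCrit) < 1 :=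
      nhdsWithin_le_nhds (h2.eventually (gt_mem_nhds one_pos))
    obtain ⟨t, ht1, ht2⟩ := (h3.and self_mem_nhdsWithin).exists
    exact ⟨t, ht2, ht1⟩
  have hne : {b : ℝ | 0 < b ∧ mass b = 0}.Nonempty := by
    by_contra hempty
    rw [Set.not_nonempty_iff_eq_empty] at hempty
    have : bCrit = 0 := by unfold bCrit; rw [hempty, Real.sInf_empty]
    linarith only [h, this]
  have : b' ≤ bCrit := by
    conv_rhs => unfold bCrit
    refine le_csInf hne ?_
    rintro t ⟨ht0, ht⟩
    by_contra hlt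
    push Not at hlt
    rcases le_total t bCrit with h4 | h4
    · have := mass_anti ht0 h4
      linarith only [hm, ht, this]
    · have h5 : 2 * chi bCrit * (t - bCrit) < 1 := by
        have : 2 * chi bCrit * (t - bCrit) ≤ 2 * chi bCrit * (b' - bCrit) :=
          mul_le_mul_of_nonneg_left (by linarith) (by linarith only [hchi])
        linarith
      have := mass_pos_of_chi h hm h4 h5
      linarith
  linarith

/-- A power law bound forces exponent at most one in the massless phase. -/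
theorem exponent_le_one {b : ℝ} (hb : 0 < b) (hm : mass b = 0) {K eta : ℝ} (hK : 0 ≤ K)
    (h : ∀ x : ℤ × ℤ, x ≠ 0 → C b x ≤ K * (nm x : ℝ) ^ (-eta)) : eta ≤ 1 := by
  by_contra hlt
  push Not at hlt
  have := mass_pos_of_decay hb hK hlt h
  linarith

end Vale.Agent.P159.XY
end

section

/-!
Consequences of the block bound in infinite volume.
-/

open MeasureTheory Filter Topology

namespace Vale.Agent.P159

open XY (C nm)

/-- upper bound in infinite volume for every slope of the profile -/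
theorem decay_slope {b : ℝ} (hb : 0 < b) {l : ℕ} (hl : 1 ≤ l) {U t : ℝ} (hU0 : 0 ≤ U)
    (hU : stiff l b ≤ U) (ht : 0 < t) (hs : 0 ≤ 2 * t - 2 * Real.pi * U * t ^ 2) :
    ∃ K : ℝ, 0 < K ∧ ∀ x : ℤ × ℤ, x ≠ 0 →
      C b x ≤ K * (nm x : ℝ) ^ (-(2 * t - 2 * Real.pi * U * t ^ 2)) := by
  obtain ⟨K, hK, h⟩ := ms_coarse hl hb.le hU0 hU ht
  have hl0 : (0 : ℝ) < l := by exact_mod_cast hl
  have hlz : (0 : ℤ) < l := by exact_mod_cast hl
  generalize 2 * t - 2 * Real.pi * U * t ^ 2 = s at *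
  refine XY.decay_all hb hl (K := K * (l : ℝ) ^ s) (by positivity) hs ?_
  intro x h1 h2 hx
  obtain ⟨z1, hz1⟩ := h1
  obtain ⟨z2, hz2⟩ := h2
  have hxz : x = cor l (z1, z2) := by
    unfold cor
    ext
    · exact hz1
    · exact hz2
  have hz0 : ((z1, z2) : ℤ × ℤ) ≠ 0 := by
    intro h0
    apply hx
    rw [hxz, h0]
    unfold cor
    ext <;> simp
  apply XY.C_le_of_corr_le hb.le
  intro R hR
  have h3 := h R (z1, z2) hz0 (hxz ▸ hR)
  rw [← hxz] at h3
  refine h3.trans (le_of_eq ?_)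
  have h4 : (nm x : ℝ) = l * ((max |z1| |z2| : ℤ) : ℝ) := by
    rw [XY.nm_cast, hz1, hz2]
    push_cast
    rw [abs_mul, abs_mul, abs_of_pos hl0, mul_max_of_nonneg _ _ hl0.le]
  rw [h4]
  have h5 : (0 : ℝ) ≤ ((max |z1| |z2| : ℤ) : ℝ) := by
    exact_mod_cast le_max_of_le_left (abs_nonneg z1)
  rw [Real.mul_rpow hl0.le h5, mul_assoc, ← mul_assoc ((l : ℝ) ^ s), ← Real.rpow_add hl0]
  simp only [Int.cast_max, Int.cast_abs, add_neg_cancel, Real.rpow_zero, one_mul]

/-- upper bound with the exponent given by the stiffness -/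
theorem decay_stiff {b : ℝ} (hb : 0 < b) {l : ℕ} (hl : 1 ≤ l) :
    ∃ K : ℝ, 0 < K ∧ ∀ x : ℤ × ℤ, x ≠ 0 →
      C b x ≤ K * (nm x : ℝ) ^ (-(1 / (2 * Real.pi * stiff l b))) := by
  have hpi := Real.pi_pos
  rcases lt_or_ge 0 (stiff l b) with hpos | hneg
  · have ht : 0 < 1 / (2 * Real.pi * stiff l b) := by (clear * - hpos; positivity)
    have e : 2 * (1 / (2 * Real.pi * stiff l b)) -
        2 * Real.pi * stiff l b * (1 / (2 * Real.pi * stiff l b)) ^ 2 =
        1 / (2 * Real.pi * stiff l b) := by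
      field_simp
      ring
    obtain ⟨K, hK, h⟩ := decay_slope hb hl hpos.le le_rfl ht (by rw [e]; exact ht.le)
    rw [e] at h
    exact ⟨K, hK, h⟩
  · refine ⟨1, one_pos, fun x hx => ?_⟩
    have hn : (1 : ℝ) ≤ nm x := by
      have := XY.nm_ne_zero hx
      exact_mod_cast Nat.one_le_iff_ne_zero.2 this
    rw [one_mul]
    refine (XY.C_le_one b x).trans (Real.one_le_rpow hn ?_)
    have : 1 / (2 * Real.pi * stiff l b) ≤ 0 :=
      div_nonpos_of_nonneg_of_nonpos zero_le_one
        (mul_nonpos_of_nonneg_of_nonpos (by positivity) hneg)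
    linarith only [this]

/-- lower bound for the stiffness in the massless phase -/
theorem stiff_ge {b : ℝ} (hb : 0 < b) (hm : mass b = 0) {l : ℕ} (hl : 1 ≤ l) :
    1 / (2 * Real.pi) ≤ stiff l b := by
  have hpi := Real.pi_pos
  by_contra hlt
  push Not at hlt
  set U := max 0 (stiff l b) with hU
  have hU0 : 0 ≤ U := le_max_left _ _
  have hU1 : U < 1 / (2 * Real.pi) := max_lt (by positivity) hlt
  have hU2 : 2 * Real.pi * U < 1 := by
    rw [lt_div_iff₀ (by positivity)] at hU1
    linarith only [hU1]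
  -- slope one already gives an exponent larger than one
  have h1 : 1 < 2 * (1 : ℝ) - 2 * Real.pi * U * 1 ^ 2 := by linarith only [hU2]
  obtain ⟨K, hK, h⟩ := decay_slope hb hl hU0 (le_max_right _ _) one_pos (by linarith only [hU2])
  have := XY.exponent_le_one hb hm hK.le h
  linarith only [hU2, this]

/-- lower bound for the correlation length near the critical point -/
theorem xi_stiff {l : ℕ} (hl : 1 ≤ l) {ν : ℝ}
    (hν : ν < 1 / (2 - 1 / (2 * Real.pi * stiff l bCrit))) :
    ∃ c δ : ℝ, 0 < c ∧ 0 < δ ∧ ∀ b : ℝ, 0 < b → bCrit - δ < b → b < bCrit →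
      c * (bCrit - b) ^ (-ν) ≤ corrLength b := by
  have hpi := Real.pi_pos
  rcases le_or_gt bCrit 0 with hbc | hbc
  · exact ⟨1, 1, one_pos, one_pos, fun b hb _ hb' => absurd (hb.trans hb') (not_lt.2 hbc)⟩
  have hm := XY.mass_bCrit hbc
  have hst := stiff_ge hbc hm hl
  have hspos : 0 < stiff l bCrit := lt_of_lt_of_le (by positivity) hst
  obtain ⟨K, hK, h⟩ := decay_stiff hbc hl
  set η := 1 / (2 * Real.pi * stiff l bCrit) with hη
  have hη0 : 0 < η := by (clear * - hspos; positivity)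
  have hη1 : η ≤ 1 := by
    rw [hη, div_le_one (by positivity)]
    rw [div_le_iff₀ (by positivity)] at hst
    linarith only [hst]
  -- choose the interpolation parameter
  obtain ⟨t, ht0, ht1, ht2⟩ : ∃ t : ℝ, 0 < t ∧ t < 1 ∧ ν ≤ 1 / (2 - η * (1 - t)) := by
    have hc : ContinuousAt (fun t : ℝ => 1 / (2 - η * (1 - t))) 0 := by
      apply ContinuousAt.div continuousAt_const
      · exact (continuous_const.sub (continuous_const.mul
          (continuous_const.sub continuous_id))).continuousAt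
      · have : (2 : ℝ) - η * (1 - 0) ≠ 0 := by
          have : 0 < 2 - η * (1 - 0) := by linarith only [hη1]
          exact this.ne'
        exact this
    have h1 : ∀ᶠ t in 𝓝 (0 : ℝ), ν < 1 / (2 - η * (1 - t)) := by
      apply hc.eventually (lt_mem_nhds _)
      simpa using hν
    have h2 : ∀ᶠ t in 𝓝[>] (0 : ℝ), ν < 1 / (2 - η * (1 - t)) := nhdsWithin_le_nhds h1
    have h3 : ∀ᶠ t in 𝓝[>] (0 : ℝ), t < 1 := nhdsWithin_le_nhds (gt_mem_nhds one_pos)
    obtain ⟨t, ⟨h4, h5⟩, h6⟩ := ((h2.and h3).and self_mem_nhdsWithin).exists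
    exact ⟨t, h6, h5, h4.le⟩
  obtain ⟨c, hc, hev⟩ := XY.xi_lower_of_decay hK hη0.le hη1 ht0 ht1 hbc h
  rw [eventually_nhdsWithin_iff, Metric.eventually_nhds_iff] at hev
  obtain ⟨ε, hε, hev⟩ := hev
  refine ⟨c, min ε 1, hc, lt_min hε one_pos, fun b hb0 hb1 hb2 => ?_⟩
  have hd0 : 0 < bCrit - b := sub_pos.2 hb2
  have hd1 : bCrit - b < min ε 1 := by linarith only [hb1]
  have hd2 : bCrit - b < ε := lt_of_lt_of_le hd1 (min_le_left _ _)
  have hd3 : bCrit - b ≤ 1 := (lt_of_lt_of_le hd1 (min_le_right _ _)).le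
  have hdist : dist b bCrit < ε := by
    rw [Real.dist_eq, abs_sub_comm, abs_of_pos hd0]
    exact hd2
  have h1 := hev hdist hb2
  refine le_trans ?_ h1
  refine mul_le_mul_of_nonneg_left ?_ hc.le
  exact Real.rpow_le_rpow_of_exponent_ge hd0 hd3 (by linarith only [ht2])

theorem horiz_add_const (l : ℕ) (b : ℝ) (θ : Ginf) :
    b * (l : ℝ) ^ 2 - horiz l b cosT θ =
      ∑ e : BI l, b / 2 * hh e * (1 - cosT (θ (bu e) - θ (bv e))) := by
  have h1 := sum_hh (l := l) b cosT θ
  have h2 := sum_hh (l := l) b (fun _ => 1) θ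
  have h3 : horiz l b (fun _ => 1) θ = b * (l : ℝ) ^ 2 := by
    unfold horiz
    simp only [Finset.sum_const, Finset.card_range, nsmul_eq_mul]
    ring
  rw [← h3, ← h1, ← h2, ← Finset.sum_sub_distrib]
  exact Finset.sum_congr rfl fun e _ => by ring

theorem bond_defect_nonneg {l : ℕ} {b : ℝ} (hb : 0 ≤ b) (θ : Ginf) (e : BI l) :
    0 ≤ b / 2 * hh e * (1 - cosT (θ (bu e) - θ (bv e))) := by
  have h1 : cosT (θ (bu e) - θ (bv e)) ≤ 1 :=
    (le_abs_self _).trans ((grad (bu e) (bv e)).abs_c_le θ)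
  have h2 : 0 ≤ hh e := by unfold hh; split_ifs <;> norm_num
  have : 0 ≤ 1 - cosT (θ (bu e) - θ (bv e)) := by linarith
  (clear * - hb h2 h1; positivity)

theorem expect_pos_weight {V : Type*} [Fintype V] {H : (V → T) → ℝ} (hH : Continuous H) :
    0 < ∫ θ, Real.exp (H θ) ∂torusHaar V :=
  integral_exp_pos (cint (Real.continuous_exp.comp hH))

theorem blockEnergy_cont (l : ℕ) (b : ℝ) : Continuous (blockEnergy l b) :=
  (blockE_cont l b).comp (ext_cont (inner l))

/-- strict upper bound for the stiffness -/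
theorem stiff_lt {l : ℕ} (hl : 2 ≤ l) {b : ℝ} (hb : 0 < b) : stiff l b < b := by
  have hl0 : (0 : ℝ) < l := by exact_mod_cast (by omega : 0 < l)
  have hEc := blockEnergy_cont l b
  have hw := expect_pos_weight hEc
  have hfc : Continuous (fun θ : inner l → T => horiz l b cosT (ext θ)) :=
    (horiz_cont l b cont_cos).comp (ext_cont (inner l))
  have h1 : expect (blockEnergy l b) (fun θ => horiz l b cosT (ext θ)) < b * (l : ℝ) ^ 2 := by
    unfold expect
    rw [div_lt_iff₀ hw, ← integral_const_mul, ← sub_pos, ← integral_sub]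
    · have hc : Continuous (fun θ : inner l → T =>
          b * (l : ℝ) ^ 2 * Real.exp (blockEnergy l b θ) -
          horiz l b cosT (ext θ) * Real.exp (blockEnergy l b θ)) :=
        (continuous_const.mul (Real.continuous_exp.comp hEc)).sub
          (hfc.mul (Real.continuous_exp.comp hEc))
      have hfac : ∀ θ : inner l → T, b * (l : ℝ) ^ 2 * Real.exp (blockEnergy l b θ) -
          horiz l b cosT (ext θ) * Real.exp (blockEnergy l b θ) =
          (∑ e : BI l, b / 2 * hh e * (1 - cosT (ext θ (bu e) - ext θ (bv e)))) *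
          Real.exp (blockEnergy l b θ) := by
        intro θ
        rw [← horiz_add_const]; ring
      refine hc.integral_pos_of_hasCompactSupport_nonneg_nonzero
        (HasCompactSupport.of_compactSpace _) (fun θ => ?_) (x := fun _ => ((Real.pi : ℝ) : T)) ?_
      · simp only [Pi.zero_apply]
        rw [hfac]
        exact mul_nonneg (Finset.sum_nonneg fun e _ => bond_defect_nonneg hb.le (ext θ) e)
          (Real.exp_pos _).le
      · rw [hfac]
        apply mul_ne_zero _ (Real.exp_pos _).ne'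
        apply ne_of_gt
        have e0 : BI l := ((⟨0, by omega⟩, ⟨1, by omega⟩), (false, false))
        have hle := Finset.single_le_sum (f := fun e : BI l => b / 2 * hh e *
          (1 - cosT (ext (fun _ : inner l => ((Real.pi : ℝ) : T)) (bu e) -
            ext (fun _ : inner l => ((Real.pi : ℝ) : T)) (bv e))))
          (fun e _ => bond_defect_nonneg hb.le _ e)
          (Finset.mem_univ (((⟨0, by omega⟩, ⟨1, by omega⟩), (false, false)) : BI l))
        refine lt_of_lt_of_le ?_ hle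
        have b1 : bu (l := l) ((⟨0, by omega⟩, ⟨1, by omega⟩), (false, false)) = (0, 1) := by
          simp [bu]
        have b2 : bv (l := l) ((⟨0, by omega⟩, ⟨1, by omega⟩), (false, false)) = (1, 1) := by
          simp [bv, bu]
        have c1 : ext (fun _ : inner l => ((Real.pi : ℝ) : T)) (0, 1) = 0 := by
          have : ((0, 1) : ℤ × ℤ) ∉ inner l := by
            unfold inner
            rw [Finset.mem_Icc, Prod.le_def]
            simp only [Int.reduceLE, Std.le_refl, and_true, Prod.mk_le_mk, Int.sub_nonneg, Nat.one_le_cast, Order.le_sub_one_iff, Nat.one_lt_cast, false_and, not_false_eq_true]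
          simp [ext, this]
        have c2 : ext (fun _ : inner l => ((Real.pi : ℝ) : T)) (1, 1) = ((Real.pi : ℝ) : T) := by
          have : ((1, 1) : ℤ × ℤ) ∈ inner l := by
            unfold inner
            rw [Finset.mem_Icc, Prod.le_def, Prod.le_def]
            simp only
            omega
          simp [ext, this]
        have c3 : hh (l := l) ((⟨0, by omega⟩, ⟨1, by omega⟩), (false, false)) = 1 := by
          simp [hh]
        simp only [b1, b2, c1, c2, c3]
        rw [zero_sub, cosT_neg, cosT_coe, Real.cos_pi]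
        linarith only [hb]
    · exact cint (continuous_const.mul (Real.continuous_exp.comp hEc))
    · exact cint (hfc.mul (Real.continuous_exp.comp hEc))
  have h2 : 0 ≤ expect (blockEnergy l b) (fun θ => (horiz l b sinT (ext θ)) ^ 2) := by
    unfold expect
    exact div_nonneg (integral_nonneg fun θ => mul_nonneg (sq_nonneg _) (Real.exp_pos _).le) hw.le
  unfold stiff
  rw [div_lt_iff₀ (by positivity)]
  linarith only [h1, h2]

theorem stiff_one (b : ℝ) : stiff 1 b = b := by
  have hin : inner 1 = ∅ := by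
    unfold inner
    rw [Finset.Icc_eq_empty]
    simp only [Nat.cast_one, sub_self, Prod.mk_le_mk, Int.reduceLE, and_self, not_false_eq_true]
  have hz : ∀ (θ : inner 1 → T) (v : ℤ × ℤ), ext θ v = 0 := by
    intro θ v
    have : v ∉ inner 1 := by rw [hin]; simp
    simp [ext, this]
  have h1 : ∀ θ : inner 1 → T, horiz 1 b cosT (ext θ) = b := by
    intro θ
    unfold horiz
    simp only [hz, Finset.range_one, Finset.sum_singleton, sub_zero, cosT_zero]
    ring
  have h2 : ∀ θ : inner 1 → T, horiz 1 b sinT (ext θ) = 0 := by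
    intro θ
    unfold horiz
    simp only [hz, Finset.range_one, Finset.sum_singleton, sub_zero, sinT_zero]
    ring
  have hw := expect_pos_weight (blockEnergy_cont 1 b)
  unfold stiff expect
  simp only [h1, h2]
  rw [integral_const_mul, mul_div_assoc, div_self hw.ne']
  simp only [mul_one, ne_eq, OfNat.ofNat_ne_zero, not_false_eq_true, zero_pow, zero_mul, integral_zero, zero_div, sub_zero, Nat.cast_one, one_pow, div_one]

end Vale.Agent.P159
end
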