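import Vale.Agent.P159.Bdl.B6
import Vale.Agent.P159.Bdl.B8
import Vale.Agent.P159.Bdl.B4
import Vale.Agent.P159.Bdl.B7
import Vale.Agent.P159.Helicity

set_option linter.all false

section

/-!
Energy of the displaced vortex: lower bound of the product of the block weights.
-/

open MeasureTheory Filter Topology
open scoped BigOperators

namespace Vale.Agent.P159

namespace UJ

/-- the stiffness is nonnegative -/
theorem h3_stiff_nonneg {b : ℝ} (hb : 0 < b) {l : ℕ} (hl : 1 ≤ l) : 0 ≤ stiff l b := by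
  obtain ⟨C, hC, h⟩ := cell_weight hb hl
  have h1 := h 0 (fun z : ℤ × ℤ => ((z.1 : ℝ) : T)) (fun e => -hh e) 1 0 zero_le_one le_rfl ?_ ?_ ?_
  · have h2 : WB b l 0 (fun z : ℤ × ℤ => ((z.1 : ℝ) : T)) / WB b l 0 0 ≤ 1 := by
      rw [div_le_one (WB_pos b l 0 0)]
      exact WB_le hb.le l 0 _
    have h3 := h1.trans h2
    rw [Real.exp_le_one_iff] at h3
    have h4 : ∑ e : BI l, (-hh e) ^ 2 = 2 * (l : ℝ) ^ 2 := by
      rw [sum_BI]
      simp only [hh, Bool.false_eq_true, ↓reduceIte, even_two, Even.neg_pow, one_pow, neg_zero, ne_eq, OfNat.ofNat_ne_zero, not_false_eq_true, zero_pow, add_zero, Finset.sum_const, Finset.card_univ, Fintype.card_fin, smul_add, nsmul_eq_mul, mul_one]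
      ring
    rw [h4] at h3
    have hl0 : (0 : ℝ) < l := by exact_mod_cast (by omega : 0 < l)
    have h5 : 0 < (l : ℝ) ^ 2 := by positivity
    by_contra hneg
    push Not at hneg
    nlinarith only [h3, h5, hneg]
  · intro e
    have h6 : (0 : ℤ × ℤ) + bu e = bu e := zero_add _
    have h7 : (0 : ℤ × ℤ) + bv e = bv e := zero_add _
    simp only [h6, h7]
    rw [← AddCircle.coe_sub]
    congr 1
    unfold hh bv
    cases e.2.1 <;> simp
  · intro e
    rw [abs_neg]
    unfold hh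
    cases e.2.1 <;> simp
  · intro e e' he
    rw [he]
    simp

theorem h3_stiff_le {b : ℝ} (hb : 0 < b) {l : ℕ} (hl : 1 ≤ l) : stiff l b ≤ b := by
  rcases Nat.lt_or_ge l 2 with h | h
  · have : l = 1 := by omega
    subst this
    rw [stiff_one]
  · exact (stiff_lt h hb).le

/-- the closed cells outside the core do not meet the open core -/
theorem h3_off {l m K M i j : ℕ} {k : ℤ × ℤ} (hk : k ∈ outer m K M i j) {y : ℤ × ℤ}
    (h1 : 0 ≤ y.1) (h2 : y.1 ≤ l) (h3 : 0 ≤ y.2) (h4 : y.2 ≤ l) :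
    (cor l k + y).1 ≤ (cor l (ccell m K M i j)).1 ∨
      (cor l (ccell m K M i j)).1 + (l * m : ℕ) ≤ (cor l k + y).1 ∨
      (cor l k + y).2 ≤ (cor l (ccell m K M i j)).2 ∨
      (cor l (ccell m K M i j)).2 + (l * m : ℕ) ≤ (cor l k + y).2 := by
  unfold outer core at hk
  rw [Finset.mem_sdiff, Finset.mem_product, Finset.mem_Ico, Finset.mem_Ico] at hk
  have hk2 := hk.2
  generalize ccell m K M i j = d at *
  unfold cor
  simp only [Prod.fst_add, Prod.snd_add]
  have hl0 : (0 : ℤ) ≤ l := Int.natCast_nonneg l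
  by_cases a1 : k.1 < d.1
  · left
    have : (l : ℤ) * (k.1 + 1) ≤ l * d.1 := mul_le_mul_of_nonneg_left (by omega) hl0
    linarith only [h2, this]
  by_cases a2 : d.1 + m ≤ k.1
  · right; left
    have : (l : ℤ) * (d.1 + m) ≤ l * k.1 := mul_le_mul_of_nonneg_left a2 hl0
    push_cast
    linarith only [h1, this]
  by_cases a3 : k.2 < d.2
  · right; right; left
    have : (l : ℤ) * (k.2 + 1) ≤ l * d.2 := mul_le_mul_of_nonneg_left (by omega) hl0
    linarith only [h4, this]
  by_cases a4 : d.2 + m ≤ k.2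
  · right; right; right
    have : (l : ℤ) * (d.2 + m) ≤ l * k.2 := mul_le_mul_of_nonneg_left a4 hl0
    push_cast
    linarith only [h3, this]
  exact absurd ⟨⟨by omega, by omega⟩, ⟨by omega, by omega⟩⟩ hk2

/-- the increments represent the differences of the vortex configuration -/
theorem h3_coe {l m K M i j : ℕ} (hs : 2 ≤ l * m) (hK : 1 ≤ K) (hi : i < M) (hj : j < M)
    {k : ℤ × ℤ} (hk : k ∈ outer m K M i j) (e : BI l) :
    ((ainc l m K M i j k e : ℝ) : T) =
      alp l m K M i j (cor l k + bu e) - alp l m K M i j (cor l k + bv e) := by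
  have hpos : (0 : ℝ) < ((l * m : ℕ) : ℝ) / 4 := by
    have : (0 : ℝ) < ((l * m : ℕ) : ℝ) := by exact_mod_cast (by omega : 0 < l * m)
    (clear * - hs; positivity)
  have hu : wf (l * m * NN K M) (pos (l * m) K i j) (cor l k + bu e) ≠ 0 := by
    obtain ⟨a1, a2, a3, a4⟩ := bu_range e
    have := geo_nz hs hK hi hj (h3_off (l := l) hk a1 a2 a3 a4)
    exact norm_pos_iff.1 (lt_of_lt_of_le hpos this)
  have hv : wf (l * m * NN K M) (pos (l * m) K i j) (cor l k + bv e) ≠ 0 := by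
    obtain ⟨a1, a2, a3, a4⟩ := bv_range e
    have := geo_nz hs hK hi hj (h3_off (l := l) hk a1 a2 a3 a4)
    exact norm_pos_iff.1 (lt_of_lt_of_le hpos this)
  unfold ainc inc alp ang
  exact Complex.arg_div_coe_angle hu hv

/-- the weight of the core -/
theorem h3_core {b : ℝ} {l m K M i j : ℕ} (hs : 2 ≤ l * m) (hK : 1 ≤ K) (hi : i < M)
    (hj : j < M) : WB b (l * m) (cnr l m K M i j) (alp l m K M i j) /
      WB b (l * m) (cnr l m K M i j) 0 = yy b (l * m) := by
  have e1 : cnr l m K M i j = 0 + cnr l m K M i j := (zero_add _).symm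
  have h1 : WB b (l * m) (cnr l m K M i j) 0 = WB b (l * m) 0 0 := by
    conv_lhs => rw [e1]
    rw [WB_shift]
    rfl
  have h2 : WB b (l * m) (cnr l m K M i j) (alp l m K M i j) =
      WB b (l * m) 0 (ang (l * m) 0) := by
    conv_lhs => rw [e1]
    rw [WB_shift]
    apply WB_congr
    intro z hz _
    obtain ⟨a1, a2, a3, a4⟩ := hz
    rw [sub_zero] at a1 a2 a3 a4
    show alp l m K M i j (z + cnr l m K M i j) = ang (l * m) 0 z
    rw [add_comm]
    unfold alp ang cnr
    rw [geo_core hs hK hi hj a1 a2 a3 a4]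
  rw [h1, h2]
  rfl

theorem h3_card {m K M i j : ℕ} :
    ((outer m K M i j).card : ℝ) ≤ ((m : ℝ) * (NN K M : ℕ)) ^ 2 := by
  have h1 : (outer m K M i j).card ≤ (cells (m * NN K M)).card :=
    Finset.card_le_card Finset.sdiff_subset
  have h2 : (cells (m * NN K M)).card = (m * NN K M) ^ 2 := by
    unfold cells
    rw [Finset.card_product, Int.card_Ico, sub_zero, Int.toNat_natCast, pow_two]
  rw [h2] at h1
  exact_mod_cast h1

theorem yy_nonneg (b : ℝ) (s : ℕ) : 0 ≤ yy b s :=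
  (div_pos (WB_pos b s 0 _) (WB_pos b s 0 0)).le

/-- energy of the vortex -/
theorem g_lower {b : ℝ} (hb : 0 < b) : ∃ C0 : ℝ, ∀ l K M : ℕ, 1 ≤ l → 1 ≤ K → ∃ s1 : ℝ,
    ∀ m i j : ℕ, i < M → j < M → s1 ≤ ((l * m : ℕ) : ℝ) →
      Real.exp (-(Real.pi * stiff l b * Real.log (NN K M)) - C0) * yy b (l * m) ≤
      (∏ k ∈ outer m K M i j, WB b l (cor l k) (alp l m K M i j) / WB b l (cor l k) 0) *
      (WB b (l * m) (cnr l m K M i j) (alp l m K M i j) / WB b (l * m) (cnr l m K M i j) 0) := by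
  obtain ⟨C1, s1, hC1, hs1, hinc⟩ := geo_inc
  obtain ⟨C2, s2, hC2, hs2, hen⟩ := geo_energy
  refine ⟨b * C2 / 2 + 1, fun l K M hl hK => ?_⟩
  obtain ⟨C, hC, hcell⟩ := cell_weight hb hl
  refine ⟨max (max s1 s2) (max 1 (2 * (NN K M : ℝ) ^ 2 * C * C1 ^ 2)), fun m i j hi hj hs => ?_⟩
  have hsa : s1 ≤ ((l * m : ℕ) : ℝ) := (le_max_left _ _).trans ((le_max_left _ _).trans hs)
  have hsb : s2 ≤ ((l * m : ℕ) : ℝ) := (le_max_right _ _).trans ((le_max_left _ _).trans hs)
  have hsc : 1 ≤ ((l * m : ℕ) : ℝ) := (le_max_left _ _).trans ((le_max_right _ _).trans hs)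
  have hsd : 2 * (NN K M : ℝ) ^ 2 * C * C1 ^ 2 ≤ ((l * m : ℕ) : ℝ) :=
    (le_max_right _ _).trans ((le_max_right _ _).trans hs)
  have hs2' : 2 ≤ l * m := by
    have : (2 : ℝ) ≤ ((l * m : ℕ) : ℝ) := hs1.trans hsa
    exact_mod_cast this
  rw [h3_core hs2' hK hi hj]
  refine mul_le_mul_of_nonneg_right ?_ (yy_nonneg b _)
  obtain ⟨s, hsdef⟩ : ∃ s : ℝ, s = ((l * m : ℕ) : ℝ) := ⟨_, rfl⟩
  rw [← hsdef] at hsa hsb hsc hsd
  have hs0 : 0 < s := by linarith only [hs2, hsb]
  have hl0 : (0 : ℝ) < l := by exact_mod_cast (by omega : 0 < l)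
  have ht0 := h3_stiff_nonneg hb hl
  have htb := h3_stiff_le hb hl
  obtain ⟨t, ht⟩ : ∃ t : ℝ, t = stiff l b := ⟨_, rfl⟩
  rw [← ht] at ht0 htb ⊢
  have hfac : ∀ k ∈ outer m K M i j,
      Real.exp (-(t / 4 * ∑ e, ainc l m K M i j k e ^ 2) -
        C * (C1 / s * (C1 * l / s ^ 2) + (C1 * l / s ^ 2) ^ 2)) ≤
      WB b l (cor l k) (alp l m K M i j) / WB b l (cor l k) 0 := by
    intro k hk
    have hI := hinc l m K M i j hl hK hi hj (by rw [← hsdef]; exact hsa) k hk
    rw [← hsdef] at hI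
    rw [ht]
    exact hcell (cor l k) (alp l m K M i j) (ainc l m K M i j k) (C1 / s) (C1 * l / s ^ 2)
      (by positivity) (by positivity) (fun e => h3_coe hs2' hK hi hj hk e)
      (fun e => (hI e).1) (fun e e' he => (hI e).2 e' he)
  have hprod : ∏ k ∈ outer m K M i j, Real.exp (-(t / 4 * ∑ e, ainc l m K M i j k e ^ 2) -
        C * (C1 / s * (C1 * l / s ^ 2) + (C1 * l / s ^ 2) ^ 2)) ≤
      ∏ k ∈ outer m K M i j, WB b l (cor l k) (alp l m K M i j) / WB b l (cor l k) 0 :=
    Finset.prod_le_prod (fun k _ => (Real.exp_pos _).le) hfac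
  refine le_trans ?_ hprod
  rw [← Real.exp_sum, Real.exp_le_exp, Finset.sum_sub_distrib, Finset.sum_neg_distrib,
    ← Finset.mul_sum, Finset.sum_const, nsmul_eq_mul]
  have hE := hen l m K M i j hl hK hi hj (by rw [← hsdef]; exact hsb)
  have hE2 : t / 4 * ∑ k ∈ outer m K M i j, ∑ e, ainc l m K M i j k e ^ 2 ≤
      Real.pi * t * Real.log (NN K M) + b * C2 / 2 := by
    have h1 : t / 4 * ∑ k ∈ outer m K M i j, ∑ e, ainc l m K M i j k e ^ 2 =
        t / 2 * (1 / 2 * ∑ k ∈ outer m K M i j, ∑ e, ainc l m K M i j k e ^ 2) := by ring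
    rw [h1]
    have h2 : t / 2 * (1 / 2 * ∑ k ∈ outer m K M i j, ∑ e, ainc l m K M i j k e ^ 2) ≤
        t / 2 * (2 * Real.pi * Real.log (NN K M) + C2) :=
      mul_le_mul_of_nonneg_left hE (by linarith only [ht0])
    have h3 : t / 2 * C2 ≤ b / 2 * C2 := mul_le_mul_of_nonneg_right (by linarith only [htb]) (by linarith only [hC2])
    nlinarith only [h2, h3]
  have hcard : ((outer m K M i j).card : ℝ) *
      (C * (C1 / s * (C1 * l / s ^ 2) + (C1 * l / s ^ 2) ^ 2)) ≤ 1 := by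
    have h1 := h3_card (m := m) (K := K) (M := M) (i := i) (j := j)
    have hnn : 0 ≤ C * (C1 / s * (C1 * l / s ^ 2) + (C1 * l / s ^ 2) ^ 2) := by (clear * - hC hC1 hsc hl; positivity)
    refine (mul_le_mul_of_nonneg_right h1 hnn).trans ?_
    obtain ⟨N, hN⟩ : ∃ N : ℝ, N = ((NN K M : ℕ) : ℝ) := ⟨_, rfl⟩
    rw [← hN] at hsd ⊢
    have hm : (m : ℝ) = s / l := by
      rw [hsdef]
      push_cast
      (clear * - hl; field_simp)
    have h2 : ((m : ℝ) * N) ^ 2 * (C * (C1 / s * (C1 * l / s ^ 2) + (C1 * l / s ^ 2) ^ 2)) =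
        N ^ 2 * C * C1 ^ 2 * (1 / (l * s) + 1 / s ^ 2) := by
      rw [hm]
      (clear * - hl hsc hC1; field_simp)
    rw [h2]
    have hl1 : (1 : ℝ) ≤ l := by exact_mod_cast hl
    have h3 : 1 / ((l : ℝ) * s) ≤ 1 / s := by
      apply one_div_le_one_div_of_le hs0
      nlinarith only [hsdef, hl1]
    have h4 : 1 / s ^ 2 ≤ 1 / s := by
      apply one_div_le_one_div_of_le hs0
      nlinarith only [hsc]
    have h5 : 0 ≤ N ^ 2 * C * C1 ^ 2 := by (clear * - hC hC1; positivity)
    calc N ^ 2 * C * C1 ^ 2 * (1 / (l * s) + 1 / s ^ 2)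
        ≤ N ^ 2 * C * C1 ^ 2 * (1 / s + 1 / s) :=
          mul_le_mul_of_nonneg_left (add_le_add h3 h4) h5
      _ = (2 * N ^ 2 * C * C1 ^ 2) / s := by ring
      _ ≤ 1 := by
          rw [div_le_one hs0]
          exact hsd
  linarith only [hE2, hcard]

end UJ

end Vale.Agent.P159
end

section

/-!
Monotonicity in a magnetic field of the transversal correlations.
-/

open MeasureTheory Filter Topology

set_option linter.unusedSectionVars false

namespace Vale.Agent.P159.XY

section Field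

variable {V : Type*} [Fintype V]

/-- product of two cosines or of two sines -/
noncomputable def mo2 (s : Bool) (u v : V) (α : V → T) : ℝ :=
  if s then ct (α u) * ct (α v) else st (α u) * st (α v)

/-- cosine or sine -/
noncomputable def mo1 (s : Bool) (u : V) (α : V → T) : ℝ := if s then ct (α u) else st (α u)

theorem mo2_cont (s : Bool) (u v : V) : Continuous (mo2 s u v) := by
  cases s
  · change Continuous fun α : V → T => st (α u) * st (α v); (clear * -; fun_prop)
  · change Continuous fun α : V → T => ct (α u) * ct (α v); fun_prop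

theorem mo1_cont (s : Bool) (u : V) : Continuous (mo1 s u) := by
  cases s
  · change Continuous fun α : V → T => st (α u); fun_prop
  · change Continuous fun α : V → T => ct (α u); fun_prop

theorem mo2_mono (s : Bool) (u v : V) : IsMono (mo2 s u v) := by
  classical
  cases s
  · exact (IsMono.st u).mul (IsMono.st v)
  · exact (IsMono.ct u).mul (IsMono.ct v)

theorem mo1_mono (s : Bool) (u : V) : IsMono (mo1 s u) := by
  classical
  cases s
  · exact IsMono.st u
  · exact IsMono.ct u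

/-- the first factors of the generators -/
noncomputable def gA (i : (V × V) × (Bool × Bool) ⊕ V × Bool) : (V → T) → ℝ :=
  Sum.elim (fun i => mo2 i.2.1 i.1.1 i.1.2) (fun i => mo1 i.2 i.1) i

/-- the second factors of the generators -/
noncomputable def gB (i : (V × V) × (Bool × Bool) ⊕ V × Bool) : (V → T) → ℝ :=
  Sum.elim (fun i => mo2 i.2.2 i.1.1 i.1.2) (fun i => mo1 i.2 i.1) i

theorem gA_cont (i : (V × V) × (Bool × Bool) ⊕ V × Bool) : Continuous (gA i) := by
  rcases i with i | i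
  · exact mo2_cont _ _ _
  · exact mo1_cont _ _

theorem gB_cont (i : (V × V) × (Bool × Bool) ⊕ V × Bool) : Continuous (gB i) := by
  rcases i with i | i
  · exact mo2_cont _ _ _
  · exact mo1_cont _ _

theorem gA_mono (i : (V × V) × (Bool × Bool) ⊕ V × Bool) : IsMono (gA i) := by
  rcases i with i | i
  · exact mo2_mono _ _ _
  · exact mo1_mono _ _

theorem gB_mono (i : (V × V) × (Bool × Bool) ⊕ V × Bool) : IsMono (gB i) := by
  rcases i with i | i
  · exact mo2_mono _ _ _
  · exact mo1_mono _ _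

/-- the coefficients -/
noncomputable def cAB (J : V → V → ℝ) (h : V → ℝ) (i : (V × V) × (Bool × Bool) ⊕ V × Bool) : ℝ :=
  Sum.elim (fun i => 2 * J i.1.1 i.1.2) (fun i => h i.1) i

theorem energy_dup (J : V → V → ℝ) (h : V → ℝ) (α β : V → T) :
    energy J (α + β) + (energy J (α - β) + ∑ x, h x * ct ((α - β) x)) =
      ∑ i, cAB J h i * (gA i α * gB i β) := by
  rw [Fintype.sum_sum_type]
  have h1 : ∑ i : (V × V) × (Bool × Bool), cAB J h (Sum.inl i) *
      (gA (Sum.inl i) α * gB (Sum.inl i) β) = energy J (α + β) + energy J (α - β) := by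
    rw [Fintype.sum_prod_type, Fintype.sum_prod_type]
    unfold energy
    rw [← Finset.sum_add_distrib]
    refine Finset.sum_congr rfl fun u _ => ?_
    rw [← Finset.sum_add_distrib]
    refine Finset.sum_congr rfl fun v _ => ?_
    rw [Fintype.sum_prod_type]
    simp only [cAB, Sum.elim_inl, gA, mo2, gB, Fintype.sum_bool, if_true, Bool.false_eq_true, if_false]
    have e1 : (α + β) u - (α + β) v = (α u - α v) + (β u - β v) := by
      simp only [Pi.add_apply]; abel
    have e2 : (α - β) u - (α - β) v = (α u - α v) - (β u - β v) := by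
      simp only [Pi.sub_apply]; abel
    rw [e1, e2, ct_add, ct_sub (α u - α v), ct_sub (α u), ct_sub (β u)]
    ring
  have h2 : ∑ i : V × Bool, cAB J h (Sum.inr i) *
      (gA (Sum.inr i) α * gB (Sum.inr i) β) = ∑ x, h x * ct ((α - β) x) := by
    rw [Fintype.sum_prod_type]
    refine Finset.sum_congr rfl fun x _ => ?_
    simp only [Fintype.sum_bool, cAB, gA, gB, Sum.elim_inr, mo1, if_true, Bool.false_eq_true,
      if_false, Pi.sub_apply]
    rw [ct_sub]
    ring
  rw [h1, h2]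
  ring

theorem pos_AB (J : V → V → ℝ) (hJ : ∀ u v, 0 ≤ J u v) (h : V → ℝ) (hh : ∀ x, 0 ≤ h x)
    {F G : (V → T) → ℝ} (hF : Continuous F) (hG : Continuous G) (mF : IsMono F) (mG : IsMono G) :
    0 ≤ ∫ p : (V → T) × (V → T), (F p.1 * G p.2) *
      Real.exp (∑ i, cAB J h i * (gA i p.1 * gB i p.2)) ∂((haarV V).prod (haarV V)) := by
  refine pos_exp (μ := (haarV V).prod (haarV V)) (cAB J h) ?_
    (fun p => F p.1 * G p.2) (fun i p => gA i p.1 * gB i p.2) (by fun_prop) ?_ ?_
  · intro i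
    rcases i with i | i
    · exact mul_nonneg (by norm_num) (hJ _ _)
    · exact hh _
  · intro i
    exact ((gA_cont i).comp continuous_fst).mul ((gB_cont i).comp continuous_snd)
  · intro l
    have e : ∀ p : (V → T) × (V → T), (F p.1 * G p.2) *
        (l.map (fun i => gA i p.1 * gB i p.2)).prod =
        (F p.1 * (l.map (fun i => gA i p.1)).prod) * (G p.2 * (l.map (fun i => gB i p.2)).prod) := by
      intro p
      rw [List.prod_map_mul]
      ring
    simp_rw [e]
    rw [integral_prod_mul (μ := haarV V) (ν := haarV V)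
      (fun x : V → T => F x * (l.map (fun i => gA i x)).prod)
      (fun x : V → T => G x * (l.map (fun i => gB i x)).prod)]
    exact mul_nonneg (mF.mul (IsMono.list_prod gA_mono l)).integral_nonneg
      (mG.mul (IsMono.list_prod gB_mono l)).integral_nonneg

/-- unnormalized expectation with a magnetic field -/
noncomputable def unF (J : V → V → ℝ) (h : V → ℝ) (f : (V → T) → ℝ) : ℝ :=
  ∫ θ, f θ * Real.exp (energy J θ + ∑ x, h x * ct (θ x)) ∂haarV V

theorem unF_one_pos (J : V → V → ℝ) (h : V → ℝ) : 0 < unF J h (fun _ => 1) := by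
  unfold unF
  simp only [one_mul]
  have hc : Continuous fun θ : V → T => Real.exp (energy J θ + ∑ x, h x * ct (θ x)) := by fun_prop
  exact integral_pos_of_integrable_nonneg_nonzero (x := 0) hc (integrable_of_continuous hc)
    (fun x => (Real.exp_pos _).le) (Real.exp_pos _).ne'

/-- the transversal correlations decrease when a field is switched on -/
theorem field_mono (J : V → V → ℝ) (hJ : ∀ u v, 0 ≤ J u v) (h : V → ℝ) (hh : ∀ x, 0 ≤ h x)
    (x y : V) :
    unF J h (fun θ => st (θ x) * st (θ y)) * un J (fun _ => 1) ≤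
      un J (fun θ => st (θ x) * st (θ y)) * unF J h (fun _ => 1) := by
  classical
  set F : (V → T) × (V → T) → ℝ := fun p =>
    (st (p.1 x) * st (p.1 y) - st (p.2 x) * st (p.2 y)) *
      (Real.exp (energy J p.1) * Real.exp (energy J p.2 + ∑ x, h x * ct (p.2 x))) with hF
  have hFc : Continuous F := by rw [hF]; fun_prop
  have h1 : ∫ p, F p ∂((haarV V).prod (haarV V)) =
      un J (fun θ => st (θ x) * st (θ y)) * unF J h (fun _ => 1) -
        un J (fun _ => 1) * unF J h (fun θ => st (θ x) * st (θ y)) := by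
    have e : ∀ p : (V → T) × (V → T), F p =
        (st (p.1 x) * st (p.1 y) * Real.exp (energy J p.1)) *
          (1 * Real.exp (energy J p.2 + ∑ x, h x * ct (p.2 x))) -
        (1 * Real.exp (energy J p.1)) *
          (st (p.2 x) * st (p.2 y) * Real.exp (energy J p.2 + ∑ x, h x * ct (p.2 x))) := by
      intro p
      simp only [hF]
      ring
    simp_rw [e]
    rw [integral_sub (integrable_of_continuous (by fun_prop))
      (integrable_of_continuous (by fun_prop)),
      integral_prod_mul (μ := haarV V) (ν := haarV V)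
        (fun θ : V → T => st (θ x) * st (θ y) * Real.exp (energy J θ))
        (fun θ : V → T => 1 * Real.exp (energy J θ + ∑ x, h x * ct (θ x))),
      integral_prod_mul (μ := haarV V) (ν := haarV V)
        (fun θ : V → T => 1 * Real.exp (energy J θ))
        (fun θ : V → T => st (θ x) * st (θ y) * Real.exp (energy J θ + ∑ x, h x * ct (θ x)))]
    rfl
  have h2 : 0 ≤ ∫ p, F p ∂((haarV V).prod (haarV V)) := by
    rw [integral_dup (μ := haarV V) hdivV hFc]
    have e : ∀ p : (V → T) × (V → T), F (p.1 + p.2, p.1 - p.2) =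
        2 * (((st (p.1 x) * ct (p.1 y)) * (ct (p.2 x) * st (p.2 y))) *
          Real.exp (∑ i, cAB J h i * (gA i p.1 * gB i p.2))) +
        2 * (((ct (p.1 x) * st (p.1 y)) * (st (p.2 x) * ct (p.2 y))) *
          Real.exp (∑ i, cAB J h i * (gA i p.1 * gB i p.2))) := by
      intro p
      rw [← energy_dup, Real.exp_add (energy J (p.1 + p.2))]
      simp only [hF, Pi.add_apply, Pi.sub_apply, st_add, st_sub]
      ring
    simp_rw [e]
    have cA := fun i => gA_cont (V := V) i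
    have cB := fun i => gB_cont (V := V) i
    rw [integral_add (integrable_of_continuous (by fun_prop))
      (integrable_of_continuous (by fun_prop)), integral_const_mul, integral_const_mul]
    have p1 := pos_AB J hJ h hh (F := fun α => st (α x) * ct (α y))
      (G := fun α => ct (α x) * st (α y)) (by fun_prop) (by fun_prop)
      ((IsMono.st x).mul (IsMono.ct y)) ((IsMono.ct x).mul (IsMono.st y))
    have p2 := pos_AB J hJ h hh (F := fun α => ct (α x) * st (α y))
      (G := fun α => st (α x) * ct (α y)) (by fun_prop) (by fun_prop)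
      ((IsMono.ct x).mul (IsMono.st y)) ((IsMono.st x).mul (IsMono.ct y))
    have := mul_nonneg (zero_le_two (α := ℝ)) p1
    have := mul_nonneg (zero_le_two (α := ℝ)) p2
    linarith only [p1, p2]
  rw [h1] at h2
  linarith

theorem un_st_st (J : V → V → ℝ) (x y : V) :
    un J (fun θ => st (θ x) * st (θ y)) = 1 / 2 * un J (fun θ => ct (θ x - θ y)) := by
  have hshift : un J (fun θ => st (θ x) * st (θ y)) = un J (fun θ => ct (θ x) * ct (θ y)) := by
    let γ : V → T := fun _ => ((Real.pi / 2 : ℝ) : T)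
    have h2 : ∫ θ, st ((θ + γ) x) * st ((θ + γ) y) * Real.exp (energy J (θ + γ)) ∂haarV V
        = ∫ θ, st (θ x) * st (θ y) * Real.exp (energy J θ) ∂haarV V :=
      integral_add_right_eq_self (μ := haarV V)
        (fun θ => st (θ x) * st (θ y) * Real.exp (energy J θ)) γ
    have hE : ∀ θ : V → T, energy J (θ + γ) = energy J θ := by
      intro θ
      unfold energy
      refine Finset.sum_congr rfl fun u _ => Finset.sum_congr rfl fun v _ => ?_
      rw [Pi.add_apply, Pi.add_apply, add_sub_add_right_eq_sub]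
    have hs : ∀ (θ : V → T) (v : V), st ((θ + γ) v) = ct (θ v) := fun θ v =>
      Real.Angle.sin_add_pi_div_two (θ v)
    simp_rw [hE, hs] at h2
    unfold un
    exact h2.symm
  have h3 : un J (fun θ => ct (θ x - θ y)) =
      un J (fun θ => ct (θ x) * ct (θ y)) + un J (fun θ => st (θ x) * st (θ y)) := by
    rw [← un_add J (by fun_prop) (by fun_prop)]
    congr 1
    funext θ
    rw [ct_sub]
  rw [h3, hshift]
  ring

/-- bound of the transversal correlations in a field -/
theorem field_bound (J : V → V → ℝ) (hJ : ∀ u v, 0 ≤ J u v) (h : V → ℝ) (hh : ∀ x, 0 ≤ h x)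
    (x y : V) :
    unF J h (fun θ => st (θ x) * st (θ y)) / unF J h (fun _ => 1) ≤ 1 / 2 * corr J x y := by
  have h1 := field_mono J hJ h hh x y
  rw [un_st_st] at h1
  have h2 := unF_one_pos J h
  have h3 := part_pos J
  unfold corr ev
  rw [part_eq_un] at h3 ⊢
  rw [div_le_iff₀ h2]
  have h4 : 1 / 2 * (un J (fun θ => ct (θ x - θ y)) / un J fun _ => 1) * unF J h (fun _ => 1) =
      (1 / 2 * un J (fun θ => ct (θ x - θ y)) * unF J h (fun _ => 1)) / un J (fun _ => 1) := by
    ring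
  rw [h4, le_div_iff₀ h3]
  exact h1

end Field

end Vale.Agent.P159.XY
end

section

/-!
Ward identities of trigonometric Gibbs measures.
-/

open MeasureTheory Filter Topology
open scoped BigOperators

set_option linter.unusedSectionVars false

namespace Vale.Agent.P159

section Ward

variable {G : Type*} [AddCommGroup G] [TopologicalSpace G] [IsTopologicalAddGroup G]
  [CompactSpace G] [SecondCountableTopology G] [MeasurableSpace G] [BorelSpace G]
  (μ : Measure G) [μ.IsAddHaarMeasure] [IsProbabilityMeasure μ]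
  {κ : Type*} [Fintype κ] (J : κ → ℝ) (χ : κ → Chr G)

/-- Ward identity, integral form -/
theorem ward_int (y a : κ → ℝ) (X : ℝ → G) (hc : ∀ t e, (χ e).c (X t) = Real.cos (t * y e))
    (hs : ∀ t e, (χ e).s (X t) = Real.sin (t * y e)) :
    ∫ x, ((∑ e, J e * a e * y e * (χ e).c x) -
      (∑ e, J e * a e * (χ e).s x) * (∑ e, J e * y e * (χ e).s x)) *
        Real.exp (∑ e, J e * (χ e).c x) ∂μ = 0 := by
  have cc := fun e => (χ e).cont_c
  have cs := fun e => (χ e).cont_s
  set A : ℝ → G → ℝ := fun t x =>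
    ∑ e, J e * a e * ((χ e).s x * Real.cos (t * y e) + (χ e).c x * Real.sin (t * y e)) with hA
  set B : ℝ → G → ℝ := fun t x =>
    ∑ e, J e * ((χ e).c x * Real.cos (t * y e) - (χ e).s x * Real.sin (t * y e)) with hB
  set A' : ℝ → G → ℝ := fun t x =>
    ∑ e, J e * a e * ((χ e).s x * (-Real.sin (t * y e) * y e) +
      (χ e).c x * (Real.cos (t * y e) * y e)) with hA'
  set B' : ℝ → G → ℝ := fun t x =>
    ∑ e, J e * ((χ e).c x * (-Real.sin (t * y e) * y e) -
      (χ e).s x * (Real.cos (t * y e) * y e)) with hB'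
  have hdA : ∀ t x, HasDerivAt (fun t => A t x) (A' t x) t := by
    intro t x
    simp only [hA, hA']
    refine HasDerivAt.fun_sum fun e _ => ?_
    have h0 : HasDerivAt (fun t : ℝ => t * y e) (y e) t := by
      simpa using (hasDerivAt_id t).mul_const (y e)
    exact ((h0.cos.const_mul _).add (h0.sin.const_mul _)).const_mul _
  have hdB : ∀ t x, HasDerivAt (fun t => B t x) (B' t x) t := by
    intro t x
    simp only [hB, hB']
    refine HasDerivAt.fun_sum fun e _ => ?_
    have h0 : HasDerivAt (fun t : ℝ => t * y e) (y e) t := by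
      simpa using (hasDerivAt_id t).mul_const (y e)
    exact ((h0.cos.const_mul _).sub (h0.sin.const_mul _)).const_mul _
  set g : ℝ → G → ℝ := fun t x => A t x * Real.exp (B t x) with hg
  set g' : ℝ → G → ℝ := fun t x => A' t x * Real.exp (B t x) +
    A t x * (Real.exp (B t x) * B' t x) with hg'
  have hdg : ∀ t x, HasDerivAt (fun t => g t x) (g' t x) t := by
    intro t x
    exact (hdA t x).mul (hdB t x).exp
  have hcg' : Continuous (fun p : ℝ × G => g' p.1 p.2) := by
    simp only [hg', hA, hB, hA', hB']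
    fun_prop
  have hcg : ∀ t, Continuous (g t) := by
    intro t
    simp only [hg, hA, hB]
    fun_prop
  obtain ⟨C, hC⟩ := ((isCompact_Icc (a := (-1 : ℝ)) (b := 1)).prod
    (isCompact_univ (X := G))).exists_bound_of_continuousOn (f := fun p : ℝ × G => g' p.1 p.2)
    hcg'.continuousOn
  have hder := (hasDerivAt_integral_of_dominated_loc_of_deriv_le (μ := μ) (F := g) (F' := g')
    (x₀ := 0) (s := Set.Icc (-1) 1) (bound := fun _ => C)
    (Icc_mem_nhds (by norm_num) (by norm_num))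
    (Eventually.of_forall fun t => (hcg t).aestronglyMeasurable)
    (cint (hcg 0))
    ((hcg'.comp (continuous_const.prodMk continuous_id)).aestronglyMeasurable)
    (Eventually.of_forall fun x t ht => hC (t, x) ⟨ht, Set.mem_univ x⟩)
    (integrable_const C)
    (Eventually.of_forall fun x t _ => hdg t x)).2
  have hinv : ∀ t, ∫ x, g t x ∂μ = ∫ x, g 0 x ∂μ := by
    intro t
    rw [← integral_add_right_eq_self (μ := μ) (fun x => g 0 x) (X t)]
    congr 1
    funext x
    simp only [hg, hA, hB, (χ _).s_add, hc, hs, zero_mul, Real.cos_zero, mul_one, (χ _).c_add, Real.sin_zero, mul_zero, add_zero, sub_zero]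
  have hconst : HasDerivAt (fun t => ∫ x, g t x ∂μ) 0 0 := by
    have : (fun t => ∫ x, g t x ∂μ) = fun _ => ∫ x, g 0 x ∂μ := funext hinv
    rw [this]
    exact hasDerivAt_const _ _
  have hz := hder.unique hconst
  rw [← hz]
  congr 1
  funext x
  simp only [hg', hA, hB, hA', hB', zero_mul, Real.cos_zero, Real.sin_zero, mul_one, mul_zero,
    add_zero, sub_zero, neg_zero, zero_add, one_mul, zero_sub]
  have e1 : ∑ e, J e * a e * ((χ e).c x * y e) = ∑ e, J e * a e * y e * (χ e).c x :=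
    Finset.sum_congr rfl fun e _ => by ring
  have e2 : ∑ e, J e * -((χ e).s x * y e) = -∑ e, J e * y e * (χ e).s x := by
    rw [← Finset.sum_neg_distrib]
    exact Finset.sum_congr rfl fun e _ => by ring
  rw [e1, e2]
  ring

theorem gibbs_eq_of {f g : G → ℝ} (hf : Continuous f) (hg : Continuous g)
    (h : ∫ x, (f x - g x) * Real.exp (∑ e, J e * (χ e).c x) ∂μ = 0) :
    gibbs μ J χ f = gibbs μ J χ g := by
  have c4 := cont_weight J χ
  have e : ∀ x, (f x - g x) * Real.exp (∑ e, J e * (χ e).c x) =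
      f x * Real.exp (∑ e, J e * (χ e).c x) - g x * Real.exp (∑ e, J e * (χ e).c x) :=
    fun x => by ring
  simp_rw [e] at h
  rw [integral_sub (f := fun x => f x * Real.exp (∑ e, J e * (χ e).c x))
    (g := fun x => g x * Real.exp (∑ e, J e * (χ e).c x)) (cint (hf.mul c4)) (cint (hg.mul c4)),
    sub_eq_zero] at h
  unfold gibbs
  rw [h]

/-- Ward identity -/
theorem ward (y a : κ → ℝ) (X : ℝ → G) (hc : ∀ t e, (χ e).c (X t) = Real.cos (t * y e))
    (hs : ∀ t e, (χ e).s (X t) = Real.sin (t * y e)) :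
    gibbs μ J χ (fun x => ∑ e, J e * a e * y e * (χ e).c x) =
      gibbs μ J χ (fun x => (∑ e, J e * a e * (χ e).s x) * (∑ e, J e * y e * (χ e).s x)) := by
  have c1 : Continuous fun x => ∑ e, J e * a e * y e * (χ e).c x := cont_sumc χ _
  have c2 : Continuous fun x => ∑ e, J e * a e * (χ e).s x := cont_sums χ _
  have c3 : Continuous fun x => ∑ e, J e * y e * (χ e).s x := cont_sums χ _
  exact gibbs_eq_of μ J χ c1 (c2.mul c3) (ward_int μ J χ y a X hc hs)

theorem gibbs_add3 {A B C : G → ℝ} (hA : Continuous A) (hB : Continuous B) (hC : Continuous C) :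
    gibbs μ J χ (fun x => A x + (2 * B x + C x)) =
      gibbs μ J χ A + (2 * gibbs μ J χ B + gibbs μ J χ C) := by
  have h2 : Continuous fun x => 2 * B x := continuous_const.mul hB
  have h3 : Continuous fun x => 2 * B x + C x := h2.add hC
  rw [gibbs_add μ J χ hA h3, gibbs_add μ J χ h2 hC, gibbs_const_mul]

/-- gauge invariance of the stiffness form -/
theorem Qform_gauge (y a : κ → ℝ) (X : ℝ → G) (hc : ∀ t e, (χ e).c (X t) = Real.cos (t * y e))
    (hs : ∀ t e, (χ e).s (X t) = Real.sin (t * y e)) :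
    Qform μ J χ (fun e => a e + y e) = Qform μ J χ a := by
  have h1 := ward μ J χ y a X hc hs
  have h2 := ward μ J χ y y X hc hs
  unfold Qform
  have c1 : Continuous fun x => ∑ e, J e * a e ^ 2 * (χ e).c x := cont_sumc χ _
  have c2 : Continuous fun x => ∑ e, J e * a e * y e * (χ e).c x := cont_sumc χ _
  have c3 : Continuous fun x => ∑ e, J e * y e * y e * (χ e).c x := cont_sumc χ _
  have s1 : Continuous fun x => ∑ e, J e * a e * (χ e).s x := cont_sums χ _
  have s2 : Continuous fun x => ∑ e, J e * y e * (χ e).s x := cont_sums χ _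
  have s3 : Continuous fun x => (∑ e, J e * a e * (χ e).s x) ^ 2 := s1.pow 2
  have s4 : Continuous fun x => (∑ e, J e * a e * (χ e).s x) * (∑ e, J e * y e * (χ e).s x) :=
    s1.mul s2
  have s5 : Continuous fun x => (∑ e, J e * y e * (χ e).s x) * (∑ e, J e * y e * (χ e).s x) :=
    s2.mul s2
  have e1 : (fun x => ∑ e, J e * (a e + y e) ^ 2 * (χ e).c x) = fun x =>
      (∑ e, J e * a e ^ 2 * (χ e).c x) + (2 * (∑ e, J e * a e * y e * (χ e).c x) +
        ∑ e, J e * y e * y e * (χ e).c x) := by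
    funext x
    rw [Finset.mul_sum, ← Finset.sum_add_distrib, ← Finset.sum_add_distrib]
    exact Finset.sum_congr rfl fun e _ => by ring
  have e2 : (fun x => (∑ e, J e * (a e + y e) * (χ e).s x) ^ 2) = fun x =>
      (∑ e, J e * a e * (χ e).s x) ^ 2 +
        (2 * ((∑ e, J e * a e * (χ e).s x) * (∑ e, J e * y e * (χ e).s x)) +
        (∑ e, J e * y e * (χ e).s x) * (∑ e, J e * y e * (χ e).s x)) := by
    funext x
    have : ∑ e, J e * (a e + y e) * (χ e).s x =
        (∑ e, J e * a e * (χ e).s x) + ∑ e, J e * y e * (χ e).s x := by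
      rw [← Finset.sum_add_distrib]
      exact Finset.sum_congr rfl fun e _ => by ring
    rw [this]
    ring
  rw [e1, e2, gibbs_add3 μ J χ c1 c2 c3, gibbs_add3 μ J χ s3 s4 s5, h1, h2]
  ring

end Ward

end Vale.Agent.P159
end

section

/-!
The wired block: energy as a magnetic field, correlation bound.
-/

open MeasureTheory Filter Topology
open scoped BigOperators

set_option linter.unusedSectionVars false

namespace Vale.Agent.P159

/-- coupling between interior sites -/
noncomputable def mJ (l : ℕ) (b : ℝ) (u v : inner l) : ℝ :=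
  ∑ e : BI l, if bu e = u ∧ bv e = v then b / 2 else 0

/-- field at interior sites -/
noncomputable def mh (l : ℕ) (b : ℝ) (x : inner l) : ℝ :=
  ∑ e : BI l, ((if bu e = x ∧ bv e ∉ inner l then b / 2 else 0) +
    (if bv e = x ∧ bu e ∉ inner l then b / 2 else 0))

/-- constant part of the energy -/
noncomputable def mK (l : ℕ) (b : ℝ) : ℝ :=
  ∑ e : BI l, if bu e ∉ inner l ∧ bv e ∉ inner l then b / 2 else 0

theorem mJ_nonneg (l : ℕ) {b : ℝ} (hb : 0 ≤ b) (u v : inner l) : 0 ≤ mJ l b u v :=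
  Finset.sum_nonneg fun e _ => by split_ifs <;> linarith

theorem mh_nonneg (l : ℕ) {b : ℝ} (hb : 0 ≤ b) (x : inner l) : 0 ≤ mh l b x :=
  Finset.sum_nonneg fun e _ => by
    refine add_nonneg ?_ ?_ <;> split_ifs <;> linarith

theorem ext_mem {S : Finset (ℤ × ℤ)} {θ : S → T} {x : ℤ × ℤ} (h : x ∈ S) : ext θ x = θ ⟨x, h⟩ := by
  unfold ext; rw [dif_pos h]

theorem ext_notMem {S : Finset (ℤ × ℤ)} {θ : S → T} {x : ℤ × ℤ} (h : x ∉ S) : ext θ x = 0 := by
  unfold ext; rw [dif_neg h]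

theorem sum_sub_ite {S : Finset (ℤ × ℤ)} (z : ℤ × ℤ) (F : S → ℝ) :
    ∑ u : S, (if z = (u : ℤ × ℤ) then F u else 0) = if h : z ∈ S then F ⟨z, h⟩ else 0 := by
  classical
  split_ifs with h
  · rw [Finset.sum_eq_single (⟨z, h⟩ : S)]
    · simp
    · intro u _ hu
      rw [if_neg]
      intro h'
      exact hu (Subtype.ext h'.symm)
    · intro h'; exact absurd (Finset.mem_univ _) h'
  · refine Finset.sum_eq_zero fun u _ => ?_
    rw [if_neg]
    intro h'
    exact h (h' ▸ u.2)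

/-- the energy of the wired block -/
theorem blockEnergy_field (l : ℕ) (b : ℝ) (θ : inner l → T) :
    blockEnergy l b θ = XY.energy (mJ l b) θ + ∑ x, mh l b x * XY.ct (θ x) + mK l b := by
  classical
  have h0 : blockEnergy l b θ = ∑ e : BI l, b / 2 * cosT (ext θ (bu e) - ext θ (bv e)) := by
    rw [sum_all]; rfl
  have h1 : XY.energy (mJ l b) θ = ∑ e : BI l,
      (if h : bu e ∈ inner l then (if h' : bv e ∈ inner l then
        b / 2 * cosT (θ ⟨bu e, h⟩ - θ ⟨bv e, h'⟩) else 0) else 0) := by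
    unfold XY.energy mJ
    have e1 : ∀ u v : inner l, (∑ e : BI l, if bu e = u ∧ bv e = v then b / 2 else 0) *
        XY.ct (θ u - θ v) = ∑ e : BI l, if bu e = u then (if bv e = v then
          b / 2 * cosT (θ u - θ v) else 0) else 0 := by
      intro u v
      rw [Finset.sum_mul]
      refine Finset.sum_congr rfl fun e _ => ?_
      by_cases h : bu e = u
      · by_cases h' : bv e = v
        · rw [if_pos ⟨h, h'⟩, if_pos h, if_pos h']; rfl
        · rw [if_neg (fun hh => h' hh.2), if_pos h, if_neg h', zero_mul]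
      · rw [if_neg (fun hh => h hh.1), if_neg h, zero_mul]
    simp_rw [e1]
    have e2 : ∀ u : inner l, ∑ v : inner l, ∑ e : BI l, (if bu e = u then (if bv e = v then
          b / 2 * cosT (θ u - θ v) else 0) else 0) = ∑ e : BI l, if bu e = u then
          (if h' : bv e ∈ inner l then b / 2 * cosT (θ u - θ ⟨bv e, h'⟩) else 0) else 0 := by
      intro u
      rw [Finset.sum_comm]
      refine Finset.sum_congr rfl fun e _ => ?_
      by_cases h : bu e = u
      · simp only [if_pos h]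
        exact sum_sub_ite (bv e) (fun v => b / 2 * cosT (θ u - θ v))
      · simp only [if_neg h, Finset.sum_const_zero]
    simp_rw [e2]
    rw [Finset.sum_comm]
    refine Finset.sum_congr rfl fun e _ => ?_
    exact sum_sub_ite (bu e) (fun u => if h' : bv e ∈ inner l then
      b / 2 * cosT (θ u - θ ⟨bv e, h'⟩) else 0)
  have h2 : ∑ x, mh l b x * XY.ct (θ x) = ∑ e : BI l,
      ((if h : bu e ∈ inner l then (if bv e ∉ inner l then b / 2 * cosT (θ ⟨bu e, h⟩) else 0) else 0)
      + (if h : bv e ∈ inner l then (if bu e ∉ inner l then b / 2 * cosT (θ ⟨bv e, h⟩) else 0)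
        else 0)) := by
    unfold mh
    have e1 : ∀ x : inner l, (∑ e : BI l, ((if bu e = x ∧ bv e ∉ inner l then b / 2 else 0) +
        (if bv e = x ∧ bu e ∉ inner l then b / 2 else 0))) * XY.ct (θ x) =
        ∑ e : BI l, ((if bu e = x then (if bv e ∉ inner l then b / 2 * cosT (θ x) else 0) else 0) +
        (if bv e = x then (if bu e ∉ inner l then b / 2 * cosT (θ x) else 0) else 0)) := by
      intro x
      rw [Finset.sum_mul]
      refine Finset.sum_congr rfl fun e _ => ?_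
      have e3 : ∀ (p q : Prop) [Decidable p] [Decidable q], (if p ∧ q then b / 2 else 0) *
          XY.ct (θ x) = if p then (if q then b / 2 * cosT (θ x) else 0) else 0 := by
        intro p q _ _
        by_cases hp : p
        · by_cases hq : q
          · rw [if_pos ⟨hp, hq⟩, if_pos hp, if_pos hq]; rfl
          · rw [if_neg (fun hh => hq hh.2), if_pos hp, if_neg hq, zero_mul]
        · rw [if_neg (fun hh => hp hh.1), if_neg hp, zero_mul]
      rw [add_mul, e3, e3]
    simp_rw [e1]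
    rw [Finset.sum_comm]
    refine Finset.sum_congr rfl fun e _ => ?_
    rw [Finset.sum_add_distrib,
      sum_sub_ite (bu e) (fun x => if bv e ∉ inner l then b / 2 * cosT (θ x) else 0),
      sum_sub_ite (bv e) (fun x => if bu e ∉ inner l then b / 2 * cosT (θ x) else 0)]
  rw [h0, h1, h2]
  unfold mK
  rw [← Finset.sum_add_distrib, ← Finset.sum_add_distrib]
  refine Finset.sum_congr rfl fun e _ => ?_
  by_cases hu : bu e ∈ inner l
  · by_cases hv : bv e ∈ inner l
    · rw [ext_mem hu, ext_mem hv]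
      simp only [hu, ↓reduceDIte, hv, not_true_eq_false, ↓reduceIte, add_zero, and_self]
    · rw [ext_mem hu, ext_notMem hv]
      simp only [sub_zero, hu, ↓reduceDIte, hv, not_false_eq_true, ↓reduceIte, add_zero, zero_add, not_true_eq_false, and_true]
  · by_cases hv : bv e ∈ inner l
    · rw [ext_notMem hu, ext_mem hv]
      simp only [zero_sub, cosT_neg, hu, ↓reduceDIte, hv, not_false_eq_true, ↓reduceIte, zero_add, not_true_eq_false, and_false, add_zero]
    · rw [ext_notMem hu, ext_notMem hv]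
      simp [hu, hv, cosT_zero]

theorem bond_inj {l : ℕ} {e e' : BI l} (hu : bu e = bu e') (hv : bv e = bv e')
    (hs : e.2.2 = e'.2.2) : e = e' := by
  rcases e with ⟨⟨i, j⟩, ⟨o, s⟩⟩
  rcases e' with ⟨⟨i', j'⟩, ⟨o', s'⟩⟩
  simp only at hs
  subst hs
  have ho : o = o' := by
    unfold bv at hv
    rw [hu] at hv
    have hv' := add_left_cancel hv
    cases o <;> cases o' <;> simp only [Bool.false_eq_true, ↓reduceIte, Prod.mk.injEq, one_ne_zero, zero_ne_one, and_self] at hv' ⊢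
  subst ho
  unfold bu at hu
  simp only [Prod.mk.injEq] at hu
  obtain ⟨h1, h2⟩ := hu
  have hi : i = i' := Fin.ext (by omega)
  have hj : j = j' := Fin.ext (by omega)
  rw [hi, hj]

theorem mJ_le (l : ℕ) {b : ℝ} (hb : 0 ≤ b) (u v : inner l) : mJ l b u v ≤ nn b u v := by
  classical
  unfold mJ nn
  have h1 : (∑ e : BI l, if bu e = u ∧ bv e = v then b / 2 else 0) =
      ((Finset.univ.filter fun e : BI l => bu e = u ∧ bv e = v).card : ℝ) * (b / 2) := by
    rw [← Finset.sum_filter, Finset.sum_const, nsmul_eq_mul]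
  rw [h1]
  have h2 : (Finset.univ.filter fun e : BI l => bu e = u ∧ bv e = v).card ≤ 2 := by
    have h3 := Finset.card_le_card_of_injOn (s := Finset.univ.filter fun e : BI l =>
      bu e = u ∧ bv e = v) (t := (Finset.univ : Finset Bool)) (fun e => e.2.2)
      (fun e _ => Finset.mem_coe.2 (Finset.mem_univ _)) (by
        intro e he e' he' h
        obtain ⟨-, h4, h5⟩ := Finset.mem_filter.1 (Finset.mem_coe.1 he)
        obtain ⟨-, h4', h5'⟩ := Finset.mem_filter.1 (Finset.mem_coe.1 he')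
        exact bond_inj (h4.trans h4'.symm) (h5.trans h5'.symm) h)
    simpa only [ge_iff_le, Fintype.univ_bool, Finset.mem_singleton, Bool.true_eq_false, not_false_eq_true, Finset.card_insert_of_notMem, Finset.card_singleton, Nat.reduceAdd] using h3
  have h2' : ((Finset.univ.filter fun e : BI l => bu e = u ∧ bv e = v).card : ℝ) ≤ 2 := by
    exact_mod_cast h2
  split_ifs with h
  · nlinarith only [hb, h2']
  · have h3 : (Finset.univ.filter fun e : BI l => bu e = u ∧ bv e = v) = ∅ := by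
      rw [Finset.filter_eq_empty_iff]
      rintro e - ⟨h4, h5⟩
      apply h
      rw [← h4, ← h5]
      unfold bv
      split_ifs
      · exact Or.inr rfl
      · exact Or.inl rfl
    rw [h3]
    simp

theorem corr_mJ_le (l : ℕ) {b : ℝ} (hb : 0 ≤ b) (x y : inner l) :
    XY.corr (mJ l b) x y ≤ XY.C b ((y : ℤ × ℤ) - x) := by
  have h1 : XY.corr (mJ l b) x y ≤ XY.corr (fun u v : inner l => nn b u v) x y :=
    XY.corr_mono (fun u v => mJ_nonneg l hb u v) (fun u v => mJ_le l hb u v) x y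
  have h2 : XY.corr (fun u v : inner l => nn b u v) x y =
      XY.corr (fun u v : inner l => b * XY.A u v) x y := by
    have h : (fun u v : inner l => b * XY.A u v)
        = fun u v : inner l => (nn b u v + nn b v u) / 2 := by
      funext u v
      rw [XY.nn_eq b u v, XY.nn_eq b v u]
      unfold XY.A
      ring
    rw [h]
    unfold XY.corr XY.ev XY.un XY.part
    simp_rw [XY.energy_symm (fun u v : inner l => nn b u v)]
  rw [← XY.CI_eq hb]
  refine h1.trans (h2.le.trans ?_)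
  rw [← XY.KS_of_mem b x.2 y.2]
  exact XY.KS_le_CI _ hb _ _

/-- the transversal correlations of the wired block -/
theorem wired_bound (l : ℕ) {b : ℝ} (hb : 0 ≤ b) (x y : inner l) :
    expect (blockEnergy l b) (fun θ => sinT (θ x) * sinT (θ y)) ≤
      1 / 2 * XY.C b ((y : ℤ × ℤ) - x) := by
  have h1 := XY.field_bound (mJ l b) (mJ_nonneg l hb) (mh l b) (mh_nonneg l hb) x y
  have h2 := corr_mJ_le l hb x y
  have h3 : expect (blockEnergy l b) (fun θ => sinT (θ x) * sinT (θ y)) =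
      XY.unF (mJ l b) (mh l b) (fun θ => XY.st (θ x) * XY.st (θ y)) /
        XY.unF (mJ l b) (mh l b) (fun _ => 1) := by
    unfold expect XY.unF
    have e1 : ∀ θ : inner l → T, Real.exp (blockEnergy l b θ) =
        Real.exp (XY.energy (mJ l b) θ + ∑ x, mh l b x * XY.ct (θ x)) * Real.exp (mK l b) := by
      intro θ
      rw [blockEnergy_field, Real.exp_add]
    simp_rw [e1]
    have e2 : ∀ θ : inner l → T, sinT (θ x) * sinT (θ y) *
        (Real.exp (XY.energy (mJ l b) θ + ∑ x, mh l b x * XY.ct (θ x)) * Real.exp (mK l b)) =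
        (XY.st (θ x) * XY.st (θ y) *
        Real.exp (XY.energy (mJ l b) θ + ∑ x, mh l b x * XY.ct (θ x))) * Real.exp (mK l b) := by
      intro θ
      rw [← mul_assoc]
      rfl
    simp_rw [e2]
    rw [integral_mul_const, integral_mul_const, mul_div_mul_right _ _ (Real.exp_pos _).ne']
    simp only [one_mul]
    rfl
  rw [h3]
  linarith

end Vale.Agent.P159
end

section

/-!
In the massive phase the stiffness of the wired block tends to zero.
-/

open MeasureTheory Filter Topology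
open scoped BigOperators

set_option linter.unusedSectionVars false

namespace Vale.Agent.P159

/-- sign of a bond crossing the boundary of the interior -/
noncomputable def sg (l : ℕ) (e : BI l) : ℝ :=
  (if bu e ∈ inner l then 1 else 0) - (if bv e ∈ inner l then 1 else 0)

/-- first coordinate of the outer end -/
noncomputable def pe (l : ℕ) (e : BI l) : ℝ :=
  if bu e ∈ inner l then ((bv e).1 : ℝ) else ((bu e).1 : ℝ)

/-- inner end -/
noncomputable def xin (l : ℕ) (e : BI l) : ℤ × ℤ := if bu e ∈ inner l then bu e else bv e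

/-- bonds on the boundary -/
noncomputable def tau (l : ℕ) (e : BI l) : ℝ :=
  if bu e ∉ inner l ∧ bv e ∉ inner l then hh e else 0

/-- one-parameter group of gauge transformations -/
noncomputable def gaugeX (f : ℤ × ℤ → ℝ) (t : ℝ) : Ginf := fun v => ((t * f v : ℝ) : T)

theorem proj_gaugeX (l : ℕ) {f : ℤ × ℤ → ℝ} (hf : ∀ v, v ∉ inner l → f v = 0) (t : ℝ)
    (v : ℤ × ℤ) : proj (inner l : Set (ℤ × ℤ)) (gaugeX f t) v = ((t * f v : ℝ) : T) := by
  by_cases h : v ∈ inner l
  · rw [proj_of_mem (by exact_mod_cast h)]; rfl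
  · rw [proj_of_notMem (by exact_mod_cast h), hf v h, mul_zero]; rfl

theorem chi0_gauge (l : ℕ) {f : ℤ × ℤ → ℝ} (hf : ∀ v, v ∉ inner l → f v = 0) (t : ℝ) (e : BI l) :
    (chi0 l e).c (gaugeX f t) = Real.cos (t * (f (bu e) - f (bv e))) ∧
      (chi0 l e).s (gaugeX f t) = Real.sin (t * (f (bu e) - f (bv e))) := by
  have h : proj (inner l : Set (ℤ × ℤ)) (gaugeX f t) (bu e) -
      proj (inner l : Set (ℤ × ℤ)) (gaugeX f t) (bv e) =
        ((t * (f (bu e) - f (bv e)) : ℝ) : T) := by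
    rw [proj_gaugeX l hf, proj_gaugeX l hf, ← AddCircle.coe_sub]
    congr 1
    ring
  constructor
  · rw [← cosT_coe, ← h]; rfl
  · rw [← sinT_coe, ← h]; rfl

/-- the gauge field -/
noncomputable def fg (l : ℕ) (v : ℤ × ℤ) : ℝ := if v ∈ inner l then (v.1 : ℝ) else 0

/-- indicator of the interior -/
noncomputable def f1 (l : ℕ) (v : ℤ × ℤ) : ℝ := if v ∈ inner l then 1 else 0

theorem Q_gauged (l : ℕ) (b : ℝ) (hl : 1 ≤ l) :
    (l : ℝ) ^ 2 * stiff l b =
      Qform muInf (fun _ => b / 2) (chi0 l) (fun e => hh e + (fg l (bu e) - fg l (bv e))) := by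
  have hf : ∀ v, v ∉ inner l → fg l v = 0 := fun v hv => by unfold fg; rw [if_neg hv]
  rw [Qform_gauge muInf (fun _ => b / 2) (chi0 l) (fun e => fg l (bu e) - fg l (bv e)) hh
    (gaugeX (fg l)) (fun t e => (chi0_gauge l hf t e).1) (fun t e => (chi0_gauge l hf t e).2),
    Q_h l b hl]

theorem hh_eq {l : ℕ} (e : BI l) : hh e = ((bv e).1 : ℝ) - ((bu e).1 : ℝ) := by
  unfold hh bv
  split_ifs <;> simp

theorem term_c (l : ℕ) (e : BI l) (θ : Ginf) :
    (hh e + (fg l (bu e) - fg l (bv e))) ^ 2 * (chi0 l e).c θ =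
      sg l e * pe l e ^ 2 * sg l e * (chi0 l e).c θ + tau l e := by
  have hc : (chi0 l e).c θ = cosT (proj (inner l : Set (ℤ × ℤ)) θ (bu e) -
    proj (inner l : Set (ℤ × ℤ)) θ (bv e)) := rfl
  unfold fg sg pe tau
  by_cases hu : bu e ∈ inner l
  · by_cases hv : bv e ∈ inner l
    · simp only [if_pos hu, if_pos hv]
      rw [hh_eq, if_neg (fun h => h.1 hu)]
      ring
    · simp only [if_pos hu, if_neg hv]
      rw [hh_eq, if_neg (fun h => h.1 hu)]
      ring
  · by_cases hv : bv e ∈ inner l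
    · simp only [if_neg hu, if_pos hv]
      rw [hh_eq, if_neg (fun h => h.2 hv)]
      ring
    · simp only [if_neg hu, if_neg hv]
      have hc' : (chi0 l e).c θ = 1 := by
        rw [hc, proj_of_notMem (by exact_mod_cast hu),
          proj_of_notMem (by exact_mod_cast hv), sub_zero, cosT_zero]
      rw [if_pos ⟨hu, hv⟩, hc']
      have := hh_sq e
      linear_combination this

theorem term_s (l : ℕ) (e : BI l) (θ : Ginf) :
    (hh e + (fg l (bu e) - fg l (bv e))) * (chi0 l e).s θ =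
      pe l e * (sg l e * (chi0 l e).s θ) := by
  have hc : (chi0 l e).s θ = sinT (proj (inner l : Set (ℤ × ℤ)) θ (bu e) -
    proj (inner l : Set (ℤ × ℤ)) θ (bv e)) := rfl
  unfold fg sg pe
  by_cases hu : bu e ∈ inner l
  · by_cases hv : bv e ∈ inner l
    · simp only [if_pos hu, if_pos hv]
      rw [hh_eq]
      ring
    · simp only [if_pos hu, if_neg hv]
      rw [hh_eq]
      ring
  · by_cases hv : bv e ∈ inner l
    · simp only [if_neg hu, if_pos hv]
      rw [hh_eq]
      ring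
    · simp only [if_neg hu, if_neg hv]
      have hc' : (chi0 l e).s θ = 0 := by
        rw [hc, proj_of_notMem (by exact_mod_cast hu),
          proj_of_notMem (by exact_mod_cast hv), sub_zero, sinT_zero]
      rw [hc']
      ring

/-- transversal spin of a boundary bond -/
noncomputable def tw (l : ℕ) (e : BI l) (θ : Ginf) : ℝ := sg l e * (chi0 l e).s θ

theorem tw_cont (l : ℕ) (e : BI l) : Continuous (tw l e) := continuous_const.mul (chi0 l e).cont_s

theorem gibbs_sum {ι : Type*} (s : Finset ι) (l : ℕ) (b : ℝ) (F : ι → Ginf → ℝ)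
    (hF : ∀ i, Continuous (F i)) :
    gibbs muInf (fun _ => b / 2) (chi0 l) (fun θ => ∑ i ∈ s, F i θ) =
      ∑ i ∈ s, gibbs muInf (fun _ => b / 2) (chi0 l) (F i) := by
  classical
  induction s using Finset.induction_on with
  | empty =>
    simp only [Finset.sum_empty]
    exact gibbs_const _ _ _ 0
  | insert i s hi ih =>
    simp only [Finset.sum_insert hi]
    rw [gibbs_add muInf (fun _ => b / 2) (chi0 l) (hF i)
      (continuous_finsetSum s fun i _ => hF i), ih]

theorem quad_identity {κ : Type*} [Fintype κ] (J : ℝ) (p w : κ → ℝ) :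
    (∑ e, J * (p e ^ 2 * w e)) * (∑ e, J * w e) - (∑ e, J * (p e * w e)) ^ 2 =
      ∑ e, ∑ e', 1 / 2 * J ^ 2 * (p e - p e') ^ 2 * (w e * w e') := by
  have h1 : (∑ e, J * (p e ^ 2 * w e)) * (∑ e, J * w e) =
      ∑ e, ∑ e', J ^ 2 * (p e ^ 2 * (w e * w e')) := by
    rw [Finset.sum_mul_sum]
    exact Finset.sum_congr rfl fun e _ => Finset.sum_congr rfl fun e' _ => by ring
  have h2 : (∑ e, J * (p e ^ 2 * w e)) * (∑ e, J * w e) =
      ∑ e, ∑ e', J ^ 2 * (p e' ^ 2 * (w e * w e')) := by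
    rw [mul_comm, Finset.sum_mul_sum]
    exact Finset.sum_congr rfl fun e _ => Finset.sum_congr rfl fun e' _ => by ring
  have h3 : (∑ e, J * (p e * w e)) ^ 2 = ∑ e, ∑ e', J ^ 2 * (p e * p e' * (w e * w e')) := by
    rw [pow_two, Finset.sum_mul_sum]
    exact Finset.sum_congr rfl fun e _ => Finset.sum_congr rfl fun e' _ => by ring
  have h4 : (∑ e, J * (p e ^ 2 * w e)) * (∑ e, J * w e) = 1 / 2 *
      ((∑ e, J * (p e ^ 2 * w e)) * (∑ e, J * w e)) + 1 / 2 *
      ((∑ e, J * (p e ^ 2 * w e)) * (∑ e, J * w e)) := by ring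
  rw [h4]
  nth_rewrite 1 [h1]
  rw [h2, h3, Finset.mul_sum, Finset.mul_sum, ← Finset.sum_add_distrib, ← Finset.sum_sub_distrib]
  refine Finset.sum_congr rfl fun e _ => ?_
  rw [Finset.mul_sum, Finset.mul_sum, ← Finset.sum_add_distrib, ← Finset.sum_sub_distrib]
  exact Finset.sum_congr rfl fun e' _ => by ring

/-- the stiffness as a double sum over the boundary -/
theorem stiff_boundary (l : ℕ) (b : ℝ) (hl : 1 ≤ l) :
    (l : ℝ) ^ 2 * stiff l b = ∑ e : BI l, b / 2 * tau l e +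
      ∑ e : BI l, ∑ e' : BI l, 1 / 2 * (b / 2) ^ 2 * (pe l e - pe l e') ^ 2 *
        gibbs muInf (fun _ => b / 2) (chi0 l) (fun θ => tw l e θ * tw l e' θ) := by
  rw [Q_gauged l b hl]
  unfold Qform
  have hf : ∀ v, v ∉ inner l → f1 l v = 0 := fun v hv => by unfold f1; rw [if_neg hv]
  have hward := ward muInf (fun _ => b / 2) (chi0 l) (fun e => f1 l (bu e) - f1 l (bv e))
    (fun e => sg l e * pe l e ^ 2)
    (gaugeX (f1 l)) (fun t e => (chi0_gauge l hf t e).1) (fun t e => (chi0_gauge l hf t e).2)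
  have hsg : ∀ e : BI l, f1 l (bu e) - f1 l (bv e) = sg l e := fun e => rfl
  simp only [hsg] at hward
  have e1 : (fun θ : Ginf => ∑ e : BI l, b / 2 * (hh e + (fg l (bu e) - fg l (bv e))) ^ 2 *
      (chi0 l e).c θ) = fun θ => (∑ e : BI l, b / 2 * (sg l e * pe l e ^ 2) * sg l e *
        (chi0 l e).c θ) + ∑ e : BI l, b / 2 * tau l e := by
    funext θ
    rw [← Finset.sum_add_distrib]
    refine Finset.sum_congr rfl fun e _ => ?_
    have := term_c l e θ
    linear_combination (b / 2) * this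
  have e2 : (fun θ : Ginf => (∑ e : BI l, b / 2 * (hh e + (fg l (bu e) - fg l (bv e))) *
      (chi0 l e).s θ) ^ 2) = fun θ => (∑ e : BI l, b / 2 * (pe l e * tw l e θ)) ^ 2 := by
    funext θ
    congr 1
    refine Finset.sum_congr rfl fun e _ => ?_
    have := term_s l e θ
    unfold tw
    linear_combination (b / 2) * this
  have e3 : (fun θ : Ginf => (∑ e : BI l, b / 2 * (sg l e * pe l e ^ 2) * (chi0 l e).s θ) *
      (∑ e : BI l, b / 2 * sg l e * (chi0 l e).s θ)) = fun θ =>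
        (∑ e : BI l, b / 2 * (pe l e ^ 2 * tw l e θ)) * (∑ e : BI l, b / 2 * tw l e θ) := by
    funext θ
    congr 1
    · refine Finset.sum_congr rfl fun e _ => ?_
      unfold tw; ring
    · refine Finset.sum_congr rfl fun e _ => ?_
      unfold tw; ring
  have ctw := fun e => tw_cont l e
  have c1 : Continuous fun θ : Ginf => ∑ e : BI l, b / 2 * (sg l e * pe l e ^ 2) * sg l e *
        (chi0 l e).c θ := cont_sumc (chi0 l) _
  have c2 : Continuous fun θ : Ginf => (∑ e : BI l, b / 2 * (pe l e * tw l e θ)) ^ 2 := by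
    fun_prop
  have c3 : Continuous fun θ : Ginf => (∑ e : BI l, b / 2 * (pe l e ^ 2 * tw l e θ)) *
    (∑ e : BI l, b / 2 * tw l e θ) := by fun_prop
  rw [e3] at hward
  rw [e1, e2, gibbs_add muInf (fun _ => b / 2) (chi0 l) c1 continuous_const, gibbs_const, hward]
  have e4 : (fun θ : Ginf => (∑ e : BI l, b / 2 * (pe l e ^ 2 * tw l e θ)) *
      (∑ e : BI l, b / 2 * tw l e θ)) = fun θ =>
      (∑ e : BI l, b / 2 * (pe l e * tw l e θ)) ^ 2 +
      ∑ e : BI l, ∑ e' : BI l, 1 / 2 * (b / 2) ^ 2 * (pe l e - pe l e') ^ 2 *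
        (tw l e θ * tw l e' θ) := by
    funext θ
    rw [← quad_identity (b / 2) (pe l) (fun e => tw l e θ)]
    ring
  have c4 : Continuous fun θ : Ginf => ∑ e : BI l, ∑ e' : BI l,
      1 / 2 * (b / 2) ^ 2 * (pe l e - pe l e') ^ 2 * (tw l e θ * tw l e' θ) := by fun_prop
  rw [e4, gibbs_add muInf (fun _ => b / 2) (chi0 l) c2 c4,
    gibbs_sum Finset.univ l b (fun e θ => ∑ e' : BI l, 1 / 2 * (b / 2) ^ 2 *
      (pe l e - pe l e') ^ 2 * (tw l e θ * tw l e' θ)) (by intro e; fun_prop)]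
  have e5 : ∀ e : BI l, gibbs muInf (fun _ => b / 2) (chi0 l) (fun θ => ∑ e' : BI l,
      1 / 2 * (b / 2) ^ 2 * (pe l e - pe l e') ^ 2 * (tw l e θ * tw l e' θ)) =
      ∑ e' : BI l, 1 / 2 * (b / 2) ^ 2 * (pe l e - pe l e') ^ 2 *
        gibbs muInf (fun _ => b / 2) (chi0 l) (fun θ => tw l e θ * tw l e' θ) := by
    intro e
    rw [gibbs_sum Finset.univ l b (fun e' θ => 1 / 2 * (b / 2) ^ 2 *
      (pe l e - pe l e') ^ 2 * (tw l e θ * tw l e' θ)) (by intro e; fun_prop)]
    refine Finset.sum_congr rfl fun e' _ => ?_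
    rw [gibbs_const_mul]
  simp_rw [e5]
  ring

theorem mem_inner {l : ℕ} {z : ℤ × ℤ} :
    z ∈ inner l ↔ (1 ≤ z.1 ∧ 1 ≤ z.2) ∧ (z.1 ≤ (l : ℤ) - 1 ∧ z.2 ≤ (l : ℤ) - 1) := by
  unfold inner
  rw [Finset.mem_Icc, Prod.le_def, Prod.le_def]

theorem sg_cases (l : ℕ) (e : BI l) : sg l e = 0 ∨ (xin l e ∈ inner l ∧ |sg l e| = 1 ∧
    (∀ θ, tw l e θ = sinT (proj (inner l : Set (ℤ × ℤ)) θ (xin l e))) ∧
    |pe l e - ((xin l e).1 : ℝ)| ≤ 1 ∧ (bu e ∉ inner l ∨ bv e ∉ inner l)) := by
  have hc : ∀ θ, (chi0 l e).s θ = sinT (proj (inner l : Set (ℤ × ℤ)) θ (bu e) -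
    proj (inner l : Set (ℤ × ℤ)) θ (bv e)) := fun θ => rfl
  have hd : |((bv e).1 : ℝ) - ((bu e).1 : ℝ)| ≤ 1 := by
    rw [← hh_eq e]
    unfold hh
    split_ifs <;> norm_num
  unfold sg xin tw pe
  by_cases hu : bu e ∈ inner l
  · by_cases hv : bv e ∈ inner l
    · left
      rw [if_pos hu, if_pos hv, sub_self]
    · right
      simp only [if_pos hu, if_neg hv]
      refine ⟨hu, by norm_num, ?_, hd, Or.inr hv⟩
      intro θ
      unfold sg
      rw [if_pos hu, if_neg hv, hc, proj_of_notMem (v := bv e) (by exact_mod_cast hv), sub_zero,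
        sub_zero, one_mul]
  · by_cases hv : bv e ∈ inner l
    · right
      simp only [if_neg hu, if_pos hv]
      refine ⟨hv, by norm_num, ?_, by rw [abs_sub_comm]; exact hd, Or.inl hu⟩
      intro θ
      unfold sg
      rw [if_neg hu, if_pos hv, hc, proj_of_notMem (v := bu e) (by exact_mod_cast hu), zero_sub,
        zero_sub, sinT_neg]
      ring
    · left
      rw [if_neg hu, if_neg hv, sub_self]

theorem gibbs_tw_le (l : ℕ) {b : ℝ} (hb : 0 ≤ b) (e e' : BI l) (he : xin l e ∈ inner l)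
    (he' : xin l e' ∈ inner l)
    (h : ∀ θ, tw l e θ = sinT (proj (inner l : Set (ℤ × ℤ)) θ (xin l e)))
    (h' : ∀ θ, tw l e' θ = sinT (proj (inner l : Set (ℤ × ℤ)) θ (xin l e'))) :
    gibbs muInf (fun _ => b / 2) (chi0 l) (fun θ => tw l e θ * tw l e' θ) ≤
      1 / 2 * XY.C b (xin l e' - xin l e) := by
  simp_rw [h, h']
  have hF : Continuous fun θ : Ginf => sinT (θ (xin l e)) * sinT (θ (xin l e')) :=
    (cont_sin.comp (continuous_apply (xin l e))).mul (cont_sin.comp (continuous_apply (xin l e')))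
  rw [gibbs_chi0 l b (F := fun θ => sinT (θ (xin l e)) * sinT (θ (xin l e'))) hF]
  have h1 := wired_bound l hb ⟨xin l e, he⟩ ⟨xin l e', he'⟩
  simp_rw [ext_mem he, ext_mem he']
  exact h1

/-- the weight of a pair of boundary bonds -/
noncomputable def phiw (m : ℝ) (z : ℤ × ℤ) : ℝ :=
  ((XY.nm z : ℝ) + 2) ^ 2 * Real.exp (-(m * XY.nm z))

theorem phiw_nonneg (m : ℝ) (z : ℤ × ℤ) : 0 ≤ phiw m z := by unfold phiw; positivity

theorem phiw_summable {m : ℝ} (hm : 0 < m) : Summable (phiw m) := by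
  have h1 : Summable fun z : ℤ × ℤ => (16 / m ^ 2 * Real.exp m) * Real.exp (-(m / 2 * XY.nm z)) :=
    (XY.summable_exp_nm (by positivity)).mul_left _
  refine Summable.of_nonneg_of_le (phiw_nonneg m) (fun z => ?_) h1
  unfold phiw
  set n : ℝ := (XY.nm z : ℝ) with hn
  have hn0 : 0 ≤ n := Nat.cast_nonneg _
  have h2 : m / 4 * (n + 2) ≤ Real.exp (m / 4 * (n + 2)) :=
    (by linarith [Real.add_one_le_exp (m / 4 * (n + 2))])
  have h3 : (m / 4 * (n + 2)) ^ 2 ≤ Real.exp (m / 4 * (n + 2)) ^ 2 :=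
    pow_le_pow_left₀ (by positivity) h2 2
  have h4 : Real.exp (m / 4 * (n + 2)) ^ 2 = Real.exp m * Real.exp (m / 2 * n) := by
    rw [← Real.exp_nat_mul, ← Real.exp_add]
    congr 1
    push_cast
    ring
  rw [h4] at h3
  have h5 : (n + 2) ^ 2 ≤ 16 / m ^ 2 * (Real.exp m * Real.exp (m / 2 * n)) := by
    have h6 : (n + 2) ^ 2 = 16 / m ^ 2 * (m / 4 * (n + 2)) ^ 2 := by field_simp; ring
    rw [h6]
    exact mul_le_mul_of_nonneg_left h3 (by positivity)
  calc (n + 2) ^ 2 * Real.exp (-(m * n))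
      ≤ (16 / m ^ 2 * (Real.exp m * Real.exp (m / 2 * n))) * Real.exp (-(m * n)) :=
        mul_le_mul_of_nonneg_right h5 (Real.exp_pos _).le
    _ = (16 / m ^ 2 * Real.exp m) * (Real.exp (m / 2 * n) * Real.exp (-(m * n))) := by ring
    _ = (16 / m ^ 2 * Real.exp m) * Real.exp (-(m / 2 * n)) := by
        rw [← Real.exp_add]
        congr 2
        ring

theorem sum_inj_le {α : Type*} [Fintype α] {φ : ℤ × ℤ → ℝ} (h0 : ∀ z, 0 ≤ φ z)
    (hs : Summable φ) (g : α → ℤ × ℤ) (hg : Function.Injective g) :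
    ∑ a, φ (g a) ≤ ∑' z, φ z := by
  have h := hs.sum_le_tsum (Finset.univ.map ⟨g, hg⟩) (fun z _ => h0 z)
  rw [Finset.sum_map] at h
  exact h

theorem sum_flags_le {l : ℕ} {φ : ℤ × ℤ → ℝ} (h0 : ∀ z, 0 ≤ φ z) (hs : Summable φ)
    (g : BI l → ℤ × ℤ) (hg : ∀ s, Function.Injective fun a : Fin l × Fin l => g (a, s)) :
    ∑ e : BI l, φ (g e) ≤ 4 * ∑' z, φ z := by
  rw [Fintype.sum_prod_type_right]
  have h1 : ∀ s : Bool × Bool, ∑ a : Fin l × Fin l, φ (g (a, s)) ≤ ∑' z, φ z :=
    fun s => sum_inj_le h0 hs _ (hg s)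
  calc ∑ s : Bool × Bool, ∑ a : Fin l × Fin l, φ (g (a, s))
      ≤ ∑ _s : Bool × Bool, ∑' z, φ z := Finset.sum_le_sum fun s _ => h1 s
    _ = 4 * ∑' z, φ z := by
        rw [Finset.sum_const, nsmul_eq_mul]
        norm_num

theorem sum_xin_le {l : ℕ} {m : ℝ} (hm : 0 < m) (x : ℤ × ℤ) :
    ∑ e : BI l, phiw m (xin l e - x) ≤ 8 * ∑' z, phiw m z := by
  have h1 := sum_flags_le (l := l) (phiw_nonneg m) (phiw_summable hm) (fun e => bu e - x) (by
    rintro ⟨o, s⟩ ⟨i, j⟩ ⟨i', j'⟩ h
    simp only [sub_left_inj] at h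
    unfold bu at h
    simp only [Prod.mk.injEq] at h
    obtain ⟨h1, h2⟩ := h
    have hi : i = i' := Fin.ext (by omega)
    have hj : j = j' := Fin.ext (by omega)
    rw [hi, hj])
  have h2 := sum_flags_le (l := l) (phiw_nonneg m) (phiw_summable hm) (fun e => bv e - x) (by
    rintro ⟨o, s⟩ ⟨i, j⟩ ⟨i', j'⟩ h
    simp only [sub_left_inj] at h
    unfold bv at h
    simp only [add_left_inj] at h
    unfold bu at h
    simp only [Prod.mk.injEq] at h
    obtain ⟨h1, h2⟩ := h
    have hi : i = i' := Fin.ext (by omega)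
    have hj : j = j' := Fin.ext (by omega)
    rw [hi, hj])
  have h3 : ∑ e : BI l, phiw m (xin l e - x) ≤
      ∑ e : BI l, phiw m (bu e - x) + ∑ e : BI l, phiw m (bv e - x) := by
    rw [← Finset.sum_add_distrib]
    refine Finset.sum_le_sum fun e _ => ?_
    have a1 := phiw_nonneg m (bu e - x)
    have a2 := phiw_nonneg m (bv e - x)
    unfold xin
    split_ifs <;> linarith only [a1, a2]
  linarith

/-- cells at the boundary -/
noncomputable def bcell (l : ℕ) (e : BI l) : ℝ :=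
  (if (e.1.1 : ℕ) = 0 then 1 else 0) + (if (e.1.1 : ℕ) = l - 1 then 1 else 0) +
    ((if (e.1.2 : ℕ) = 0 then 1 else 0) + (if (e.1.2 : ℕ) = l - 1 then 1 else 0))

theorem sum_fin_eq_le (l n : ℕ) : ∑ i : Fin l, (if (i : ℕ) = n then (1 : ℝ) else 0) ≤ 1 := by
  by_cases h : n < l
  · rw [Finset.sum_eq_single (⟨n, h⟩ : Fin l)]
    · simp
    · intro i _ hi
      rw [if_neg]
      intro h'
      exact hi (Fin.ext h')
    · intro h'; exact absurd (Finset.mem_univ _) h'
  · rw [Finset.sum_eq_zero]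
    · norm_num
    · intro i _
      rw [if_neg]
      intro h'
      have := i.2
      omega

theorem sum_bcell (l : ℕ) : ∑ e : BI l, bcell l e ≤ 16 * l := by
  have hl : (0 : ℝ) ≤ l := Nat.cast_nonneg l
  have k1 : ∀ F : Fin l → ℝ, ∑ e : BI l, F e.1.1 = 4 * (l * ∑ i, F i) := by
    intro F
    have h1 : ∑ e : BI l, F e.1.1 = ∑ c : Fin l × Fin l, 4 * F c.1 := by
      rw [Fintype.sum_prod_type]
      refine Finset.sum_congr rfl fun c _ => ?_
      change ∑ _y : Bool × Bool, F c.1 = 4 * F c.1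
      rw [Finset.sum_const, nsmul_eq_mul]
      norm_num
    rw [h1, ← Finset.mul_sum, Fintype.sum_prod_type]
    congr 1
    rw [Finset.mul_sum]
    refine Finset.sum_congr rfl fun i _ => ?_
    change ∑ _y : Fin l, F i = l * F i
    rw [Finset.sum_const, nsmul_eq_mul, Finset.card_univ, Fintype.card_fin]
  have k2 : ∀ F : Fin l → ℝ, ∑ e : BI l, F e.1.2 = 4 * (l * ∑ i, F i) := by
    intro F
    have h1 : ∑ e : BI l, F e.1.2 = ∑ c : Fin l × Fin l, 4 * F c.2 := by
      rw [Fintype.sum_prod_type]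
      refine Finset.sum_congr rfl fun c _ => ?_
      change ∑ _y : Bool × Bool, F c.2 = 4 * F c.2
      rw [Finset.sum_const, nsmul_eq_mul]
      norm_num
    rw [h1, ← Finset.mul_sum, Fintype.sum_prod_type]
    congr 1
    change ∑ _x : Fin l, ∑ y : Fin l, F y = l * ∑ i, F i
    rw [Finset.sum_const, nsmul_eq_mul, Finset.card_univ, Fintype.card_fin]
  have key : ∀ n : ℕ, ∑ e : BI l, (if (e.1.1 : ℕ) = n then (1 : ℝ) else 0) ≤ 4 * l := by
    intro n
    rw [k1 (fun i => if (i : ℕ) = n then (1 : ℝ) else 0)]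
    have := mul_le_mul_of_nonneg_left (sum_fin_eq_le l n) hl
    linarith only [this]
  have key2 : ∀ n : ℕ, ∑ e : BI l, (if (e.1.2 : ℕ) = n then (1 : ℝ) else 0) ≤ 4 * l := by
    intro n
    rw [k2 (fun i => if (i : ℕ) = n then (1 : ℝ) else 0)]
    have := mul_le_mul_of_nonneg_left (sum_fin_eq_le l n) hl
    linarith only [this]
  unfold bcell
  rw [Finset.sum_add_distrib, Finset.sum_add_distrib, Finset.sum_add_distrib]
  have := key 0
  have := key (l - 1)
  have := key2 0
  have := key2 (l - 1)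
  linarith

theorem bcell_nonneg (l : ℕ) (e : BI l) : 0 ≤ bcell l e := by
  unfold bcell
  refine add_nonneg (add_nonneg ?_ ?_) (add_nonneg ?_ ?_) <;> split_ifs <;> norm_num

theorem one_le_bcell {l : ℕ} {e : BI l} (h : bu e ∉ inner l ∨ bv e ∉ inner l) :
    1 ≤ bcell l e := by
  have hcell : (e.1.1 : ℕ) = 0 ∨ (e.1.1 : ℕ) = l - 1 ∨ (e.1.2 : ℕ) = 0 ∨ (e.1.2 : ℕ) = l - 1 := by
    rcases e with ⟨⟨i, j⟩, ⟨o, s⟩⟩
    have hi := i.2
    have hj := j.2
    rw [mem_inner, mem_inner] at h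
    unfold bv bu at h
    simp only
    cases o <;> cases s <;> simp only [Bool.and_self, Bool.false_eq_true, ↓reduceIte, add_zero, Nat.one_le_cast, Bool.not_false, Bool.and_false, Order.le_sub_one_iff, Nat.cast_lt, Fin.is_lt, and_self, and_true, not_and, not_le, Order.lt_one_iff, Prod.mk_add_mk, le_add_iff_nonneg_left, Nat.cast_nonneg, true_and, not_lt, Bool.and_true, Bool.not_true] at h <;> omega
  unfold bcell
  rcases hcell with h | h | h | h
  · rw [if_pos h]
    have : (0 : ℝ) ≤ (if (e.1.1 : ℕ) = l - 1 then 1 else 0) := by split_ifs <;> norm_num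
    have : (0 : ℝ) ≤ (if (e.1.2 : ℕ) = 0 then 1 else 0) := by split_ifs <;> norm_num
    have : (0 : ℝ) ≤ (if (e.1.2 : ℕ) = l - 1 then 1 else 0) := by split_ifs <;> norm_num
    linarith
  · rw [if_pos h]
    have : (0 : ℝ) ≤ (if (e.1.1 : ℕ) = 0 then 1 else 0) := by split_ifs <;> norm_num
    have : (0 : ℝ) ≤ (if (e.1.2 : ℕ) = 0 then 1 else 0) := by split_ifs <;> norm_num
    have : (0 : ℝ) ≤ (if (e.1.2 : ℕ) = l - 1 then 1 else 0) := by split_ifs <;> norm_num
    linarith
  · rw [if_pos h]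
    have : (0 : ℝ) ≤ (if (e.1.1 : ℕ) = 0 then 1 else 0) := by split_ifs <;> norm_num
    have : (0 : ℝ) ≤ (if (e.1.1 : ℕ) = l - 1 then 1 else 0) := by split_ifs <;> norm_num
    have : (0 : ℝ) ≤ (if (e.1.2 : ℕ) = l - 1 then 1 else 0) := by split_ifs <;> norm_num
    linarith
  · rw [if_pos h]
    have : (0 : ℝ) ≤ (if (e.1.1 : ℕ) = 0 then 1 else 0) := by split_ifs <;> norm_num
    have : (0 : ℝ) ≤ (if (e.1.1 : ℕ) = l - 1 then 1 else 0) := by split_ifs <;> norm_num
    have : (0 : ℝ) ≤ (if (e.1.2 : ℕ) = 0 then 1 else 0) := by split_ifs <;> norm_num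
    linarith

theorem tau_le (l : ℕ) (e : BI l) : tau l e ≤ bcell l e := by
  unfold tau
  split_ifs with h
  · refine le_trans ?_ (one_le_bcell (Or.inl h.1))
    unfold hh
    split_ifs <;> norm_num
  · exact bcell_nonneg l e

theorem abs_fst_le_nm' (z : ℤ × ℤ) : |(z.1 : ℝ)| ≤ XY.nm z := XY.abs_fst_le_nm z

theorem pair_le (l : ℕ) {b : ℝ} (hb : 0 < b) (e e' : BI l) :
    1 / 2 * (b / 2) ^ 2 * (pe l e - pe l e') ^ 2 *
        gibbs muInf (fun _ => b / 2) (chi0 l) (fun θ => tw l e θ * tw l e' θ) ≤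
      b ^ 2 / 16 * (bcell l e * phiw (mass b) (xin l e' - xin l e)) := by
  have hrhs : 0 ≤ b ^ 2 / 16 * (bcell l e * phiw (mass b) (xin l e' - xin l e)) :=
    mul_nonneg (by (clear * - hb; positivity)) (mul_nonneg (bcell_nonneg l e) (phiw_nonneg _ _))
  have hzero : ∀ c : ℝ, gibbs muInf (fun _ => b / 2) (chi0 l) (fun _ => c) = c :=
    fun c => gibbs_const _ _ _ c
  rcases sg_cases l e with h | ⟨h1, h2, h3, h4, h5⟩
  · have : (fun θ => tw l e θ * tw l e' θ) = fun _ => (0 : ℝ) := by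
      funext θ; unfold tw; rw [h]; ring
    rw [this, hzero, mul_zero]
    exact hrhs
  rcases sg_cases l e' with h | ⟨h1', h2', h3', h4', h5'⟩
  · have : (fun θ => tw l e θ * tw l e' θ) = fun _ => (0 : ℝ) := by
      funext θ; unfold tw; rw [h]; ring
    rw [this, hzero, mul_zero]
    exact hrhs
  have hg := gibbs_tw_le l hb.le e e' h1 h1' h3 h3'
  have hC := XY.C_le_exp hb (xin l e' - xin l e)
  have hp : (pe l e - pe l e') ^ 2 ≤ ((XY.nm (xin l e' - xin l e) : ℝ) + 2) ^ 2 := by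
    have ha : |pe l e - pe l e'| ≤ (XY.nm (xin l e' - xin l e) : ℝ) + 2 := by
      have h6 := XY.abs_fst_le_nm (xin l e' - xin l e)
      rw [Prod.fst_sub] at h6
      push_cast at h6
      rw [abs_le] at h4 h4' h6 ⊢
      constructor <;> linarith only [h4.1, h4'.2, h6.2, h4.2, h4'.1, h6.1]
    rw [← sq_abs]
    exact pow_le_pow_left₀ (abs_nonneg _) ha 2
  have hb1 := one_le_bcell h5
  have e1 : 1 / 2 * (b / 2) ^ 2 * (pe l e - pe l e') ^ 2 *
      gibbs muInf (fun _ => b / 2) (chi0 l) (fun θ => tw l e θ * tw l e' θ) ≤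
      1 / 2 * (b / 2) ^ 2 * (pe l e - pe l e') ^ 2 *
        (1 / 2 * Real.exp (-(mass b * XY.nm (xin l e' - xin l e)))) := by
    refine mul_le_mul_of_nonneg_left (hg.trans ?_) (by (clear * - hb; positivity))
    linarith only [hC]
  have e2 : 1 / 2 * (b / 2) ^ 2 * (pe l e - pe l e') ^ 2 *
        (1 / 2 * Real.exp (-(mass b * XY.nm (xin l e' - xin l e)))) ≤
      b ^ 2 / 16 * phiw (mass b) (xin l e' - xin l e) := by
    unfold phiw
    have := mul_le_mul_of_nonneg_right hp
      (Real.exp_pos (-(mass b * XY.nm (xin l e' - xin l e)))).le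
    nlinarith only [this]
  have e3 : phiw (mass b) (xin l e' - xin l e) ≤
      bcell l e * phiw (mass b) (xin l e' - xin l e) :=
    le_mul_of_one_le_left (phiw_nonneg _ _) hb1
  have e4 := mul_le_mul_of_nonneg_left e3 (show 0 ≤ b ^ 2 / 16 by positivity)
  linarith only [e1, e2, e4]

/-- In the massive phase the stiffness of the wired block of side `l` is `O(1 / l)`. -/
theorem stiff_le_of_mass_pos {b : ℝ} (hb : 0 < b) (hm : 0 < mass b) :
    ∃ C : ℝ, ∀ l : ℕ, 1 ≤ l → stiff l b ≤ C / l := by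
  refine ⟨8 * b + 8 * b ^ 2 * ∑' z, phiw (mass b) z, ?_⟩
  intro l hl
  have hl0 : (0 : ℝ) < l := by exact_mod_cast hl
  set K := ∑' z, phiw (mass b) z with hK
  have hK0 : 0 ≤ K := tsum_nonneg (phiw_nonneg _)
  have h1 := stiff_boundary l b hl
  have h2 : ∑ e : BI l, b / 2 * tau l e ≤ b / 2 * (16 * l) := by
    rw [← Finset.mul_sum]
    refine mul_le_mul_of_nonneg_left ?_ (by positivity)
    exact (Finset.sum_le_sum fun e _ => tau_le l e).trans (sum_bcell l)
  have h3 : ∑ e : BI l, ∑ e' : BI l, 1 / 2 * (b / 2) ^ 2 * (pe l e - pe l e') ^ 2 *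
        gibbs muInf (fun _ => b / 2) (chi0 l) (fun θ => tw l e θ * tw l e' θ) ≤
      b ^ 2 / 16 * ((16 * l) * (8 * K)) := by
    calc ∑ e : BI l, ∑ e' : BI l, 1 / 2 * (b / 2) ^ 2 * (pe l e - pe l e') ^ 2 *
        gibbs muInf (fun _ => b / 2) (chi0 l) (fun θ => tw l e θ * tw l e' θ)
        ≤ ∑ e : BI l, ∑ e' : BI l, b ^ 2 / 16 * (bcell l e *
          phiw (mass b) (xin l e' - xin l e)) :=
          Finset.sum_le_sum fun e _ => Finset.sum_le_sum fun e' _ => pair_le l hb e e'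
      _ = b ^ 2 / 16 * ∑ e : BI l, bcell l e * ∑ e' : BI l,
          phiw (mass b) (xin l e' - xin l e) := by
          rw [Finset.mul_sum]
          refine Finset.sum_congr rfl fun e _ => ?_
          rw [Finset.mul_sum, Finset.mul_sum]
      _ ≤ b ^ 2 / 16 * ∑ e : BI l, bcell l e * (8 * K) := by
          refine mul_le_mul_of_nonneg_left (Finset.sum_le_sum fun e _ => ?_) (by (clear * - hb; positivity))
          exact mul_le_mul_of_nonneg_left (sum_xin_le hm (xin l e)) (bcell_nonneg l e)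
      _ ≤ b ^ 2 / 16 * ((16 * l) * (8 * K)) := by
          rw [← Finset.sum_mul]
          refine mul_le_mul_of_nonneg_left ?_ (by positivity)
          exact mul_le_mul_of_nonneg_right (sum_bcell l) (by (clear * - hK0; positivity))
  have h4 : (l : ℝ) ^ 2 * stiff l b ≤ (8 * b + 8 * b ^ 2 * K) * l := by
    rw [h1]
    linarith only [h2, h3]
  rw [le_div_iff₀ hl0]
  have h5 : (stiff l b * l) * l ≤ (8 * b + 8 * b ^ 2 * K) * l := by
    calc (stiff l b * l) * l = (l : ℝ) ^ 2 * stiff l b := by ring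
      _ ≤ _ := h4
  exact le_of_mul_le_mul_right h5 hl0

end Vale.Agent.P159
end

section

/-!
The recursion for the vortex ratio and the universal jump.
-/

open MeasureTheory Filter Topology
open scoped BigOperators

namespace Vale.Agent.P159

namespace UJ

theorem mem_posn {M : ℕ} {p : ℕ × ℕ} : p ∈ posn M ↔ p.1 < M ∧ p.2 < M := by
  unfold posn
  rw [Finset.mem_product, Finset.mem_range, Finset.mem_range]

theorem posn_card (M : ℕ) : (posn M).card = M ^ 2 := by
  unfold posn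
  rw [Finset.card_product, Finset.card_range]
  ring

/-- Cauchy-Schwarz for the vortex densities -/
theorem cs_vortex {b : ℝ} {L M : ℕ} {v : Ginf} (F : ℕ × ℕ → Ginf → ℝ)
    (hF : ∀ p, Continuous (F p)) {g H : ℝ} (hg : 0 ≤ g)
    (h1 : ∀ p ∈ posn M, g ≤ Ev b L v (F p))
    (h2 : ∀ p ∈ posn M, ∑ q ∈ posn M, Ev b L v (fun θ => F p θ * F q θ) ≤ H) (hM : 1 ≤ M) :
    (M : ℝ) ^ 2 * g ^ 2 ≤ H * (WB b L 0 v / WB b L 0 0) := by
  have hcs := Ev_cs (b := b) (L := L) (v := v) (F := fun θ => ∑ p ∈ posn M, F p θ)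
    (G := fun _ => (1 : ℝ)) (continuous_finsetSum _ fun p _ => hF p) continuous_const
  simp only [mul_one, one_pow] at hcs
  rw [Ev_one, Ev_sum (posn M) F fun p _ => hF p] at hcs
  have e1 : (fun θ => (∑ p ∈ posn M, F p θ) ^ 2) =
      fun θ => ∑ p ∈ posn M, ∑ q ∈ posn M, F p θ * F q θ := by
    ext θ
    rw [pow_two, Finset.sum_mul_sum]
  have e2 : Ev b L v (fun θ => ∑ p ∈ posn M, ∑ q ∈ posn M, F p θ * F q θ) =
      ∑ p ∈ posn M, ∑ q ∈ posn M, Ev b L v (fun θ => F p θ * F q θ) := by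
    rw [Ev_sum (posn M) (fun p θ => ∑ q ∈ posn M, F p θ * F q θ)
      fun p _ => continuous_finsetSum _ fun q _ => (hF p).mul (hF q)]
    refine Finset.sum_congr rfl fun p _ => ?_
    exact Ev_sum (posn M) (fun q θ => F p θ * F q θ) fun q _ => (hF p).mul (hF q)
  rw [e1, e2] at hcs
  have h3 : (M : ℝ) ^ 2 * g ≤ ∑ p ∈ posn M, Ev b L v (F p) := by
    have := Finset.card_nsmul_le_sum (posn M) (fun p => Ev b L v (F p)) g h1
    rw [posn_card, nsmul_eq_mul] at this
    push_cast at this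
    exact this
  have h4 : ∑ p ∈ posn M, ∑ q ∈ posn M, Ev b L v (fun θ => F p θ * F q θ) ≤
      (M : ℝ) ^ 2 * H := by
    have := Finset.sum_le_card_nsmul (posn M)
      (fun p => ∑ q ∈ posn M, Ev b L v (fun θ => F p θ * F q θ)) H h2
    rw [posn_card, nsmul_eq_mul] at this
    push_cast at this
    exact this
  have hM0 : (0 : ℝ) < (M : ℝ) ^ 2 := by
    have : (0 : ℝ) < M := by exact_mod_cast hM
    (clear * - hM; positivity)
  have hy : 0 ≤ WB b L 0 v / WB b L 0 0 :=
    div_nonneg (WB_pos b L 0 v).le (WB_pos b L 0 0).le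
  have h5 : ((M : ℝ) ^ 2 * g) ^ 2 ≤ (∑ p ∈ posn M, Ev b L v (F p)) ^ 2 :=
    pow_le_pow_left₀ (by (clear * - hM hg; positivity)) h3 2
  have h6 := h5.trans hcs
  have h7 := h6.trans (mul_le_mul_of_nonneg_right h4 hy)
  have h8 : (M : ℝ) ^ 2 * ((M : ℝ) ^ 2 * g ^ 2) ≤
      (M : ℝ) ^ 2 * (H * (WB b L 0 v / WB b L 0 0)) := by
    calc (M : ℝ) ^ 2 * ((M : ℝ) ^ 2 * g ^ 2) = ((M : ℝ) ^ 2 * g) ^ 2 := by ring
      _ ≤ _ := h7
      _ = _ := by ring
  exact le_of_mul_le_mul_left h8 hM0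

theorem natAbs_cast_abs (a c : ℕ) : (((a : ℤ) - c).natAbs : ℝ) = |(a : ℝ) - c| := by
  rw [Nat.cast_natAbs]
  push_cast
  rfl

/-- one step of the recursion -/
theorem step {b : ℝ} (hb : 0 < b) (hst : ∀ l : ℕ, 1 ≤ l → 1 / (2 * Real.pi) ≤ stiff l b) :
    ∃ (C1 : ℝ) (K : ℕ), 1 ≤ K ∧ ∀ M : ℕ, 1 ≤ M → ∃ δ0 : ℝ, 0 < δ0 ∧ ∀ l : ℕ, 1 ≤ l →
      (∀ n : ℕ, 1 ≤ n → stiff l b - stiff (l * n) b ≤ δ0) → ∃ s1 : ℝ, ∀ m : ℕ,
      s1 ≤ ((l * m : ℕ) : ℝ) →
      (M : ℝ) ^ 2 / 2 * (Real.exp (-(Real.pi * stiff l b * Real.log (NN K M)) - C1) *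
        yy b (l * m)) ≤ yy b (l * m * NN K M) := by
  obtain ⟨C0, hC0, haff⟩ := aff_dir hb hst
  obtain ⟨C1, hg⟩ := g_lower hb
  have hpi := Real.pi_pos
  -- choice of K
  obtain ⟨A, hA⟩ : ∃ A : ℝ, A = 2 * Real.sqrt (2 * Real.exp b) := ⟨_, rfl⟩
  have hA0 : 0 ≤ A := by rw [hA]; positivity
  have htend : Tendsto (fun K : ℕ => Real.exp (-((K : ℝ) / 96))) atTop (𝓝 0) := by
    have h1 : Tendsto (fun K : ℕ => (K : ℝ) / 96) atTop atTop :=
      tendsto_natCast_atTop_atTop.atTop_div_const (by norm_num)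
    exact Real.tendsto_exp_neg_atTop_nhds_zero.comp h1
  have hev1 : ∀ᶠ K : ℕ in atTop, Real.exp (-((K : ℝ) / 96)) < min (1 / 10) (1 / (10 * A + 1)) :=
    htend.eventually (eventually_lt_nhds (by (clear * - hA0; positivity)))
  have hev2 : ∀ᶠ K : ℕ in atTop, C0 ≤ Real.pi * K := by
    have h1 : Tendsto (fun K : ℕ => Real.pi * (K : ℝ)) atTop atTop :=
      tendsto_natCast_atTop_atTop.const_mul_atTop hpi
    exact h1.eventually (eventually_ge_atTop C0)
  obtain ⟨K, hK1, hK2, hK3⟩ := (hev1.and (hev2.and (eventually_ge_atTop 1))).exists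
  obtain ⟨ρ, hρ⟩ : ∃ ρ, ρ = Real.exp (-((K : ℝ) / 96)) := ⟨_, rfl⟩
  rw [← hρ] at hK1
  have hρ0 : 0 < ρ := by rw [hρ]; exact Real.exp_pos _
  have hρ1 : ρ ≤ 1 / 10 := (hK1.le).trans (min_le_left _ _)
  have hρ2 : 5 * A * ρ ≤ 1 / 2 := by
    have h1 : ρ ≤ 1 / (10 * A + 1) := (hK1.le).trans (min_le_right _ _)
    rw [le_div_iff₀ (by (clear * - hA0; positivity))] at h1
    nlinarith only [hρ0, h1]
  refine ⟨C1, K, hK3, ?_⟩
  intro M hM
  have hMR : (0 : ℝ) < M := by exact_mod_cast hM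
  obtain ⟨N, hN⟩ : ∃ N : ℝ, N = (NN K M : ℝ) := ⟨_, rfl⟩
  have hN1 : 1 ≤ N := by
    rw [hN]
    have : 1 ≤ NN K M := by unfold NN; omega
    exact_mod_cast this
  have hc : 0 < (576 + 96 * C0) * N ^ 2 := by (clear * - hC0 hN1; positivity)
  refine ⟨1 / (32 * (M : ℝ) ^ 4 * ((576 + 96 * C0) * N ^ 2)), by (clear * - hM hC0 hN1; positivity), ?_⟩
  intro l hl hδ
  obtain ⟨Cl, Sl, hCl, hSl, hA2⟩ := haff l hl
  obtain ⟨s2, hg2⟩ := hg l K M hl hK3
  refine ⟨max (max Sl s2) (24 * N ^ 2 * Cl * (32 * (M : ℝ) ^ 4)), ?_⟩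
  intro m hm
  have hm1 : Sl ≤ ((l * m : ℕ) : ℝ) := ((le_max_left _ _).trans (le_max_left _ _)).trans hm
  have hm2 : s2 ≤ ((l * m : ℕ) : ℝ) := ((le_max_right _ _).trans (le_max_left _ _)).trans hm
  have hm3 : 24 * N ^ 2 * Cl * (32 * (M : ℝ) ^ 4) ≤ ((l * m : ℕ) : ℝ) :=
    (le_max_right _ _).trans hm
  have hs0 : (0 : ℝ) < ((l * m : ℕ) : ℝ) := by linarith only [hSl, hm1]
  have hs4n : 4 ≤ l * m := by
    have : (4 : ℝ) ≤ ((l * m : ℕ) : ℝ) := hSl.trans hm1
    exact_mod_cast this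
  have hmpos : 1 ≤ m := by
    rcases Nat.eq_zero_or_pos m with h0 | h0
    · rw [h0, mul_zero] at hs4n; omega
    · exact h0
  have hNNpos : 1 ≤ NN K M := by unfold NN; omega
  have hδ' : stiff l b - stiff (l * m * NN K M) b ≤
      1 / (32 * (M : ℝ) ^ 4 * ((576 + 96 * C0) * N ^ 2)) := by
    have := hδ (m * NN K M) (Nat.mul_pos hmpos hNNpos)
    rw [← Nat.mul_assoc] at this
    exact this
  -- the small term
  have hε : Real.sqrt ((576 + 96 * C0) * (NN K M : ℝ) ^ 2 *
      (1 / (32 * (M : ℝ) ^ 4 * ((576 + 96 * C0) * N ^ 2))) +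
      24 * (NN K M : ℝ) ^ 2 * Cl / ((l * m : ℕ) : ℝ)) ≤ 1 / (4 * (M : ℝ) ^ 2) := by
    rw [← hN]
    have e1 : (576 + 96 * C0) * N ^ 2 * (1 / (32 * (M : ℝ) ^ 4 * ((576 + 96 * C0) * N ^ 2))) =
        1 / (32 * (M : ℝ) ^ 4) := by
      (clear * - hC0 hN1 hM; field_simp)
    have e2 : 24 * N ^ 2 * Cl / ((l * m : ℕ) : ℝ) ≤ 1 / (32 * (M : ℝ) ^ 4) := by
      rw [div_le_div_iff₀ hs0 (by positivity)]
      linarith only [hm3]
    rw [e1]
    apply Real.sqrt_le_iff.2
    refine ⟨by positivity, ?_⟩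
    have e3 : (1 / (4 * (M : ℝ) ^ 2)) ^ 2 = 1 / (32 * (M : ℝ) ^ 4) + 1 / (32 * (M : ℝ) ^ 4) := by
      field_simp; ring
    rw [e3]
    linarith only [e2]
  set F : ℕ × ℕ → Ginf → ℝ := fun p θ => Real.sqrt (Dn b l m K M p.1 p.2 θ) with hF
  have cF : ∀ p, Continuous (F p) := fun p =>
    Real.continuous_sqrt.comp (Dn_cont b l m K M p.1 p.2)
  have hlow : ∀ p ∈ posn M, Real.sqrt (Real.exp (-(Real.pi * stiff l b *
      Real.log (NN K M)) - C1) * yy b (l * m)) ≤
      Ev b (l * m * NN K M) (ang (l * m * NN K M) 0) (F p) := by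
    intro p hp
    obtain ⟨h1, h2⟩ := mem_posn.1 hp
    refine le_trans (Real.sqrt_le_sqrt (hg2 m p.1 p.2 h1 h2 hm2)) ?_
    exact sqrt_lower hb.le hl hs4n hK3 h1 h2
  have hdiag : ∀ p ∈ posn M, Ev b (l * m * NN K M) (ang (l * m * NN K M) 0)
      (fun θ => F p θ * F p θ) ≤ 1 := by
    intro p hp
    obtain ⟨h1, h2⟩ := mem_posn.1 hp
    have e1 : (fun θ => F p θ * F p θ) = fun θ => Dn b l m K M p.1 p.2 θ := by
      ext θ
      exact Real.mul_self_sqrt (Dn_pos b l m K M p.1 p.2 θ).le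
    rw [e1, Ev_Dn_one hl hs4n hK3 h1 h2]
  have hoff : ∀ p ∈ posn M, ∀ q ∈ posn M, p ≠ q →
      Ev b (l * m * NN K M) (ang (l * m * NN K M) 0) (fun θ => F p θ * F q θ) ≤
      1 / (2 * (M : ℝ) ^ 2) + A * (ρ ^ ((p.1 : ℤ) - q.1).natAbs *
        ρ ^ ((p.2 : ℤ) - q.2).natAbs) := by
    intro p hp q hq hpq
    obtain ⟨h1, h2⟩ := mem_posn.1 hp
    obtain ⟨h3, h4⟩ := mem_posn.1 hq
    obtain ⟨n1, hn1⟩ : ∃ n1, n1 = ((p.1 : ℤ) - q.1).natAbs := ⟨_, rfl⟩
    obtain ⟨n2, hn2⟩ : ∃ n2, n2 = ((p.2 : ℤ) - q.2).natAbs := ⟨_, rfl⟩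
    have a1 : (n1 : ℝ) = |(p.1 : ℝ) - q.1| := by rw [hn1]; exact natAbs_cast_abs _ _
    have a2 : (n2 : ℝ) = |(p.2 : ℝ) - q.2| := by rw [hn2]; exact natAbs_cast_abs _ _
    have hpos : 1 ≤ n1 ∨ 1 ≤ n2 := by
      by_contra hcon
      push Not at hcon
      apply hpq
      ext <;> omega
    rw [← hn1, ← hn2]
    have fin : ∀ ν : ℕ, n1 ≤ ν → n2 ≤ ν →
        Real.exp (-((K : ℝ) * ν) / 48) ≤ ρ ^ n1 * ρ ^ n2 := by
      intro ν b1 b2
      rw [hρ, ← Real.exp_nat_mul, ← Real.exp_nat_mul, ← Real.exp_add, Real.exp_le_exp]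
      have c1 : (n1 : ℝ) ≤ ν := by exact_mod_cast b1
      have c2 : (n2 : ℝ) ≤ ν := by exact_mod_cast b2
      have c3 : (0 : ℝ) ≤ K := Nat.cast_nonneg K
      nlinarith only [c1, c2, c3]
    have comb : ∀ ν : ℕ, n1 ≤ ν → n2 ≤ ν → Ev b (l * m * NN K M) (ang (l * m * NN K M) 0)
        (fun θ => F p θ * F q θ) ≤ 2 * Real.sqrt ((576 + 96 * C0) * (NN K M : ℝ) ^ 2 *
          (1 / (32 * (M : ℝ) ^ 4 * ((576 + 96 * C0) * N ^ 2))) +
          24 * (NN K M : ℝ) ^ 2 * Cl / ((l * m : ℕ) : ℝ)) +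
        2 * Real.sqrt (2 * Real.exp b) * Real.exp (-((K : ℝ) * ν) / 48) →
        Ev b (l * m * NN K M) (ang (l * m * NN K M) 0) (fun θ => F p θ * F q θ) ≤
        1 / (2 * (M : ℝ) ^ 2) + A * (ρ ^ n1 * ρ ^ n2) := by
      intro ν b1 b2 hh'
      refine hh'.trans ?_
      rw [← hA]
      have d1 := mul_le_mul_of_nonneg_left (fin ν b1 b2) hA0
      have d2 : 1 / (2 * (M : ℝ) ^ 2) = 2 * (1 / (4 * (M : ℝ) ^ 2)) := by field_simp; ring
      rw [d2]
      linarith only [hε, d1]
    rcases le_total n1 n2 with h12 | h12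
    · refine comb n2 h12 le_rfl ?_
      exact hA2 K M m hK3 hK2 hm1 _ hδ' p.1 p.2 q.1 q.2 h1 h2 h3 h4 hh n2
        (Or.inl ⟨rfl, a2⟩) (by
          have : 1 ≤ n2 := by omega
          exact_mod_cast this)
    · refine comb n1 le_rfl h12 ?_
      exact hA2 K M m hK3 hK2 hm1 _ hδ' p.1 p.2 q.1 q.2 h1 h2 h3 h4 vv n1
        (Or.inr ⟨rfl, a1⟩) (by
          have : 1 ≤ n1 := by (clear * - hn1 hn2 hpos h12; omega)
          exact_mod_cast this)
  have hrow : ∀ p ∈ posn M, ∑ q ∈ posn M, Ev b (l * m * NN K M) (ang (l * m * NN K M) 0)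
      (fun θ => F p θ * F q θ) ≤ 2 := by
    intro p hp
    have := row_sum (M := M) (A := A) (A0 := 1 / (2 * (M : ℝ) ^ 2)) (ρ := ρ) hρ0.le hρ1 hA0
      (by positivity) (H := fun p q => Ev b (l * m * NN K M) (ang (l * m * NN K M) 0)
      (fun θ => F p θ * F q θ)) hdiag hoff hp
    have e1 : (M : ℝ) ^ 2 * (1 / (2 * (M : ℝ) ^ 2)) = 1 / 2 := by field_simp
    rw [e1] at this
    linarith only [hρ2, this]
  have hfin := cs_vortex F cF (Real.sqrt_nonneg _) hlow hrow hM
  have hyy : WB b (l * m * NN K M) 0 (ang (l * m * NN K M) 0) / WB b (l * m * NN K M) 0 0 =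
      yy b (l * m * NN K M) := rfl
  have hyy0 : 0 ≤ yy b (l * m) := div_nonneg (WB_pos b _ 0 _).le (WB_pos b _ 0 0).le
  rw [hyy, Real.sq_sqrt (by (clear * - hyy0; positivity))] at hfin
  linarith only [hfin]

end UJ

end Vale.Agent.P159
end

section

/-!
The universal jump.
-/

open MeasureTheory Filter Topology
open scoped BigOperators

namespace Vale.Agent.P159

namespace UJ

theorem yy_pos (b : ℝ) (s : ℕ) : 0 < yy b s := div_pos (WB_pos b s 0 _) (WB_pos b s 0 0)

theorem yy_le_one {b : ℝ} (hb : 0 ≤ b) (s : ℕ) : yy b s ≤ 1 :=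
  (div_le_one (WB_pos b s 0 0)).2 (WB_le hb s 0 _)

/-- entropy beats energy below the critical stiffness -/
theorem entropy_wins {t C1 : ℝ} (ht0 : 0 ≤ t) (ht : Real.pi * t < 2) {K : ℕ} (hK : 1 ≤ K) :
    ∃ M : ℕ, 1 ≤ M ∧ 2 ≤ (M : ℝ) ^ 2 / 2 *
      Real.exp (-(Real.pi * t * Real.log (NN K M)) - C1) := by
  have hpi := Real.pi_pos
  have hKR : (1 : ℝ) ≤ K := by exact_mod_cast hK
  have h1 : Tendsto (fun M : ℕ => Real.log (M : ℝ)) atTop atTop :=
    Real.tendsto_log_atTop.comp tendsto_natCast_atTop_atTop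
  have h2 := h1.eventually (eventually_ge_atTop
    ((Real.log 4 + Real.pi * t * Real.log (9 * K) + C1) / (2 - Real.pi * t)))
  obtain ⟨M, hM1, hM2⟩ := (h2.and (eventually_ge_atTop 1)).exists
  refine ⟨M, hM2, ?_⟩
  have hMR : (1 : ℝ) ≤ M := by exact_mod_cast hM2
  have hd : 0 < 2 - Real.pi * t := by linarith only [ht]
  rw [div_le_iff₀ hd] at hM1
  have hN : Real.log (NN K M) ≤ Real.log (9 * K) + Real.log M := by
    rw [← Real.log_mul (by positivity) (by positivity)]
    apply Real.log_le_log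
    · have : 1 ≤ NN K M := by unfold NN; omega
      have : (1 : ℝ) ≤ NN K M := by exact_mod_cast this
      linarith only [this]
    · unfold NN
      push_cast
      nlinarith only [mul_le_mul hKR hMR zero_le_one (by linarith : (0:ℝ) ≤ K)]
  have h3 : Real.pi * t * Real.log (NN K M) ≤
      Real.pi * t * (Real.log (9 * K) + Real.log M) :=
    mul_le_mul_of_nonneg_left hN (by (clear * - ht0; positivity))
  have h4 : (M : ℝ) ^ 2 = Real.exp (2 * Real.log M) := by
    rw [mul_comm, Real.exp_mul, Real.exp_log (by linarith only [hMR])]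
    norm_cast
  rw [h4, div_mul_eq_mul_div, ← Real.exp_add, le_div_iff₀ (by norm_num)]
  have h5 : (2 : ℝ) * 2 = Real.exp (Real.log 4) := by
    rw [Real.exp_log (by norm_num)]; norm_num
  rw [h5, Real.exp_le_exp]
  nlinarith only [hM1, h3]

/-- the universal jump -/
theorem jump {b : ℝ} (hb : 0 < b) (hm : mass b = 0) {l : ℕ} (hl : 1 ≤ l) :
    2 / Real.pi ≤ stiff l b := by
  have hpi := Real.pi_pos
  by_contra hlt
  push Not at hlt
  have hst : ∀ l : ℕ, 1 ≤ l → 1 / (2 * Real.pi) ≤ stiff l b := fun l hl => stiff_ge hb hm hl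
  have ht0 : 0 ≤ stiff l b := le_trans (by positivity) (hst l hl)
  have ht2 : Real.pi * stiff l b < 2 := by
    rw [lt_div_iff₀ hpi] at hlt
    linarith only [hlt]
  obtain ⟨C1, K, hK, hstep⟩ := step hb hst
  obtain ⟨M, hM, hwin⟩ := entropy_wins (C1 := C1) ht0 ht2 hK
  obtain ⟨δ0, hδ0, hrec⟩ := hstep M hM
  -- choice of the cell
  obtain ⟨k, hk, hkS⟩ : ∃ k : ℕ, 1 ≤ k ∧ ∀ n : ℕ, 1 ≤ n →
      stiff (l * k) b - stiff (l * k * n) b ≤ δ0 := by
    obtain ⟨S, hS⟩ : ∃ S : Set ℝ, S = {x | ∃ k : ℕ, 1 ≤ k ∧ x = stiff (l * k) b} := ⟨_, rfl⟩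
    have hne : S.Nonempty := ⟨stiff (l * 1) b, by rw [hS]; exact ⟨1, le_rfl, rfl⟩⟩
    have hbdd : BddBelow S := by
      refine ⟨1 / (2 * Real.pi), ?_⟩
      rintro x hx
      rw [hS] at hx
      obtain ⟨k, hk, rfl⟩ := hx
      exact hst _ (Nat.mul_pos hl hk)
    obtain ⟨x, hx, hx2⟩ := Real.lt_sInf_add_pos hne hδ0
    rw [hS] at hx
    obtain ⟨k, hk, rfl⟩ := hx
    refine ⟨k, hk, fun n hn => ?_⟩
    have h1 : sInf S ≤ stiff (l * k * n) b := by
      apply csInf_le hbdd
      rw [hS]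
      exact ⟨k * n, Nat.mul_pos hk hn, by rw [Nat.mul_assoc]⟩
    linarith only [hx2, h1]
  have hlk : 1 ≤ l * k := Nat.mul_pos hl hk
  obtain ⟨s1, hs1⟩ := hrec (l * k) hlk hkS
  have hNN : 1 ≤ NN K M := by unfold NN; omega
  have hlogN : 0 ≤ Real.log (NN K M) := Real.log_natCast_nonneg _
  have hmono : stiff (l * k) b ≤ stiff l b := stiff_mono hb.le hl hk
  have hdouble : ∀ m : ℕ, s1 ≤ ((l * k * m : ℕ) : ℝ) →
      2 * yy b (l * k * m) ≤ yy b (l * k * m * NN K M) := by
    intro m hm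
    refine le_trans ?_ (hs1 m hm)
    rw [← mul_assoc]
    refine mul_le_mul_of_nonneg_right ?_ (yy_pos b _).le
    refine hwin.trans ?_
    refine mul_le_mul_of_nonneg_left ?_ (by positivity)
    rw [Real.exp_le_exp]
    have : Real.pi * stiff (l * k) b * Real.log (NN K M) ≤
        Real.pi * stiff l b * Real.log (NN K M) :=
      mul_le_mul_of_nonneg_right (mul_le_mul_of_nonneg_left hmono hpi.le) hlogN
    linarith only [this]
  -- iteration
  obtain ⟨m0, hm0⟩ := exists_nat_ge s1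
  have hiter : ∀ r : ℕ, (2 : ℝ) ^ r * yy b (l * k * (m0 + 1)) ≤
      yy b (l * k * ((m0 + 1) * NN K M ^ r)) := by
    intro r
    induction r with
    | zero => simp
    | succ r ih =>
      have hbig : s1 ≤ ((l * k * ((m0 + 1) * NN K M ^ r) : ℕ) : ℝ) := by
        have h1 : m0 ≤ l * k * ((m0 + 1) * NN K M ^ r) := by
          have h2 : 1 ≤ NN K M ^ r := Nat.one_le_pow _ _ hNN
          calc m0 ≤ 1 * ((m0 + 1) * 1) := by omega
            _ ≤ l * k * ((m0 + 1) * NN K M ^ r) :=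
              Nat.mul_le_mul hlk (Nat.mul_le_mul_left _ h2)
        exact hm0.trans (by exact_mod_cast h1)
      have h3 := hdouble _ hbig
      have h4 : l * k * ((m0 + 1) * NN K M ^ (r + 1)) =
          l * k * ((m0 + 1) * NN K M ^ r) * NN K M := by ring
      rw [h4, pow_succ]
      nlinarith only [ih, h3]
  have hy := yy_pos b (l * k * (m0 + 1))
  obtain ⟨r, hr⟩ := pow_unbounded_of_one_lt (1 / yy b (l * k * (m0 + 1)))
    (by norm_num : (1 : ℝ) < 2)
  rw [div_lt_iff₀ hy] at hr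
  have h5 := hiter r
  have h6 := yy_le_one hb.le (l * k * ((m0 + 1) * NN K M ^ r))
  linarith only [hr, h5, h6]

/-- the massless phase is the phase of positive stiffness -/
theorem mass_zero_iff {b : ℝ} (hb : 0 < b) :
    mass b = 0 ↔ ∀ l : ℕ, 1 ≤ l → 2 / Real.pi ≤ stiff l b := by
  constructor
  · intro hm l hl
    exact jump hb hm hl
  · intro h
    by_contra hne
    have hpos : 0 < mass b := lt_of_le_of_ne (XY.mass_nonneg hb) (Ne.symm hne)
    obtain ⟨C, hC⟩ := stiff_le_of_mass_pos hb hpos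
    obtain ⟨n, hn⟩ := exists_nat_gt (C / (2 / Real.pi))
    have hpi := Real.pi_pos
    have h1 := h (n + 1) (by omega)
    have h2 := hC (n + 1) (by omega)
    have h3 : (2 / Real.pi) * ((n + 1 : ℕ) : ℝ) ≤ C := by
      have := h1.trans h2
      rwa [le_div_iff₀ (by (clear * -; positivity))] at this
    rw [div_lt_iff₀ (by positivity)] at hn
    push_cast at h3
    have : 0 < 2 / Real.pi := by positivity
    nlinarith only [hn, h3, this]

theorem helicity_massless {b : ℝ} (hb : 0 < b) (hm : mass b = 0) :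
    2 / Real.pi ≤ helicity b :=
  le_ciInf fun l => jump hb hm (Nat.succ_le_succ (Nat.zero_le l))

theorem helicity_massive {b : ℝ} (hb : 0 < b) (hm : 0 < mass b) : helicity b = 0 := by
  have h0 : ∀ l : ℕ, 0 ≤ stiff (l + 1) b := fun l =>
    stiff_nonneg' hb.le (Nat.succ_le_succ (Nat.zero_le l))
  have hbdd : BddBelow (Set.range fun l : ℕ => stiff (l + 1) b) :=
    ⟨0, by rintro _ ⟨l, rfl⟩; exact h0 l⟩
  refine le_antisymm ?_ (le_ciInf h0)
  obtain ⟨C, hC⟩ := stiff_le_of_mass_pos hb hm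
  have hlim : Tendsto (fun l : ℕ => C / ((l : ℝ) + 1)) atTop (𝓝 0) := by
    have h1 : Tendsto (fun l : ℕ => (l : ℝ) + 1) atTop atTop :=
      tendsto_atTop_add_const_right _ _ tendsto_natCast_atTop_atTop
    exact tendsto_const_nhds.div_atTop h1
  refine ge_of_tendsto' hlim fun l => ?_
  have h2 := hC (l + 1) (by omega)
  push_cast at h2
  exact (ciInf_le hbdd l).trans h2

end UJ

end Vale.Agent.P159
end
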